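/-
Row 297 (spin-one Haldane gap), package A1: elementary inequalities for finite nonnegative lists.
* `two_mul_sq_sub_le`   : 2 ((∑ x²)² - ∑ x⁴) ≤ ((∑ x)² - ∑ x²)²   ("squaring a probability vector")
* `sum_sq_le_sq_sum'`   : ∑ x² ≤ (∑ x)²
* `pow_sum_pow_le`      : (∑ x^L)^n ≤ (∑ x^n)^L  for 1 ≤ n ≤ L      (monotonicity of ℓ^p norms)
-/
import Mathlib

namespace Claimed.Agent.R297

open Finset

variable {ι : Type*}

theorem sum_sq_le_sq_sum' (s : Finset ι) (x : ι → ℝ) (hx : ∀ i ∈ s, 0 ≤ x i) :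
    ∑ i ∈ s, x i ^ 2 ≤ (∑ i ∈ s, x i) ^ 2 :=
  Finset.sum_sq_le_sq_sum_of_nonneg hx

/-- Homogeneous form of the purity-squaring lemma. -/
theorem two_mul_sq_sub_le (s : Finset ι) (x : ι → ℝ) (hx : ∀ i ∈ s, 0 ≤ x i) :
    2 * ((∑ i ∈ s, x i ^ 2) ^ 2 - ∑ i ∈ s, x i ^ 4) ≤
      ((∑ i ∈ s, x i) ^ 2 - ∑ i ∈ s, x i ^ 2) ^ 2 := by
  classical
  set s1 := ∑ i ∈ s, x i with hs1
  set s2 := ∑ i ∈ s, x i ^ 2 with hs2
  -- y i = x i * (s1 - x i)
  set y : ι → ℝ := fun i => x i * (s1 - x i) with hy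
  have hrest : ∀ i ∈ s, s1 - x i = ∑ k ∈ s.erase i, x k := by
    intro i hi
    rw [hs1, ← Finset.add_sum_erase s x hi]; ring
  have hrest2 : ∀ i ∈ s, s2 - x i ^ 2 = ∑ k ∈ s.erase i, x k ^ 2 := by
    intro i hi
    rw [hs2, ← Finset.add_sum_erase s (fun k => x k ^ 2) hi]; ring
  have hrest_nonneg : ∀ i ∈ s, 0 ≤ s1 - x i := by
    intro i hi
    rw [hrest i hi]
    exact Finset.sum_nonneg fun k hk => hx k (Finset.mem_of_mem_erase hk)
  have hy_nonneg : ∀ i ∈ s, 0 ≤ y i := fun i hi => mul_nonneg (hx i hi) (hrest_nonneg i hi)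
  have hY : ∑ i ∈ s, y i = s1 ^ 2 - s2 := by
    simp only [hy, mul_sub, Finset.sum_sub_distrib, ← Finset.sum_mul]
    rw [hs2]
    have : ∑ i ∈ s, x i * x i = ∑ i ∈ s, x i ^ 2 := Finset.sum_congr rfl fun i _ => by ring
    rw [this]; ring
  -- each y i is at most half of the total
  have hhalf : ∀ i ∈ s, 2 * y i ≤ ∑ k ∈ s, y k := by
    intro i hi
    rw [← Finset.add_sum_erase s y hi]
    have h1 : y i ≤ ∑ k ∈ s.erase i, y k := by
      have : y i = ∑ k ∈ s.erase i, x k * x i := by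
        simp only [hy]
        rw [hrest i hi, Finset.mul_sum]
        exact Finset.sum_congr rfl fun k _ => by ring
      rw [this]
      refine Finset.sum_le_sum fun k hk => ?_
      have hks : k ∈ s := Finset.mem_of_mem_erase hk
      have hki : k ≠ i := Finset.ne_of_mem_erase hk
      have : x i ≤ s1 - x k := by
        rw [hrest k hks]
        exact Finset.single_le_sum (f := x)
          (fun j hj => hx j (Finset.mem_of_mem_erase hj)) (Finset.mem_erase.2 ⟨hki.symm, hi⟩)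
      exact mul_le_mul_of_nonneg_left this (hx k hks)
    linarith
  -- sum of squares of y
  have hysq : 2 * ∑ i ∈ s, y i ^ 2 ≤ (∑ i ∈ s, y i) ^ 2 := by
    have : ∑ i ∈ s, 2 * y i ^ 2 ≤ ∑ i ∈ s, (∑ k ∈ s, y k) * y i := by
      refine Finset.sum_le_sum fun i hi => ?_
      have := mul_le_mul_of_nonneg_right (hhalf i hi) (hy_nonneg i hi)
      nlinarith
    rw [← Finset.mul_sum, ← Finset.mul_sum] at this
    nlinarith
  -- compare with x
  have hcmp : s2 ^ 2 - ∑ i ∈ s, x i ^ 4 ≤ ∑ i ∈ s, y i ^ 2 := by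
    have h1 : s2 ^ 2 - ∑ i ∈ s, x i ^ 4 = ∑ i ∈ s, x i ^ 2 * (s2 - x i ^ 2) := by
      simp only [mul_sub, Finset.sum_sub_distrib, ← Finset.sum_mul]
      have : ∑ i ∈ s, x i ^ 2 * x i ^ 2 = ∑ i ∈ s, x i ^ 4 :=
        Finset.sum_congr rfl fun i _ => by ring
      rw [this, ← hs2]; ring
    rw [h1]
    refine Finset.sum_le_sum fun i hi => ?_
    have h2 : s2 - x i ^ 2 ≤ (s1 - x i) ^ 2 := by
      rw [hrest i hi, hrest2 i hi]
      exact Finset.sum_sq_le_sq_sum_of_nonneg fun k hk => hx k (Finset.mem_of_mem_erase hk)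
    have := mul_le_mul_of_nonneg_left h2 (sq_nonneg (x i))
    simp only [hy]
    nlinarith
  rw [← hY]
  linarith

/-- Monotonicity of `ℓ^p` norms, in natural-power form. -/
theorem pow_sum_pow_le (s : Finset ι) (x : ι → ℝ) (hx : ∀ i ∈ s, 0 ≤ x i) {n L : ℕ}
    (hn : 1 ≤ n) (hnL : n ≤ L) :
    (∑ i ∈ s, x i ^ L) ^ n ≤ (∑ i ∈ s, x i ^ n) ^ L := by
  classical
  rcases s.eq_empty_or_nonempty with rfl | hne
  · simp [show n ≠ 0 by omega, show L ≠ 0 by omega]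
  obtain ⟨m, hm, hmax⟩ := Finset.exists_max_image s x hne
  set A := ∑ i ∈ s, x i ^ n with hA
  have hA0 : 0 ≤ A := Finset.sum_nonneg fun i hi => pow_nonneg (hx i hi) _
  have hmA : x m ^ n ≤ A :=
    Finset.single_le_sum (f := fun i => x i ^ n) (fun i hi => pow_nonneg (hx i hi) _) hm
  have h1 : ∑ i ∈ s, x i ^ L ≤ x m ^ (L - n) * A := by
    rw [hA, Finset.mul_sum]
    refine Finset.sum_le_sum fun i hi => ?_
    have : x i ^ L = x i ^ (L - n) * x i ^ n := by rw [← pow_add]; congr 1; omega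
    rw [this]
    exact mul_le_mul_of_nonneg_right (pow_le_pow_left₀ (hx i hi) (hmax i hi) _)
      (pow_nonneg (hx i hi) _)
  have h0 : 0 ≤ ∑ i ∈ s, x i ^ L := Finset.sum_nonneg fun i hi => pow_nonneg (hx i hi) _
  calc (∑ i ∈ s, x i ^ L) ^ n ≤ (x m ^ (L - n) * A) ^ n := pow_le_pow_left₀ h0 h1 n
    _ = (x m ^ n) ^ (L - n) * A ^ n := by rw [mul_pow, ← pow_mul, ← pow_mul, mul_comm (L - n) n]
    _ ≤ A ^ (L - n) * A ^ n :=
        mul_le_mul_of_nonneg_right (pow_le_pow_left₀ (pow_nonneg (hx m hm) _) hmA _)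
          (pow_nonneg hA0 _)
    _ = A ^ L := by rw [← pow_add]; congr 1; omega

end Claimed.Agent.R297
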