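/-
Row 297 (spin-one Haldane gap), package A2: the abstract purity bootstrap
(Section "From two purities to a uniform gap" of the periodic paper), stated for a function
`Z : ℕ → ℝ → ℝ` that satisfies the closed polynomial inequalities `TwoRep`.
All of them pass to limits, so they can be proved for a discretised transfer matrix first.
-/
import Claimed.Agent.R297.Purity

namespace Claimed.Agent.R297

/-- The inequalities that follow from the two representations of the partition function: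
`Z n b = ∑ₖ exp (-b εₖ(n))` (physical) and `Z n b = ∑ᵢ |λᵢ(b)|^n` (spatial, `n` even). -/
structure TwoRep (Z : ℕ → ℝ → ℝ) : Prop where
  pos : ∀ n b, Even n → 4 ≤ n → 0 < b → 0 < Z n b
  spat_le : ∀ n b, Even n → 4 ≤ n → 0 < b → Z (2 * n) b ≤ Z n b ^ 2
  phys_le : ∀ n b, Even n → 4 ≤ n → 0 < b → Z n (2 * b) ≤ Z n b ^ 2
  spat_sq : ∀ n b, Even n → 4 ≤ n → 0 < b →
    2 * (Z (2 * n) b ^ 2 - Z (2 * (2 * n)) b) ≤ (Z n b ^ 2 - Z (2 * n) b) ^ 2
  phys_sq : ∀ n b, Even n → 4 ≤ n → 0 < b →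
    2 * (Z n (2 * b) ^ 2 - Z n (2 * (2 * b))) ≤ (Z n b ^ 2 - Z n (2 * b)) ^ 2
  mono : ∀ n L b, Even n → 4 ≤ n → Even L → n ≤ L → 0 < b → Z L b ^ n ≤ Z n b ^ L

/-- spatial purity `S(n,b) = Z_{2n}(b) / Z_n(b)^2`. -/
noncomputable def spur (Z : ℕ → ℝ → ℝ) (n : ℕ) (b : ℝ) : ℝ := Z (2 * n) b / Z n b ^ 2

/-- physical purity `T(n,b) = Z_n(2b) / Z_n(b)^2`. -/
noncomputable def ppur (Z : ℕ → ℝ → ℝ) (n : ℕ) (b : ℝ) : ℝ := Z n (2 * b) / Z n b ^ 2

/-- lower bound for the purity of the normalised squares of a distribution of purity `s`. -/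
noncomputable def gimp (s : ℝ) : ℝ := 1 - (1 - s) ^ 2 / (2 * s ^ 2)

theorem gimp_mono {s s' : ℝ} (hs : 0 < s) (hss : s ≤ s') (hs' : s' ≤ 1) : gimp s ≤ gimp s' := by
  unfold gimp
  have hs'0 : 0 < s' := lt_of_lt_of_le hs hss
  have h : (1 - s') ^ 2 / (2 * s' ^ 2) ≤ (1 - s) ^ 2 / (2 * s ^ 2) := by
    rw [div_le_div_iff₀ (by positivity) (by positivity)]
    have h1 : (1 - s') * s ≤ (1 - s) * s' := by nlinarith
    have h2 : 0 ≤ (1 - s') * s := mul_nonneg (by linarith) hs.le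
    have h3 : ((1 - s') * s) ^ 2 ≤ ((1 - s) * s') ^ 2 := pow_le_pow_left₀ h2 h1 2
    nlinarith
  linarith

theorem gimp_le_one (s : ℝ) : gimp s ≤ 1 := by
  unfold gimp
  have : 0 ≤ (1 - s) ^ 2 / (2 * s ^ 2) := by positivity
  linarith

namespace TwoRep

variable {Z : ℕ → ℝ → ℝ} (hZ : TwoRep Z)
include hZ

theorem spur_pos {n : ℕ} {b : ℝ} (hn : Even n) (h4 : 4 ≤ n) (hb : 0 < b) : 0 < spur Z n b := by
  unfold spur
  have h1 := hZ.pos n b hn h4 hb
  have h2 := hZ.pos (2 * n) b (by simp) (by omega) hb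
  positivity

theorem ppur_pos {n : ℕ} {b : ℝ} (hn : Even n) (h4 : 4 ≤ n) (hb : 0 < b) : 0 < ppur Z n b := by
  unfold ppur
  have h1 := hZ.pos n b hn h4 hb
  have h2 := hZ.pos n (2 * b) hn h4 (by positivity)
  positivity

theorem spur_le_one {n : ℕ} {b : ℝ} (hn : Even n) (h4 : 4 ≤ n) (hb : 0 < b) : spur Z n b ≤ 1 := by
  unfold spur
  have h1 := hZ.pos n b hn h4 hb
  rw [div_le_one (by positivity)]
  exact hZ.spat_le n b hn h4 hb

theorem ppur_le_one {n : ℕ} {b : ℝ} (hn : Even n) (h4 : 4 ≤ n) (hb : 0 < b) : ppur Z n b ≤ 1 := by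
  unfold ppur
  have h1 := hZ.pos n b hn h4 hb
  rw [div_le_one (by positivity)]
  exact hZ.phys_le n b hn h4 hb

/-- spatial squaring: doubling the length improves the spatial purity. -/
theorem gimp_spur_le {n : ℕ} {b : ℝ} (hn : Even n) (h4 : 4 ≤ n) (hb : 0 < b) :
    gimp (spur Z n b) ≤ spur Z (2 * n) b := by
  unfold gimp spur
  have hA := hZ.pos n b hn h4 hb
  have hB := hZ.pos (2 * n) b (by simp) (by omega) hb
  have h := hZ.spat_sq n b hn h4 hb
  set A := Z n b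
  set B := Z (2 * n) b
  set C := Z (2 * (2 * n)) b
  have e1 : (1 - B / A ^ 2) ^ 2 / (2 * (B / A ^ 2) ^ 2) = (A ^ 2 - B) ^ 2 / (2 * B ^ 2) := by
    field_simp
  rw [e1, sub_le_iff_le_add, ← sub_le_iff_le_add', le_div_iff₀ (by positivity)]
  have e2 : (1 - C / B ^ 2) * (2 * B ^ 2) = 2 * (B ^ 2 - C) := by field_simp
  rw [e2]; exact h

/-- temporal squaring: doubling the inverse temperature improves the physical purity. -/
theorem gimp_ppur_le {n : ℕ} {b : ℝ} (hn : Even n) (h4 : 4 ≤ n) (hb : 0 < b) :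
    gimp (ppur Z n b) ≤ ppur Z n (2 * b) := by
  unfold gimp ppur
  have hA := hZ.pos n b hn h4 hb
  have hB := hZ.pos n (2 * b) hn h4 (by positivity)
  have h := hZ.phys_sq n b hn h4 hb
  set A := Z n b
  set B := Z n (2 * b)
  set C := Z n (2 * (2 * b))
  have e1 : (1 - B / A ^ 2) ^ 2 / (2 * (B / A ^ 2) ^ 2) = (A ^ 2 - B) ^ 2 / (2 * B ^ 2) := by
    field_simp
  rw [e1, sub_le_iff_le_add, ← sub_le_iff_le_add', le_div_iff₀ (by positivity)]
  have e2 : (1 - C / B ^ 2) * (2 * B ^ 2) = 2 * (B ^ 2 - C) := by field_simp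
  rw [e2]; exact h

/-- `S(n,2b) ≥ S(n,b)² T(2n,b)`. -/
theorem spur_two_mul_ge {n : ℕ} {b : ℝ} (hn : Even n) (h4 : 4 ≤ n) (hb : 0 < b) :
    spur Z n b ^ 2 * ppur Z (2 * n) b ≤ spur Z n (2 * b) := by
  unfold spur ppur
  have hA := hZ.pos n b hn h4 hb
  have hB := hZ.pos (2 * n) b (by simp) (by omega) hb
  have hA2 := hZ.pos n (2 * b) hn h4 (by positivity)
  have hB2 := hZ.pos (2 * n) (2 * b) (by simp) (by omega) (by positivity)
  have h := hZ.phys_le n b hn h4 hb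
  set A := Z n b
  set B := Z (2 * n) b
  set A2 := Z n (2 * b)
  set B2 := Z (2 * n) (2 * b)
  have e : (B / A ^ 2) ^ 2 * (B2 / B ^ 2) = B2 / (A ^ 2) ^ 2 := by field_simp
  rw [e]
  exact div_le_div_of_nonneg_left hB2.le (by positivity) (pow_le_pow_left₀ hA2.le h 2)

/-- `T(4n,b) ≥ T(2n,b)² S(2n,2b)`. -/
theorem ppur_four_mul_ge {n : ℕ} {b : ℝ} (hn : Even n) (h4 : 4 ≤ n) (hb : 0 < b) :
    ppur Z (2 * n) b ^ 2 * spur Z (2 * n) (2 * b) ≤ ppur Z (2 * (2 * n)) b := by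
  unfold spur ppur
  have hB := hZ.pos (2 * n) b (by simp) (by omega) hb
  have hC := hZ.pos (2 * (2 * n)) b (by simp) (by omega) hb
  have hB2 := hZ.pos (2 * n) (2 * b) (by simp) (by omega) (by positivity)
  have hC2 := hZ.pos (2 * (2 * n)) (2 * b) (by simp) (by omega) (by positivity)
  have h := hZ.spat_le (2 * n) b (by simp) (by omega) hb
  set B := Z (2 * n) b
  set C := Z (2 * (2 * n)) b
  set B2 := Z (2 * n) (2 * b)
  set C2 := Z (2 * (2 * n)) (2 * b)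
  have e : (B2 / B ^ 2) ^ 2 * (C2 / B2 ^ 2) = C2 / (B ^ 2) ^ 2 := by field_simp
  rw [e]
  exact div_le_div_of_nonneg_left hC2.le (by positivity) (pow_le_pow_left₀ hC.le h 2)

/-- The coupled update (Lemma "Coupled update"), in terms of lower bounds for the purities. -/
theorem update {n : ℕ} {b s t s' t' : ℝ} (hn : Even n) (h4 : 4 ≤ n) (hb : 0 < b)
    (hs0 : 0 < s) (ht0 : 0 < t) (hs : s ≤ spur Z n b) (ht : t ≤ ppur Z (2 * n) b)
    (hs'0 : 0 < s') (hs' : s' ≤ gimp (s ^ 2 * t)) (ht' : t' ≤ gimp (t ^ 2 * s')) :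
    s' ≤ spur Z (2 * n) (2 * b) ∧ t' ≤ ppur Z (2 * (2 * n)) (2 * b) := by
  have hb2 : 0 < 2 * b := by positivity
  have h2n : Even (2 * n) := by simp
  have h42n : 4 ≤ 2 * n := by omega
  have h1 : s ^ 2 * t ≤ spur Z n (2 * b) :=
    le_trans (mul_le_mul (pow_le_pow_left₀ hs0.le hs 2) ht ht0.le (by positivity))
      (hZ.spur_two_mul_ge hn h4 hb)
  have h2 : s' ≤ spur Z (2 * n) (2 * b) :=
    le_trans hs' (le_trans (gimp_mono (by positivity) h1 (hZ.spur_le_one hn h4 hb2))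
      (hZ.gimp_spur_le hn h4 hb2))
  refine ⟨h2, ?_⟩
  have h3 : t ^ 2 * s' ≤ ppur Z (2 * (2 * n)) b :=
    le_trans (mul_le_mul (pow_le_pow_left₀ ht0.le ht 2) h2 hs'0.le (by positivity))
      (hZ.ppur_four_mul_ge hn h4 hb)
  exact le_trans ht' (le_trans (gimp_mono (by positivity) h3
    (hZ.ppur_le_one (by simp) (by omega) hb)) (hZ.gimp_ppur_le (by simp) (by omega) hb))

/-- Interpolation to intermediate even lengths: `T(L,b) ≥ T(2n,b) S(n,b)²` for `n ≤ L ≤ 2n`. -/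
theorem ppur_interp {n L : ℕ} {b : ℝ} (hn : Even n) (h4 : 4 ≤ n) (hL : Even L) (hnL : n ≤ L)
    (hL2 : L ≤ 2 * n) (hb : 0 < b) :
    ppur Z (2 * n) b * spur Z n b ^ 2 ≤ ppur Z L b := by
  have hb2 : 0 < 2 * b := by positivity
  have hA := hZ.pos n b hn h4 hb
  have hB := hZ.pos (2 * n) b (by simp) (by omega) hb
  have hB2 := hZ.pos (2 * n) (2 * b) (by simp) (by omega) hb2
  have hLb := hZ.pos L b hL (by omega) hb
  have hLb2 := hZ.pos L (2 * b) hL (by omega) hb2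
  have m1 := hZ.mono n L b hn h4 hL hnL hb            -- Z L b ^ n ≤ Z n b ^ L
  have m2 := hZ.mono L (2 * n) (2 * b) hL (by omega) (by simp) hL2 hb2
  -- Z (2n) (2b) ^ L ≤ Z L (2b) ^ (2n)
  have hle1 : ppur Z (2 * n) b * spur Z n b ^ 2 ≤ 1 := by
    have a1 := hZ.ppur_le_one (n := 2 * n) (b := b) (by simp) (by omega) hb
    have a2 := hZ.spur_le_one hn h4 hb
    have a3 := hZ.ppur_pos (n := 2 * n) (b := b) (by simp) (by omega) hb
    have a4 := hZ.spur_pos hn h4 hb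
    have : spur Z n b ^ 2 ≤ 1 := pow_le_one₀ a4.le a2
    nlinarith [mul_le_mul a1 this (by positivity) (by norm_num : (0:ℝ) ≤ 1)]
  have hpos : 0 < ppur Z (2 * n) b * spur Z n b ^ 2 := by
    have a3 := hZ.ppur_pos (n := 2 * n) (b := b) (by simp) (by omega) hb
    have a4 := hZ.spur_pos hn h4 hb
    positivity
  have heq : ppur Z (2 * n) b * spur Z n b ^ 2 = Z (2 * n) (2 * b) / (Z n b) ^ 4 := by
    unfold ppur spur; field_simp
  -- compare (2n)-th powers
  have key : (ppur Z (2 * n) b * spur Z n b ^ 2) ^ (2 * n) ≤ ppur Z L b ^ (2 * n) := by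
    calc (ppur Z (2 * n) b * spur Z n b ^ 2) ^ (2 * n)
        ≤ (ppur Z (2 * n) b * spur Z n b ^ 2) ^ L := pow_le_pow_of_le_one hpos.le hle1 hL2
      _ = Z (2 * n) (2 * b) ^ L / (Z n b ^ L) ^ 4 := by
          rw [heq, div_pow, ← pow_mul, ← pow_mul, mul_comm 4 L]
      _ ≤ Z L (2 * b) ^ (2 * n) / (Z L b ^ n) ^ 4 := by
          apply div_le_div₀ (by positivity) m2 (by positivity)
          exact pow_le_pow_left₀ (by positivity) m1 4
      _ = ppur Z L b ^ (2 * n) := by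
          unfold ppur
          rw [div_pow, ← pow_mul, ← pow_mul]
          congr 2; ring
  exact le_of_pow_le_pow_left₀ (by omega) (hZ.ppur_pos hL (by omega) hb).le key

end TwoRep

end Claimed.Agent.R297
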