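/-
Row 297 (spin-one Haldane gap), package B.
* `exists_dominant_of_purity` : a finite Gibbs distribution of purity `≥ 1 - v`, `v < 1/2`, has a
  unique dominant weight, and every other Boltzmann ratio is `≤ v / (1 - v)`.
* `rawGap_of_eigenvalues`     : a Hermitian matrix whose eigenvalue list has a strict gap `c` above
  the entry `k₀` satisfies the (unfolded) predicate `UniqueGroundStateGapGT`.
* `gapGT_C0475`, `gapGT_C0476`: the same for the two frozen copies of the predicate.
-/
import Mathlib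
import Claimed.Prelude.Def_0475
import Claimed.Prelude.Def_0476

namespace Claimed.Agent.R297

open Matrix Finset

/-- Gibbs weights of purity close to one: there is a dominant index. -/
theorem exists_dominant_of_purity {ι : Type*} [Fintype ι] [Nonempty ι] (e : ι → ℝ) (b v : ℝ)
    (hv : v < 1 / 2)
    (hP : (1 - v) * (∑ k, Real.exp (-b * e k)) ^ 2 ≤ ∑ k, Real.exp (-(2 * b) * e k)) :
    ∃ k₀ : ι, ∀ k, k ≠ k₀ → Real.exp (-b * (e k - e k₀)) ≤ v / (1 - v) := by
  classical
  set x : ι → ℝ := fun k => Real.exp (-b * e k) with hx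
  have hxpos : ∀ k, 0 < x k := fun k => Real.exp_pos _
  have hsq : ∀ k, Real.exp (-(2 * b) * e k) = x k ^ 2 := by
    intro k
    simp only [hx]
    rw [← Real.exp_nat_mul]
    congr 1; push_cast; ring
  simp only [hsq] at hP
  obtain ⟨k₀, -, hmax⟩ := Finset.exists_max_image (Finset.univ : Finset ι) x Finset.univ_nonempty
  set Zs := ∑ k, x k with hZs
  have hZpos : 0 < Zs := Finset.sum_pos (fun k _ => hxpos k) Finset.univ_nonempty
  -- purity is at most the largest weight
  have h1 : ∑ k, x k ^ 2 ≤ x k₀ * Zs := by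
    rw [hZs, Finset.mul_sum]
    refine Finset.sum_le_sum fun k _ => ?_
    have := hmax k (Finset.mem_univ k)
    nlinarith [hxpos k]
  have h2 : (1 - v) * Zs ≤ x k₀ := by
    have : (1 - v) * Zs * Zs ≤ x k₀ * Zs := by nlinarith
    exact le_of_mul_le_mul_right this hZpos
  refine ⟨k₀, fun k hk => ?_⟩
  have h3 : x k + x k₀ ≤ Zs := by
    rw [hZs, ← Finset.add_sum_erase _ x (Finset.mem_univ k₀)]
    have : x k ≤ ∑ j ∈ Finset.univ.erase k₀, x j :=
      Finset.single_le_sum (f := x) (fun j _ => (hxpos j).le)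
        (Finset.mem_erase.2 ⟨hk, Finset.mem_univ k⟩)
    linarith
  have hratio : Real.exp (-b * (e k - e k₀)) = x k / x k₀ := by
    simp only [hx]
    rw [← Real.exp_sub]; congr 1; ring
  rw [hratio, div_le_div_iff₀ (hxpos k₀) (by linarith)]
  -- x k (1 - v) ≤ v x k₀
  have h4 : x k ≤ Zs - x k₀ := by linarith
  have h5 : (1 - v) * (Zs - x k₀) ≤ v * x k₀ := by nlinarith
  have h6 : (0:ℝ) < 1 - v := by linarith
  nlinarith

/-- The unfolded form of `UniqueGroundStateGapGT`. -/
def RawGapGT {n : Type} [Fintype n] (H : Matrix n n ℂ) (c : ℝ) : Prop :=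
  ∃ E₀ : ℝ, ∃ Ω : n → ℂ, Ω ≠ 0 ∧ H *ᵥ Ω = (E₀ : ℂ) • Ω ∧
    ∀ v : n → ℂ, v ≠ 0 → star v ⬝ᵥ Ω = 0 →
      (E₀ + c) * (star v ⬝ᵥ v).re < (star v ⬝ᵥ (H *ᵥ v)).re

theorem rawGap_of_eigenvalues {n : Type} [Fintype n] [DecidableEq n] (H : Matrix n n ℂ)
    (hH : H.IsHermitian) (c : ℝ) (k₀ : n)
    (hgap : ∀ k, k ≠ k₀ → hH.eigenvalues k₀ + c < hH.eigenvalues k) : RawGapGT H c := by
  set U : Matrix n n ℂ := (hH.eigenvectorUnitary : Matrix n n ℂ) with hU
  set ev := hH.eigenvalues with hev
  set D : Matrix n n ℂ := diagonal (fun k => ((ev k : ℝ) : ℂ)) with hD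
  have hUU : star U * U = 1 := Unitary.coe_star_mul_self hH.eigenvectorUnitary
  have hUU' : U * star U = 1 := Unitary.coe_mul_star_self hH.eigenvectorUnitary
  have hspec : H = U * D * star U := by
    have := hH.spectral_theorem
    rw [Unitary.conjStarAlgAut_apply] at this
    exact this
  set Ω : n → ℂ := (hH.eigenvectorBasis k₀).ofLp with hΩ
  have hΩU : star U *ᵥ Ω = Pi.single k₀ 1 := hH.star_eigenvectorUnitary_mulVec k₀
  refine ⟨ev k₀, Ω, ?_, ?_, ?_⟩
  · intro h0
    rw [h0] at hΩU
    have := congrFun hΩU k₀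
    simp at this
  · have := hH.mulVec_eigenvectorBasis k₀
    rw [this]
    ext i
    simp [hev, hΩ]
  · intro v hv hvΩ
    set y : n → ℂ := star U *ᵥ v with hy
    have hvy : v = U *ᵥ y := by
      rw [hy, mulVec_mulVec, hUU', one_mulVec]
    have hstar : star v = star y ᵥ* star U := by
      rw [hvy, star_mulVec]; rfl
    have hy0 : y ≠ 0 := by
      intro h0
      apply hv
      rw [hvy, h0, mulVec_zero]
    -- the two quadratic forms
    have e1 : star v ⬝ᵥ v = star y ⬝ᵥ y := by
      rw [hstar]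
      conv_lhs => rw [hvy]
      rw [← dotProduct_mulVec, mulVec_mulVec, hUU, one_mulVec]
    have e2 : star v ⬝ᵥ (H *ᵥ v) = star y ⬝ᵥ (D *ᵥ y) := by
      rw [hstar, ← dotProduct_mulVec, mulVec_mulVec, hspec]
      have : star U * (U * D * star U) = D * star U := by
        rw [← mul_assoc, ← mul_assoc, hUU, one_mul]
      rw [this, ← mulVec_mulVec]
    -- the `k₀` component of `y` vanishes
    have hyk : y k₀ = 0 := by
      have h1 : star v ⬝ᵥ Ω = star y ⬝ᵥ (star U *ᵥ Ω) := by
        rw [hstar, ← dotProduct_mulVec]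
      rw [hΩU] at h1
      rw [hvΩ] at h1
      have h2 : star (y k₀) = 0 := by
        simpa using h1.symm
      simpa using h2
    have r1 : (star y ⬝ᵥ y).re = ∑ k, ‖y k‖ ^ 2 := by
      simp only [dotProduct, Pi.star_apply, Complex.re_sum]
      refine Finset.sum_congr rfl fun k _ => ?_
      rw [Complex.star_def, ← Complex.normSq_eq_conj_mul_self, Complex.ofReal_re,
        Complex.normSq_eq_norm_sq]
    have r2 : (star y ⬝ᵥ (D *ᵥ y)).re = ∑ k, ev k * ‖y k‖ ^ 2 := by
      simp only [dotProduct, Pi.star_apply, Complex.re_sum, hD, mulVec_diagonal]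
      refine Finset.sum_congr rfl fun k _ => ?_
      have : star (y k) * (((ev k : ℝ) : ℂ) * y k) = ((ev k : ℝ) : ℂ) * (star (y k) * y k) := by ring
      rw [this, Complex.star_def, ← Complex.normSq_eq_conj_mul_self, ← Complex.ofReal_mul,
        Complex.ofReal_re, Complex.normSq_eq_norm_sq]
    rw [e1, e2, r1, r2, Finset.mul_sum, ← sub_pos, ← Finset.sum_sub_distrib]
    apply Finset.sum_pos'
    · intro k _
      by_cases hk : k = k₀
      · subst hk; simp [hyk]
      · have := hgap k hk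
        have h2 : 0 ≤ ‖y k‖ ^ 2 := by positivity
        nlinarith
    · obtain ⟨k, hk⟩ := Function.ne_iff.mp hy0
      have hkk : k ≠ k₀ := by
        rintro rfl; exact hk hyk
      refine ⟨k, Finset.mem_univ k, ?_⟩
      have := hgap k hkk
      have h2 : 0 < ‖y k‖ ^ 2 := by
        have : 0 < ‖y k‖ := norm_pos_iff.2 hk
        positivity
      nlinarith

theorem gapGT_C0475 {n : Type} [Fintype n] {H : Matrix n n ℂ} {c : ℝ} (h : RawGapGT H c) :
    Claims.C0475.UniqueGroundStateGapGT H c := h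

theorem gapGT_C0476 {n : Type} [Fintype n] {H : Matrix n n ℂ} {c : ℝ} (h : RawGapGT H c) :
    Claims.C0476.UniqueGroundStateGapGT H c := h

end Claimed.Agent.R297
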