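/-
Row 297 (spin-one Haldane gap), package A3: Proposition "Uniform gap from two initial purities".
From `TwoRep Z` and two seeds `S(n₀,b₀), T(2n₀,b₀) ≥ 1-u₀` we get, for every even `L ≥ n₀`,
a dyadic level `j` with `T(L, 2^j b₀) ≥ 1 - 3 u_j`, `u_j = r^(2^j)/C`, and hence a spectral gap
`> log (1/r) / b₀` for any finite energy list that represents `Z L`.
-/
import Claimed.Agent.R297.Bootstrap
import Claimed.Agent.R297.GapOfPurity

namespace Claimed.Agent.R297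

/-- scalar hypotheses of the bootstrap (`G(u₀) ≤ C` is written without division). -/
structure BootScalars (u₀ C : ℝ) : Prop where
  u_pos : 0 < u₀
  u_lt : u₀ < 1 / 6
  G_le : (1 + (1 - u₀) + (1 - u₀) ^ 2) ^ 2 ≤ 2 * C * (1 - u₀) ^ 6
  r_lt : C * u₀ < 1
  C_gt : 3 < C * (1 - 3 * u₀)

namespace BootScalars

variable {u₀ C : ℝ} (h : BootScalars u₀ C)
include h

theorem C_pos : 0 < C := by
  have h1 := h.C_gt
  have h2 : 0 < 1 - 3 * u₀ := by linarith [h.u_lt]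
  by_contra hc
  push Not at hc
  nlinarith

/-- `1 - C u² ≤ gimp ((1-u)³)` for `0 ≤ u ≤ u₀`. -/
theorem gimp_cube_ge {u : ℝ} (hu : u ≤ u₀) :
    1 - C * u ^ 2 ≤ gimp ((1 - u) ^ 3) := by
  have hC := h.C_pos
  have hv0 : 0 < 1 - u₀ := by linarith [h.u_lt]
  have hv : 0 < 1 - u := by linarith
  set v := 1 - u with hvdef
  set v₀ := 1 - u₀ with hv0def
  have hvv : v₀ ≤ v := by simp only [hvdef, hv0def]; linarith
  -- monotonicity of (1+v+v²)/v³
  have hmono : (1 + v + v ^ 2) * v₀ ^ 3 ≤ (1 + v₀ + v₀ ^ 2) * v ^ 3 := by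
    have a1 : v₀ ^ 3 ≤ v ^ 3 := pow_le_pow_left₀ hv0.le hvv 3
    have a2 : v₀ ^ 2 ≤ v ^ 2 := pow_le_pow_left₀ hv0.le hvv 2
    have b2 : v * v₀ ^ 3 ≤ v₀ * v ^ 3 := by
      have : v * v₀ * v₀ ^ 2 ≤ v * v₀ * v ^ 2 := mul_le_mul_of_nonneg_left a2 (by positivity)
      nlinarith
    have b3 : v ^ 2 * v₀ ^ 3 ≤ v₀ ^ 2 * v ^ 3 := by
      have : v ^ 2 * v₀ ^ 2 * v₀ ≤ v ^ 2 * v₀ ^ 2 * v := mul_le_mul_of_nonneg_left hvv (by positivity)
      nlinarith
    nlinarith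
  have hsq : ((1 + v + v ^ 2) * v₀ ^ 3) ^ 2 ≤ ((1 + v₀ + v₀ ^ 2) * v ^ 3) ^ 2 :=
    pow_le_pow_left₀ (by positivity) hmono 2
  have hG : (1 + v + v ^ 2) ^ 2 ≤ 2 * C * v ^ 6 := by
    have h1 : (1 + v + v ^ 2) ^ 2 * v₀ ^ 6 ≤ 2 * C * v ^ 6 * v₀ ^ 6 := by
      have h2 := mul_le_mul_of_nonneg_right h.G_le (by positivity : 0 ≤ v ^ 6)
      nlinarith
    exact le_of_mul_le_mul_right h1 (by positivity)
  unfold gimp
  have hu' : 1 - v ^ 3 = u * (1 + v + v ^ 2) := by simp only [hvdef]; ring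
  have : (1 - v ^ 3) ^ 2 / (2 * (v ^ 3) ^ 2) ≤ C * u ^ 2 := by
    rw [div_le_iff₀ (by positivity), hu']
    have := mul_le_mul_of_nonneg_left hG (sq_nonneg u)
    nlinarith
  linarith

end BootScalars

/-- the defect sequence `u_j = r^(2^j) / C`, `r = C u₀`. -/
noncomputable def udef (u₀ C : ℝ) (j : ℕ) : ℝ := (C * u₀) ^ (2 ^ j) / C

namespace BootScalars

variable {u₀ C : ℝ} (h : BootScalars u₀ C)
include h

theorem udef_zero : udef u₀ C 0 = u₀ := by
  have := h.C_pos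
  unfold udef
  rw [pow_zero, pow_one]
  field_simp

theorem udef_succ (j : ℕ) : udef u₀ C (j + 1) = C * udef u₀ C j ^ 2 := by
  have := h.C_pos
  unfold udef
  rw [pow_succ 2 j, pow_mul]
  field_simp

theorem udef_pos (j : ℕ) : 0 < udef u₀ C j := by
  have h1 := h.C_pos
  have h2 := h.u_pos
  unfold udef; positivity

theorem udef_succ_le (j : ℕ) : udef u₀ C (j + 1) ≤ udef u₀ C j := by
  have h1 := h.C_pos
  have h2 := h.u_pos
  unfold udef
  apply div_le_div_of_nonneg_right _ h1.le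
  apply pow_le_pow_of_le_one (by positivity) h.r_lt.le
  exact Nat.pow_le_pow_right (by norm_num) (Nat.le_succ j)

theorem udef_le (j : ℕ) : udef u₀ C j ≤ u₀ := by
  induction j with
  | zero => exact h.udef_zero.le
  | succ j ih => exact le_trans (h.udef_succ_le j) ih

end BootScalars

namespace TwoRep

variable {Z : ℕ → ℝ → ℝ} (hZ : TwoRep Z)
include hZ

/-- dyadic purities (equation `dyadic-purities`). -/
theorem dyadic {u₀ C : ℝ} (h : BootScalars u₀ C) {n₀ : ℕ} {b₀ : ℝ} (hn : Even n₀) (h4 : 4 ≤ n₀)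
    (hb : 0 < b₀) (hS : 1 - u₀ ≤ spur Z n₀ b₀) (hT : 1 - u₀ ≤ ppur Z (2 * n₀) b₀) (j : ℕ) :
    1 - udef u₀ C j ≤ spur Z (2 ^ j * n₀) (2 ^ j * b₀) ∧
      1 - udef u₀ C j ≤ ppur Z (2 * (2 ^ j * n₀)) (2 ^ j * b₀) := by
  induction j with
  | zero =>
    rw [h.udef_zero, pow_zero, pow_zero, one_mul, one_mul]
    exact ⟨hS, hT⟩
  | succ j ih =>
    obtain ⟨ihS, ihT⟩ := ih
    have hu0 := h.udef_pos j
    have hu1 := h.udef_le j
    have hu2 := h.udef_pos (j + 1)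
    have hu3 := h.udef_succ_le j
    have hlt := h.u_lt
    set u := udef u₀ C j with hu
    set u' := udef u₀ C (j + 1) with hu'
    have hev : Even (2 ^ j * n₀) := hn.mul_left _
    have h4' : 4 ≤ 2 ^ j * n₀ := le_trans h4 (Nat.le_mul_of_pos_left _ (by positivity))
    have hb' : 0 < 2 ^ j * b₀ := by positivity
    have hcube := h.gimp_cube_ge hu1
    have e1 : 1 - u' ≤ gimp ((1 - u) ^ 2 * (1 - u)) := by
      have : (1 - u) ^ 2 * (1 - u) = (1 - u) ^ 3 := by ring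
      rw [this, hu', h.udef_succ j]; exact hcube
    have e2 : 1 - u' ≤ gimp ((1 - u) ^ 2 * (1 - u')) := by
      refine le_trans e1 (gimp_mono (by have : 0 < 1 - u := by linarith
                                        positivity) ?_ ?_)
      · apply mul_le_mul_of_nonneg_left (by linarith) (by positivity)
      · have a1 : (1 - u) ^ 2 ≤ 1 := pow_le_one₀ (by linarith) (by linarith)
        have a2 : 1 - u' ≤ 1 := by linarith
        have a3 : 0 ≤ 1 - u' := by linarith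
        nlinarith
    have key := hZ.update hev h4' hb' (s := 1 - u) (t := 1 - u) (s' := 1 - u') (t' := 1 - u')
      (by linarith) (by linarith) ihS ihT (by linarith) e1 e2
    have en : 2 ^ (j + 1) * n₀ = 2 * (2 ^ j * n₀) := by ring
    have eb : (2:ℝ) ^ (j + 1) * b₀ = 2 * (2 ^ j * b₀) := by ring
    rw [en, eb]
    exact key

/-- Every even `L ≥ n₀` has physical purity `≥ 1 - 3 u_j` at some dyadic temperature. -/
theorem ppur_ge_of_seeds {u₀ C : ℝ} (h : BootScalars u₀ C) {n₀ : ℕ} {b₀ : ℝ} (hn : Even n₀)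
    (h4 : 4 ≤ n₀) (hb : 0 < b₀) (hS : 1 - u₀ ≤ spur Z n₀ b₀) (hT : 1 - u₀ ≤ ppur Z (2 * n₀) b₀)
    {L : ℕ} (hL : Even L) (hnL : n₀ ≤ L) :
    ∃ j : ℕ, 1 - 3 * udef u₀ C j ≤ ppur Z L (2 ^ j * b₀) := by
  have hn0 : 0 < n₀ := by omega
  set j := Nat.log 2 (L / n₀) with hj
  have hdiv : L / n₀ ≠ 0 := by
    have : 1 ≤ L / n₀ := (Nat.le_div_iff_mul_le hn0).2 (by simpa using hnL)
    omega
  have h1 : 2 ^ j * n₀ ≤ L := by
    have := Nat.pow_log_le_self 2 hdiv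
    exact (Nat.le_div_iff_mul_le hn0).1 this
  have h2 : L ≤ 2 * (2 ^ j * n₀) := by
    have := Nat.lt_pow_succ_log_self (by norm_num : 1 < 2) (L / n₀)
    have h3 : L < 2 ^ (j + 1) * n₀ := (Nat.div_lt_iff_lt_mul hn0).1 this
    have : 2 ^ (j + 1) * n₀ = 2 * (2 ^ j * n₀) := by ring
    omega
  refine ⟨j, ?_⟩
  obtain ⟨dS, dT⟩ := hZ.dyadic h hn h4 hb hS hT j
  have hev : Even (2 ^ j * n₀) := hn.mul_left _
  have h4' : 4 ≤ 2 ^ j * n₀ := le_trans h4 (Nat.le_mul_of_pos_left _ (by positivity))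
  have hb' : 0 < 2 ^ j * b₀ := by positivity
  have hint := hZ.ppur_interp hev h4' hL h1 h2 hb'
  have hu0 := h.udef_pos j
  have hu1 := h.udef_le j
  have hlt := h.u_lt
  set u := udef u₀ C j
  have hu : 0 < 1 - u := by linarith
  have : (1 - u) * (1 - u) ^ 2 ≤ ppur Z (2 * (2 ^ j * n₀)) (2 ^ j * b₀) *
      spur Z (2 ^ j * n₀) (2 ^ j * b₀) ^ 2 :=
    mul_le_mul dT (pow_le_pow_left₀ hu.le dS 2) (by positivity) (le_trans hu.le dT)
  have hb3 : 1 - 3 * u ≤ (1 - u) * (1 - u) ^ 2 := by nlinarith [sq_nonneg u]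
  linarith

/-- **Uniform gap from two initial purities.**  If `Z L` is the partition function of the finite
energy list `e` (any common shift `a` allowed), the list has a unique minimum with gap
`> log (1/r) / b₀`, `r = C u₀`. -/
theorem gap_of_seeds {u₀ C : ℝ} (h : BootScalars u₀ C) {n₀ : ℕ} {b₀ : ℝ} (hn : Even n₀)
    (h4 : 4 ≤ n₀) (hb : 0 < b₀) (hS : 1 - u₀ ≤ spur Z n₀ b₀) (hT : 1 - u₀ ≤ ppur Z (2 * n₀) b₀)
    {L : ℕ} (hL : Even L) (hnL : n₀ ≤ L) {ι : Type*} [Fintype ι] [Nonempty ι] (e : ι → ℝ) (a : ℝ)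
    (hrep : ∀ b, 0 < b → Z L b = ∑ k, Real.exp (-b * (e k + a))) :
    ∃ k₀ : ι, ∀ k, k ≠ k₀ → e k₀ + Real.log (1 / (C * u₀)) / b₀ < e k := by
  obtain ⟨j, hj⟩ := hZ.ppur_ge_of_seeds h hn h4 hb hS hT hL hnL
  have hC := h.C_pos
  have hu0 := h.udef_pos j
  have hu1 := h.udef_le j
  have hlt := h.u_lt
  have hupos := h.u_pos
  have hb' : 0 < 2 ^ j * b₀ := by positivity
  have hZpos := hZ.pos L (2 ^ j * b₀) hL (by omega) hb'
  set u := udef u₀ C j with hu
  have hP : (1 - 3 * u) * (∑ k, Real.exp (-(2 ^ j * b₀) * (e k + a))) ^ 2 ≤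
      ∑ k, Real.exp (-(2 * (2 ^ j * b₀)) * (e k + a)) := by
    rw [← hrep _ hb', ← hrep _ (by positivity)]
    unfold ppur at hj
    rwa [le_div_iff₀ (by positivity)] at hj
  obtain ⟨k₀, hk₀⟩ := exists_dominant_of_purity (fun k => e k + a) (2 ^ j * b₀) (3 * u)
    (by linarith) hP
  refine ⟨k₀, fun k hk => ?_⟩
  have h1 := hk₀ k hk
  set r := C * u₀ with hr
  have hrpos : 0 < r := by positivity
  -- 3u/(1-3u) < r^(2^j)
  have h2 : 3 * u / (1 - 3 * u) < r ^ (2 ^ j) := by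
    rw [div_lt_iff₀ (by linarith)]
    have hur : u * C = r ^ (2 ^ j) := by
      rw [hu]; unfold udef; rw [← hr]; field_simp
    have hrj : 0 < r ^ (2 ^ j) := by positivity
    have h3 : 3 * u * C < u * C * (C * (1 - 3 * u)) := by
      have : C * (1 - 3 * u₀) ≤ C * (1 - 3 * u) := by nlinarith
      have h4 : 3 < C * (1 - 3 * u) := lt_of_lt_of_le h.C_gt this
      have h5 : 0 < u * C := by positivity
      nlinarith
    rw [← hur]
    have : 3 * u * C < u * C * (1 - 3 * u) * C := by nlinarith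
    exact lt_of_mul_lt_mul_right this hC.le
  have h3 : Real.exp (-(2 ^ j * b₀) * (e k + a - (e k₀ + a))) < r ^ (2 ^ j) := lt_of_le_of_lt h1 h2
  set δ := e k - e k₀ with hδ
  have h4 : Real.exp (-(2 ^ j * b₀) * (e k + a - (e k₀ + a))) = Real.exp (-b₀ * δ) ^ (2 ^ j) := by
    rw [← Real.exp_nat_mul]; congr 1; push_cast; simp only [hδ]; ring
  rw [h4] at h3
  have h5 : Real.exp (-b₀ * δ) < r := lt_of_pow_lt_pow_left₀ _ hrpos.le h3
  have h6 : -b₀ * δ < Real.log r := by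
    rw [← Real.log_exp (-b₀ * δ)]
    exact Real.log_lt_log (Real.exp_pos _) h5
  have h7 : Real.log (1 / r) / b₀ < δ := by
    rw [div_lt_iff₀ hb, one_div, Real.log_inv]
    linarith
  simp only [hδ] at h7
  linarith

end TwoRep

end Claimed.Agent.R297
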