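/-
Row 297 (spin-one Haldane gap), package A4: numerical instantiation of the purity bootstrap.
From the two seeds `S(60,105/4) ≥ 7/8` and `T(120,105/4) ≥ 7/8` alone:
* every even `L ≥ 60` has gap `> (4/105) log (80/79)`;
* every even `L ≥ 960` has gap `> log 20 / 784` (four fine updates, then the closed form).
-/
import Claimed.Agent.R297.BootstrapMain

namespace Claimed.Agent.R297

theorem bootScalars_first : BootScalars (1 / 8) (79 / 10) where
  u_pos := by norm_num
  u_lt := by norm_num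
  G_le := by norm_num
  r_lt := by norm_num
  C_gt := by norm_num

theorem bootScalars_second : BootScalars (661 / 20000) (129 / 25) where
  u_pos := by norm_num
  u_lt := by norm_num
  G_le := by norm_num
  r_lt := by norm_num
  C_gt := by norm_num

theorem log_first_eq :
    Real.log (1 / (79 / 10 * (1 / 8))) / (105 / 4) = 4 / 105 * Real.log (80 / 79) := by
  have : (1 : ℝ) / (79 / 10 * (1 / 8)) = 80 / 79 := by norm_num
  rw [this]; ring

theorem log_second_le :
    Real.log 20 / 784 ≤ Real.log (1 / (129 / 25 * (661 / 20000))) / 420 := by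
  have h : (20 : ℝ) ^ 15 ≤ (1 / (129 / 25 * (661 / 20000))) ^ 28 := by norm_num
  have h2 := Real.log_le_log (by positivity) h
  rw [Real.log_pow, Real.log_pow] at h2
  push_cast at h2
  rw [div_le_div_iff₀ (by norm_num) (by norm_num)]
  linarith

namespace TwoRep

variable {Z : ℕ → ℝ → ℝ} (hZ : TwoRep Z)
include hZ

/-- four fine updates starting from the seeds `(7/8, 7/8)` at `(60, 105/4)`. -/
theorem seeds_960 (hS : 7 / 8 ≤ spur Z 60 (105 / 4)) (hT : 7 / 8 ≤ ppur Z 120 (105 / 4)) :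
    19339 / 20000 ≤ spur Z 960 420 ∧ 98619 / 100000 ≤ ppur Z 1920 420 := by
  have e60 : Even 60 := by decide
  have e120 : Even 120 := by decide
  have e240 : Even 240 := by decide
  have e480 : Even 480 := by decide
  obtain ⟨s1, t1⟩ := hZ.update (n := 60) (b := 105 / 4) (s := 7 / 8) (t := 7 / 8)
    (s' := 87861 / 100000) (t' := 44081 / 50000) e60 (by norm_num) (by norm_num) (by norm_num)
    (by norm_num) hS hT (by norm_num) (by unfold gimp; norm_num) (by unfold gimp; norm_num)
  norm_num at s1 t1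
  obtain ⟨s2, t2⟩ := hZ.update (n := 120) (b := 105 / 2) (s := 87861 / 100000)
    (t := 44081 / 50000) (s' := 17797 / 20000) (t' := 90061 / 100000) e120 (by norm_num)
    (by norm_num) (by norm_num) (by norm_num) s1 t1 (by norm_num) (by unfold gimp; norm_num)
    (by unfold gimp; norm_num)
  norm_num at s2 t2
  obtain ⟨s3, t3⟩ := hZ.update (n := 240) (b := 105) (s := 17797 / 20000)
    (t := 90061 / 100000) (s' := 91909 / 100000) (t' := 94171 / 100000) e240 (by norm_num)
    (by norm_num) (by norm_num) (by norm_num) s2 t2 (by norm_num) (by unfold gimp; norm_num)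
    (by unfold gimp; norm_num)
  norm_num at s3 t3
  obtain ⟨s4, t4⟩ := hZ.update (n := 480) (b := 210) (s := 91909 / 100000)
    (t := 94171 / 100000) (s' := 19339 / 20000) (t' := 98619 / 100000) e480 (by norm_num)
    (by norm_num) (by norm_num) (by norm_num) s3 t3 (by norm_num) (by unfold gimp; norm_num)
    (by unfold gimp; norm_num)
  norm_num at s4 t4
  exact ⟨s4, t4⟩

/-- first claim, for energy lists. -/
theorem gap_first (hS : 7 / 8 ≤ spur Z 60 (105 / 4)) (hT : 7 / 8 ≤ ppur Z 120 (105 / 4))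
    {L : ℕ} (hL : Even L) (h60 : 60 ≤ L) {ι : Type*} [Fintype ι] [Nonempty ι] (e : ι → ℝ) (a : ℝ)
    (hrep : ∀ b, 0 < b → Z L b = ∑ k, Real.exp (-b * (e k + a))) :
    ∃ k₀ : ι, ∀ k, k ≠ k₀ → e k₀ + 4 / 105 * Real.log (80 / 79) < e k := by
  have h := hZ.gap_of_seeds bootScalars_first (n₀ := 60) (b₀ := 105 / 4) (by decide) (by norm_num)
    (by norm_num) (by norm_num; exact hS) (by norm_num; exact hT) hL h60 e a hrep
  rwa [log_first_eq] at h

/-- second claim, for energy lists; valid from `L = 960` on. -/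
theorem gap_second (hS : 7 / 8 ≤ spur Z 60 (105 / 4)) (hT : 7 / 8 ≤ ppur Z 120 (105 / 4))
    {L : ℕ} (hL : Even L) (h960 : 960 ≤ L) {ι : Type*} [Fintype ι] [Nonempty ι] (e : ι → ℝ)
    (a : ℝ) (hrep : ∀ b, 0 < b → Z L b = ∑ k, Real.exp (-b * (e k + a))) :
    ∃ k₀ : ι, ∀ k, k ≠ k₀ → e k₀ + Real.log 20 / 784 < e k := by
  obtain ⟨s4, t4⟩ := hZ.seeds_960 hS hT
  obtain ⟨k₀, hk₀⟩ := hZ.gap_of_seeds bootScalars_second (n₀ := 960) (b₀ := 420) (by decide)
    (by norm_num) (by norm_num) (by norm_num; exact s4)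
    (by norm_num; exact le_trans (by norm_num) t4) hL h960 e a hrep
  exact ⟨k₀, fun k hk => lt_of_le_of_lt (by linarith [log_second_le]) (hk₀ k hk)⟩

/-- **Assembly for Hermitian matrices.**  `Z L` is the (shifted) partition function of `H`. -/
theorem rawGap_first (hS : 7 / 8 ≤ spur Z 60 (105 / 4)) (hT : 7 / 8 ≤ ppur Z 120 (105 / 4))
    {L : ℕ} (hL : Even L) (h60 : 60 ≤ L) {n : Type} [Fintype n] [DecidableEq n] [Nonempty n]
    (H : Matrix n n ℂ) (hH : H.IsHermitian) (a : ℝ)
    (hrep : ∀ b, 0 < b → Z L b = ∑ k, Real.exp (-b * (hH.eigenvalues k + a))) :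
    RawGapGT H (4 / 105 * Real.log (80 / 79)) := by
  obtain ⟨k₀, hk₀⟩ := hZ.gap_first hS hT hL h60 hH.eigenvalues a hrep
  exact rawGap_of_eigenvalues H hH _ k₀ hk₀

theorem rawGap_second (hS : 7 / 8 ≤ spur Z 60 (105 / 4)) (hT : 7 / 8 ≤ ppur Z 120 (105 / 4))
    {L : ℕ} (hL : Even L) (h960 : 960 ≤ L) {n : Type} [Fintype n] [DecidableEq n] [Nonempty n]
    (H : Matrix n n ℂ) (hH : H.IsHermitian) (a : ℝ)
    (hrep : ∀ b, 0 < b → Z L b = ∑ k, Real.exp (-b * (hH.eigenvalues k + a))) :
    RawGapGT H (Real.log 20 / 784) := by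
  obtain ⟨k₀, hk₀⟩ := hZ.gap_second hS hT hL h960 hH.eigenvalues a hrep
  exact rawGap_of_eigenvalues H hH _ k₀ hk₀

end TwoRep

end Claimed.Agent.R297
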