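import Claimed.Agent.R297.SectorDecomp2

/-!
# Row 297: sector lists for the boundary vector of paper 2 (owner helper156)

`SectorHypC.lists_of_vec`: for `v` with `a v = v`, `b v = star v`, the three pairings
`⟨v, Xⁿ v⟩`, `⟨v, Xⁿ v̄⟩`, `⟨v, Xⁿ t v⟩` as weighted moments of `h.lamI`, `h.lamO`, `h.lamN`.
`SectorHypC.sum_sq_lamI_le` etc.: Hilbert--Schmidt bounds.
-/

set_option linter.unusedSimpArgs false
set_option linter.unusedSectionVars false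
set_option linter.unusedVariables false

namespace Claimed.Agent.R297

open Matrix

variable {ι : Type*} [Fintype ι] [DecidableEq ι]

namespace SectorHypC

variable {X a b t : Matrix ι ι ℂ} (h : SectorHypC X a b t)

include h

theorem trace_sq_re : (trace (X ^ 2)).re =
    ∑ i, h.lamI i ^ 2 + 2 * ∑ i, h.lamO i ^ 2 + 3 * ∑ i, h.lamN i ^ 2 := by
  rw [h.trace_one 2 (by norm_num), Complex.ofReal_re]

theorem sum_sq_lamI_le : ∑ i, h.lamI i ^ 2 ≤ (trace (X ^ 2)).re := by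
  have sO : 0 ≤ ∑ i, h.lamO i ^ 2 := Finset.sum_nonneg fun i _ => sq_nonneg _
  have sN : 0 ≤ ∑ i, h.lamN i ^ 2 := Finset.sum_nonneg fun i _ => sq_nonneg _
  rw [h.trace_sq_re]; linarith

theorem sum_sq_lamO_le : ∑ i, h.lamO i ^ 2 ≤ (trace (X ^ 2)).re := by
  have sI : 0 ≤ ∑ i, h.lamI i ^ 2 := Finset.sum_nonneg fun i _ => sq_nonneg _
  have sO : 0 ≤ ∑ i, h.lamO i ^ 2 := Finset.sum_nonneg fun i _ => sq_nonneg _
  have sN : 0 ≤ ∑ i, h.lamN i ^ 2 := Finset.sum_nonneg fun i _ => sq_nonneg _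
  rw [h.trace_sq_re]; linarith

theorem sum_sq_lamN_le : ∑ i, h.lamN i ^ 2 ≤ (trace (X ^ 2)).re := by
  have sI : 0 ≤ ∑ i, h.lamI i ^ 2 := Finset.sum_nonneg fun i _ => sq_nonneg _
  have sO : 0 ≤ ∑ i, h.lamO i ^ 2 := Finset.sum_nonneg fun i _ => sq_nonneg _
  have sN : 0 ≤ ∑ i, h.lamN i ^ 2 := Finset.sum_nonneg fun i _ => sq_nonneg _
  rw [h.trace_sq_re]; linarith

/-- The boundary identities hold for every `n` (with `0 ^ 0 = 1`). -/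
theorem lists_of_vec' (v : ι → ℂ) (hav : a *ᵥ v = v) (hbv : b *ᵥ v = star v) :
    ∃ cI cO cN : ι → ℝ, (∀ i, 0 ≤ cI i) ∧ (∀ i, 0 ≤ cO i) ∧ (∀ i, 0 ≤ cN i) ∧
      (∑ i, cI i + ∑ i, cO i + ∑ i, cN i = ∑ i, ‖v i‖ ^ 2) ∧
      ∀ n : ℕ,
        star v ⬝ᵥ (X ^ n *ᵥ v) = ((∑ i, cI i * h.lamI i ^ n + ∑ i, cO i * h.lamO i ^ n +
          ∑ i, cN i * h.lamN i ^ n : ℝ) : ℂ) ∧
        star v ⬝ᵥ (X ^ n *ᵥ star v) = ((∑ i, cI i * h.lamI i ^ n + ∑ i, cO i * h.lamO i ^ n -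
          ∑ i, cN i * h.lamN i ^ n : ℝ) : ℂ) ∧
        star v ⬝ᵥ (X ^ n *ᵥ (t *ᵥ v)) = ((∑ i, cI i * h.lamI i ^ n -
          (1 / 2) * ∑ i, cO i * h.lamO i ^ n : ℝ) : ℂ) := by
  have key : ∀ n : ℕ,
        star v ⬝ᵥ (X ^ n *ᵥ v) = ((∑ i, h.projI.wt v i * h.lamI i ^ n +
          ∑ i, (2 * h.projO.wt v i) * h.lamO i ^ n + ∑ i, h.projN.wt v i * h.lamN i ^ n : ℝ) : ℂ) ∧
        star v ⬝ᵥ (X ^ n *ᵥ star v) = ((∑ i, h.projI.wt v i * h.lamI i ^ n +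
          ∑ i, (2 * h.projO.wt v i) * h.lamO i ^ n - ∑ i, h.projN.wt v i * h.lamN i ^ n : ℝ) : ℂ) ∧
        star v ⬝ᵥ (X ^ n *ᵥ (t *ᵥ v)) = ((∑ i, h.projI.wt v i * h.lamI i ^ n -
          (1 / 2) * ∑ i, (2 * h.projO.wt v i) * h.lamO i ^ n : ℝ) : ℂ) := by
    intro n
    obtain ⟨h1, h2, h3⟩ := h.quad3 hav hbv n
    rw [h.qd_I, h.qd_O, h.qd_N1] at h1 h2
    rw [h.qd_I, h.qd_O] at h3
    have e2 : star v ⬝ᵥ ((X ^ n) *ᵥ star v) = sectorQuad (X ^ n * b) v := by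
      rw [sectorQuad, ← mulVec_mulVec, hbv]
    have e3 : star v ⬝ᵥ ((X ^ n) *ᵥ (t *ᵥ v)) = sectorQuad (X ^ n * t) v := by
      rw [sectorQuad, ← mulVec_mulVec]
    have e0 : ∑ i, (2 * h.projO.wt v i) * h.lamO i ^ n = 2 * ∑ i, h.projO.wt v i * h.lamO i ^ n := by
      rw [Finset.mul_sum]
      exact Finset.sum_congr rfl fun i _ => by ring
    rw [e2, e3, e0, h2, h3]
    refine ⟨?_, ?_, ?_⟩
    · change sectorQuad (X ^ n) v = _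
      rw [h1]; push_cast; ring
    · push_cast; ring
    · push_cast; ring
  refine ⟨h.projI.wt v, fun i => 2 * h.projO.wt v i, h.projN.wt v, h.projI.wt_nonneg v,
    fun i => mul_nonneg (by norm_num) (h.projO.wt_nonneg v i), h.projN.wt_nonneg v, ?_, key⟩
  have h0 := (key 0).1
  have e : star v ⬝ᵥ (X ^ 0 *ᵥ v) = sectorQuad 1 v := by rw [pow_zero]; rfl
  rw [e, sectorQuad_one] at h0
  simp only [pow_zero, mul_one] at h0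
  exact_mod_cast h0.symm

theorem lists_of_vec (v : ι → ℂ) (hav : a *ᵥ v = v) (hbv : b *ᵥ v = star v) :
    ∃ cI cO cN : ι → ℝ, (∀ i, 0 ≤ cI i) ∧ (∀ i, 0 ≤ cO i) ∧ (∀ i, 0 ≤ cN i) ∧
      (∑ i, cI i + ∑ i, cO i + ∑ i, cN i = ∑ i, ‖v i‖ ^ 2) ∧
      ∀ n : ℕ, 1 ≤ n →
        star v ⬝ᵥ (X ^ n *ᵥ v) = ((∑ i, cI i * h.lamI i ^ n + ∑ i, cO i * h.lamO i ^ n +
          ∑ i, cN i * h.lamN i ^ n : ℝ) : ℂ) ∧
        star v ⬝ᵥ (X ^ n *ᵥ star v) = ((∑ i, cI i * h.lamI i ^ n + ∑ i, cO i * h.lamO i ^ n -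
          ∑ i, cN i * h.lamN i ^ n : ℝ) : ℂ) ∧
        star v ⬝ᵥ (X ^ n *ᵥ (t *ᵥ v)) = ((∑ i, cI i * h.lamI i ^ n -
          (1 / 2) * ∑ i, cO i * h.lamO i ^ n : ℝ) : ℂ) := by
  obtain ⟨cI, cO, cN, h1, h2, h3, h4, h5⟩ := h.lists_of_vec' v hav hbv
  exact ⟨cI, cO, cN, h1, h2, h3, h4, fun n _ => h5 n⟩

end SectorHypC

end Claimed.Agent.R297
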