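/-
Row 297 (Haldane gap), package C2 (owner helper245).
Moment compactness: finite real lists with uniformly bounded square sums have exact limit lists
along any ultrafilter on `ℕ`.
-/
import Mathlib

set_option autoImplicit false

namespace Claimed.Agent.R297

open Filter Topology

/-- A finite real family can be enumerated by decreasing modulus. -/
theorem spec_exists_sorted {ι : Type*} [Fintype ι] (lam : ι → ℝ) :
    ∃ e : Fin (Fintype.card ι) ≃ ι, Antitone (fun k => |lam (e k)|) := by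
  classical
  let e0 : Fin (Fintype.card ι) ≃ ι := (Fintype.equivFin ι).symm
  let f : Fin (Fintype.card ι) → ℝ := fun k => -|lam (e0 k)|
  refine ⟨(Tuple.sort f).trans e0, ?_⟩
  intro a b hab
  have := Tuple.monotone_sort f hab
  simp only [f, Function.comp] at this
  simpa using neg_le_neg_iff.mp this

/-- Pad a finite tuple by zeros. -/
noncomputable def specPad {N : ℕ} (f : Fin N → ℝ) : ℕ → ℝ :=
  fun k => if h : k < N then f ⟨k, h⟩ else 0

theorem specPad_of_lt {N : ℕ} (f : Fin N → ℝ) {k : ℕ} (h : k < N) : specPad f k = f ⟨k, h⟩ := by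
  simp [specPad, h]

theorem specPad_of_le {N : ℕ} (f : Fin N → ℝ) {k : ℕ} (h : N ≤ k) : specPad f k = 0 := by
  simp [specPad, Nat.not_lt.mpr h]

theorem specPad_sum_range {N : ℕ} (f : Fin N → ℝ) :
    ∑ k ∈ Finset.range N, specPad f k = ∑ i, f i := by
  rw [Finset.sum_fin_eq_sum_range]
  rfl

theorem specPad_hasSum {N : ℕ} (f : Fin N → ℝ) : HasSum (specPad f) (∑ i, f i) := by
  rw [← specPad_sum_range]
  apply hasSum_sum_of_ne_finset_zero
  intro k hk
  exact specPad_of_le f (by simpa using hk)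

/-- Pointwise operations commute with padding provided they fix zero. -/
theorem specPad_map₂ {N : ℕ} (f g : Fin N → ℝ) (φ : ℝ → ℝ → ℝ) (h0 : φ 0 0 = 0) (k : ℕ) :
    φ (specPad f k) (specPad g k) = specPad (fun i => φ (f i) (g i)) k := by
  by_cases h : k < N
  · simp [specPad_of_lt _ h]
  · simp [specPad_of_le _ (Nat.not_lt.mp h), h0]

/-- Tail estimate for a weighted sum. -/
theorem spec_tail_bound (c x : ℕ → ℝ) (K b b0 : ℝ) (k0 : ℕ)
    (hcs : Summable (fun k => |c k|)) (hcK : ∑' k, |c k| ≤ K)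
    (hx0 : ∀ k, |x k| ≤ b0) (hx : ∀ k, k0 ≤ k → |x k| ≤ b) :
    Summable (fun k => c k * x k) ∧
      |∑' k, c k * x k - ∑ k ∈ Finset.range k0, c k * x k| ≤ K * b := by
  have hs : Summable (fun k => c k * x k) := by
    refine Summable.of_norm_bounded (g := fun k => |c k| * b0) (hcs.mul_right b0) ?_
    intro k
    rw [Real.norm_eq_abs, abs_mul]
    exact mul_le_mul_of_nonneg_left (hx0 k) (abs_nonneg _)
  refine ⟨hs, ?_⟩
  have h1 := hs.sum_add_tsum_nat_add k0
  have h2 : ∑' k, c k * x k - ∑ k ∈ Finset.range k0, c k * x k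
      = ∑' k, c (k + k0) * x (k + k0) := by linarith
  rw [h2]
  have hcs' : Summable (fun k => |c (k + k0)|) :=
    (summable_nat_add_iff (f := fun k => |c k|) k0).mpr hcs
  have hb : ∀ k, ‖c (k + k0) * x (k + k0)‖ ≤ |c (k + k0)| * b := by
    intro k
    rw [Real.norm_eq_abs, abs_mul]
    exact mul_le_mul_of_nonneg_left (hx _ (Nat.le_add_left _ _)) (abs_nonneg _)
  have hb0 : 0 ≤ b := le_trans (abs_nonneg _) (hx k0 le_rfl)
  have h3 : ‖∑' k, c (k + k0) * x (k + k0)‖ ≤ ∑' k, |c (k + k0)| * b :=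
    tsum_of_norm_bounded (hcs'.mul_right b).hasSum hb
  have h4 : ∑' k, |c (k + k0)| ≤ ∑' k, |c k| := by
    have := hcs.sum_add_tsum_nat_add k0
    have h5 : 0 ≤ ∑ k ∈ Finset.range k0, |c k| := Finset.sum_nonneg (fun k _ => abs_nonneg _)
    linarith
  rw [Real.norm_eq_abs, tsum_mul_right] at h3
  calc _ ≤ (∑' k, |c (k + k0)|) * b := h3
    _ ≤ K * b := mul_le_mul_of_nonneg_right (h4.trans hcK) hb0

/-- Core limit lemma: weighted power sums converge if the weights have bounded total mass and the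
entries are uniformly small far out. -/
theorem spec_tendsto_weighted {α : Type*} {F : Filter α} [F.NeBot]
    (lam c : α → ℕ → ℝ) (l d : ℕ → ℝ) (β : ℕ → ℝ) (K : ℝ)
    (hβ : Tendsto β atTop (𝓝 0)) (hβa : Antitone β)
    (hlam : ∀ M k, |lam M k| ≤ β k)
    (hcs : ∀ M, Summable (fun k => |c M k|)) (hcK : ∀ M, ∑' k, |c M k| ≤ K)
    (hl : ∀ k, Tendsto (fun M => lam M k) F (𝓝 (l k)))
    (hd : ∀ k, Tendsto (fun M => c M k) F (𝓝 (d k))) :
    Summable (fun k => |d k|) ∧ ∑' k, |d k| ≤ K ∧ (∀ k, |l k| ≤ β k) ∧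
    ∀ n : ℕ, 1 ≤ n →
      Summable (fun k => d k * l k ^ n) ∧
      Tendsto (fun M => ∑' k, c M k * lam M k ^ n) F (𝓝 (∑' k, d k * l k ^ n)) := by
  have hpart : ∀ m, ∑ k ∈ Finset.range m, |d k| ≤ K := by
    intro m
    have ht : Tendsto (fun M => ∑ k ∈ Finset.range m, |c M k|) F
        (𝓝 (∑ k ∈ Finset.range m, |d k|)) :=
      tendsto_finsetSum _ (fun k _ => (continuous_abs.tendsto _).comp (hd k))
    refine le_of_tendsto' ht (fun M => ?_)
    exact ((hcs M).sum_le_tsum _ (fun k _ => abs_nonneg _)).trans (hcK M)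
  have hds : Summable (fun k => |d k|) := summable_of_sum_range_le (fun k => abs_nonneg _) hpart
  have hdK : ∑' k, |d k| ≤ K := hds.tsum_le_of_sum_range_le hpart
  have hlb : ∀ k, |l k| ≤ β k := fun k =>
    le_of_tendsto' ((continuous_abs.tendsto _).comp (hl k)) (fun M => hlam M k)
  refine ⟨hds, hdK, hlb, ?_⟩
  intro n hn
  have hpow : ∀ (y : ℕ → ℝ), (∀ k, |y k| ≤ β k) → ∀ k0 k, k0 ≤ k → |y k ^ n| ≤ β k0 ^ n := by
    intro y hy k0 k hk
    rw [abs_pow]
    exact pow_le_pow_left₀ (abs_nonneg _) ((hy k).trans (hβa hk)) n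
  have hlimtail := fun k0 => spec_tail_bound d (fun k => l k ^ n) K (β k0 ^ n) (β 0 ^ n) k0
    hds hdK (fun k => hpow l hlb 0 k (Nat.zero_le _)) (fun k hk => hpow l hlb k0 k hk)
  have hMtail := fun M k0 => spec_tail_bound (c M) (fun k => lam M k ^ n) K (β k0 ^ n) (β 0 ^ n) k0
    (hcs M) (hcK M) (fun k => hpow (lam M) (hlam M) 0 k (Nat.zero_le _))
    (fun k hk => hpow (lam M) (hlam M) k0 k hk)
  refine ⟨(hlimtail 0).1, ?_⟩
  rw [Metric.tendsto_nhds]
  intro ε hε
  have hβn : Tendsto (fun k => K * β k ^ n) atTop (𝓝 0) := by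
    have h1 : Tendsto (fun k => β k ^ n) atTop (𝓝 (0 ^ n)) := hβ.pow n
    rw [zero_pow (by omega)] at h1
    simpa using h1.const_mul K
  obtain ⟨k0, hk0⟩ := ((tendsto_order.1 hβn).2 (ε / 3) (by positivity)).exists
  have hhead : Tendsto (fun M => ∑ k ∈ Finset.range k0, c M k * lam M k ^ n) F
      (𝓝 (∑ k ∈ Finset.range k0, d k * l k ^ n)) :=
    tendsto_finsetSum _ (fun k _ => (hd k).mul ((hl k).pow n))
  have hev := (Metric.tendsto_nhds.1 hhead) (ε / 3) (by positivity)
  filter_upwards [hev] with M hM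
  rw [Real.dist_eq] at hM ⊢
  have h1' := abs_le.1 (hMtail M k0).2
  have h2' := abs_le.1 (hlimtail k0).2
  have hM' := abs_lt.1 hM
  rw [abs_lt]
  constructor <;> linarith [h1'.1, h1'.2, h2'.1, h2'.2, hM'.1, hM'.2]

/-- Bounded real sequences converge along any ultrafilter. -/
theorem spec_ultra_lim (𝒰 : Ultrafilter ℕ) (x : ℕ → ℝ) (R : ℝ) (h : ∀ M, |x M| ≤ R) :
    ∃ a, Tendsto x (𝒰 : Filter ℕ) (𝓝 a) := by
  have hc : IsCompact (Set.Icc (-R) R) := isCompact_Icc
  obtain ⟨a, -, ha⟩ := hc.ultrafilter_le_nhds (𝒰.map x) (by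
    simp only [Ultrafilter.coe_map, le_principal_iff, mem_map]
    refine Filter.univ_mem' (fun M => ?_)
    exact abs_le.1 (h M))
  exact ⟨a, ha⟩

theorem spec_hyperfilter_le_atTop : (hyperfilter ℕ : Filter ℕ) ≤ atTop := by
  rw [← Nat.cofinite_eq_atTop]
  exact hyperfilter_le_cofinite

/-- If a sequence converges in the ordinary sense and along the ultrafilter, the limits agree. -/
theorem spec_limit_unique {x : ℕ → ℝ} {a b : ℝ} (h1 : Tendsto x atTop (𝓝 a))
    (h2 : Tendsto x (hyperfilter ℕ : Filter ℕ) (𝓝 b)) : a = b :=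
  tendsto_nhds_unique (h1.mono_left spec_hyperfilter_le_atTop) h2

/-- The padded sorted enumeration of a finite family: basic bounds. -/
theorem spec_sorted_bounds {ι : Type*} [Fintype ι] (lam : ι → ℝ) (B : ℝ)
    (hB : ∑ i, lam i ^ 2 ≤ B) (e : Fin (Fintype.card ι) ≃ ι)
    (he : Antitone (fun k => |lam (e k)|)) :
    Antitone (fun k => |specPad (fun i => lam (e i)) k|) ∧
      ∀ k : ℕ, ((k : ℝ) + 1) * specPad (fun i => lam (e i)) k ^ 2 ≤ B := by
  set L := specPad (fun i => lam (e i)) with hL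
  have hanti : Antitone (fun k => |L k|) := by
    intro a b hab
    by_cases hb : b < Fintype.card ι
    · have ha : a < Fintype.card ι := lt_of_le_of_lt hab hb
      simp only [hL, specPad_of_lt _ ha, specPad_of_lt _ hb]
      exact he (by simpa using hab)
    · simp only [hL, specPad_of_le _ (Nat.not_lt.mp hb), abs_zero]
      exact abs_nonneg _
  refine ⟨hanti, fun k => ?_⟩
  have hsum : HasSum (fun k => L k ^ 2) (∑ i, lam i ^ 2) := by
    have h1 := specPad_hasSum (fun i => lam (e i) ^ 2)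
    rw [Equiv.sum_comp e (fun i => lam i ^ 2)] at h1
    convert h1 using 1
    funext k
    have := specPad_map₂ (fun i => lam (e i)) (fun i => lam (e i)) (fun x _ => x ^ 2) (by simp) k
    simpa using this
  have h2 : ∑ j ∈ Finset.range (k + 1), L j ^ 2 ≤ ∑ i, lam i ^ 2 := by
    rw [← hsum.tsum_eq]
    exact hsum.summable.sum_le_tsum _ (fun j _ => sq_nonneg _)
  have h3 : ∑ j ∈ Finset.range (k + 1), L k ^ 2 ≤ ∑ j ∈ Finset.range (k + 1), L j ^ 2 := by
    refine Finset.sum_le_sum (fun j hj => ?_)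
    have hjk : j ≤ k := Nat.lt_succ_iff.mp (Finset.mem_range.mp hj)
    have := hanti hjk
    exact sq_le_sq.mpr this
  rw [Finset.sum_const, Finset.card_range, nsmul_eq_mul] at h3
  push_cast at h3
  linarith

/-- **Moment compactness.**  For finite real lists `lam M` with uniformly bounded square sums and
(signed) weight families `c w M` of uniformly bounded total mass there are limit sequences
`l`, `d w` such that all weighted power sums (exponent `≥ 1`) and all plain power sums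
(exponent `≥ 3`) converge along the given ultrafilter to the corresponding
infinite sums. -/
theorem spec_limit_lists (𝒰 : Ultrafilter ℕ) {ι : ℕ → Type*} [∀ M, Fintype (ι M)] {W : Type*}
    (lam : ∀ M, ι M → ℝ) (c : W → ∀ M, ι M → ℝ) (B : ℝ) (K : W → ℝ)
    (hB : ∀ M, ∑ i, lam M i ^ 2 ≤ B) (hcK : ∀ w M, ∑ i, |c w M i| ≤ K w) :
    ∃ (l : ℕ → ℝ) (d : W → ℕ → ℝ),
      Antitone (fun k => |l k|) ∧ (∀ k : ℕ, ((k : ℝ) + 1) * l k ^ 2 ≤ B) ∧
      Summable (fun k => l k ^ 2) ∧ ∑' k, l k ^ 2 ≤ B ∧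
      (∀ w, Summable (fun k => |d w k|) ∧ ∑' k, |d w k| ≤ K w) ∧
      (∀ w, (∀ M i, 0 ≤ c w M i) → ∀ k, 0 ≤ d w k) ∧
      (∀ w w', (∀ M i, |c w M i| ≤ c w' M i) → ∀ k, |d w k| ≤ d w' k) ∧
      (∀ w w', (∀ M i, c w M i = c w' M i) → ∀ k, d w k = d w' k) ∧
      (∀ w n, 1 ≤ n → Summable (fun k => d w k * l k ^ n) ∧
        Tendsto (fun M => ∑ i, c w M i * lam M i ^ n) (𝒰 : Filter ℕ)
          (𝓝 (∑' k, d w k * l k ^ n))) ∧
      (∀ n, 3 ≤ n → Summable (fun k => l k ^ n) ∧
        Tendsto (fun M => ∑ i, lam M i ^ n) (𝒰 : Filter ℕ) (𝓝 (∑' k, l k ^ n))) ∧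
      (∀ w, (∀ M i, 0 ≤ c w M i) → ∀ ε > 0, ∀ᶠ M in (𝒰 : Filter ℕ),
        ∑' k, d w k ≤ ∑ i, c w M i + ε) := by
  classical
  choose e he using fun M => spec_exists_sorted (lam M)
  set L : ℕ → ℕ → ℝ := fun M => specPad (fun i => lam M (e M i)) with hLdef
  set C : W → ℕ → ℕ → ℝ := fun w M => specPad (fun i => c w M (e M i)) with hCdef
  have hbd := fun M => spec_sorted_bounds (lam M) B (hB M) (e M) (he M)
  have hB0 : 0 ≤ B := le_trans (Finset.sum_nonneg (fun i _ => sq_nonneg _)) (hB 0)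
  set β : ℕ → ℝ := fun k => Real.sqrt (B / ((k : ℝ) + 1)) with hβdef
  have hLβ : ∀ M k, |L M k| ≤ β k := by
    intro M k
    have h1 := (hbd M).2 k
    have hk : (0 : ℝ) < (k : ℝ) + 1 := by positivity
    apply Real.abs_le_sqrt
    rw [le_div_iff₀ hk]
    linarith
  have hβa : Antitone β := by
    intro a b hab
    apply Real.sqrt_le_sqrt
    have ha : (0 : ℝ) < (a : ℝ) + 1 := by positivity
    have hab' : (a : ℝ) + 1 ≤ (b : ℝ) + 1 := by
      have : (a : ℝ) ≤ b := by exact_mod_cast hab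
      linarith
    exact div_le_div_of_nonneg_left hB0 ha hab'
  have hβ : Tendsto β atTop (𝓝 0) := by
    have h1 : Tendsto (fun k : ℕ => B / ((k : ℝ) + 1)) atTop (𝓝 0) := by
      have := tendsto_const_div_atTop_nhds_zero_nat B
      have h2 := (tendsto_add_atTop_iff_nat 1).mpr this
      simpa using h2
    have h3 := (Real.continuous_sqrt.tendsto 0).comp h1
    rw [Real.sqrt_zero] at h3
    exact h3
  -- sums over the finite lists as infinite sums of the padded sequences
  have hsumC : ∀ w M, HasSum (fun k => |C w M k|) (∑ i, |c w M i|) := by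
    intro w M
    have h1 := specPad_hasSum (fun i => |c w M (e M i)|)
    rw [Equiv.sum_comp (e M) (fun i => |c w M i|)] at h1
    convert h1 using 1
    funext k
    have := specPad_map₂ (fun i => c w M (e M i)) (fun i => c w M (e M i)) (fun x _ => |x|)
      (by simp) k
    simpa using this
  have hsumCL : ∀ w M n, ∑' k, C w M k * L M k ^ n = ∑ i, c w M i * lam M i ^ n := by
    intro w M n
    have h1 := specPad_hasSum (fun i => c w M (e M i) * lam M (e M i) ^ n)
    rw [Equiv.sum_comp (e M) (fun i => c w M i * lam M i ^ n)] at h1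
    rw [← h1.tsum_eq]
    congr 1
    funext k
    have := specPad_map₂ (fun i => c w M (e M i)) (fun i => lam M (e M i))
      (fun x y => x * y ^ n) (by simp) k
    simpa using this
  have hsumL2 : ∀ M, HasSum (fun k => |L M k ^ 2|) (∑ i, lam M i ^ 2) := by
    intro M
    have h1 := specPad_hasSum (fun i => lam M (e M i) ^ 2)
    rw [Equiv.sum_comp (e M) (fun i => lam M i ^ 2)] at h1
    convert h1 using 1
    funext k
    have := specPad_map₂ (fun i => lam M (e M i)) (fun i => lam M (e M i)) (fun x _ => x ^ 2)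
      (by simp) k
    rw [abs_of_nonneg (sq_nonneg _)]
    simpa using this
  have hsumLn : ∀ M n, ∑' k, L M k ^ 2 * L M k ^ n = ∑ i, lam M i ^ (n + 2) := by
    intro M n
    have h1 := specPad_hasSum (fun i => lam M (e M i) ^ (n + 2))
    rw [Equiv.sum_comp (e M) (fun i => lam M i ^ (n + 2))] at h1
    rw [← h1.tsum_eq]
    congr 1
    funext k
    have := specPad_map₂ (fun i => lam M (e M i)) (fun i => lam M (e M i))
      (fun x _ => x ^ (n + 2)) (by simp) k
    rw [← this]
    ring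
  -- pointwise ultrafilter limits
  have hCbd : ∀ w M k, |C w M k| ≤ K w := by
    intro w M k
    have h1 := hsumC w M
    have h2 : |C w M k| ≤ ∑' j, |C w M j| :=
      h1.summable.le_tsum k (fun j _ => abs_nonneg _)
    rw [h1.tsum_eq] at h2
    exact h2.trans (hcK w M)
  choose l hl using fun k => spec_ultra_lim 𝒰 (fun M => L M k) (β k) (fun M => hLβ M k)
  choose d hd using fun w k => spec_ultra_lim 𝒰 (fun M => C w M k) (K w) (fun M => hCbd w M k)
  have hW := fun w => spec_tendsto_weighted (F := (𝒰 : Filter ℕ)) L (C w) l (d w) β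
    (K w) hβ hβa hLβ (fun M => (hsumC w M).summable)
    (fun M => by rw [(hsumC w M).tsum_eq]; exact hcK w M) hl (hd w)
  have hS := spec_tendsto_weighted (F := (𝒰 : Filter ℕ)) L (fun M k => L M k ^ 2) l
    (fun k => l k ^ 2) β B hβ hβa hLβ (fun M => (hsumL2 M).summable)
    (fun M => by rw [(hsumL2 M).tsum_eq]; exact hB M) hl (fun k => (hl k).pow 2)
  have hd0 : ∀ w, (∀ M i, 0 ≤ c w M i) → ∀ k, 0 ≤ d w k := by
    intro w hw k
    refine ge_of_tendsto' (hd w k) (fun M => ?_)
    by_cases h : k < Fintype.card (ι M)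
    · simp only [hCdef, specPad_of_lt _ h]; exact hw _ _
    · simp only [hCdef, specPad_of_le _ (Nat.not_lt.mp h)]; exact le_rfl
  refine ⟨l, d, ?_, ?_, ?_, ?_, ?_, hd0, ?_, ?_, ?_, ?_, ?_⟩
  · intro a b hab
    exact le_of_tendsto_of_tendsto' ((continuous_abs.tendsto _).comp (hl b))
      ((continuous_abs.tendsto _).comp (hl a)) (fun M => (hbd M).1 hab)
  · intro k
    exact le_of_tendsto' (((hl k).pow 2).const_mul ((k : ℝ) + 1)) (fun M => (hbd M).2 k)
  · simpa only [abs_sq] using hS.1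
  · simpa only [abs_sq] using hS.2.1
  · exact fun w => ⟨(hW w).1, (hW w).2.1⟩
  · intro w w' hw k
    refine le_of_tendsto_of_tendsto' ((continuous_abs.tendsto _).comp (hd w k)) (hd w' k)
      (fun M => ?_)
    by_cases h : k < Fintype.card (ι M)
    · simp only [hCdef, Function.comp, specPad_of_lt _ h]; exact hw _ _
    · simp only [hCdef, Function.comp, specPad_of_le _ (Nat.not_lt.mp h), abs_zero]; exact le_rfl
  · intro w w' hw k
    refine tendsto_nhds_unique (hd w k) ?_
    have : (fun M => C w M k) = (fun M => C w' M k) := by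
      funext M
      simp only [hCdef]
      congr 1
      funext i
      exact hw _ _
    rw [this]
    exact hd w' k
  · intro w n hn
    obtain ⟨h1, h2⟩ := (hW w).2.2.2 n hn
    refine ⟨h1, ?_⟩
    simpa only [hsumCL] using h2
  · intro n hn
    obtain ⟨m, rfl⟩ : ∃ m, n = m + 2 := ⟨n - 2, by omega⟩
    obtain ⟨h1, h2⟩ := hS.2.2.2 m (by omega)
    have hrw : (fun k => l k ^ 2 * l k ^ m) = (fun k => l k ^ (m + 2)) := by
      funext k; ring
    rw [hrw] at h1 h2
    refine ⟨h1, ?_⟩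
    simpa only [hsumLn] using h2
  · intro w hw ε hε
    have hds : Summable (d w) := by
      have := (hW w).1
      simpa only [abs_of_nonneg (hd0 w hw _)] using this
    -- a partial sum of the limit weights close to the total
    have ht : Tendsto (fun m => ∑ k ∈ Finset.range m, d w k) atTop (𝓝 (∑' k, d w k)) :=
      hds.hasSum.tendsto_sum_nat
    obtain ⟨m, hm⟩ := ((tendsto_order.1 ht).1 (∑' k, d w k - ε / 2) (by linarith)).exists
    have hpart : Tendsto (fun M => ∑ k ∈ Finset.range m, C w M k) (𝒰 : Filter ℕ)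
        (𝓝 (∑ k ∈ Finset.range m, d w k)) := tendsto_finsetSum _ (fun k _ => hd w k)
    have hev := (tendsto_order.1 hpart).1 (∑ k ∈ Finset.range m, d w k - ε / 2) (by linarith)
    filter_upwards [hev] with M hM
    have h1 := hsumC w M
    have h2 : ∑ k ∈ Finset.range m, |C w M k| ≤ ∑' k, |C w M k| :=
      h1.summable.sum_le_tsum _ (fun k _ => abs_nonneg _)
    rw [h1.tsum_eq] at h2
    have h3 : ∑ k ∈ Finset.range m, C w M k ≤ ∑ k ∈ Finset.range m, |C w M k| :=
      Finset.sum_le_sum (fun k _ => le_abs_self _)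
    have h4 : ∑ i, |c w M i| = ∑ i, c w M i :=
      Finset.sum_congr rfl (fun i _ => abs_of_nonneg (hw M i))
    linarith

/-- The statement of leaf C3 (`TrListLimit.listLimit`) of package C, verbatim. -/
theorem spec_listLimit (𝒰 : Ultrafilter ℕ) {R : Type} {ι : ℕ → Type} [∀ M, Fintype (ι M)]
    (lam : (M : ℕ) → ι M → ℝ) (c : (M : ℕ) → R → ι M → ℝ) (B V : ℝ)
    (hB : ∀ M, ∑ i, lam M i ^ 2 ≤ B)
    (hc0 : ∀ M r i, 0 ≤ c M r i) (hcV : ∀ M r, ∑ i, c M r i ≤ V) :
    ∃ (l : ℕ → ℝ) (γ : R → ℕ → ℝ),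
      Summable (fun k => l k ^ 2) ∧ (∀ r k, 0 ≤ γ r k) ∧ (∀ r, Summable (γ r)) ∧
      (∀ n, 3 ≤ n → Tendsto (fun M => ∑ i, lam M i ^ n) 𝒰 (𝓝 (∑' k, l k ^ n))) ∧
      (∀ r n, 1 ≤ n →
        Tendsto (fun M => ∑ i, c M r i * lam M i ^ n) 𝒰 (𝓝 (∑' k, γ r k * l k ^ n))) ∧
      (∀ r, ∀ ε > 0, ∀ᶠ M in (𝒰 : Filter ℕ), ∑' k, γ r k ≤ ∑ i, c M r i + ε) := by
  obtain ⟨l, d, -, -, h3, -, h5, h6, -, -, h9, h10, h11⟩ :=
    spec_limit_lists 𝒰 lam (fun r M => c M r) B (fun _ => V) hB
      (fun r M => by simp only [abs_of_nonneg (hc0 M r _)]; exact hcV M r)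
  have hd0 : ∀ r k, 0 ≤ d r k := fun r => h6 r (fun M i => hc0 M r i)
  refine ⟨l, d, h3, hd0, ?_, fun n hn => (h10 n hn).2, fun r n hn => (h9 r n hn).2,
    fun r => h11 r (fun M i => hc0 M r i)⟩
  intro r
  have := (h5 r).1
  simpa only [abs_of_nonneg (hd0 r _)] using this

end Claimed.Agent.R297
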