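/-
Row 297, package C (spatial transfer), owner helper134.
The two-dimensional tensor network: row operators and closing operators.
-/
import Mathlib

namespace Claimed.Agent.R297

open Matrix

variable {A d : Type} [Fintype A] [Fintype d]

/-- Row operator of a network with vertex tensor `T a a' s s'` (`a a'` = left/right horizontal
labels, `s s'` = lower/upper vertical labels) on `n` columns; the horizontal line is closed by the
weight `γ (last label) (first label)`. -/
def rowOp (T : A → A → d → d → ℂ) (γ : A → A → ℂ) (n : ℕ) :
    Matrix (Fin n → d) (Fin n → d) ℂ :=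
  fun σ σ' => ∑ x : Fin (n + 1) → A,
    γ (x (Fin.last n)) (x 0) * ∏ j : Fin n, T (x j.castSucc) (x j.succ) (σ j) (σ' j)

/-- Tensor power of a one-site matrix `δ`. -/
def closeOp (δ : d → d → ℂ) (n : ℕ) : Matrix (Fin n → d) (Fin n → d) ℂ :=
  fun σ σ' => ∏ j : Fin n, δ (σ j) (σ' j)

/-- the vertex tensor read in the other direction. -/
def flipT (T : A → A → d → d → ℂ) : d → d → A → A → ℂ := fun s s' a a' => T a a' s s'

/-- The lemmas that are written on demand are cited here once, so that no two downstream files hold
their own copies (RULES.md, rule 6). -/
theorem trNetDefs_eqns_cited : True := by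
  have := @rowOp.eq_1; have := @closeOp.eq_1; have := @flipT.eq_1
  trivial

end Claimed.Agent.R297
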