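/-
Row 297, package C (spatial transfer), leaf C1, owner helper71.
Exact space/time duality of the two-dimensional tensor network of `TrNetDefs.lean`.
-/
import Claimed.Agent.R297.TrNetDefs

set_option linter.unusedSectionVars false

namespace Claimed.Agent.R297

open Matrix

section PathSums

variable {ι R : Type} [Fintype ι] [DecidableEq ι] [CommSemiring R]

/-- Path expansion of an ordered product of matrices, tested against an arbitrary closing
weight `f`. -/
theorem dual_path_ofFn (M : ℕ) (B : Fin M → Matrix ι ι R) (f : ι → ι → R) :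
    ∑ a, ∑ b, (List.ofFn B).prod a b * f b a
      = ∑ y : Fin (M + 1) → ι,
          (∏ t : Fin M, B t (y t.castSucc) (y t.succ)) * f (y (Fin.last M)) (y 0) := by
  induction M generalizing f with
  | zero =>
    simp only [List.ofFn_zero, List.prod_nil, Finset.univ_eq_empty, Finset.prod_empty, one_mul,
      Matrix.one_apply, ite_mul, zero_mul, Finset.sum_ite_eq, Finset.mem_univ, if_true]
    exact (Fintype.sum_equiv (Equiv.funUnique (Fin 1) ι) _ _ (fun y => rfl)).symm
  | succ M ih =>
    rw [List.ofFn_succ, List.prod_cons]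
    have h1 : ∑ a, ∑ b, (B 0 * (List.ofFn fun i => B i.succ).prod) a b * f b a
        = ∑ c, ∑ b, (List.ofFn fun i => B i.succ).prod c b * (∑ a, B 0 a c * f b a) := by
      simp only [Matrix.mul_apply, Finset.sum_mul, Finset.mul_sum]
      rw [Finset.sum_comm]
      refine Eq.trans (Finset.sum_congr rfl fun b _ => Finset.sum_comm) ?_
      rw [Finset.sum_comm]
      refine Finset.sum_congr rfl fun c _ => Finset.sum_congr rfl fun b _ =>
        Finset.sum_congr rfl fun a _ => ?_
      ring
    rw [h1, ih (fun i => B i.succ) (fun b c => ∑ a, B 0 a c * f b a)]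
    rw [← (Fin.consEquiv (fun _ : Fin (M + 1 + 1) => ι)).sum_comp, Fintype.sum_prod_type,
      Finset.sum_comm]
    refine Finset.sum_congr rfl fun y _ => ?_
    rw [Finset.mul_sum]
    refine Finset.sum_congr rfl fun a _ => ?_
    rw [Fin.prod_univ_succ]
    simp only [Fin.consEquiv, Equiv.coe_fn_mk, Fin.castSucc_zero, Fin.cons_zero, Fin.cons_succ,
      ← Fin.succ_castSucc, ← Fin.succ_last]
    ring

/-- Path expansion of `trace (W ^ M * Δ)`. -/
theorem dual_trace_pow_mul (W Δ : Matrix ι ι R) (M : ℕ) :
    trace (W ^ M * Δ)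
      = ∑ y : Fin (M + 1) → ι,
          (∏ t : Fin M, W (y t.castSucc) (y t.succ)) * Δ (y (Fin.last M)) (y 0) := by
  have h := dual_path_ofFn M (fun _ => W) (fun b a => Δ b a)
  rw [List.ofFn_const, List.prod_replicate] at h
  rw [← h]
  simp only [Matrix.trace, Matrix.diag_apply, Matrix.mul_apply]

/-- Path expansion of the trace of an ordered product. -/
theorem dual_trace_ofFn (M : ℕ) (B : Fin M → Matrix ι ι R) :
    trace (List.ofFn B).prod
      = ∑ y : Fin (M + 1) → ι,
          (if y (Fin.last M) = y 0 then 1 else 0) * ∏ t : Fin M, B t (y t.castSucc) (y t.succ) := by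
  have h := dual_path_ofFn M B (fun b a => if b = a then 1 else 0)
  simp only [mul_ite, mul_one, mul_zero, Finset.sum_ite_eq', Finset.mem_univ, if_true] at h
  simp only [Matrix.trace, Matrix.diag_apply, ite_mul, one_mul, zero_mul]
  exact h

end PathSums

variable {A d : Type} [Fintype A] [Fintype d] [DecidableEq A] [DecidableEq d]

/-- **Network duality**: contracting the `M × n` network row by row or column by column. -/
theorem net_duality (T : A → A → d → d → ℂ) (γ : A → A → ℂ) (δ : d → d → ℂ) (n M : ℕ) :
    trace ((rowOp T γ n) ^ M * closeOp δ n) = trace ((rowOp (flipT T) δ M) ^ n * closeOp γ M) := by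
  rw [dual_trace_pow_mul, dual_trace_pow_mul]
  simp only [rowOp, closeOp, flipT]
  simp only [Finset.prod_univ_sum, Fintype.piFinset_univ, Finset.sum_mul]
  rw [Finset.sum_comm]
  rw [← (Equiv.piComm (fun (_ : Fin M) (_ : Fin (n + 1)) => A)).sum_comp]
  refine Finset.sum_congr rfl fun x _ => ?_
  rw [← (Equiv.piComm (fun (_ : Fin (M + 1)) (_ : Fin n) => d)).sum_comp]
  refine Finset.sum_congr rfl fun σ _ => ?_
  simp only [Equiv.piComm_apply, Finset.prod_mul_distrib]
  rw [Finset.prod_comm]
  ring

theorem closeOp_one (n : ℕ) : closeOp (fun s s' : d => if s = s' then (1 : ℂ) else 0) n = 1 := by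
  ext σ σ'
  simp only [closeOp, Matrix.one_apply, Finset.prod_ite_zero, Finset.prod_const_one,
    Finset.mem_univ, forall_true_left, funext_iff]

theorem closeOp_mul (δ δ' : d → d → ℂ) (n : ℕ) :
    closeOp δ n * closeOp δ' n = closeOp (fun s s'' => ∑ s', δ s s' * δ' s' s'') n := by
  ext σ σ''
  simp only [closeOp, Matrix.mul_apply, Finset.prod_univ_sum, Fintype.piFinset_univ,
    Finset.prod_mul_distrib]

/-- with the Kronecker closing, the entries of a row operator are traces of ordered products. -/
theorem rowOp_kron_apply (T : A → A → d → d → ℂ) (M : ℕ) (η η' : Fin M → A) :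
    rowOp (flipT T) (fun s s' : d => if s = s' then (1 : ℂ) else 0) M η η'
      = trace ((List.ofFn fun t => (Matrix.of (T (η t) (η' t)) : Matrix d d ℂ)).prod) := by
  rw [dual_trace_ofFn]
  rfl

end Claimed.Agent.R297
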