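import Mathlib
import Claimed.Prelude.Def_0475
import Claimed.Prelude.Def_0476

/-!
# R297 model layer, part 1: one-site operators, product operators, local embeddings

Everything is stated for an arbitrary finite set of sites `ι`, an arbitrary finite local
index type `κ` and an arbitrary commutative ring `R`.  The frozen `siteOp` of both
definition groups is `mdlSite` by `rfl` (`mdlSite_eq_C0475`, `mdlSite_eq_C0476`).
-/

set_option linter.unusedSectionVars false

namespace Claimed.Agent.R297

open Matrix

section General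

variable {ι κ R : Type*} [Fintype ι] [DecidableEq ι] [Fintype κ] [DecidableEq κ]

/-- One-site operator: `A` at site `j`, identity elsewhere. -/
def mdlSite [Zero R] (j : ι) (A : Matrix κ κ R) : Matrix (ι → κ) (ι → κ) R :=
  Matrix.of fun σ τ => if ∀ k, k ≠ j → σ k = τ k then A (σ j) (τ j) else 0

theorem mdlSite_apply [Zero R] (j : ι) (A : Matrix κ κ R) (σ τ : ι → κ) :
    mdlSite j A σ τ = if ∀ k, k ≠ j → σ k = τ k then A (σ j) (τ j) else 0 := rfl

/-- Product operator `⨂ᵢ V i`. -/
def mdlTens [CommMonoid R] (V : ι → Matrix κ κ R) : Matrix (ι → κ) (ι → κ) R :=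
  Matrix.of fun σ τ => ∏ i, V i (σ i) (τ i)

theorem mdlTens_apply [CommMonoid R] (V : ι → Matrix κ κ R) (σ τ : ι → κ) :
    mdlTens V σ τ = ∏ i, V i (σ i) (τ i) := rfl

variable [CommRing R]

theorem mdlTens_mul (V W : ι → Matrix κ κ R) :
    mdlTens V * mdlTens W = mdlTens (fun i => V i * W i) := by
  ext σ τ
  simp only [Matrix.mul_apply, mdlTens_apply]
  rw [Finset.prod_univ_sum]
  simp only [Fintype.piFinset_univ, Finset.prod_mul_distrib]

theorem mdlTens_one : mdlTens (fun _ : ι => (1 : Matrix κ κ R)) = 1 := by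
  ext σ τ
  simp only [mdlTens_apply, Matrix.one_apply]
  by_cases h : σ = τ
  · subst h; simp
  · rw [if_neg h]
    obtain ⟨i, hi⟩ := Function.ne_iff.mp h
    exact Finset.prod_eq_zero (Finset.mem_univ i) (if_neg hi)

theorem mdlTens_trace (V : ι → Matrix κ κ R) :
    (mdlTens V).trace = ∏ i, (V i).trace := by
  simp only [Matrix.trace, Matrix.diag_apply, mdlTens_apply]
  rw [Finset.prod_univ_sum]
  simp only [Fintype.piFinset_univ]

theorem mdlTens_transpose (V : ι → Matrix κ κ R) :
    (mdlTens V)ᵀ = mdlTens (fun i => (V i)ᵀ) := by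
  ext σ τ; simp [mdlTens_apply]

theorem mdlTens_conjTranspose [StarRing R] (V : ι → Matrix κ κ R) :
    (mdlTens V)ᴴ = mdlTens (fun i => (V i)ᴴ) := by
  ext σ τ; simp [mdlTens_apply, Matrix.conjTranspose_apply]

theorem mdlTens_map {R' : Type*} [CommRing R'] (f : R →+* R') (V : ι → Matrix κ κ R) :
    (mdlTens V).map f = mdlTens (fun i => (V i).map f) := by
  ext σ τ; simp [mdlTens_apply]

theorem mdlSite_eq_tens (j : ι) (A : Matrix κ κ R) :
    mdlSite j A = mdlTens (Function.update (fun _ => (1 : Matrix κ κ R)) j A) := by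
  ext σ τ
  rw [mdlSite_apply, mdlTens_apply]
  split_ifs with h
  · rw [Finset.prod_eq_single j]
    · simp
    · intro b _ hb
      simp [Function.update_of_ne hb, h b hb]
    · simp
  · push Not at h
    obtain ⟨k, hk, hne⟩ := h
    symm
    apply Finset.prod_eq_zero (Finset.mem_univ k)
    simp [Function.update_of_ne hk, hne]

theorem mdlSite_one (j : ι) : mdlSite j (1 : Matrix κ κ R) = 1 := by
  rw [mdlSite_eq_tens, Function.update_eq_self_iff.mpr rfl, mdlTens_one]

theorem mdlSite_mul (j : ι) (A B : Matrix κ κ R) :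
    mdlSite j A * mdlSite j B = mdlSite j (A * B) := by
  simp only [mdlSite_eq_tens, mdlTens_mul]
  congr 1
  funext i
  by_cases h : i = j
  · subst h; simp
  · simp [Function.update_of_ne h]

theorem mdlSite_zero (j : ι) : mdlSite j (0 : Matrix κ κ R) = 0 := by
  ext σ τ; simp [mdlSite_apply]

theorem mdlSite_add (j : ι) (A B : Matrix κ κ R) :
    mdlSite j (A + B) = mdlSite j A + mdlSite j B := by
  ext σ τ
  simp only [mdlSite_apply, Matrix.add_apply]
  split_ifs <;> simp

theorem mdlSite_neg (j : ι) (A : Matrix κ κ R) : mdlSite j (-A) = -mdlSite j A := by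
  ext σ τ
  simp only [mdlSite_apply, Matrix.neg_apply]
  split_ifs <;> simp

theorem mdlSite_sub (j : ι) (A B : Matrix κ κ R) :
    mdlSite j (A - B) = mdlSite j A - mdlSite j B := by
  ext σ τ
  simp only [mdlSite_apply, Matrix.sub_apply]
  split_ifs <;> simp

theorem mdlSite_smul (j : ι) (c : R) (A : Matrix κ κ R) :
    mdlSite j (c • A) = c • mdlSite j A := by
  ext σ τ
  simp only [mdlSite_apply, Matrix.smul_apply]
  split_ifs <;> simp

theorem mdlSite_sum {α : Type*} (s : Finset α) (j : ι) (A : α → Matrix κ κ R) :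
    mdlSite j (∑ a ∈ s, A a) = ∑ a ∈ s, mdlSite j (A a) := by
  classical
  induction s using Finset.induction_on with
  | empty => simp [mdlSite_zero]
  | insert a s ha ih => rw [Finset.sum_insert ha, Finset.sum_insert ha, mdlSite_add, ih]

theorem mdlSite_transpose (j : ι) (A : Matrix κ κ R) : (mdlSite j A)ᵀ = mdlSite j Aᵀ := by
  ext σ τ
  simp only [mdlSite_apply, Matrix.transpose_apply]
  congr 1
  exact propext ⟨fun h k hk => (h k hk).symm, fun h k hk => (h k hk).symm⟩

theorem mdlSite_conjTranspose [StarRing R] (j : ι) (A : Matrix κ κ R) :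
    (mdlSite j A)ᴴ = mdlSite j Aᴴ := by
  ext σ τ
  simp only [mdlSite_apply, Matrix.conjTranspose_apply]
  have : (∀ k, k ≠ j → τ k = σ k) ↔ (∀ k, k ≠ j → σ k = τ k) :=
    ⟨fun h k hk => (h k hk).symm, fun h k hk => (h k hk).symm⟩
  by_cases h : ∀ k, k ≠ j → σ k = τ k
  · rw [if_pos h, if_pos (this.mpr h)]
  · rw [if_neg h, if_neg (fun h' => h (this.mp h')), star_zero]

theorem mdlSite_map {R' : Type*} [CommRing R'] (f : R →+* R') (j : ι) (A : Matrix κ κ R) :
    (mdlSite j A).map f = mdlSite j (A.map f) := by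
  ext σ τ
  simp only [mdlSite_apply, Matrix.map_apply]
  split_ifs <;> simp

theorem mdlSite_mul_of_ne {j k : ι} (hjk : j ≠ k) (A B : Matrix κ κ R) :
    mdlSite j A * mdlSite k B =
      mdlTens (Function.update (Function.update (fun _ => (1 : Matrix κ κ R)) j A) k B) := by
  simp only [mdlSite_eq_tens, mdlTens_mul]
  congr 1
  funext i
  by_cases h : i = k
  · subst h; simp [Function.update_of_ne hjk.symm]
  · by_cases h' : i = j
    · subst h'; simp [Function.update_of_ne h]
    · simp [Function.update_of_ne h, Function.update_of_ne h']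

theorem mdlSite_comm {j k : ι} (hjk : j ≠ k) (A B : Matrix κ κ R) :
    mdlSite j A * mdlSite k B = mdlSite k B * mdlSite j A := by
  rw [mdlSite_mul_of_ne hjk, mdlSite_mul_of_ne hjk.symm, Function.update_comm hjk]

/-- Entry formula for a product of two one-site operators at distinct sites. -/
theorem mdlSite_mul_apply_of_ne {j k : ι} (hjk : j ≠ k) (A B : Matrix κ κ R) (σ τ : ι → κ) :
    (mdlSite j A * mdlSite k B) σ τ =
      if ∀ l, l ≠ j → l ≠ k → σ l = τ l then A (σ j) (τ j) * B (σ k) (τ k) else 0 := by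
  rw [mdlSite_mul_of_ne hjk, mdlTens_apply]
  split_ifs with h
  · have hsub : ∀ i ∈ (Finset.univ : Finset ι), i ∉ ({j, k} : Finset ι) →
        Function.update (Function.update (fun _ => (1 : Matrix κ κ R)) j A) k B i (σ i) (τ i)
          = 1 := by
      intro i _ hi
      simp only [Finset.mem_insert, Finset.mem_singleton, not_or] at hi
      simp [Function.update_of_ne hi.1, Function.update_of_ne hi.2, h i hi.1 hi.2]
    rw [← Finset.prod_subset (Finset.subset_univ ({j, k} : Finset ι)) hsub,
      Finset.prod_pair hjk]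
    simp [Function.update_of_ne hjk]
  · push Not at h
    obtain ⟨l, hl1, hl2, hne⟩ := h
    apply Finset.prod_eq_zero (Finset.mem_univ l)
    simp [Function.update_of_ne hl1, Function.update_of_ne hl2, hne]

/-- Similarity by a product operator. -/
theorem mdlTens_mul_site_mul (V V' : ι → Matrix κ κ R) (hV : ∀ i, V i * V' i = 1) (j : ι)
    (A : Matrix κ κ R) :
    mdlTens V * mdlSite j A * mdlTens V' = mdlSite j (V j * A * V' j) := by
  simp only [mdlSite_eq_tens, mdlTens_mul]
  congr 1
  funext i
  by_cases h : i = j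
  · subst h; simp
  · simp [Function.update_of_ne h, hV i]

theorem mdlTens_mul_inv (V V' : ι → Matrix κ κ R) (hV : ∀ i, V i * V' i = 1) :
    mdlTens V * mdlTens V' = 1 := by
  rw [mdlTens_mul]
  simp only [hV, mdlTens_one]

/-- Action of a one-site operator on a vector. -/
theorem mdlSite_mulVec (j : ι) (A : Matrix κ κ R) (v : (ι → κ) → R) (σ : ι → κ) :
    (mdlSite j A *ᵥ v) σ = ∑ s, A (σ j) s * v (Function.update σ j s) := by
  simp only [Matrix.mulVec, dotProduct, mdlSite_apply]
  symm
  apply Finset.sum_of_injOn (fun s => Function.update σ j s)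
  · intro a _ b _ hab
    have := congrFun hab j
    simpa using this
  · intro a _; exact Finset.mem_coe.mpr (Finset.mem_univ _)
  · intro τ _ hτ
    rw [if_neg, zero_mul]
    intro h
    apply hτ
    refine ⟨τ j, Finset.mem_coe.mpr (Finset.mem_univ _), ?_⟩
    funext k
    by_cases hk : k = j
    · subst hk; simp
    · simp [Function.update_of_ne hk, h k hk]
  · intro s _
    rw [if_pos]
    · simp
    · intro k hk; simp [Function.update_of_ne hk]

end General

/-- The frozen `siteOp` (group 0475) is `mdlSite`. -/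
theorem mdlSite_eq_C0475 {ι : Type} [Fintype ι] [DecidableEq ι] (j : ι)
    (A : Matrix (Fin 3) (Fin 3) ℂ) : Claims.C0475.siteOp j A = mdlSite j A := rfl

/-- The frozen `siteOp` (group 0476) is `mdlSite`. -/
theorem mdlSite_eq_C0476 {ι : Type} [Fintype ι] [DecidableEq ι] (j : ι)
    (A : Matrix (Fin 3) (Fin 3) ℂ) : Claims.C0476.siteOp j A = mdlSite j A := rfl

end Claimed.Agent.R297
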