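/-
Row 297 (spin-one Haldane gap), package C (spatial transfer), owner helper134.
Shared definitions: Gibbs sums of Hermitian matrices, twisted rings, open chains with endpoint
fields, shifted partition functions.  Everything is phrased with the frozen `Claims.C0475` objects.
-/
import Claimed.Prelude.Def_0475
import Claimed.Prelude.Def_0476

namespace Claimed.Agent.R297

open Matrix

/-- `∑ₖ exp (-b εₖ)` over the eigenvalues (with multiplicity) of a Hermitian matrix; junk value `0`
for a matrix that is not Hermitian. -/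
noncomputable def gibbsZ {n : Type} [Fintype n] [DecidableEq n] (H : Matrix n n ℂ) (b : ℝ) : ℝ :=
  open Classical in
  if h : H.IsHermitian then ∑ k, Real.exp (-b * h.eigenvalues k) else 0

theorem gibbsZ_eq {n : Type} [Fintype n] [DecidableEq n] {H : Matrix n n ℂ} (h : H.IsHermitian)
    (b : ℝ) : gibbsZ H b = ∑ k, Real.exp (-b * h.eigenvalues k) := by
  unfold gibbsZ
  rw [dif_pos h]

/-- The ring of `n` sites whose seam bond (from site `n-1` to site `0`) is twisted by the real
matrix `R`:  `∑_{j<n-1} S_j·S_{j+1} + ∑_{α β} R α β S^α_{n-1} S^β_0`. -/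
noncomputable def twistRing (n : ℕ) (R : Matrix (Fin 3) (Fin 3) ℝ) :
    Matrix (Fin n → Fin 3) (Fin n → Fin 3) ℂ :=
  ∑ j : Fin n, ∑ α : Fin 3, ∑ β : Fin 3,
    (((if (j : ℕ) + 1 = n then R α β else (1 : Matrix (Fin 3) (Fin 3) ℝ) α β : ℝ)) : ℂ) •
      (Claims.C0475.siteOp j (Claims.C0475.spinOne α) *
        Claims.C0475.siteOp (finRotate n j) (Claims.C0475.spinOne β))

/-- The open chain of `m+1` sites with endpoint fields: `∑ S_i·S_{i+1} - hL S^z_0 - hR S^z_m`. -/
noncomputable def openChain (m : ℕ) (hL hR : ℝ) :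
    Matrix (Fin (m + 1) → Fin 3) (Fin (m + 1) → Fin 3) ℂ :=
  (∑ i : Fin m, ∑ α : Fin 3,
      Claims.C0475.siteOp (Fin.castSucc i) (Claims.C0475.spinOne α) *
        Claims.C0475.siteOp (Fin.succ i) (Claims.C0475.spinOne α)) -
    (hL : ℂ) • Claims.C0475.siteOp (0 : Fin (m + 1)) (Claims.C0475.spinOne 2) -
    (hR : ℂ) • Claims.C0475.siteOp (Fin.last m) (Claims.C0475.spinOne 2)

/-- The open chain of `m+1` sites with left field along `z` and right field along `x`:
`∑ S_i·S_{i+1} - hL S^z_0 - hR S^x_m`. -/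
noncomputable def openChainX (m : ℕ) (hL hR : ℝ) :
    Matrix (Fin (m + 1) → Fin 3) (Fin (m + 1) → Fin 3) ℂ :=
  (∑ i : Fin m, ∑ α : Fin 3,
      Claims.C0475.siteOp (Fin.castSucc i) (Claims.C0475.spinOne α) *
        Claims.C0475.siteOp (Fin.succ i) (Claims.C0475.spinOne α)) -
    (hL : ℂ) • Claims.C0475.siteOp (0 : Fin (m + 1)) (Claims.C0475.spinOne 2) -
    (hR : ℂ) • Claims.C0475.siteOp (Fin.last m) (Claims.C0475.spinOne 0)

/-- rotation by `π` about the `z` axis. -/
def rotP : Matrix (Fin 3) (Fin 3) ℝ := !![-1, 0, 0; 0, -1, 0; 0, 0, 1]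

/-- the cyclic rotation of the three axes. -/
def rotC : Matrix (Fin 3) (Fin 3) ℝ := !![0, 0, 1; 1, 0, 0; 0, 1, 0]

/-- shifted partition function of the twisted ring: `Tr exp (-b (H_n(R) + a n))`. -/
noncomputable def Zring (a : ℝ) (n : ℕ) (R : Matrix (Fin 3) (Fin 3) ℝ) (b : ℝ) : ℝ :=
  Real.exp (-(a * b * n)) * gibbsZ (twistRing n R) b

/-- shifted partition function of the open chain of `n` sites with endpoint fields
`- hL S^z_first - hR S^z_last` (junk value `0` for `n = 0`). -/
noncomputable def Zopen (a : ℝ) (n : ℕ) (hL hR : ℝ) (b : ℝ) : ℝ :=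
  match n with
  | 0 => 0
  | m + 1 => Real.exp (-(a * b * (m + 1 : ℕ))) * gibbsZ (openChain m hL hR) b

/-- the same with the right field along `x`: `- hL S^z_first - hR S^x_last`. -/
noncomputable def ZopenX (a : ℝ) (n : ℕ) (hL hR : ℝ) (b : ℝ) : ℝ :=
  match n with
  | 0 => 0
  | m + 1 => Real.exp (-(a * b * (m + 1 : ℕ))) * gibbsZ (openChainX m hL hR) b

theorem twistRing_one (n : ℕ) : twistRing n 1 = Claims.C0475.heisenbergRing n := by
  unfold twistRing Claims.C0475.heisenbergRing
  refine Finset.sum_congr rfl fun j _ => Finset.sum_congr rfl fun α _ => ?_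
  rw [Finset.sum_eq_single α]
  · simp
  · intro β _ hβ
    simp [Ne.symm hβ]
  · simp

theorem heisenbergOpenField_eq (L : ℕ) (h : ℝ) :
    Claims.C0476.heisenbergOpenField L h = openChain (2 * L) h h := by
  unfold Claims.C0476.heisenbergOpenField openChain
  rw [smul_add, sub_sub]
  rfl

/-- The lemmas that are written on demand (equation lemmas, `congr_simp`) are cited here once, so
that no two downstream files hold their own copies (RULES.md, rule 6). -/
theorem transferDefs_eqns_cited : True := by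
  have := @gibbsZ.eq_1; have := @gibbsZ.congr_simp
  have := @twistRing.eq_1; have := @openChain.eq_1; have := @openChainX.eq_1
  have := @rotP.eq_1; have := @rotC.eq_1
  have := @Zring.eq_1; have := @Zopen.eq_1; have := @Zopen.eq_2
  have := @ZopenX.eq_1; have := @ZopenX.eq_2
  have := @Claims.C0475.spinOne.eq_1; have := @Claims.C0475.siteOp.eq_1
  have := @Claims.C0475.siteOp.congr_simp; have := @Claims.C0475.heisenbergRing.eq_1
  have := @Claims.C0476.spinOne.eq_1; have := @Claims.C0476.siteOp.eq_1
  have := @Claims.C0476.siteOp.congr_simp; have := @Claims.C0476.heisenbergOpenField.eq_1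
  trivial

end Claimed.Agent.R297
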