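/-
Row 297, package C (spatial transfer), owner helper134.
The concrete vertex tensor of the spin-one chain in the Cartesian basis, the discrete spatial
transfer matrix `XM κ M` on histories `Fin M → Option (Fin 3)`, the rotation operators `UM R M`
and the boundary vectors `bvec c M`.   Here `κ ^ 2 = b / M` is the time step.
-/
import Claimed.Agent.R297.TransferDefs
import Claimed.Agent.R297.TrNetDefs

namespace Claimed.Agent.R297

open Matrix

/-- bond labels: `none` = no event in this time slot, `some α` = an event of colour `α`. -/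
abbrev Lab := Option (Fin 3)

/-- The real antisymmetric generators `(G_α)_{βγ} = -ε_{αβγ}`; `S^α = i G_α` is a spin-one
representation and `-S·S = ∑_α G_α ⊗ G_α`. -/
def Gc : Fin 3 → Matrix (Fin 3) (Fin 3) ℂ :=
  ![!![0, 0, 0; 0, 0, -1; 0, 1, 0], !![0, 0, 1; 0, 0, 0; -1, 0, 0], !![0, -1, 0; 1, 0, 0; 0, 0, 0]]

/-- Cartesian spin matrices. -/
noncomputable def cartSpin (α : Fin 3) : Matrix (Fin 3) (Fin 3) ℂ := Complex.I • Gc α

/-- `twistRing` for arbitrary one-site matrices `S`. -/
noncomputable def ringOf (S : Fin 3 → Matrix (Fin 3) (Fin 3) ℂ) (n : ℕ)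
    (R : Matrix (Fin 3) (Fin 3) ℝ) : Matrix (Fin n → Fin 3) (Fin n → Fin 3) ℂ :=
  ∑ j : Fin n, ∑ α : Fin 3, ∑ β : Fin 3,
    (((if (j : ℕ) + 1 = n then R α β else (1 : Matrix (Fin 3) (Fin 3) ℝ) α β : ℝ)) : ℂ) •
      (Claims.C0475.siteOp j (S α) * Claims.C0475.siteOp (finRotate n j) (S β))

/-- `openChain` for arbitrary one-site matrices `S`, with the right field along the axis `β`. -/
noncomputable def chainOf (S : Fin 3 → Matrix (Fin 3) (Fin 3) ℂ) (m : ℕ) (hL hR : ℝ) (β : Fin 3) :
    Matrix (Fin (m + 1) → Fin 3) (Fin (m + 1) → Fin 3) ℂ :=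
  (∑ i : Fin m, ∑ α : Fin 3,
      Claims.C0475.siteOp (Fin.castSucc i) (S α) * Claims.C0475.siteOp (Fin.succ i) (S α)) -
    (hL : ℂ) • Claims.C0475.siteOp (0 : Fin (m + 1)) (S 2) -
    (hR : ℂ) • Claims.C0475.siteOp (Fin.last m) (S β)

theorem twistRing_eq_ringOf (n : ℕ) (R : Matrix (Fin 3) (Fin 3) ℝ) :
    twistRing n R = ringOf Claims.C0475.spinOne n R := rfl

theorem openChain_eq_chainOf (m : ℕ) (hL hR : ℝ) :
    openChain m hL hR = chainOf Claims.C0475.spinOne m hL hR 2 := rfl

theorem openChainX_eq_chainOf (m : ℕ) (hL hR : ℝ) :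
    openChainX m hL hR = chainOf Claims.C0475.spinOne m hL hR 0 := rfl

/-- one-site factor: at most one of the two incident bonds has an event in a given slot. -/
def siteT (κ : ℝ) : Lab → Lab → Matrix (Fin 3) (Fin 3) ℂ
  | none, none => 1
  | some α, none => (κ : ℂ) • Gc α
  | none, some α => (κ : ℂ) • Gc α
  | some _, some _ => 0

/-- the vertex tensor. -/
def tens (κ : ℝ) : Lab → Lab → Fin 3 → Fin 3 → ℂ := fun a a' s s' => siteT κ a a' s s'

/-- Kronecker closing weight. -/
def kron3 : Fin 3 → Fin 3 → ℂ := fun s s' => if s = s' then 1 else 0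

/-- seam weight of a rotation: the `4 × 4` matrix `1 ⊕ R`. -/
def gam (R : Matrix (Fin 3) (Fin 3) ℝ) : Lab → Lab → ℂ
  | none, none => 1
  | some α, some β => (R α β : ℂ)
  | _, _ => 0

/-- one-slot boundary weight: only events of colour `β`, each with coefficient `c`. -/
def bpsi (β : Fin 3) (c : ℂ) : Lab → ℂ
  | none => 1
  | some α => if α = β then c else 0

/-- closing weight of an open chain (`z` events with coefficient `cL` at the first site, `β` events
with coefficient `cR` at the last one). -/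
def gamOpen (β : Fin 3) (cL cR : ℂ) : Lab → Lab → ℂ := fun a' a => bpsi β cR a' * bpsi 2 cL a

/-- the discrete spatial transfer matrix (real symmetric). -/
def XM (κ : ℝ) (M : ℕ) : Matrix (Fin M → Lab) (Fin M → Lab) ℂ := rowOp (flipT (tens κ)) kron3 M

/-- the rotation operators on histories. -/
def UM (R : Matrix (Fin 3) (Fin 3) ℝ) (M : ℕ) : Matrix (Fin M → Lab) (Fin M → Lab) ℂ :=
  closeOp (gam R) M

/-- boundary vector. -/
def bvec (β : Fin 3) (c : ℂ) (M : ℕ) : (Fin M → Lab) → ℂ := fun η => ∏ t, bpsi β c (η t)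

/-- rotations by `π` about the `x` and `y` axes (`rotP` is the one about `z`). -/
def rotPx : Matrix (Fin 3) (Fin 3) ℝ := !![1, 0, 0; 0, -1, 0; 0, 0, -1]
def rotPy : Matrix (Fin 3) (Fin 3) ℝ := !![-1, 0, 0; 0, 1, 0; 0, 0, -1]

/-- The lemmas that are written on demand are cited here once, so that no two downstream files hold
their own copies (RULES.md, rule 6). -/
theorem trConcreteDefs_eqns_cited : True := by
  have := @Gc.eq_1; have := @cartSpin.eq_1; have := @ringOf.eq_1; have := @chainOf.eq_1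
  have := @siteT.eq_1; have := @siteT.eq_2; have := @siteT.eq_3; have := @siteT.eq_4
  have := @tens.eq_1; have := @kron3.eq_1
  have := @gam.eq_1; have := @gam.eq_2; have := @gam.eq_3
  have := @bpsi.eq_1; have := @bpsi.eq_2; have := @gamOpen.eq_1
  have := @XM.eq_1; have := @UM.eq_1; have := @bvec.eq_1; have := @rotPx.eq_1; have := @rotPy.eq_1
  trivial

end Claimed.Agent.R297
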