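/-
Row 297, package C (spatial transfer), leaf C7: moments and quadratic forms of Hermitian matrices
in terms of `Matrix.IsHermitian.eigenvalues`.
-/
import Mathlib

namespace Claimed.Agent.R297

open Matrix

variable {ι : Type} [Fintype ι] [DecidableEq ι]

/-- spectral weight of the vector `w` on the `k`-th eigenvector of the Hermitian matrix `A`. -/
noncomputable def hermWeight {A : Matrix ι ι ℂ} (hA : A.IsHermitian) (w : ι → ℂ) (k : ι) : ℝ :=
  ‖star (⇑(hA.eigenvectorBasis k) : ι → ℂ) ⬝ᵥ w‖ ^ 2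

theorem hermWeight_nonneg {A : Matrix ι ι ℂ} (hA : A.IsHermitian) (w : ι → ℂ) (k : ι) :
    0 ≤ hermWeight hA w k := by
  unfold hermWeight; positivity

theorem hermWeight_le {A : Matrix ι ι ℂ} (hA : A.IsHermitian) (w : ι → ℂ) (k : ι) :
    hermWeight hA w k ≤ ∑ i, ‖w i‖ ^ 2 := by
  unfold hermWeight
  have h1 : star (⇑(hA.eigenvectorBasis k) : ι → ℂ) ⬝ᵥ w
      = inner ℂ (hA.eigenvectorBasis k) (WithLp.toLp 2 w : EuclideanSpace ℂ ι) := by
    rw [EuclideanSpace.inner_eq_star_dotProduct, dotProduct_comm]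
  rw [h1]
  have h2 := norm_inner_le_norm (𝕜 := ℂ) (hA.eigenvectorBasis k)
    (WithLp.toLp 2 w : EuclideanSpace ℂ ι)
  rw [hA.eigenvectorBasis.orthonormal.1 k, one_mul] at h2
  have h3 : ‖(WithLp.toLp 2 w : EuclideanSpace ℂ ι)‖ ^ 2 = ∑ i, ‖w i‖ ^ 2 := by
    rw [EuclideanSpace.norm_sq_eq]
  rw [← h3]
  exact pow_le_pow_left₀ (norm_nonneg _) h2 2

/-- powers of a Hermitian matrix in the eigenvector basis. -/
theorem herm_pow_eq {A : Matrix ι ι ℂ} (hA : A.IsHermitian) (n : ℕ) :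
    A ^ n = (hA.eigenvectorUnitary : Matrix ι ι ℂ)
      * diagonal (fun k => ((hA.eigenvalues k ^ n : ℝ) : ℂ))
      * star (hA.eigenvectorUnitary : Matrix ι ι ℂ) := by
  conv_lhs => rw [hA.spectral_theorem]
  rw [← map_pow, diagonal_pow, Unitary.conjStarAlgAut_apply]
  have e : (RCLike.ofReal ∘ hA.eigenvalues : ι → ℂ) ^ n
      = fun k => ((hA.eigenvalues k ^ n : ℝ) : ℂ) := by
    funext k
    simp
  rw [e]

theorem herm_trace_pow {A : Matrix ι ι ℂ} (hA : A.IsHermitian) (n : ℕ) :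
    trace (A ^ n) = ((∑ k, hA.eigenvalues k ^ n : ℝ) : ℂ) := by
  rw [herm_pow_eq hA n, trace_mul_cycle, Unitary.coe_star_mul_self, one_mul, trace_diagonal]
  push_cast
  rfl

theorem herm_quad_pow {A : Matrix ι ι ℂ} (hA : A.IsHermitian) (w : ι → ℂ) (n : ℕ) :
    star w ⬝ᵥ ((A ^ n) *ᵥ w) = ((∑ k, hermWeight hA w k * hA.eigenvalues k ^ n : ℝ) : ℂ) := by
  set U : Matrix ι ι ℂ := (hA.eigenvectorUnitary : Matrix ι ι ℂ) with hU
  set c : ι → ℂ := star U *ᵥ w with hc
  have hck : ∀ k, c k = star (⇑(hA.eigenvectorBasis k) : ι → ℂ) ⬝ᵥ w := by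
    intro k
    simp only [hc, mulVec, dotProduct, hU, star_apply, IsHermitian.eigenvectorUnitary_apply,
      Pi.star_apply]
  have hsc : star c = star w ᵥ* U := by
    rw [hc, star_mulVec, star_eq_conjTranspose, conjTranspose_conjTranspose]
  rw [herm_pow_eq hA n, ← hU, ← mulVec_mulVec, ← mulVec_mulVec, dotProduct_mulVec, ← hsc, ← hc]
  simp only [dotProduct, mulVec_diagonal, Pi.star_apply]
  push_cast
  apply Finset.sum_congr rfl
  intro k _
  unfold hermWeight
  rw [← hck k]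
  have : (starRingEnd ℂ) (c k) * c k = ((‖c k‖ ^ 2 : ℝ) : ℂ) := by
    rw [Complex.conj_mul']; norm_cast
  calc star (c k) * ((hA.eigenvalues k : ℂ) ^ n * c k)
      = ((starRingEnd ℂ) (c k) * c k) * (hA.eigenvalues k : ℂ) ^ n := by
        rw [starRingEnd_apply]; ring
    _ = _ := by rw [this]

theorem hermWeight_sum {A : Matrix ι ι ℂ} (hA : A.IsHermitian) (w : ι → ℂ) :
    ∑ k, hermWeight hA w k = ∑ i, ‖w i‖ ^ 2 := by
  have h := herm_quad_pow hA w 0
  simp only [pow_zero, one_mulVec, mul_one] at h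
  have h2 : star w ⬝ᵥ w = ((∑ i, ‖w i‖ ^ 2 : ℝ) : ℂ) := by
    simp only [dotProduct, Pi.star_apply]
    push_cast
    refine Finset.sum_congr rfl fun i _ => ?_
    rw [Complex.star_def, Complex.conj_mul']
  rw [h2] at h
  exact_mod_cast h.symm

end Claimed.Agent.R297
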