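/-
Row 297, package C (spatial transfer), leaf C2: `Tr (1 - (b/M) H + O(M⁻²))^M → ∑ₖ exp (-b εₖ)`.
Owner of this file: helper48.  No sorry here (uses `herm_trace_pow` of `TrSpectral`).
-/
import Claimed.Agent.R297.TransferDefs
import Claimed.Agent.R297.TrSpectral

namespace Claimed.Agent.R297

open Matrix Filter Topology

variable {ι : Type} [Fintype ι] [DecidableEq ι]

section norms

attribute [local instance] Matrix.linftyOpNormedAddCommGroup Matrix.linftyOpNormedSpace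
  Matrix.linftyOpNormedRing Matrix.linftyOpNormedAlgebra

/-- telescoping estimate for powers in a normed ring. -/
theorem explim_norm_pow_sub_pow_le {R : Type*} [NormedRing R] (a b : R) {c : ℝ}
    (ha : ‖a‖ ≤ c) (hb : ‖b‖ ≤ c) (n : ℕ) :
    ‖a ^ (n + 1) - b ^ (n + 1)‖ ≤ (n + 1 : ℝ) * c ^ n * ‖a - b‖ := by
  have hc : 0 ≤ c := (norm_nonneg a).trans ha
  induction n with
  | zero => simp
  | succ n ih =>
    have e : a ^ (n + 1 + 1) - b ^ (n + 1 + 1)
        = a ^ (n + 1) * (a - b) + (a ^ (n + 1) - b ^ (n + 1)) * b := by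
      rw [pow_succ a (n + 1), pow_succ b (n + 1)]
      noncomm_ring
    have h1 : ‖a ^ (n + 1)‖ ≤ c ^ (n + 1) :=
      (norm_pow_le' a (Nat.succ_pos n)).trans (pow_le_pow_left₀ (norm_nonneg a) ha _)
    calc ‖a ^ (n + 1 + 1) - b ^ (n + 1 + 1)‖
        ≤ ‖a ^ (n + 1) * (a - b)‖ + ‖(a ^ (n + 1) - b ^ (n + 1)) * b‖ := by
          rw [e]; exact norm_add_le _ _
      _ ≤ ‖a ^ (n + 1)‖ * ‖a - b‖ + ‖a ^ (n + 1) - b ^ (n + 1)‖ * ‖b‖ :=
          add_le_add (norm_mul_le _ _) (norm_mul_le _ _)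
      _ ≤ c ^ (n + 1) * ‖a - b‖ + ((n + 1 : ℝ) * c ^ n * ‖a - b‖) * c := by
          gcongr
      _ = ((n + 1 : ℕ) + 1 : ℝ) * c ^ (n + 1) * ‖a - b‖ := by
          push_cast; ring

theorem explim_norm_le_of_entries (A : Matrix ι ι ℂ) {e : ℝ} (he : 0 ≤ e)
    (h : ∀ i j, ‖A i j‖ ≤ e) : ‖A‖ ≤ Fintype.card ι * e := by
  rw [Matrix.linfty_opNorm_def]
  have : ((Finset.univ : Finset ι).sup fun i : ι => ∑ j : ι, ‖A i j‖₊)
      ≤ (⟨Fintype.card ι * e, by positivity⟩ : NNReal) := by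
    apply Finset.sup_le
    intro i _
    have h3 : ∑ j : ι, ‖A i j‖ ≤ Fintype.card ι * e := by
      calc ∑ j : ι, ‖A i j‖ ≤ ∑ _j : ι, e := Finset.sum_le_sum fun j _ => h i j
        _ = Fintype.card ι * e := by simp
    apply NNReal.coe_le_coe.mp
    push_cast
    exact h3
  exact_mod_cast this

theorem explim_entry_le_norm (A : Matrix ι ι ℂ) (i j : ι) : ‖A i j‖ ≤ ‖A‖ := by
  rw [Matrix.linfty_opNorm_def]
  have h1 : (∑ j : ι, ‖A i j‖₊) ≤ (Finset.univ : Finset ι).sup fun i : ι => ∑ j : ι, ‖A i j‖₊ :=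
    Finset.le_sup (f := fun i : ι => ∑ j : ι, ‖A i j‖₊) (Finset.mem_univ i)
  have h2 : ‖A i j‖₊ ≤ ∑ j : ι, ‖A i j‖₊ :=
    Finset.single_le_sum (f := fun j => ‖A i j‖₊) (fun _ _ => zero_le) (Finset.mem_univ j)
  exact_mod_cast h2.trans h1

theorem explim_norm_trace_le (A : Matrix ι ι ℂ) : ‖trace A‖ ≤ Fintype.card ι * ‖A‖ := by
  unfold Matrix.trace
  calc ‖∑ i, A.diag i‖ ≤ ∑ i, ‖A.diag i‖ := norm_sum_le _ _
    _ ≤ ∑ _i : ι, ‖A‖ := Finset.sum_le_sum fun i _ => explim_entry_le_norm A i i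
    _ = Fintype.card ι * ‖A‖ := by simp

theorem explim_norm_one_le : ‖(1 : Matrix ι ι ℂ)‖ ≤ 1 := by
  rw [← Matrix.diagonal_one, Matrix.linfty_opNorm_diagonal]
  exact (pi_norm_le_iff_of_nonneg zero_le_one).mpr fun _ => by simp

/-- The perturbation estimate: `‖Tr W^M - Tr B^M‖ ≤ n² e^K C / M`. -/
theorem explim_trace_pow_sub_le (H : Matrix ι ι ℂ) (b C : ℝ) (hC : 0 ≤ C) (W : Matrix ι ι ℂ)
    (M : ℕ) (hM : 1 ≤ M)
    (hW : ∀ i j, ‖(W - (1 - (((b / M : ℝ)) : ℂ) • H)) i j‖ ≤ C / (M : ℝ) ^ 2) :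
    ‖trace (W ^ M) - trace ((1 - (((b / M : ℝ)) : ℂ) • H) ^ M)‖ ≤
      Fintype.card ι * (Real.exp (|b| * ‖H‖ + Fintype.card ι * C) * (Fintype.card ι * C)) / M := by
  set B : Matrix ι ι ℂ := 1 - (((b / M : ℝ)) : ℂ) • H with hB
  set n : ℝ := (Fintype.card ι : ℝ) with hn
  have hn0 : 0 ≤ n := by positivity
  have hM0 : (0 : ℝ) < M := by exact_mod_cast hM
  have hM1 : (1 : ℝ) ≤ M := by exact_mod_cast hM
  set K : ℝ := |b| * ‖H‖ + n * C with hK
  have hK0 : 0 ≤ K := by positivity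
  have hWB : ‖W - B‖ ≤ n * (C / (M : ℝ) ^ 2) :=
    explim_norm_le_of_entries _ (by positivity) hW
  have hBn : ‖B‖ ≤ 1 + |b| * ‖H‖ / M := by
    calc ‖B‖ ≤ ‖(1 : Matrix ι ι ℂ)‖ + ‖(((b / M : ℝ)) : ℂ) • H‖ := norm_sub_le _ _
      _ ≤ 1 + |b| * ‖H‖ / M := by
        refine add_le_add explim_norm_one_le ?_
        rw [norm_smul, Complex.norm_real, Real.norm_eq_abs, abs_div, abs_of_pos hM0]
        exact le_of_eq (by ring)
  have hsq : C / (M : ℝ) ^ 2 ≤ C / M := by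
    apply div_le_div_of_nonneg_left hC hM0
    nlinarith
  have hBc : ‖B‖ ≤ 1 + K / M := by
    have : 0 ≤ n * C / M := by positivity
    calc ‖B‖ ≤ 1 + |b| * ‖H‖ / M := hBn
      _ ≤ 1 + K / M := by rw [hK, add_div]; linarith
  have hWc : ‖W‖ ≤ 1 + K / M := by
    calc ‖W‖ = ‖B + (W - B)‖ := by rw [add_sub_cancel]
      _ ≤ ‖B‖ + ‖W - B‖ := norm_add_le _ _
      _ ≤ (1 + |b| * ‖H‖ / M) + n * (C / M) :=
          add_le_add hBn (hWB.trans (mul_le_mul_of_nonneg_left hsq hn0))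
      _ = 1 + K / M := by rw [hK]; ring
  obtain ⟨m, rfl⟩ : ∃ m, M = m + 1 := ⟨M - 1, by omega⟩
  have hc1 : (1 : ℝ) ≤ 1 + K / ((m + 1 : ℕ) : ℝ) := by
    have : 0 ≤ K / ((m + 1 : ℕ) : ℝ) := by positivity
    linarith
  have hpow : (1 + K / ((m + 1 : ℕ) : ℝ)) ^ m ≤ Real.exp K := by
    calc (1 + K / ((m + 1 : ℕ) : ℝ)) ^ m ≤ (1 + K / ((m + 1 : ℕ) : ℝ)) ^ (m + 1) :=
          pow_le_pow_right₀ hc1 (Nat.le_succ m)
      _ ≤ Real.exp (K / ((m + 1 : ℕ) : ℝ)) ^ (m + 1) := by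
          apply pow_le_pow_left₀ (by linarith)
          have := Real.add_one_le_exp (K / ((m + 1 : ℕ) : ℝ))
          linarith
      _ = Real.exp K := by
          rw [← Real.exp_nat_mul]
          congr 1
          field_simp
  have htel := explim_norm_pow_sub_pow_le W B hWc hBc m
  have h1 : ‖W ^ (m + 1) - B ^ (m + 1)‖ ≤
      Real.exp K * (n * C) / ((m + 1 : ℕ) : ℝ) := by
    calc ‖W ^ (m + 1) - B ^ (m + 1)‖
        ≤ (m + 1 : ℝ) * (1 + K / ((m + 1 : ℕ) : ℝ)) ^ m * ‖W - B‖ := htel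
      _ ≤ (m + 1 : ℝ) * Real.exp K * (n * (C / (((m + 1 : ℕ) : ℝ)) ^ 2)) := by
          gcongr
      _ = Real.exp K * (n * C) / ((m + 1 : ℕ) : ℝ) := by
          push_cast
          field_simp
  calc ‖trace (W ^ (m + 1)) - trace (B ^ (m + 1))‖
      = ‖trace (W ^ (m + 1) - B ^ (m + 1))‖ := by rw [Matrix.trace_sub]
    _ ≤ n * ‖W ^ (m + 1) - B ^ (m + 1)‖ := explim_norm_trace_le _
    _ ≤ n * (Real.exp K * (n * C) / ((m + 1 : ℕ) : ℝ)) := mul_le_mul_of_nonneg_left h1 hn0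
    _ = n * (Real.exp K * (n * C)) / ((m + 1 : ℕ) : ℝ) := by ring

end norms

/-- Traces of polynomials of a Hermitian matrix. -/
theorem explim_trace_aeval {H : Matrix ι ι ℂ} (hH : H.IsHermitian) (p : Polynomial ℂ) :
    trace (Polynomial.aeval H p) = ∑ k, p.eval ((hH.eigenvalues k : ℝ) : ℂ) := by
  induction p using Polynomial.induction_on' with
  | add p q hp hq =>
    rw [map_add, Matrix.trace_add, hp, hq, ← Finset.sum_add_distrib]
    simp
  | monomial n a =>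
    rw [Polynomial.aeval_monomial, Algebra.algebraMap_eq_smul_one, smul_mul_assoc, one_mul,
      Matrix.trace_smul, herm_trace_pow hH]
    simp only [Polynomial.eval_monomial, smul_eq_mul]
    push_cast
    rw [Finset.mul_sum]

theorem explim_trace_one_sub_pow {H : Matrix ι ι ℂ} (hH : H.IsHermitian) (c : ℝ) (M : ℕ) :
    trace ((1 - ((c : ℝ) : ℂ) • H) ^ M) = ((∑ k, (1 + -(c * hH.eigenvalues k)) ^ M : ℝ) : ℂ) := by
  have h := explim_trace_aeval hH ((1 - Polynomial.C ((c : ℝ) : ℂ) * Polynomial.X) ^ M)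
  simp only [map_pow, map_sub, map_one, map_mul, Polynomial.aeval_C, Polynomial.aeval_X,
    Polynomial.eval_pow, Polynomial.eval_sub, Polynomial.eval_one, Polynomial.eval_mul,
    Polynomial.eval_C, Polynomial.eval_X, Algebra.algebraMap_eq_smul_one, smul_mul_assoc,
    one_mul] at h
  rw [h]
  push_cast
  refine Finset.sum_congr rfl fun k _ => ?_
  ring

theorem explim_trace_base_tendsto {H : Matrix ι ι ℂ} (hH : H.IsHermitian) (b : ℝ) :
    Tendsto (fun M : ℕ => trace ((1 - (((b / M : ℝ)) : ℂ) • H) ^ M)) atTop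
      (𝓝 ((gibbsZ H b : ℝ) : ℂ)) := by
  have h1 : Tendsto (fun M : ℕ => ∑ k, (1 + -((b / M) * hH.eigenvalues k)) ^ M) atTop
      (𝓝 (gibbsZ H b)) := by
    rw [gibbsZ_eq hH]
    refine tendsto_finsetSum _ fun k _ => ?_
    have h2 := Real.tendsto_one_add_div_pow_exp (-b * hH.eigenvalues k)
    refine h2.congr fun M => ?_
    congr 2
    ring
  have h3 := (Complex.continuous_ofReal.tendsto (gibbsZ H b)).comp h1
  refine h3.congr fun M => ?_
  rw [explim_trace_one_sub_pow hH]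
  rfl

/-- Suggested route: `‖A^M - B^M‖ ≤ M c^(M-1) ‖A - B‖` in the normed ring
`Matrix.linftyOpNormedRing`, with `B = 1 - (b/M) H`, `c = exp ((b ‖H‖ + C')/M)`;
`Tr B^M = ∑ₖ (1 - b εₖ / M)^M` by `herm_trace_pow`; `Real.tendsto_one_add_div_pow_exp`. -/
theorem trace_pow_tendsto_gibbsZ {H : Matrix ι ι ℂ} (hH : H.IsHermitian) (b C : ℝ)
    (W : ℕ → Matrix ι ι ℂ)
    (hW : ∀ M : ℕ, 1 ≤ M → ∀ i j,
      ‖(W M - (1 - (((b / M : ℝ)) : ℂ) • H)) i j‖ ≤ C / (M : ℝ) ^ 2) :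
    Tendsto (fun M => trace (W M ^ M)) atTop (𝓝 ((gibbsZ H b : ℝ) : ℂ)) := by
  have hbase := explim_trace_base_tendsto hH b
  obtain ⟨D, hD⟩ : ∃ D : ℝ, ∀ M : ℕ, 1 ≤ M →
      ‖trace (W M ^ M) - trace ((1 - (((b / M : ℝ)) : ℂ) • H) ^ M)‖ ≤ D / M := by
    refine ⟨_, fun M hM => explim_trace_pow_sub_le H b |C| (abs_nonneg C) (W M) M hM
      fun i j => (hW M hM i j).trans ?_⟩
    exact div_le_div_of_nonneg_right (le_abs_self C) (by positivity)
  have hdiff : Tendsto (fun M : ℕ => trace (W M ^ M) -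
      trace ((1 - (((b / M : ℝ)) : ℂ) • H) ^ M)) atTop (𝓝 0) := by
    apply squeeze_zero_norm' (a := fun M : ℕ => D / (M : ℝ))
    · filter_upwards [eventually_ge_atTop 1] with M hM using hD M hM
    · exact tendsto_const_div_atTop_nhds_zero_nat D
  have := hdiff.add hbase
  simpa using this

/-- Gibbs sums are invariant under similarity. -/
theorem gibbsZ_conj {H H' : Matrix ι ι ℂ} (hH : H.IsHermitian) (hH' : H'.IsHermitian)
    (U V : Matrix ι ι ℂ) (hUV : U * V = 1) (h : H' = U * H * V) (b : ℝ) :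
    gibbsZ H' b = gibbsZ H b := by
  have hVU : V * U = 1 := mul_eq_one_comm.mp hUV
  have h1 := explim_trace_base_tendsto hH b
  have h2 := explim_trace_base_tendsto hH' b
  have hpow : ∀ (A : Matrix ι ι ℂ) (n : ℕ), (U * A * V) ^ n = U * A ^ n * V := by
    intro A n
    induction n with
    | zero => simp [hUV]
    | succ n ih =>
      rw [pow_succ, ih, pow_succ]
      calc U * A ^ n * V * (U * A * V) = U * A ^ n * (V * U) * A * V := by noncomm_ring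
        _ = U * (A ^ n * A) * V := by rw [hVU]; noncomm_ring
  have heq : ∀ M : ℕ, trace ((1 - (((b / M : ℝ)) : ℂ) • H') ^ M)
      = trace ((1 - (((b / M : ℝ)) : ℂ) • H) ^ M) := by
    intro M
    have e : (1 - (((b / M : ℝ)) : ℂ) • H') = U * (1 - (((b / M : ℝ)) : ℂ) • H) * V := by
      rw [h, mul_sub, sub_mul, mul_one, hUV, Matrix.mul_smul, Matrix.smul_mul]
    rw [e, hpow, Matrix.trace_mul_cycle, hVU, one_mul]
  have h3 : Tendsto (fun M : ℕ => trace ((1 - (((b / M : ℝ)) : ℂ) • H) ^ M)) atTop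
      (𝓝 ((gibbsZ H' b : ℝ) : ℂ)) := h2.congr heq
  exact_mod_cast tendsto_nhds_unique h3 h1

end Claimed.Agent.R297
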