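/-
Row 297, package C (spatial transfer), leaf C5c: the Cartesian basis.  Owner: helper156.
-/
import Claimed.Agent.R297.TrConcreteDefs
import Claimed.Agent.R297.TrExpLimit
import Claimed.Agent.R297.ModelSite

namespace Claimed.Agent.R297

open Matrix

/- Maths: there is a unitary `u : Matrix (Fin 3) (Fin 3) ℂ` with `u * cartSpin α * uᴴ = spinOne α`
for `α = 0,1,2` (spherical basis: `e_{+1} = -(x + i y)/√2`, `e_0 = z`, `e_{-1} = (x - i y)/√2`;
frozen index `0 ↔ m=+1`, `1 ↔ m=0`, `2 ↔ m=-1`).  With `𝒰 = mdlTens u` (tensor power)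
`siteOp j (u A uᴴ) = 𝒰 siteOp j A 𝒰ᴴ`, so `ringOf spinOne n R = 𝒰 ringOf cartSpin n R 𝒰ᴴ`;
conclude with `gibbsZ_conj`. -/

/-- The change of basis from Cartesian to spherical components. -/
noncomputable def cartU : Matrix (Fin 3) (Fin 3) ℂ :=
  !![-(Real.sqrt 2 : ℂ)⁻¹, (Real.sqrt 2 : ℂ)⁻¹ * Complex.I, 0; 0, 0, 1;
     (Real.sqrt 2 : ℂ)⁻¹, (Real.sqrt 2 : ℂ)⁻¹ * Complex.I, 0]

/-- its adjoint. -/
noncomputable def cartU' : Matrix (Fin 3) (Fin 3) ℂ :=
  !![-(Real.sqrt 2 : ℂ)⁻¹, 0, (Real.sqrt 2 : ℂ)⁻¹;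
     -((Real.sqrt 2 : ℂ)⁻¹ * Complex.I), 0, -((Real.sqrt 2 : ℂ)⁻¹ * Complex.I); 0, 1, 0]

theorem cart_inv_mul_inv : ((Real.sqrt 2 : ℂ)⁻¹) * ((Real.sqrt 2 : ℂ)⁻¹) = 1 / 2 := by
  rw [← mul_inv, ← Complex.ofReal_mul, Real.mul_self_sqrt (by norm_num)]; norm_num

theorem cartU_conjTranspose : cartUᴴ = cartU' := by
  have h2 : (starRingEnd ℂ) ((Real.sqrt 2 : ℂ)) = (Real.sqrt 2 : ℂ) := Complex.conj_ofReal _
  ext i j
  fin_cases i <;> fin_cases j <;>
    simp [cartU, cartU', Matrix.conjTranspose_apply, h2]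

theorem cartU_mul : cartU * cartU' = 1 := by
  have h3 := cart_inv_mul_inv
  have hI := Complex.I_mul_I
  ext i j
  fin_cases i <;> fin_cases j <;>
    simp [cartU, cartU', Matrix.mul_apply, Fin.sum_univ_three] <;>
    first
      | linear_combination (2 : ℂ) * h3 - (Real.sqrt 2 : ℂ)⁻¹ * (Real.sqrt 2 : ℂ)⁻¹ * hI
      | linear_combination (0 : ℂ) * h3 - (Real.sqrt 2 : ℂ)⁻¹ * (Real.sqrt 2 : ℂ)⁻¹ * hI

theorem cartU'_mul : cartU' * cartU = 1 := mul_eq_one_comm.mp cartU_mul

theorem cartU_spin (α : Fin 3) : cartU * cartSpin α * cartU' = Claims.C0475.spinOne α := by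
  have h3 := cart_inv_mul_inv
  have hI := Complex.I_mul_I
  fin_cases α <;> ext i j <;> fin_cases i <;> fin_cases j <;>
    simp [cartU, cartU', cartSpin, Gc, Claims.C0475.spinOne, Matrix.mul_apply,
      Fin.sum_univ_three] <;>
    first
      | ring1
      | linear_combination (-(Real.sqrt 2 : ℂ)⁻¹) * hI
      | linear_combination (-2 * (Real.sqrt 2 : ℂ)⁻¹ * (Real.sqrt 2 : ℂ)⁻¹) * hI + 2 * h3
      | linear_combination (2 * (Real.sqrt 2 : ℂ)⁻¹ * (Real.sqrt 2 : ℂ)⁻¹) * hI - 2 * h3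

/-! ### Hermitian matrices -/

theorem cartSpin_isHermitian (α : Fin 3) : (cartSpin α).IsHermitian := by
  fin_cases α <;> ext i j <;> fin_cases i <;> fin_cases j <;>
    simp [cartSpin, Gc, Matrix.conjTranspose_apply]

theorem cart_spinOne_isHermitian (α : Fin 3) : (Claims.C0475.spinOne α).IsHermitian := by
  rw [← cartU_spin α, Matrix.IsHermitian, conjTranspose_mul, conjTranspose_mul,
    (cartSpin_isHermitian α).eq, cartU_conjTranspose, ← cartU_conjTranspose,
    conjTranspose_conjTranspose, mul_assoc]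

theorem cart_siteOp_isHermitian {ι : Type} [Fintype ι] [DecidableEq ι] (j : ι)
    {A : Matrix (Fin 3) (Fin 3) ℂ} (hA : A.IsHermitian) :
    (Claims.C0475.siteOp j A).IsHermitian := by
  rw [mdlSite_eq_C0475, Matrix.IsHermitian, mdlSite_conjTranspose, hA.eq]

theorem cart_siteOp_mul_isHermitian {ι : Type} [Fintype ι] [DecidableEq ι] {j k : ι} (hjk : j ≠ k)
    {A B : Matrix (Fin 3) (Fin 3) ℂ} (hA : A.IsHermitian) (hB : B.IsHermitian) :
    (Claims.C0475.siteOp j A * Claims.C0475.siteOp k B).IsHermitian := by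
  rw [Matrix.IsHermitian, Matrix.conjTranspose_mul, (cart_siteOp_isHermitian j hA).eq,
    (cart_siteOp_isHermitian k hB).eq, mdlSite_eq_C0475, mdlSite_eq_C0475, mdlSite_comm hjk]

theorem cart_isHermitian_sum {n γ : Type*} (s : Finset γ) (f : γ → Matrix n n ℂ)
    (h : ∀ c ∈ s, (f c).IsHermitian) : (∑ c ∈ s, f c).IsHermitian := by
  rw [Matrix.IsHermitian, Matrix.conjTranspose_sum]
  exact Finset.sum_congr rfl fun c hc => (h c hc).eq

theorem cart_isHermitian_real_smul {n : Type*} (r : ℝ) {M : Matrix n n ℂ} (h : M.IsHermitian) :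
    ((r : ℂ) • M).IsHermitian := by
  rw [Matrix.IsHermitian, Matrix.conjTranspose_smul, h.eq]
  simp

theorem cart_finRotate_ne {n : ℕ} (hn : 2 ≤ n) (j : Fin n) : j ≠ finRotate n j := by
  obtain ⟨m, rfl⟩ : ∃ m, n = m + 2 := ⟨n - 2, by omega⟩
  intro h
  have h1 := congrArg Fin.val h
  rw [finRotate_apply] at h1
  rcases Fin.eq_or_lt_of_le (Fin.le_last j) with hj | hj
  · subst hj; simp at h1
  · rw [Fin.val_add_one_of_lt hj] at h1; omega

/-- `ringOf S n R` is Hermitian for Hermitian one-site matrices (at least two sites). -/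
theorem ringOf_isHermitian {S : Fin 3 → Matrix (Fin 3) (Fin 3) ℂ} (hS : ∀ α, (S α).IsHermitian)
    {n : ℕ} (hn : 2 ≤ n) (R : Matrix (Fin 3) (Fin 3) ℝ) : (ringOf S n R).IsHermitian := by
  unfold ringOf
  exact cart_isHermitian_sum _ _ fun j _ => cart_isHermitian_sum _ _ fun α _ =>
    cart_isHermitian_sum _ _ fun β _ => cart_isHermitian_real_smul _
      (cart_siteOp_mul_isHermitian (cart_finRotate_ne hn j) (hS α) (hS β))

/-- `chainOf S m hL hR β` is Hermitian for Hermitian one-site matrices. -/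
theorem chainOf_isHermitian {S : Fin 3 → Matrix (Fin 3) (Fin 3) ℂ} (hS : ∀ α, (S α).IsHermitian)
    (m : ℕ) (hL hR : ℝ) (β : Fin 3) : (chainOf S m hL hR β).IsHermitian := by
  unfold chainOf
  refine Matrix.IsHermitian.sub (Matrix.IsHermitian.sub ?_ ?_) ?_
  · exact cart_isHermitian_sum _ _ fun j _ => cart_isHermitian_sum _ _ fun α _ =>
      cart_siteOp_mul_isHermitian (Fin.castSucc_lt_succ).ne (hS α) (hS α)
  · exact cart_isHermitian_real_smul _ (cart_siteOp_isHermitian _ (hS 2))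
  · exact cart_isHermitian_real_smul _ (cart_siteOp_isHermitian _ (hS β))

/-- NB: false for `n = 1` and non-symmetric `R`, hence the hypothesis `2 ≤ n` (found by
`assumption` at the call site). -/
theorem ringOf_cart_isHermitian (n : ℕ) (R : Matrix (Fin 3) (Fin 3) ℝ)
    (hn : 2 ≤ n := by assumption) : (ringOf cartSpin n R).IsHermitian :=
  ringOf_isHermitian cartSpin_isHermitian hn R

theorem chainOf_cart_isHermitian (m : ℕ) (hL hR : ℝ) (β : Fin 3) :
    (chainOf cartSpin m hL hR β).IsHermitian :=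
  chainOf_isHermitian cartSpin_isHermitian m hL hR β

/-! ### Similarity -/

/-- the tensor power of `cartU`. -/
noncomputable def cartTens (ι : Type) [Fintype ι] [DecidableEq ι] :
    Matrix (ι → Fin 3) (ι → Fin 3) ℂ := mdlTens fun _ : ι => cartU

/-- the tensor power of `cartU'`. -/
noncomputable def cartTens' (ι : Type) [Fintype ι] [DecidableEq ι] :
    Matrix (ι → Fin 3) (ι → Fin 3) ℂ := mdlTens fun _ : ι => cartU'

theorem cartTens_mul (ι : Type) [Fintype ι] [DecidableEq ι] : cartTens ι * cartTens' ι = 1 :=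
  mdlTens_mul_inv _ _ fun _ => cartU_mul

theorem cartTens'_mul (ι : Type) [Fintype ι] [DecidableEq ι] : cartTens' ι * cartTens ι = 1 :=
  mdlTens_mul_inv _ _ fun _ => cartU'_mul

theorem cartTens_conjTranspose (ι : Type) [Fintype ι] [DecidableEq ι] :
    (cartTens ι)ᴴ = cartTens' ι := by
  unfold cartTens cartTens'
  rw [mdlTens_conjTranspose]
  simp only [cartU_conjTranspose]

theorem cartTens_site {ι : Type} [Fintype ι] [DecidableEq ι] (j : ι) (α : Fin 3) :
    cartTens ι * Claims.C0475.siteOp j (cartSpin α) * cartTens' ι =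
      Claims.C0475.siteOp j (Claims.C0475.spinOne α) := by
  rw [mdlSite_eq_C0475, mdlSite_eq_C0475, ← cartU_spin α]
  exact mdlTens_mul_site_mul _ _ (fun _ => cartU_mul) j _

theorem cartTens_site_mul {ι : Type} [Fintype ι] [DecidableEq ι] (j k : ι) (α β : Fin 3) :
    cartTens ι * (Claims.C0475.siteOp j (cartSpin α) * Claims.C0475.siteOp k (cartSpin β)) *
      cartTens' ι =
      Claims.C0475.siteOp j (Claims.C0475.spinOne α) *
        Claims.C0475.siteOp k (Claims.C0475.spinOne β) := by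
  rw [← cartTens_site j α, ← cartTens_site k β]
  calc cartTens ι * (Claims.C0475.siteOp j (cartSpin α) * Claims.C0475.siteOp k (cartSpin β)) *
      cartTens' ι
      = cartTens ι * Claims.C0475.siteOp j (cartSpin α) * 1 *
          Claims.C0475.siteOp k (cartSpin β) * cartTens' ι := by
        simp only [mul_one, mul_assoc]
    _ = _ := by
        rw [← cartTens'_mul ι]
        simp only [mul_assoc]

theorem ringOf_cart_conj (n : ℕ) (R : Matrix (Fin 3) (Fin 3) ℝ) :
    twistRing n R = cartTens (Fin n) * ringOf cartSpin n R * cartTens' (Fin n) := by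
  rw [twistRing_eq_ringOf]
  unfold ringOf
  simp only [Finset.mul_sum, Finset.sum_mul, mul_smul_comm, smul_mul_assoc, cartTens_site_mul]

theorem chainOf_cart_conj (m : ℕ) (hL hR : ℝ) (β : Fin 3) :
    chainOf Claims.C0475.spinOne m hL hR β =
      cartTens (Fin (m + 1)) * chainOf cartSpin m hL hR β * cartTens' (Fin (m + 1)) := by
  unfold chainOf
  simp only [Finset.mul_sum, Finset.sum_mul, mul_smul_comm, smul_mul_assoc, mul_sub, sub_mul,
    cartTens_site_mul, cartTens_site]

/-- Unitary conjugation preserves and reflects Hermitian matrices. -/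
theorem cart_isHermitian_conj_iff {ι : Type} [Fintype ι] [DecidableEq ι]
    (H : Matrix (ι → Fin 3) (ι → Fin 3) ℂ) :
    (cartTens ι * H * cartTens' ι).IsHermitian ↔ H.IsHermitian := by
  have hT : (cartTens' ι)ᴴ = cartTens ι := by
    rw [← cartTens_conjTranspose, conjTranspose_conjTranspose]
  constructor
  · intro h
    have e : cartTens' ι * (cartTens ι * H * cartTens' ι) * (cartTens' ι)ᴴ = H := by
      calc cartTens' ι * (cartTens ι * H * cartTens' ι) * (cartTens' ι)ᴴ
          = (cartTens' ι * cartTens ι) * H * (cartTens' ι * cartTens ι) := by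
            rw [hT]; simp only [mul_assoc]
        _ = H := by rw [cartTens'_mul]; simp
    rw [← e]
    exact isHermitian_mul_mul_conjTranspose _ h
  · intro h
    rw [← cartTens_conjTranspose]
    exact isHermitian_mul_mul_conjTranspose _ h

theorem cart_gibbsZ_conj {ι : Type} [Fintype ι] [DecidableEq ι]
    (H : Matrix (ι → Fin 3) (ι → Fin 3) ℂ) (b : ℝ) :
    gibbsZ (cartTens ι * H * cartTens' ι) b = gibbsZ H b := by
  by_cases hH : H.IsHermitian
  · exact gibbsZ_conj hH ((cart_isHermitian_conj_iff H).2 hH) _ _ (cartTens_mul ι) rfl b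
  · have hH' : ¬ (cartTens ι * H * cartTens' ι).IsHermitian :=
      fun h => hH ((cart_isHermitian_conj_iff H).1 h)
    unfold gibbsZ
    rw [dif_neg hH, dif_neg hH']

theorem gibbsZ_ringOf_cart (n : ℕ) (R : Matrix (Fin 3) (Fin 3) ℝ) (b : ℝ) :
    gibbsZ (ringOf cartSpin n R) b = gibbsZ (twistRing n R) b := by
  rw [ringOf_cart_conj, cart_gibbsZ_conj]

theorem gibbsZ_chainOf_cart (m : ℕ) (hL hR : ℝ) (β : Fin 3) (b : ℝ) :
    gibbsZ (chainOf cartSpin m hL hR β) b = gibbsZ (chainOf Claims.C0475.spinOne m hL hR β) b := by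
  rw [chainOf_cart_conj, cart_gibbsZ_conj]

end Claimed.Agent.R297
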