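/-
Row 297, package C (spatial transfer), leaf C6a (owner helper245).
The discrete spatial transfer matrix `XM κ M` is real, Hermitian, and has a Hilbert--Schmidt norm
bounded by `3 (1 + 3 κ²)^M`.
-/
import Claimed.Agent.R297.TrConcreteDefs
import Claimed.Agent.R297.Duality

set_option autoImplicit false

namespace Claimed.Agent.R297

open Matrix

/-- Entries of `XM` as traces of ordered products of one-site factors. -/
theorem ker_XM_apply (κ : ℝ) (M : ℕ) (η η' : Fin M → Lab) :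
    XM κ M η η' = trace ((List.ofFn fun t => siteT κ (η t) (η' t)).prod) :=
  rowOp_kron_apply (tens κ) M η η'

theorem ker_siteT_symm (κ : ℝ) (a a' : Lab) : siteT κ a a' = siteT κ a' a := by
  cases a <;> cases a' <;> rfl

theorem ker_XM_symm (κ : ℝ) (M : ℕ) (η η' : Fin M → Lab) : XM κ M η η' = XM κ M η' η := by
  rw [ker_XM_apply, ker_XM_apply]
  simp only [ker_siteT_symm κ (η _) (η' _)]

theorem ker_Gc_real (α : Fin 3) (s s' : Fin 3) : starRingEnd ℂ (Gc α s s') = Gc α s s' := by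
  fin_cases α <;> fin_cases s <;> fin_cases s' <;> simp [Gc]

theorem ker_siteT_real (κ : ℝ) (a a' : Lab) (s s' : Fin 3) :
    starRingEnd ℂ (siteT κ a a' s s') = siteT κ a a' s s' := by
  cases a <;> cases a' <;>
    simp [siteT, Matrix.one_apply, apply_ite (starRingEnd ℂ), ker_Gc_real]

theorem ker_XM_conj (κ : ℝ) (M : ℕ) (η η' : Fin M → Lab) :
    starRingEnd ℂ (XM κ M η η') = XM κ M η η' := by
  simp only [XM, rowOp, map_sum, map_mul, map_prod, flipT, tens, ker_siteT_real, kron3,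
    apply_ite (starRingEnd ℂ), map_one, map_zero]

theorem ker_XM_real (κ : ℝ) (M : ℕ) : (XM κ M).map (starRingEnd ℂ) = XM κ M := by
  ext η η'
  exact ker_XM_conj κ M η η'

theorem ker_XM_herm (κ : ℝ) (M : ℕ) : (XM κ M).IsHermitian := by
  ext η η'
  rw [conjTranspose_apply, ker_XM_symm]
  exact ker_XM_conj κ M η η'

section norm

attribute [local instance] Matrix.linftyOpNormedRing Matrix.linftyOpNormedAlgebra

theorem ker_Gc_norm_le (α : Fin 3) : ‖Gc α‖ ≤ 1 := by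
  rw [Matrix.linfty_opNorm_def]
  have : (Finset.univ.sup fun i : Fin 3 => ∑ j : Fin 3, ‖Gc α i j‖₊) ≤ 1 := by
    refine Finset.sup_le (fun i _ => ?_)
    fin_cases α <;> fin_cases i <;> simp [Gc, Fin.sum_univ_three]
  exact_mod_cast this

/-- the scalar weight dominating a one-site factor. -/
def kerW (κ : ℝ) : Lab → Lab → ℝ
  | none, none => 1
  | some _, none => |κ|
  | none, some _ => |κ|
  | some _, some _ => 0

theorem kerW_nonneg (κ : ℝ) (a a' : Lab) : 0 ≤ kerW κ a a' := by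
  cases a <;> cases a' <;> simp [kerW]

theorem ker_siteT_norm_le (κ : ℝ) (a a' : Lab) : ‖siteT κ a a'‖ ≤ kerW κ a a' := by
  cases a with
  | none =>
    cases a' with
    | none => simp [siteT, kerW]
    | some α =>
      simp only [siteT, kerW, norm_smul, Complex.norm_real, Real.norm_eq_abs]
      exact mul_le_of_le_one_right (abs_nonneg _) (ker_Gc_norm_le α)
  | some α =>
    cases a' with
    | none =>
      simp only [siteT, kerW, norm_smul, Complex.norm_real, Real.norm_eq_abs]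
      exact mul_le_of_le_one_right (abs_nonneg _) (ker_Gc_norm_le α)
    | some β => simp [siteT, kerW]

theorem ker_trace_norm_le (A : Matrix (Fin 3) (Fin 3) ℂ) : ‖trace A‖ ≤ 3 * ‖A‖ := by
  have hrow : ∀ i : Fin 3, ‖A i i‖ ≤ ‖A‖ := by
    intro i
    rw [Matrix.linfty_opNorm_def]
    have h1 : ∑ j : Fin 3, ‖A i j‖₊ ≤ Finset.univ.sup fun i : Fin 3 => ∑ j : Fin 3, ‖A i j‖₊ :=
      Finset.le_sup (f := fun i : Fin 3 => ∑ j : Fin 3, ‖A i j‖₊) (Finset.mem_univ i)
    have h2 : ‖A i i‖₊ ≤ ∑ j : Fin 3, ‖A i j‖₊ :=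
      Finset.single_le_sum (f := fun j => ‖A i j‖₊) (fun _ _ => zero_le) (Finset.mem_univ i)
    exact_mod_cast h2.trans h1
  calc ‖trace A‖ = ‖∑ i, A i i‖ := rfl
    _ ≤ ∑ i : Fin 3, ‖A i i‖ := norm_sum_le _ _
    _ ≤ ∑ _i : Fin 3, ‖A‖ := Finset.sum_le_sum (fun i _ => hrow i)
    _ = 3 * ‖A‖ := by simp

theorem ker_XM_norm_le (κ : ℝ) (M : ℕ) (η η' : Fin M → Lab) :
    ‖XM κ M η η'‖ ≤ 3 * ∏ t, kerW κ (η t) (η' t) := by
  rw [ker_XM_apply]
  refine (ker_trace_norm_le _).trans ?_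
  refine mul_le_mul_of_nonneg_left ?_ (by norm_num)
  refine (List.norm_prod_le _).trans ?_
  rw [List.map_ofFn, List.prod_ofFn]
  exact Finset.prod_le_prod (fun t _ => norm_nonneg _) (fun t _ => ker_siteT_norm_le κ _ _)

end norm

theorem kerW_sq_sum (κ : ℝ) : ∑ a : Lab, ∑ a' : Lab, kerW κ a a' ^ 2 = 1 + 6 * κ ^ 2 := by
  simp only [Fintype.sum_option, kerW, Fin.sum_univ_three, sq_abs]
  ring

/-- **Hilbert--Schmidt bound.** -/
theorem ker_XM_hs (κ : ℝ) (M : ℕ) :
    (trace (XM κ M ^ 2)).re ≤ 9 * (1 + 3 * κ ^ 2) ^ (2 * M) := by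
  have h1 : (trace (XM κ M ^ 2)).re = ∑ η, ∑ η', ‖XM κ M η η'‖ ^ 2 := by
    rw [pow_two, trace, Complex.re_sum]
    refine Finset.sum_congr rfl (fun η _ => ?_)
    rw [diag_apply, Matrix.mul_apply, Complex.re_sum]
    refine Finset.sum_congr rfl (fun η' _ => ?_)
    rw [ker_XM_symm κ M η' η]
    have h := Complex.mul_conj (XM κ M η η')
    rw [ker_XM_conj] at h
    rw [h, Complex.ofReal_re, Complex.normSq_eq_norm_sq]
  have h2 : ∑ η : Fin M → Lab, ∑ η' : Fin M → Lab, (∏ t, kerW κ (η t) (η' t)) ^ 2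
      = (1 + 6 * κ ^ 2) ^ M := by
    simp only [← Finset.prod_pow]
    have h3 : ∀ η : Fin M → Lab, ∑ η' : Fin M → Lab, ∏ t, kerW κ (η t) (η' t) ^ 2
        = ∏ t, ∑ a' : Lab, kerW κ (η t) a' ^ 2 := by
      intro η
      rw [Finset.prod_univ_sum, Fintype.piFinset_univ]
    simp only [h3]
    have h4 : ∑ η : Fin M → Lab, ∏ t, ∑ a' : Lab, kerW κ (η t) a' ^ 2
        = ∏ _t : Fin M, ∑ a : Lab, ∑ a' : Lab, kerW κ a a' ^ 2 := by
      rw [Finset.prod_univ_sum, Fintype.piFinset_univ]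
    rw [h4, kerW_sq_sum, Finset.prod_const, Finset.card_univ, Fintype.card_fin]
  rw [h1]
  calc ∑ η, ∑ η', ‖XM κ M η η'‖ ^ 2
      ≤ ∑ η : Fin M → Lab, ∑ η' : Fin M → Lab, 9 * (∏ t, kerW κ (η t) (η' t)) ^ 2 := by
        refine Finset.sum_le_sum (fun η _ => Finset.sum_le_sum (fun η' _ => ?_))
        have := ker_XM_norm_le κ M η η'
        calc ‖XM κ M η η'‖ ^ 2 ≤ (3 * ∏ t, kerW κ (η t) (η' t)) ^ 2 :=
              pow_le_pow_left₀ (norm_nonneg _) this 2
          _ = 9 * (∏ t, kerW κ (η t) (η' t)) ^ 2 := by ring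
    _ = 9 * (1 + 6 * κ ^ 2) ^ M := by
        simp only [← Finset.mul_sum]
        rw [h2]
    _ ≤ 9 * (1 + 3 * κ ^ 2) ^ (2 * M) := by
        rw [pow_mul]
        refine mul_le_mul_of_nonneg_left ?_ (by norm_num)
        refine pow_le_pow_left₀ (by positivity) ?_ M
        nlinarith [sq_nonneg (κ ^ 2)]

end Claimed.Agent.R297
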