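import Claimed.Agent.R297.SectorProj

/-!
# Row 297: the sector splitting (owner helper156)

Paper 1, Lemma "Sector moments", for a finite real symmetric matrix `X` commuting with a real
orthogonal representation of the rotation group generated by `D₂` and the cyclic rotation;
with the boundary weights needed by paper 2.
-/

set_option linter.unusedSimpArgs false
set_option linter.unusedSectionVars false

namespace Claimed.Agent.R297

open Matrix

variable {ι : Type*} [Fintype ι] [DecidableEq ι]

/-- Hypotheses of the sector splitting, complex form. -/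
structure SectorHypC (X a b t : Matrix ι ι ℂ) : Prop where
  rel : SectorRel a b t
  hX : X.IsHermitian
  ha : a.IsHermitian
  hb : b.IsHermitian
  ht : tᴴ = t * t
  hXa : Commute X a
  hXb : Commute X b
  hXt : Commute X t
  rX : X.map (starRingEnd ℂ) = X
  ra : a.map (starRingEnd ℂ) = a
  rb : b.map (starRingEnd ℂ) = b
  rt : t.map (starRingEnd ℂ) = t

/-- The primitive cube root of unity. -/
noncomputable def sectorOmega : ℂ := ⟨-1 / 2, Real.sqrt 3 / 2⟩

theorem sectorOmega_rel : sectorOmega ^ 2 + sectorOmega + 1 = 0 := by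
  have h3 : Real.sqrt 3 * Real.sqrt 3 = 3 := Real.mul_self_sqrt (by norm_num)
  apply Complex.ext
  · simp only [sectorOmega, pow_two, Complex.add_re, Complex.mul_re, Complex.one_re,
      Complex.zero_re]
    nlinarith [h3]
  · simp only [sectorOmega, pow_two, Complex.add_im, Complex.mul_im, Complex.one_im,
      Complex.zero_im]
    ring

theorem sectorOmega_cube : sectorOmega ^ 3 = 1 := by
  linear_combination (sectorOmega - 1) * sectorOmega_rel

theorem sectorOmega_conj : starRingEnd ℂ sectorOmega = sectorOmega ^ 2 := by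
  have h : starRingEnd ℂ sectorOmega = -1 - sectorOmega := by
    apply Complex.ext
    · simp [sectorOmega]; ring
    · simp [sectorOmega]
  rw [h]
  linear_combination -sectorOmega_rel

namespace SectorHypC

variable {X a b t : Matrix ι ι ℂ} (h : SectorHypC X a b t)

include h

theorem hab_herm : (a * b)ᴴ = a * b := by
  rw [conjTranspose_mul, h.ha.eq, h.hb.eq, h.rel.hba]

theorem Q0_herm : (sectorQ0 a b).IsHermitian := by
  unfold Matrix.IsHermitian sectorQ0
  rw [conjTranspose_smul, conjTranspose_add, conjTranspose_add, conjTranspose_add,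
    conjTranspose_one, h.ha.eq, h.hb.eq, h.hab_herm]
  congr 1
  simp

theorem Q1_herm : (sectorQ1 a b).IsHermitian := by
  unfold Matrix.IsHermitian sectorQ1
  rw [conjTranspose_smul, conjTranspose_sub, conjTranspose_sub, conjTranspose_add,
    conjTranspose_one, h.ha.eq, h.hb.eq, h.hab_herm]
  congr 1
  simp

theorem tt_herm : (t * t)ᴴ = t := by
  rw [conjTranspose_mul, h.ht, mul_assoc, h.rel.httt' ]

theorem E_herm (z : ℂ) (hz : z ^ 3 = 1) (hzc : starRingEnd ℂ z = z ^ 2) :
    (sectorE t z).IsHermitian := by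
  unfold Matrix.IsHermitian sectorE
  rw [conjTranspose_smul, conjTranspose_add, conjTranspose_add, conjTranspose_one,
    conjTranspose_smul, conjTranspose_smul, h.ht, h.tt_herm]
  have e1 : star (z ^ 2) = z := by
    rw [star_pow, Complex.star_def, hzc]; linear_combination z * hz
  have e2 : star z = z ^ 2 := by rw [Complex.star_def, hzc]
  have e3 : star (1 / 3 : ℂ) = 1 / 3 := by simp
  rw [e1, e2, e3]
  module

theorem X_ab : Commute X (a * b) := h.hXa.mul_right h.hXb

theorem X_Q0 : Commute X (sectorQ0 a b) := by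
  unfold sectorQ0
  exact ((((Commute.one_right X).add_right h.hXa).add_right h.hXb).add_right h.X_ab).smul_right _

theorem X_Q1 : Commute X (sectorQ1 a b) := by
  unfold sectorQ1
  exact ((((Commute.one_right X).add_right h.hXa).sub_right h.hXb).sub_right h.X_ab).smul_right _

theorem X_E (z : ℂ) : Commute X (sectorE t z) := by
  unfold sectorE
  exact (((Commute.one_right X).add_right (h.hXt.smul_right _)).add_right
    ((h.hXt.mul_right h.hXt).smul_right _)).smul_right _

theorem Q0_E (z : ℂ) : Commute (sectorQ0 a b) (sectorE t z) := by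
  have h1 : Commute (sectorQ0 a b) t := (sector_t_Q0 h.rel).symm
  unfold sectorE
  exact (((Commute.one_right _).add_right (h1.smul_right _)).add_right
    ((h1.mul_right h1).smul_right _)).smul_right _

theorem projN : SectorProj X (sectorQ1 a b) :=
  ⟨h.hX, h.Q1_herm, sectorQ1_idem h.rel, h.X_Q1⟩

theorem projE (z : ℂ) (hz : z ^ 3 = 1) (hzc : starRingEnd ℂ z = z ^ 2) :
    SectorProj X (sectorQ0 a b * sectorE t z) where
  hX := h.hX
  hP := (h.Q0_herm.commute_iff (h.E_herm z hz hzc)).1 (h.Q0_E z)
  idem := by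
    rw [(h.Q0_E z).symm.mul_mul_mul_comm, sectorQ0_idem h.rel, sectorE_idem h.rel z hz]
  comm := h.X_Q0.mul_right (h.X_E z)

theorem projI : SectorProj X (sectorQ0 a b * sectorE t 1) :=
  h.projE 1 (by simp) (by simp)

theorem projO : SectorProj X (sectorQ0 a b * sectorE t sectorOmega) :=
  h.projE _ sectorOmega_cube sectorOmega_conj

/-- `Q₂ = t Q₁ t⁻¹`. -/
theorem Q2_eq : sectorQ2 a b = (t * t)ᴴ * sectorQ1 a b * (t * t) := by
  rw [h.tt_herm, sector_t_Q1 h.rel, mul_assoc, h.rel.httt, mul_one]

/-- `Q₃ = t² Q₁ t⁻²`. -/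
theorem Q3_eq : sectorQ3 a b = tᴴ * sectorQ1 a b * t := by
  rw [h.ht, mul_assoc t t, sector_t_Q1 h.rel, ← mul_assoc, sector_t_Q2 h.rel, mul_assoc, mul_assoc,
    h.rel.httt, mul_one]

theorem map_E (z : ℂ) : (sectorE t z).map (starRingEnd ℂ) = sectorE t (starRingEnd ℂ z) := by
  have hm : ∀ M : Matrix ι ι ℂ, M.map (starRingEnd ℂ) = (starRingEnd ℂ).mapMatrix M := fun _ => rfl
  have ht := h.rt
  rw [hm] at ht ⊢
  unfold sectorE
  ext i j
  have htt : ∀ i j, starRingEnd ℂ ((t * t) i j) = (t * t) i j := by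
    intro i j
    have : (starRingEnd ℂ).mapMatrix (t * t) = t * t := by rw [map_mul, ht]
    exact congrFun (congrFun this i) j
  have ht' : ∀ i j, starRingEnd ℂ (t i j) = t i j := fun i j => congrFun (congrFun ht i) j
  have h1 : ∀ i j, starRingEnd ℂ ((1 : Matrix ι ι ℂ) i j) = (1 : Matrix ι ι ℂ) i j := by
    intro i j
    by_cases hij : i = j
    · subst hij; simp
    · simp [hij]
  simp only [RingHom.mapMatrix_apply, Matrix.map_apply, Matrix.smul_apply, Matrix.add_apply,
    smul_eq_mul, map_mul, map_add, map_pow, htt, ht', h1, map_div₀, map_one, map_ofNat]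

theorem map_Q0 : (sectorQ0 a b).map (starRingEnd ℂ) = sectorQ0 a b := by
  have hm : ∀ M : Matrix ι ι ℂ, M.map (starRingEnd ℂ) = (starRingEnd ℂ).mapMatrix M := fun _ => rfl
  have ha := h.ra
  have hb := h.rb
  rw [hm] at ha hb ⊢
  unfold sectorQ0
  ext i j
  have hab : ∀ i j, starRingEnd ℂ ((a * b) i j) = (a * b) i j := by
    intro i j
    have : (starRingEnd ℂ).mapMatrix (a * b) = a * b := by rw [map_mul, ha, hb]
    exact congrFun (congrFun this i) j
  have ha' : ∀ i j, starRingEnd ℂ (a i j) = a i j := fun i j => congrFun (congrFun ha i) j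
  have hb' : ∀ i j, starRingEnd ℂ (b i j) = b i j := fun i j => congrFun (congrFun hb i) j
  have h1 : ∀ i j, starRingEnd ℂ ((1 : Matrix ι ι ℂ) i j) = (1 : Matrix ι ι ℂ) i j := by
    intro i j
    by_cases hij : i = j
    · subst hij; simp
    · simp [hij]
  simp only [RingHom.mapMatrix_apply, Matrix.map_apply, Matrix.smul_apply, Matrix.add_apply,
    smul_eq_mul, map_mul, map_add, hab, ha', hb', h1, map_div₀, map_one, map_ofNat]

/-- The conjugate sector. -/
theorem map_PO (n : ℕ) :
    (X ^ n * (sectorQ0 a b * sectorE t sectorOmega)).map (starRingEnd ℂ) =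
      X ^ n * (sectorQ0 a b * sectorE t (sectorOmega ^ 2)) := by
  have hm : ∀ M : Matrix ι ι ℂ, M.map (starRingEnd ℂ) = (starRingEnd ℂ).mapMatrix M := fun _ => rfl
  have h1 := h.rX
  have h2 := h.map_Q0
  have h3 := h.map_E sectorOmega
  rw [hm] at h1 h2 h3 ⊢
  rw [map_mul, map_mul, map_pow, h1, h2, h3, sectorOmega_conj]

/-- decomposition of the identity -/
theorem one_eq : (1 : Matrix ι ι ℂ) = sectorQ0 a b * sectorE t 1 +
    sectorQ0 a b * sectorE t sectorOmega + sectorQ0 a b * sectorE t (sectorOmega ^ 2) +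
    sectorQ1 a b + sectorQ2 a b + sectorQ3 a b := by
  rw [← mul_add, ← mul_add, sectorE_sum sectorOmega sectorOmega_rel, mul_one, sectorQ_sum]

theorem a_eq : a = sectorQ0 a b * sectorE t 1 +
    sectorQ0 a b * sectorE t sectorOmega + sectorQ0 a b * sectorE t (sectorOmega ^ 2) +
    sectorQ1 a b - sectorQ2 a b - sectorQ3 a b := by
  rw [← mul_add, ← mul_add, sectorE_sum sectorOmega sectorOmega_rel, mul_one, sectorQ_a]

theorem omega2_cube : (sectorOmega ^ 2) ^ 3 = 1 := by
  rw [← pow_mul, mul_comm, pow_mul, sectorOmega_cube, one_pow]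

theorem t_eq : t = sectorQ0 a b * sectorE t 1 +
    sectorOmega • (sectorQ0 a b * sectorE t sectorOmega) +
    sectorOmega ^ 2 • (sectorQ0 a b * sectorE t (sectorOmega ^ 2)) +
    t * sectorQ1 a b + t * sectorQ2 a b + t * sectorQ3 a b := by
  have e1 := sector_E_t h.rel 1 (by simp)
  have e2 := sector_E_t h.rel sectorOmega sectorOmega_cube
  have e3 := sector_E_t h.rel (sectorOmega ^ 2) h.omega2_cube
  rw [one_smul] at e1
  have e0 : sectorQ0 a b * t = sectorQ0 a b * sectorE t 1 +
    sectorOmega • (sectorQ0 a b * sectorE t sectorOmega) +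
    sectorOmega ^ 2 • (sectorQ0 a b * sectorE t (sectorOmega ^ 2)) := by
    rw [← mul_smul_comm, ← mul_smul_comm, ← e2, ← e3, ← mul_add, ← mul_add]
    nth_rewrite 1 [← e1]
    rw [← add_mul, ← add_mul, sectorE_sum sectorOmega sectorOmega_rel, one_mul]
  rw [← e0, ← sector_t_Q0 h.rel, ← mul_add, ← mul_add, ← mul_add, sectorQ_sum, mul_one]

end SectorHypC

end Claimed.Agent.R297
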