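/-
Row 297, package C (spatial transfer), leaf C6b (owner helper245).
The rotation operators `UM R M` on histories: representation property, adjoints, reality,
commutation with `XM κ M`, the hypotheses of the sector splitting, action on boundary vectors.
-/
import Claimed.Agent.R297.KernelXM
import Claimed.Agent.R297.Sector

set_option autoImplicit false
set_option linter.unusedSectionVars false
set_option linter.unusedSimpArgs false

namespace Claimed.Agent.R297

open Matrix

/-! ### generalities on row operators and tensor powers -/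

section general

variable {A d : Type} [Fintype A] [Fintype d] [DecidableEq A] [DecidableEq d]

theorem ker_rowOp_mul_closeOp (T : A → A → d → d → ℂ) (γ : A → A → ℂ) (δ : d → d → ℂ) (n : ℕ) :
    rowOp T γ n * closeOp δ n
      = rowOp (fun a a' s s'' => ∑ s', T a a' s s' * δ s' s'') γ n := by
  ext σ σ''
  simp only [rowOp, closeOp, Matrix.mul_apply, Finset.prod_univ_sum, Fintype.piFinset_univ,
    Finset.sum_mul, Finset.mul_sum, Finset.prod_mul_distrib]
  rw [Finset.sum_comm]
  refine Finset.sum_congr rfl fun x _ => Finset.sum_congr rfl fun σ' _ => ?_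
  ring

theorem ker_closeOp_mul_rowOp (T : A → A → d → d → ℂ) (γ : A → A → ℂ) (δ : d → d → ℂ) (n : ℕ) :
    closeOp δ n * rowOp T γ n
      = rowOp (fun a a' s s'' => ∑ s', δ s s' * T a a' s' s'') γ n := by
  ext σ σ''
  simp only [rowOp, closeOp, Matrix.mul_apply, Finset.prod_univ_sum, Fintype.piFinset_univ,
    Finset.sum_mul, Finset.mul_sum, Finset.prod_mul_distrib]
  rw [Finset.sum_comm]
  refine Finset.sum_congr rfl fun x _ => Finset.sum_congr rfl fun σ' _ => ?_
  ring

theorem ker_closeOp_mulVec (δ : d → d → ℂ) (f : d → ℂ) (n : ℕ) :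
    closeOp δ n *ᵥ (fun σ : Fin n → d => ∏ j, f (σ j))
      = fun σ => ∏ j, ∑ s', δ (σ j) s' * f s' := by
  funext σ
  simp only [closeOp, mulVec, dotProduct, Finset.prod_univ_sum, Fintype.piFinset_univ,
    Finset.prod_mul_distrib]

/-- intertwined ordered products. -/
theorem ker_list_prod_intertwine {k : Type} [Fintype k] [DecidableEq k] (g : Matrix k k ℂ) :
    ∀ (M : ℕ) (P Q : Fin M → Matrix k k ℂ), (∀ t, P t * g = g * Q t) →
      (List.ofFn P).prod * g = g * (List.ofFn Q).prod := by
  intro M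
  induction M with
  | zero => intro P Q _; simp
  | succ M ih =>
    intro P Q h
    rw [List.ofFn_succ, List.ofFn_succ, List.prod_cons, List.prod_cons, mul_assoc,
      ih (fun t => P t.succ) (fun t => Q t.succ) (fun t => h t.succ), ← mul_assoc, h 0, mul_assoc]

theorem ker_trace_prod_intertwine {k : Type} [Fintype k] [DecidableEq k] (g g' : Matrix k k ℂ)
    (hg : g * g' = 1) (M : ℕ) (P Q : Fin M → Matrix k k ℂ) (h : ∀ t, P t * g = g * Q t) :
    trace (List.ofFn P).prod = trace (List.ofFn Q).prod := by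
  have h1 := ker_list_prod_intertwine g M P Q h
  have hg' : g' * g = 1 := mul_eq_one_comm.mp hg
  calc trace (List.ofFn P).prod = trace ((List.ofFn P).prod * g * g') := by
        rw [mul_assoc, hg, mul_one]
    _ = trace (g * (List.ofFn Q).prod * g') := by rw [h1]
    _ = trace (List.ofFn Q).prod := by
        rw [trace_mul_cycle, hg', one_mul]

end general

/-! ### the representation `UM` -/

theorem ker_gam_mul (R R' : Matrix (Fin 3) (Fin 3) ℝ) (a a'' : Lab) :
    ∑ a', gam R a a' * gam R' a' a'' = gam (R * R') a a'' := by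
  cases a <;> cases a'' <;> simp [Fintype.sum_option, gam, Matrix.mul_apply]

theorem ker_gam_one (a a' : Lab) : gam 1 a a' = if a = a' then 1 else 0 := by
  cases a <;> cases a' <;> simp [gam, Matrix.one_apply, apply_ite (fun x : ℝ => (x : ℂ))]

theorem ker_UM_mul (R R' : Matrix (Fin 3) (Fin 3) ℝ) (M : ℕ) :
    UM R M * UM R' M = UM (R * R') M := by
  simp only [UM, closeOp_mul, ker_gam_mul]

theorem ker_UM_one (M : ℕ) : UM 1 M = 1 := by
  rw [← closeOp_one (d := Lab) M]
  simp only [UM]
  congr 1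
  funext a a'
  exact ker_gam_one a a'

theorem ker_gam_conj (R : Matrix (Fin 3) (Fin 3) ℝ) (a a' : Lab) :
    starRingEnd ℂ (gam R a a') = gam R a a' := by
  cases a <;> cases a' <;> simp [gam]

theorem ker_gam_transpose (R : Matrix (Fin 3) (Fin 3) ℝ) (a a' : Lab) :
    gam Rᵀ a a' = gam R a' a := by
  cases a <;> cases a' <;> simp [gam]

theorem ker_UM_real (R : Matrix (Fin 3) (Fin 3) ℝ) (M : ℕ) :
    (UM R M).map (starRingEnd ℂ) = UM R M := by
  ext η η'
  simp only [UM, closeOp, Matrix.map_apply, map_prod, ker_gam_conj]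

theorem ker_UM_conjTranspose (R : Matrix (Fin 3) (Fin 3) ℝ) (M : ℕ) :
    (UM R M)ᴴ = UM Rᵀ M := by
  ext η η'
  simp only [UM, closeOp, conjTranspose_apply, star_prod, ker_gam_transpose]
  refine Finset.prod_congr rfl (fun t _ => ?_)
  exact ker_gam_conj R _ _

/-! ### commutation with `XM` -/

/-- Rotation covariance of the generators `Gc` (a property of proper rotations `R`). -/
structure KerCov (R : Matrix (Fin 3) (Fin 3) ℝ) : Prop where
  orth : (R.map (fun x : ℝ => (x : ℂ))) * (Rᵀ.map (fun x : ℝ => (x : ℂ))) = 1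
  left : ∀ α, Gc α * R.map (fun x : ℝ => (x : ℂ))
    = R.map (fun x : ℝ => (x : ℂ)) * ∑ β, (R α β : ℂ) • Gc β
  right : ∀ β, (∑ α, (R α β : ℂ) • Gc α) * R.map (fun x : ℝ => (x : ℂ))
    = R.map (fun x : ℝ => (x : ℂ)) * Gc β

theorem ker_XM_comm_UM (κ : ℝ) (M : ℕ) {R : Matrix (Fin 3) (Fin 3) ℝ} (hR : KerCov R) :
    XM κ M * UM R M = UM R M * XM κ M := by
  simp only [XM, UM, ker_rowOp_mul_closeOp, ker_closeOp_mul_rowOp]
  ext η η'
  have e1 := rowOp_kron_apply
    (fun (a a'' : Lab) (s s' : Fin 3) => ∑ a', tens κ a a' s s' * gam R a' a'') M η η'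
  have e2 := rowOp_kron_apply
    (fun (a a'' : Lab) (s s' : Fin 3) => ∑ a', gam R a a' * tens κ a' a'' s s') M η η'
  refine Eq.trans e1 (Eq.trans ?_ e2.symm)
  refine ker_trace_prod_intertwine _ _ hR.orth M _ _ (fun t => ?_)
  generalize η t = a
  generalize η' t = a''
  have hP : (Matrix.of fun s s' => ∑ a', tens κ a a' s s' * gam R a' a'' :
      Matrix (Fin 3) (Fin 3) ℂ) = ∑ a', gam R a' a'' • siteT κ a a' := by
    ext s s'
    simp only [Matrix.of_apply, Matrix.sum_apply, Matrix.smul_apply, smul_eq_mul, tens]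
    exact Finset.sum_congr rfl (fun _ _ => mul_comm _ _)
  have hQ : (Matrix.of fun s s' => ∑ a', gam R a a' * tens κ a' a'' s s' :
      Matrix (Fin 3) (Fin 3) ℂ) = ∑ a', gam R a a' • siteT κ a' a'' := by
    ext s s'
    simp only [Matrix.of_apply, Matrix.sum_apply, Matrix.smul_apply, smul_eq_mul, tens]
  rw [hP, hQ]
  cases a with
  | none =>
    cases a'' with
    | none => simp [Fintype.sum_option, gam, siteT]
    | some β =>
      have := hR.right β
      simp only [Fintype.sum_option, gam, siteT, zero_smul, zero_add, one_smul, smul_zero,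
        Finset.sum_const_zero, add_zero]
      simp only [smul_comm _ (κ : ℂ), ← Finset.smul_sum, smul_mul_assoc, mul_smul_comm, this]
  | some α =>
    cases a'' with
    | none =>
      have := hR.left α
      simp only [Fintype.sum_option, gam, siteT, zero_smul, zero_add, one_smul, smul_zero,
        Finset.sum_const_zero, add_zero]
      simp only [smul_comm _ (κ : ℂ), ← Finset.smul_sum, smul_mul_assoc, mul_smul_comm, this]
    | some β => simp [Fintype.sum_option, gam, siteT]

theorem kerCov_rotP : KerCov rotP := by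
  refine ⟨?_, ?_, ?_⟩
  · ext i j
    fin_cases i <;> fin_cases j <;> simp [rotP, Matrix.mul_apply, Fin.sum_univ_three]
  · intro α
    ext i j
    fin_cases α <;> fin_cases i <;> fin_cases j <;>
      simp [rotP, Gc, Matrix.mul_apply, Fin.sum_univ_three, Matrix.sum_apply]
  · intro α
    ext i j
    fin_cases α <;> fin_cases i <;> fin_cases j <;>
      simp [rotP, Gc, Matrix.mul_apply, Fin.sum_univ_three, Matrix.sum_apply]

theorem kerCov_rotPx : KerCov rotPx := by
  refine ⟨?_, ?_, ?_⟩
  · ext i j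
    fin_cases i <;> fin_cases j <;> simp [rotPx, Matrix.mul_apply, Fin.sum_univ_three]
  · intro α
    ext i j
    fin_cases α <;> fin_cases i <;> fin_cases j <;>
      simp [rotPx, Gc, Matrix.mul_apply, Fin.sum_univ_three, Matrix.sum_apply]
  · intro α
    ext i j
    fin_cases α <;> fin_cases i <;> fin_cases j <;>
      simp [rotPx, Gc, Matrix.mul_apply, Fin.sum_univ_three, Matrix.sum_apply]

theorem kerCov_rotPy : KerCov rotPy := by
  refine ⟨?_, ?_, ?_⟩
  · ext i j
    fin_cases i <;> fin_cases j <;> simp [rotPy, Matrix.mul_apply, Fin.sum_univ_three]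
  · intro α
    ext i j
    fin_cases α <;> fin_cases i <;> fin_cases j <;>
      simp [rotPy, Gc, Matrix.mul_apply, Fin.sum_univ_three, Matrix.sum_apply]
  · intro α
    ext i j
    fin_cases α <;> fin_cases i <;> fin_cases j <;>
      simp [rotPy, Gc, Matrix.mul_apply, Fin.sum_univ_three, Matrix.sum_apply]

theorem kerCov_rotC : KerCov rotC := by
  refine ⟨?_, ?_, ?_⟩
  · ext i j
    fin_cases i <;> fin_cases j <;> simp [rotC, Matrix.mul_apply, Fin.sum_univ_three]
  · intro α
    ext i j
    fin_cases α <;> fin_cases i <;> fin_cases j <;>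
      simp [rotC, Gc, Matrix.mul_apply, Fin.sum_univ_three, Matrix.sum_apply]
  · intro α
    ext i j
    fin_cases α <;> fin_cases i <;> fin_cases j <;>
      simp [rotC, Gc, Matrix.mul_apply, Fin.sum_univ_three, Matrix.sum_apply]

/-! ### the relations of the rotation group -/

theorem ker_rotP_sq : rotP * rotP = 1 := by
  ext i j; fin_cases i <;> fin_cases j <;> simp [rotP, Matrix.mul_apply, Fin.sum_univ_three]

theorem ker_rotPx_sq : rotPx * rotPx = 1 := by
  ext i j; fin_cases i <;> fin_cases j <;> simp [rotPx, Matrix.mul_apply, Fin.sum_univ_three]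

theorem ker_rotPx_rotP : rotPx * rotP = rotP * rotPx := by
  ext i j
  fin_cases i <;> fin_cases j <;> simp [rotP, rotPx, Matrix.mul_apply, Fin.sum_univ_three]

theorem ker_rotP_rotPx : rotP * rotPx = rotPy := by
  ext i j
  fin_cases i <;> fin_cases j <;> simp [rotP, rotPx, rotPy, Matrix.mul_apply, Fin.sum_univ_three]

theorem ker_rotC_cube : rotC * (rotC * rotC) = 1 := by
  ext i j; fin_cases i <;> fin_cases j <;> simp [rotC, Matrix.mul_apply, Fin.sum_univ_three]

theorem ker_rotC_rotP : rotC * rotP = rotPx * rotC := by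
  ext i j
  fin_cases i <;> fin_cases j <;> simp [rotC, rotP, rotPx, Matrix.mul_apply, Fin.sum_univ_three]

theorem ker_rotC_rotPx : rotC * rotPx = rotP * (rotPx * rotC) := by
  ext i j
  fin_cases i <;> fin_cases j <;> simp [rotC, rotP, rotPx, Matrix.mul_apply, Fin.sum_univ_three]

theorem ker_rotP_transpose : rotPᵀ = rotP := by
  ext i j; fin_cases i <;> fin_cases j <;> simp [rotP]

theorem ker_rotPx_transpose : rotPxᵀ = rotPx := by
  ext i j; fin_cases i <;> fin_cases j <;> simp [rotPx]

theorem ker_rotC_transpose : rotCᵀ = rotC * rotC := by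
  ext i j; fin_cases i <;> fin_cases j <;> simp [rotC, Matrix.mul_apply, Fin.sum_univ_three]

/-- **The hypotheses of the sector splitting hold for the discrete transfer matrix.** -/
theorem ker_sectorHyp (κ : ℝ) (M : ℕ) :
    SectorHypC (XM κ M) (UM rotP M) (UM rotPx M) (UM rotC M) where
  rel :=
    { haa := by rw [ker_UM_mul, ker_rotP_sq, ker_UM_one]
      hbb := by rw [ker_UM_mul, ker_rotPx_sq, ker_UM_one]
      hba := by rw [ker_UM_mul, ker_UM_mul, ker_rotPx_rotP]
      httt := by rw [ker_UM_mul, ker_UM_mul, ker_rotC_cube, ker_UM_one]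
      hta := by rw [ker_UM_mul, ker_UM_mul, ker_rotC_rotP]
      htb := by rw [ker_UM_mul, ker_UM_mul, ker_UM_mul, ker_rotC_rotPx] }
  hX := ker_XM_herm κ M
  ha := by rw [Matrix.IsHermitian, ker_UM_conjTranspose, ker_rotP_transpose]
  hb := by rw [Matrix.IsHermitian, ker_UM_conjTranspose, ker_rotPx_transpose]
  ht := by rw [ker_UM_conjTranspose, ker_rotC_transpose, ker_UM_mul]
  hXa := ker_XM_comm_UM κ M kerCov_rotP
  hXb := ker_XM_comm_UM κ M kerCov_rotPx
  hXt := ker_XM_comm_UM κ M kerCov_rotC
  rX := ker_XM_real κ M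
  ra := ker_UM_real _ M
  rb := ker_UM_real _ M
  rt := ker_UM_real _ M

/-! ### boundary vectors -/

theorem ker_UM_mulVec_bvec (R : Matrix (Fin 3) (Fin 3) ℝ) (β : Fin 3) (c : ℂ) (M : ℕ) :
    UM R M *ᵥ bvec β c M = fun η => ∏ t, ∑ a', gam R (η t) a' * bpsi β c a' :=
  ker_closeOp_mulVec (gam R) (bpsi β c) M

theorem ker_UM_rotP_bvec (c : ℂ) (M : ℕ) : UM rotP M *ᵥ bvec 2 c M = bvec 2 c M := by
  rw [ker_UM_mulVec_bvec]
  funext η
  refine Finset.prod_congr rfl (fun t _ => ?_)
  generalize η t = a
  cases a with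
  | none => simp [Fintype.sum_option, gam, bpsi]
  | some α => fin_cases α <;> simp [Fintype.sum_option, gam, bpsi, rotP, Fin.sum_univ_three]

theorem ker_UM_rotPx_bvec (c : ℂ) (M : ℕ) : UM rotPx M *ᵥ bvec 2 c M = bvec 2 (-c) M := by
  rw [ker_UM_mulVec_bvec]
  funext η
  refine Finset.prod_congr rfl (fun t _ => ?_)
  generalize η t = a
  cases a with
  | none => simp [Fintype.sum_option, gam, bpsi]
  | some α => fin_cases α <;> simp [Fintype.sum_option, gam, bpsi, rotPx, Fin.sum_univ_three]

theorem ker_UM_rotC_bvec (c : ℂ) (M : ℕ) : UM rotC M *ᵥ bvec 2 c M = bvec 0 c M := by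
  rw [ker_UM_mulVec_bvec]
  funext η
  refine Finset.prod_congr rfl (fun t _ => ?_)
  generalize η t = a
  cases a with
  | none => simp [Fintype.sum_option, gam, bpsi]
  | some α =>
    fin_cases α <;> simp [Fintype.sum_option, gam, bpsi, rotC, Fin.sum_univ_three]

theorem ker_star_bvec (β : Fin 3) (c : ℂ) (M : ℕ) : star (bvec β c M) = bvec β (star c) M := by
  funext η
  simp only [Pi.star_apply, bvec, star_prod]
  refine Finset.prod_congr rfl (fun t _ => ?_)
  generalize η t = a
  cases a with
  | none => simp [bpsi]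
  | some α => simp [bpsi, apply_ite star]

theorem ker_bvec_norm_sq (β : Fin 3) (c : ℂ) (M : ℕ) :
    ∑ η, ‖bvec β c M η‖ ^ 2 = (1 + ‖c‖ ^ 2) ^ M := by
  simp only [bvec, norm_prod, ← Finset.prod_pow]
  have h : ∑ η : Fin M → Lab, ∏ t, ‖bpsi β c (η t)‖ ^ 2
      = ∏ _t : Fin M, ∑ a : Lab, ‖bpsi β c a‖ ^ 2 := by
    rw [Finset.prod_univ_sum, Fintype.piFinset_univ]
  rw [h, Finset.prod_const, Finset.card_univ, Fintype.card_fin]
  congr 1
  fin_cases β <;> simp [Fintype.sum_option, bpsi, Fin.sum_univ_three]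

theorem ker_closeOp_gamOpen (β : Fin 3) (cL cR : ℂ) (M : ℕ) :
    closeOp (gamOpen β cL cR) M = vecMulVec (bvec β cR M) (bvec 2 cL M) := by
  ext η η'
  simp only [closeOp, gamOpen, vecMulVec_apply, bvec, Finset.prod_mul_distrib]

end Claimed.Agent.R297
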