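/-
Row 297, package C (spatial transfer), leaf C6: properties of the discrete spatial transfer matrix
`XM κ M`, of the rotation operators `UM R M` and of the boundary vectors `bvec β c M`.
Proofs are in `KernelXM.lean` and `KernelUM.lean` (owner helper245).
-/
import Claimed.Agent.R297.KernelUM

namespace Claimed.Agent.R297

open Matrix

theorem XM_isHermitian (κ : ℝ) (M : ℕ) : (XM κ M).IsHermitian := ker_XM_herm κ M

theorem XM_real (κ : ℝ) (M : ℕ) : (XM κ M).map (starRingEnd ℂ) = XM κ M := ker_XM_real κ M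

/-- Hilbert–Schmidt bound. -/
theorem XM_HS (κ : ℝ) (M : ℕ) :
    (trace (XM κ M ^ 2)).re ≤ 9 * (1 + 3 * κ ^ 2) ^ (2 * M) := ker_XM_hs κ M

theorem UM_one (M : ℕ) : UM 1 M = 1 := ker_UM_one M

theorem XM_sectorHyp (κ : ℝ) (M : ℕ) :
    SectorHypC (XM κ M) (UM rotP M) (UM rotPx M) (UM rotC M) := ker_sectorHyp κ M

theorem UM_rotP_bvec (c : ℂ) (M : ℕ) : UM rotP M *ᵥ bvec 2 c M = bvec 2 c M :=
  ker_UM_rotP_bvec c M

theorem UM_rotPx_bvec (c : ℂ) (M : ℕ) : UM rotPx M *ᵥ bvec 2 c M = bvec 2 (-c) M :=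
  ker_UM_rotPx_bvec c M

theorem UM_rotC_bvec (c : ℂ) (M : ℕ) : UM rotC M *ᵥ bvec 2 c M = bvec 0 c M :=
  ker_UM_rotC_bvec c M

theorem star_bvec (β : Fin 3) (c : ℂ) (M : ℕ) : star (bvec β c M) = bvec β (star c) M :=
  ker_star_bvec β c M

theorem bvec_normSq (β : Fin 3) (c : ℂ) (M : ℕ) :
    ∑ η, ‖bvec β c M η‖ ^ 2 = (1 + ‖c‖ ^ 2) ^ M := ker_bvec_norm_sq β c M

theorem closeOp_gamOpen (β : Fin 3) (cL cR : ℂ) (M : ℕ) :
    closeOp (gamOpen β cL cR) M = vecMulVec (bvec β cR M) (bvec 2 cL M) :=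
  ker_closeOp_gamOpen β cL cR M

end Claimed.Agent.R297
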