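/-
Row 297, package C (spatial transfer), leaf C5a (slot expansion, ring).  Owner helper139.

`rowOp (tens κ) (gam R) n = 1 - κ² • ringOf cartSpin n R + O(κ⁴)` entrywise, for `n ≥ 2`.
-/
import Claimed.Agent.R297.TrConcreteDefs
import Claimed.Agent.R297.ModelSite

set_option autoImplicit false

namespace Claimed.Agent.R297

open Matrix

/-- event indicator of a bond label -/
def slotEv : Lab → ℕ
  | none => 0
  | some _ => 1

theorem slot_siteT_scale (κ : ℝ) (a a' : Lab) :
    siteT κ a a' = ((κ : ℂ) ^ (slotEv a + slotEv a')) • siteT 1 a a' := by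
  cases a <;> cases a' <;> simp [siteT, slotEv]

theorem slot_siteT_norm_le (a a' : Lab) (s s' : Fin 3) : ‖siteT 1 a a' s s'‖ ≤ 1 := by
  cases a with
  | none =>
    cases a' with
    | none =>
      simp only [siteT, Matrix.one_apply]
      split_ifs <;> simp
    | some α =>
      fin_cases α <;> fin_cases s <;> fin_cases s' <;> simp [siteT, Gc]
  | some α =>
    cases a' with
    | none =>
      fin_cases α <;> fin_cases s <;> fin_cases s' <;> simp [siteT, Gc]
    | some β => simp [siteT]

/-- total power of `κ` carried by a label configuration -/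
def slotP {n : ℕ} (x : Fin (n + 1) → Lab) : ℕ :=
  ∑ j : Fin n, (slotEv (x j.castSucc) + slotEv (x j.succ))

/-- the `κ`-free weight of a label configuration -/
def slotT (γ : Lab → Lab → ℂ) {n : ℕ} (σ σ' : Fin n → Fin 3) (x : Fin (n + 1) → Lab) : ℂ :=
  γ (x (Fin.last n)) (x 0) * ∏ j : Fin n, siteT 1 (x j.castSucc) (x j.succ) (σ j) (σ' j)

theorem slot_rowOp_eq (κ : ℝ) (γ : Lab → Lab → ℂ) (n : ℕ) (σ σ' : Fin n → Fin 3) :
    rowOp (tens κ) γ n σ σ' = ∑ x : Fin (n + 1) → Lab, (κ : ℂ) ^ slotP x * slotT γ σ σ' x := by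
  unfold rowOp slotT slotP tens
  refine Finset.sum_congr rfl fun x _ => ?_
  have h : ∀ j : Fin n, siteT κ (x j.castSucc) (x j.succ) (σ j) (σ' j)
      = (κ : ℂ) ^ (slotEv (x j.castSucc) + slotEv (x j.succ)) *
        siteT 1 (x j.castSucc) (x j.succ) (σ j) (σ' j) := by
    intro j
    conv_lhs => rw [slot_siteT_scale]
    simp [Matrix.smul_apply]
  simp only [h, Finset.prod_mul_distrib, Finset.prod_pow_eq_pow_sum]
  ring

theorem slot_T_norm_le (γ : Lab → Lab → ℂ) (C : ℝ) (hC : ∀ a a', ‖γ a a'‖ ≤ C) {n : ℕ}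
    (σ σ' : Fin n → Fin 3) (x : Fin (n + 1) → Lab) : ‖slotT γ σ σ' x‖ ≤ C := by
  unfold slotT
  rw [norm_mul, norm_prod]
  have h1 : ∏ j : Fin n, ‖siteT 1 (x j.castSucc) (x j.succ) (σ j) (σ' j)‖ ≤ 1 :=
    Finset.prod_le_one (fun _ _ => norm_nonneg _) (fun j _ => slot_siteT_norm_le _ _ _ _)
  calc ‖γ (x (Fin.last n)) (x 0)‖ * ∏ j : Fin n, ‖siteT 1 (x j.castSucc) (x j.succ) (σ j) (σ' j)‖
      ≤ C * 1 := mul_le_mul (hC _ _) h1 (Finset.prod_nonneg fun _ _ => norm_nonneg _)
        (le_trans (norm_nonneg _) (hC none none))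
    _ = C := mul_one C

/-- number of events -/
def slotN {n : ℕ} (x : Fin (n + 1) → Lab) : ℕ := ∑ i, slotEv (x i)

theorem slot_P_add {n : ℕ} (x : Fin (n + 1) → Lab) :
    slotP x + slotEv (x 0) + slotEv (x (Fin.last n)) = 2 * slotN x := by
  unfold slotP slotN
  rw [Finset.sum_add_distrib]
  have h1 := Fin.sum_univ_castSucc (fun i => slotEv (x i))
  have h2 := Fin.sum_univ_succ (fun i => slotEv (x i))
  omega

theorem slot_P_le {n : ℕ} (x : Fin (n + 1) → Lab) : slotP x ≤ 2 * n := by
  unfold slotP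
  calc ∑ j : Fin n, (slotEv (x j.castSucc) + slotEv (x j.succ)) ≤ ∑ _j : Fin n, 2 := by
        refine Finset.sum_le_sum fun j _ => ?_
        have h : ∀ a : Lab, slotEv a ≤ 1 := fun a => by cases a <;> simp [slotEv]
        have := h (x j.castSucc); have := h (x j.succ); omega
    _ = 2 * n := by simp [mul_comm]

/-- no event -/
def slotNone (k : ℕ) : Fin k → Lab := fun _ => none
/-- one event on the interior bond between the sites `k` and `k+1` -/
def slotSingle (m : ℕ) (k : Fin m) (α : Fin 3) : Fin (m + 2) → Lab :=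
  Function.update (slotNone (m + 2)) k.castSucc.succ (some α)
/-- one event on the seam bond -/
def slotSeam (m : ℕ) (α β : Fin 3) : Fin (m + 2) → Lab :=
  Function.update (Function.update (slotNone (m + 2)) (Fin.last (m + 1)) (some α)) 0 (some β)

theorem slotEv_eq_zero {a : Lab} : slotEv a = 0 ↔ a = none := by
  cases a <;> simp [slotEv]

theorem slotEv_le_one (a : Lab) : slotEv a ≤ 1 := by cases a <;> simp [slotEv]

/-- if the events on `S` already exhaust the number of events, there is none outside `S` -/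
theorem slot_none_outside {n : ℕ} (x : Fin (n + 1) → Lab) (S : Finset (Fin (n + 1)))
    (hS : ∀ i ∈ S, slotEv (x i) = 1) (hN : slotN x ≤ S.card) : ∀ i, i ∉ S → x i = none := by
  intro i hi
  have h1 : slotN x = ∑ i ∈ S, slotEv (x i) + ∑ i ∈ Sᶜ, slotEv (x i) := by
    unfold slotN; rw [Finset.sum_add_sum_compl]
  have h2 : ∑ i ∈ S, slotEv (x i) = S.card := by
    rw [Finset.sum_congr rfl hS]; simp
  have h3 : ∑ i ∈ Sᶜ, slotEv (x i) = 0 := by omega
  have h4 := (Finset.sum_eq_zero_iff.mp h3) i (Finset.mem_compl.mpr hi)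
  exact slotEv_eq_zero.mp h4

/-- classification of the configurations of low order -/
theorem slot_classify (m : ℕ) (x : Fin (m + 2) → Lab)
    (hc : slotEv (x 0) = slotEv (x (Fin.last (m + 1)))) (hP : slotP x ≤ 3) :
    x = slotNone (m + 2) ∨ (∃ k α, x = slotSingle m k α) ∨ ∃ α β, x = slotSeam m α β := by
  have hadd := slot_P_add x
  have h0L : (0 : Fin (m + 2)) ≠ Fin.last (m + 1) := by
    intro h; have := congrArg Fin.val h; simp at this
  rcases h0 : x 0 with _ | β
  · -- both ends empty
    have e0 : slotEv (x 0) = 0 := by rw [h0]; rfl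
    have eL : slotEv (x (Fin.last (m + 1))) = 0 := by rw [← hc, e0]
    have hL : x (Fin.last (m + 1)) = none := slotEv_eq_zero.mp eL
    have hN : slotN x ≤ 1 := by omega
    by_cases hex : ∃ i, x i ≠ none
    · obtain ⟨i, hi⟩ := hex
      obtain ⟨α, hα⟩ := Option.ne_none_iff_exists'.mp hi
      have hout := slot_none_outside x {i} (by
        intro j hj; rw [Finset.mem_singleton.mp hj, hα]; rfl) (by simpa using hN)
      have hi0 : i ≠ 0 := by rintro rfl; exact hi h0
      have hiL : i ≠ Fin.last (m + 1) := by rintro rfl; exact hi hL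
      obtain ⟨j, rfl⟩ := Fin.exists_succ_eq.mpr hi0
      have hjL : j ≠ Fin.last m := by
        rintro rfl; exact hiL (by simp)
      obtain ⟨k, rfl⟩ := Fin.exists_castSucc_eq.mpr hjL
      right; left
      refine ⟨k, α, ?_⟩
      funext l
      unfold slotSingle
      by_cases hl : l = k.castSucc.succ
      · subst hl; simp [hα]
      · rw [Function.update_of_ne hl]
        exact hout l (by simpa using hl)
    · left
      push Not at hex
      funext l; exact hex l
  · have e0 : slotEv (x 0) = 1 := by rw [h0]; rfl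
    have eL : slotEv (x (Fin.last (m + 1))) = 1 := by rw [← hc, e0]
    have hLne : x (Fin.last (m + 1)) ≠ none := by
      intro h; rw [h] at eL; simp [slotEv] at eL
    obtain ⟨α, hα⟩ := Option.ne_none_iff_exists'.mp hLne
    have hN : slotN x ≤ 2 := by omega
    have hout := slot_none_outside x {0, Fin.last (m + 1)} (by
      intro j hj
      rcases Finset.mem_insert.mp hj with rfl | hj
      · exact e0
      · rw [Finset.mem_singleton.mp hj]; exact eL) (by
      rw [Finset.card_pair h0L]; exact hN)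
    right; right
    refine ⟨α, β, ?_⟩
    funext l
    unfold slotSeam
    by_cases hl0 : l = 0
    · subst hl0; simp [h0]
    · rw [Function.update_of_ne hl0]
      by_cases hlL : l = Fin.last (m + 1)
      · subst hlL; simp [hα]
      · rw [Function.update_of_ne hlL]
        exact hout l (by simp [hl0, hlL])


theorem slot_P_none (n : ℕ) : slotP (slotNone (n + 1)) = 0 := by
  simp [slotP, slotNone, slotEv]

theorem slot_T_none (γ : Lab → Lab → ℂ) (n : ℕ) (σ σ' : Fin n → Fin 3) :
    slotT γ σ σ' (slotNone (n + 1)) = γ none none * (1 : Matrix (Fin n → Fin 3) (Fin n → Fin 3) ℂ) σ σ' := by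
  unfold slotT slotNone
  rw [← mdlTens_one, mdlTens_apply]
  rfl

theorem slot_single_zero (m : ℕ) (k : Fin m) (α : Fin 3) : slotSingle m k α 0 = none := by
  unfold slotSingle
  rw [Function.update_of_ne (Fin.succ_ne_zero _).symm]; rfl

theorem slot_single_last (m : ℕ) (k : Fin m) (α : Fin 3) :
    slotSingle m k α (Fin.last (m + 1)) = none := by
  unfold slotSingle
  rw [Function.update_of_ne]; · rfl
  rw [Fin.succ_castSucc]
  exact (Fin.castSucc_lt_last _).ne'

theorem slot_N_single (m : ℕ) (k : Fin m) (α : Fin 3) : slotN (slotSingle m k α) = 1 := by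
  unfold slotN slotSingle
  rw [Finset.sum_eq_single k.castSucc.succ]
  · simp [slotEv]
  · intro b _ hb
    rw [Function.update_of_ne hb]; rfl
  · simp

theorem slot_P_single (m : ℕ) (k : Fin m) (α : Fin 3) : slotP (slotSingle m k α) = 2 := by
  have h := slot_P_add (slotSingle m k α)
  rw [slot_single_zero, slot_single_last, slot_N_single] at h
  simpa [slotEv] using h

theorem slot_T_single (γ : Lab → Lab → ℂ) (m : ℕ) (σ σ' : Fin (m + 1) → Fin 3) (k : Fin m)
    (α : Fin 3) :
    slotT γ σ σ' (slotSingle m k α) =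
      γ none none * (mdlSite k.castSucc (Gc α) * mdlSite k.succ (Gc α)) σ σ' := by
  have hne : k.castSucc ≠ k.succ := (Fin.castSucc_lt_succ).ne
  unfold slotT
  rw [slot_single_zero, slot_single_last, mdlSite_mul_of_ne hne, mdlTens_apply]
  congr 1
  refine Finset.prod_congr rfl fun j _ => ?_
  unfold slotSingle
  by_cases h1 : j = k.succ
  · subst h1
    have e1 : (k.succ.castSucc : Fin (m + 2)) = k.castSucc.succ := (Fin.succ_castSucc k).symm
    have e2 : (k.succ.succ : Fin (m + 2)) ≠ k.castSucc.succ := by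
      intro h; exact hne (Fin.succ_injective _ h).symm
    rw [e1, Function.update_self, Function.update_of_ne e2, Function.update_self]
    simp [slotNone, siteT]
  · by_cases h2 : j = k.castSucc
    · subst h2
      have e1 : (k.castSucc.castSucc : Fin (m + 2)) ≠ k.castSucc.succ := by
        rw [Fin.succ_castSucc]
        intro h; exact hne (Fin.castSucc_injective _ h)
      rw [Function.update_self, Function.update_of_ne e1, Function.update_of_ne hne,
        Function.update_self]
      simp [slotNone, siteT]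
    · have e1 : (j.castSucc : Fin (m + 2)) ≠ k.castSucc.succ := by
        rw [Fin.succ_castSucc]
        intro h; exact h1 (Fin.castSucc_injective _ h)
      have e2 : (j.succ : Fin (m + 2)) ≠ k.castSucc.succ := by
        intro h; exact h2 (Fin.succ_injective _ h)
      rw [Function.update_of_ne e1, Function.update_of_ne e2, Function.update_of_ne h1,
        Function.update_of_ne h2]
      simp [slotNone, siteT]


theorem slot_zero_ne_last (m : ℕ) : (0 : Fin (m + 2)) ≠ Fin.last (m + 1) := by
  intro h; have := congrArg Fin.val h; simp at this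

theorem slot_seam_zero (m : ℕ) (α β : Fin 3) : slotSeam m α β 0 = some β := by
  unfold slotSeam; rw [Function.update_self]

theorem slot_seam_last (m : ℕ) (α β : Fin 3) : slotSeam m α β (Fin.last (m + 1)) = some α := by
  unfold slotSeam
  rw [Function.update_of_ne (slot_zero_ne_last m).symm, Function.update_self]

theorem slot_seam_other (m : ℕ) (α β : Fin 3) (i : Fin (m + 2)) (h0 : i ≠ 0)
    (hL : i ≠ Fin.last (m + 1)) : slotSeam m α β i = none := by
  unfold slotSeam
  rw [Function.update_of_ne h0, Function.update_of_ne hL]; rfl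

theorem slot_N_seam (m : ℕ) (α β : Fin 3) : slotN (slotSeam m α β) = 2 := by
  unfold slotN
  rw [← Finset.sum_subset (Finset.subset_univ {0, Fin.last (m + 1)}),
    Finset.sum_pair (slot_zero_ne_last m), slot_seam_zero, slot_seam_last]
  · rfl
  · intro i _ hi
    simp only [Finset.mem_insert, Finset.mem_singleton, not_or] at hi
    rw [slot_seam_other m α β i hi.1 hi.2]; rfl

theorem slot_P_seam (m : ℕ) (α β : Fin 3) : slotP (slotSeam m α β) = 2 := by
  have h := slot_P_add (slotSeam m α β)
  rw [slot_seam_zero, slot_seam_last, slot_N_seam] at h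
  simp only [slotEv] at h
  omega

theorem slot_T_seam (γ : Lab → Lab → ℂ) (m : ℕ) (hm : 1 ≤ m) (σ σ' : Fin (m + 1) → Fin 3)
    (α β : Fin 3) :
    slotT γ σ σ' (slotSeam m α β) =
      γ (some α) (some β) *
        (mdlSite (Fin.last m) (Gc α) * mdlSite (0 : Fin (m + 1)) (Gc β) :
          Matrix (Fin (m + 1) → Fin 3) (Fin (m + 1) → Fin 3) ℂ) σ σ' := by
  have hne : Fin.last m ≠ (0 : Fin (m + 1)) := by
    intro h; have := congrArg Fin.val h; simp at this; omega
  unfold slotT
  rw [slot_seam_zero, slot_seam_last, mdlSite_mul_of_ne hne, mdlTens_apply]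
  congr 1
  refine Finset.prod_congr rfl fun j _ => ?_
  by_cases h1 : j = 0
  · subst h1
    have e2 : ((0 : Fin (m + 1)).succ : Fin (m + 2)) ≠ Fin.last (m + 1) := by
      intro h; have := congrArg Fin.val h; simp at this; omega
    rw [Fin.castSucc_zero, slot_seam_zero, slot_seam_other m α β _ (Fin.succ_ne_zero _) e2,
      Function.update_self]
    simp [siteT]
  · by_cases h2 : j = Fin.last m
    · subst h2
      have e1 : ((Fin.last m).castSucc : Fin (m + 2)) ≠ 0 := by
        intro h; have := congrArg Fin.val h; simp at this; omega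
      rw [Fin.succ_last, slot_seam_last,
        slot_seam_other m α β _ e1 (Fin.castSucc_lt_last _).ne, Function.update_of_ne hne,
        Function.update_self]
      simp [siteT]
    · have e1 : (j.castSucc : Fin (m + 2)) ≠ 0 := by
        intro h; apply h1; exact Fin.castSucc_injective _ (by rw [h, Fin.castSucc_zero])
      have e2 : (j.succ : Fin (m + 2)) ≠ Fin.last (m + 1) := by
        intro h; apply h2; exact Fin.succ_injective _ (by rw [h, Fin.succ_last])
      rw [slot_seam_other m α β _ e1 (Fin.castSucc_lt_last _).ne,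
        slot_seam_other m α β _ (Fin.succ_ne_zero _) e2, Function.update_of_ne h1,
        Function.update_of_ne h2]
      simp [siteT]


theorem slot_ringOf_succ (S : Fin 3 → Matrix (Fin 3) (Fin 3) ℂ) (m : ℕ)
    (R : Matrix (Fin 3) (Fin 3) ℝ) :
    ringOf S (m + 1) R =
      (∑ k : Fin m, ∑ α : Fin 3, mdlSite k.castSucc (S α) * mdlSite k.succ (S α)) +
      ∑ α : Fin 3, ∑ β : Fin 3, ((R α β : ℝ) : ℂ) • (mdlSite (Fin.last m) (S α) * mdlSite 0 (S β)) := by
  unfold ringOf
  rw [Fin.sum_univ_castSucc]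
  congr 1
  · refine Finset.sum_congr rfl fun k _ => ?_
    have hk : ¬ ((k.castSucc : Fin (m+1)) : ℕ) + 1 = m + 1 := by
      have := k.isLt
      simp only [Fin.val_castSucc]
      omega
    have hr : finRotate (m + 1) k.castSucc = k.succ := by
      rw [finRotate_apply, Fin.coeSucc_eq_succ]
    simp only [hk, if_false, hr, Matrix.one_apply, mdlSite_eq_C0475]
    refine Finset.sum_congr rfl fun α _ => ?_
    rw [Finset.sum_eq_single α]
    · simp
    · intro β _ hβ
      simp [Ne.symm hβ]
    · simp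
  · simp only [Fin.val_last, if_true, finRotate_last, mdlSite_eq_C0475]

/-- index type of the configurations of order `≤ κ²` -/
abbrev SlotIdx (m : ℕ) := Unit ⊕ ((Fin m × Fin 3) ⊕ (Fin 3 × Fin 3))

/-- the configurations of order `≤ κ²` -/
def slotCfg (m : ℕ) : SlotIdx m → (Fin (m + 2) → Lab)
  | Sum.inl _ => slotNone (m + 2)
  | Sum.inr (Sum.inl p) => slotSingle m p.1 p.2
  | Sum.inr (Sum.inr p) => slotSeam m p.1 p.2

theorem slot_single_self (m : ℕ) (k : Fin m) (α : Fin 3) :
    slotSingle m k α k.castSucc.succ = some α := by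
  unfold slotSingle; rw [Function.update_self]

theorem slotCfg_injective (m : ℕ) : Function.Injective (slotCfg m) := by
  rintro (u | ⟨k, α⟩ | ⟨α, β⟩) (u' | ⟨k', α'⟩ | ⟨α', β'⟩) h
  · rfl
  · have := congrFun h k'.castSucc.succ
    simp only [slotCfg, slot_single_self] at this
    simp [slotNone] at this
  · have := congrFun h 0
    simp only [slotCfg, slot_seam_zero] at this
    simp [slotNone] at this
  · have := congrFun h k.castSucc.succ
    simp only [slotCfg, slot_single_self] at this
    simp [slotNone] at this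
  · have h1 := congrFun h k.castSucc.succ
    simp only [slotCfg, slot_single_self] at h1
    by_cases hk : k = k'
    · subst hk
      rw [slot_single_self] at h1
      simp only [Option.some.injEq] at h1
      subst h1; rfl
    · exfalso
      have hne : (k.castSucc.succ : Fin (m + 2)) ≠ k'.castSucc.succ := by
        intro h'; exact hk (Fin.castSucc_injective _ (Fin.succ_injective _ h'))
      unfold slotSingle at h1
      rw [Function.update_of_ne hne] at h1
      simp [slotNone] at h1
  · have := congrFun h 0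
    simp only [slotCfg, slot_seam_zero, slot_single_zero] at this
    simp at this
  · have := congrFun h 0
    simp only [slotCfg, slot_seam_zero] at this
    simp [slotNone] at this
  · have := congrFun h 0
    simp only [slotCfg, slot_seam_zero, slot_single_zero] at this
    simp at this
  · have h0 := congrFun h 0
    have hL := congrFun h (Fin.last (m + 1))
    simp only [slotCfg, slot_seam_zero, slot_seam_last, Option.some.injEq] at h0 hL
    subst h0; subst hL; rfl

/-- low order: the two end labels are both empty or both events, and the order is `≤ 3` -/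
def slotLow {n : ℕ} (x : Fin (n + 1) → Lab) : Prop :=
  slotEv (x 0) = slotEv (x (Fin.last n)) ∧ slotP x ≤ 3

instance slotLow_decidable {n : ℕ} (x : Fin (n + 1) → Lab) : Decidable (slotLow x) := by
  unfold slotLow; infer_instance

theorem slotCfg_low (m : ℕ) (i : SlotIdx m) : slotLow (slotCfg m i) := by
  rcases i with u | ⟨k, α⟩ | ⟨α, β⟩
  · exact ⟨rfl, by simp only [slotCfg]; rw [slot_P_none]; omega⟩
  · refine ⟨?_, by simp only [slotCfg]; rw [slot_P_single]; omega⟩
    simp only [slotCfg]; rw [slot_single_zero, slot_single_last]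
  · refine ⟨?_, by simp only [slotCfg]; rw [slot_P_seam]; omega⟩
    simp only [slotCfg]; rw [slot_seam_zero, slot_seam_last]; rfl

/-- splitting of a sum over all configurations -/
theorem slot_sum_split (m : ℕ) (F : (Fin (m + 2) → Lab) → ℂ) :
    ∑ x, F x = ∑ i : SlotIdx m, F (slotCfg m i) + ∑ x, (if slotLow x then 0 else F x) := by
  have h1 : ∑ i : SlotIdx m, F (slotCfg m i) = ∑ x, (if slotLow x then F x else 0) := by
    refine Finset.sum_of_injOn (slotCfg m) (slotCfg_injective m).injOn (fun _ _ => Finset.mem_coe.mpr (Finset.mem_univ _)) ?_ ?_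
    · intro x _ hx
      rw [if_neg]
      intro hlow
      apply hx
      rcases slot_classify m x hlow.1 hlow.2 with h | ⟨k, α, h⟩ | ⟨α, β, h⟩
      · exact ⟨Sum.inl (), by simp, h.symm⟩
      · exact ⟨Sum.inr (Sum.inl (k, α)), by simp, h.symm⟩
      · exact ⟨Sum.inr (Sum.inr (α, β)), by simp, h.symm⟩
    · intro i _
      rw [if_pos (slotCfg_low m i)]
  rw [h1, ← Finset.sum_add_distrib]
  refine Finset.sum_congr rfl fun x _ => ?_
  split_ifs <;> simp


theorem slot_abs_pow_le (κ B : ℝ) (hB : κ ^ 2 ≤ B) (n q : ℕ) (hq : q ≤ 2 * n) :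
    |κ| ^ q ≤ (1 + B) ^ n := by
  have hB0 : 0 ≤ B := le_trans (sq_nonneg κ) hB
  by_cases h1 : |κ| ≤ 1
  · calc |κ| ^ q ≤ 1 := pow_le_one₀ (abs_nonneg κ) h1
      _ ≤ (1 + B) ^ n := one_le_pow₀ (by linarith)
  · push Not at h1
    calc |κ| ^ q ≤ |κ| ^ (2 * n) := pow_le_pow_right₀ h1.le hq
      _ = (κ ^ 2) ^ n := by rw [pow_mul, sq_abs]
      _ ≤ (1 + B) ^ n := pow_le_pow_left₀ (sq_nonneg κ) (by linarith) n

/-- the remainder terms are `O(κ⁴)` -/
theorem slot_rem_le (γ : Lab → Lab → ℂ) (C : ℝ) (hC : ∀ a a', ‖γ a a'‖ ≤ C)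
    (hγ1 : ∀ β, γ none (some β) = 0) (hγ2 : ∀ α, γ (some α) none = 0)
    (κ B : ℝ) (hB : κ ^ 2 ≤ B) {n : ℕ} (σ σ' : Fin n → Fin 3) (x : Fin (n + 1) → Lab) :
    ‖(if slotLow x then 0 else (κ : ℂ) ^ slotP x * slotT γ σ σ' x)‖ ≤ C * (1 + B) ^ n * κ ^ 4 := by
  have hB0 : 0 ≤ B := le_trans (sq_nonneg κ) hB
  have hC0 : 0 ≤ C := le_trans (norm_nonneg _) (hC none none)
  have hpos : 0 ≤ C * (1 + B) ^ n * κ ^ 4 := by positivity
  split_ifs with hlow
  · simpa using hpos
  · by_cases hc : slotEv (x 0) = slotEv (x (Fin.last n))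
    · have hP : 4 ≤ slotP x := by
        by_contra h
        exact hlow ⟨hc, by omega⟩
      have hle := slot_P_le x
      rw [norm_mul, norm_pow, Complex.norm_real, Real.norm_eq_abs]
      have e : |κ| ^ slotP x = |κ| ^ (slotP x - 4) * κ ^ 4 := by
        rw [show κ ^ 4 = |κ| ^ 4 by rw [← abs_pow]; exact (abs_of_nonneg (by positivity)).symm,
          ← pow_add]
        congr 1; omega
      rw [e]
      have h1 := slot_abs_pow_le κ B hB n (slotP x - 4) (by omega)
      have h2 := slot_T_norm_le γ C hC σ σ' x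
      calc |κ| ^ (slotP x - 4) * κ ^ 4 * ‖slotT γ σ σ' x‖
          ≤ (1 + B) ^ n * κ ^ 4 * C := by
            apply mul_le_mul _ h2 (norm_nonneg _) (by positivity)
            exact mul_le_mul_of_nonneg_right h1 (by positivity)
        _ = C * (1 + B) ^ n * κ ^ 4 := by ring
    · have hT : slotT γ σ σ' x = 0 := by
        unfold slotT
        rcases h0 : x 0 with _ | β <;> rcases hL : x (Fin.last n) with _ | α
        · rw [h0, hL] at hc; exact absurd rfl hc
        · rw [hγ2, zero_mul]
        · rw [hγ1, zero_mul]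
        · rw [h0, hL] at hc; exact absurd rfl hc
      rw [hT, mul_zero, norm_zero]; exact hpos

theorem slot_gam_norm_le (R : Matrix (Fin 3) (Fin 3) ℝ) (a a' : Lab) :
    ‖gam R a a'‖ ≤ 1 + ∑ α, ∑ β, |R α β| := by
  have hs : 0 ≤ ∑ α, ∑ β, |R α β| := Finset.sum_nonneg fun _ _ => Finset.sum_nonneg fun _ _ => abs_nonneg _
  rcases a with _ | α <;> rcases a' with _ | β
  · simp only [gam, norm_one]; linarith
  · simp only [gam, norm_zero]; linarith
  · simp only [gam, norm_zero]; linarith
  · simp only [gam, Complex.norm_real, Real.norm_eq_abs]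
    have h1 : |R α β| ≤ ∑ β, |R α β| :=
      Finset.single_le_sum (f := fun β => |R α β|) (fun _ _ => abs_nonneg _) (Finset.mem_univ β)
    have h2 : ∑ β, |R α β| ≤ ∑ α, ∑ β, |R α β| :=
      Finset.single_le_sum (f := fun α => ∑ β, |R α β|)
        (fun _ _ => Finset.sum_nonneg fun _ _ => abs_nonneg _) (Finset.mem_univ α)
    linarith

/-- the terms of order `≤ κ²` -/
theorem slot_main_terms (R : Matrix (Fin 3) (Fin 3) ℝ) (κ : ℝ) (m : ℕ) (hm : 1 ≤ m)
    (σ σ' : Fin (m + 1) → Fin 3) :
    ∑ i : SlotIdx m, (κ : ℂ) ^ slotP (slotCfg m i) * slotT (gam R) σ σ' (slotCfg m i)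
      = ((1 : Matrix (Fin (m + 1) → Fin 3) (Fin (m + 1) → Fin 3) ℂ)
          - (((κ ^ 2 : ℝ)) : ℂ) • ringOf cartSpin (m + 1) R) σ σ' := by
  rw [Fintype.sum_sum_type, Fintype.sum_sum_type, Fintype.sum_prod_type, Fintype.sum_prod_type]
  simp only [slotCfg, Finset.univ_unique, Finset.sum_singleton, slot_P_none, slot_P_single,
    slot_P_seam, slot_T_none, slot_T_single, slot_T_seam _ m hm, gam, pow_zero, one_mul]
  rw [slot_ringOf_succ]
  simp only [cartSpin, mdlSite_smul, Matrix.sub_apply, Matrix.smul_apply, Matrix.add_apply,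
    Matrix.sum_apply, smul_mul_assoc, mul_smul_comm, smul_eq_mul, smul_smul, Complex.I_mul_I]
  have e1 : ∀ (f : Fin m → Fin 3 → ℂ), ∑ x, ∑ y, (-1 : ℂ) * f x y = - ∑ x, ∑ y, f x y := by
    intro f; simp only [neg_mul, one_mul, Finset.sum_neg_distrib]
  have e2 : ∀ (f : Fin 3 → Fin 3 → ℂ), ∑ x, ∑ y, ((R x y : ℝ) : ℂ) * (-1 : ℂ) * f x y
      = - ∑ x, ∑ y, ((R x y : ℝ) : ℂ) * f x y := by
    intro f; simp only [mul_neg, mul_one, neg_mul, Finset.sum_neg_distrib]
  rw [e1, e2]
  simp only [← Finset.mul_sum]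
  push_cast
  ring

/-- **Slot expansion, ring** (leaf C5a): `rowOp (tens κ) (gam R) n = 1 - κ² H_n(R) + O(κ⁴)`. -/
theorem slot_ring_expansion (n : ℕ) (hn : 2 ≤ n) (R : Matrix (Fin 3) (Fin 3) ℝ) (B : ℝ) :
    ∃ K : ℝ, 0 ≤ K ∧ ∀ κ : ℝ, κ ^ 2 ≤ B → ∀ σ σ' : Fin n → Fin 3,
      ‖(rowOp (tens κ) (gam R) n - ((1 : Matrix (Fin n → Fin 3) (Fin n → Fin 3) ℂ)
          - (((κ ^ 2 : ℝ)) : ℂ) • ringOf cartSpin n R)) σ σ'‖ ≤ K * κ ^ 4 := by
  obtain ⟨m, rfl⟩ : ∃ m, n = m + 1 := ⟨n - 1, by omega⟩
  have hm : 1 ≤ m := by omega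
  set C : ℝ := 1 + ∑ α, ∑ β, |R α β| with hC
  have hC0 : 0 ≤ C := le_trans (norm_nonneg _) (slot_gam_norm_le R none none)
  refine ⟨(Fintype.card (Fin (m + 2) → Lab) : ℝ) * (C * (1 + |B|) ^ (m + 1)), by positivity, ?_⟩
  intro κ hκ σ σ'
  have hκ' : κ ^ 2 ≤ |B| := le_trans hκ (le_abs_self B)
  rw [Matrix.sub_apply, slot_rowOp_eq, slot_sum_split, slot_main_terms R κ m hm, add_sub_cancel_left]
  calc ‖∑ x, (if slotLow x then 0 else (κ : ℂ) ^ slotP x * slotT (gam R) σ σ' x)‖
      ≤ ∑ x : Fin (m + 2) → Lab, ‖(if slotLow x then 0 else (κ : ℂ) ^ slotP x * slotT (gam R) σ σ' x)‖ :=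
        norm_sum_le _ _
    _ ≤ ∑ _x : Fin (m + 2) → Lab, C * (1 + |B|) ^ (m + 1) * κ ^ 4 :=
        Finset.sum_le_sum fun x _ => slot_rem_le (gam R) C (slot_gam_norm_le R) (fun _ => rfl)
          (fun _ => rfl) κ |B| hκ' σ σ' x
    _ = (Fintype.card (Fin (m + 2) → Lab) : ℝ) * (C * (1 + |B|) ^ (m + 1)) * κ ^ 4 := by
        rw [Finset.sum_const, Finset.card_univ, nsmul_eq_mul]; ring


/-- **Slot expansion, ring**, in the shape of helper134's interface. -/
theorem slot_ring_expand (n : ℕ) (hn : 2 ≤ n) (R : Matrix (Fin 3) (Fin 3) ℝ) :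
    ∃ C : ℝ, ∀ κ : ℝ, 0 ≤ κ → κ ≤ 1 → ∀ σ σ' : Fin n → Fin 3,
      ‖(rowOp (tens κ) (gam R) n - (1 - (((κ ^ 2 : ℝ)) : ℂ) • ringOf cartSpin n R)) σ σ'‖
        ≤ C * κ ^ 4 := by
  obtain ⟨K, _, hK⟩ := slot_ring_expansion n hn R 1
  exact ⟨K, fun κ h0 h1 σ σ' => hK κ (by nlinarith) σ σ'⟩

end Claimed.Agent.R297
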