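/-
Row 297, package C (spatial transfer), leaf C5b: first-order expansion of the open-chain slot
operator.  Owner helper71.  Built on the generic tools of `TrSlotRing.lean` (helper139).
-/
import Claimed.Agent.R297.TrConcreteDefs
import Claimed.Agent.R297.ModelSite
import Claimed.Agent.R297.TrSlotRing

set_option autoImplicit false

namespace Claimed.Agent.R297

open Matrix

/-- exactly one event, at the position `i`. -/
def slotOne (n : ℕ) (i : Fin n) (α : Fin 3) : Fin n → Lab :=
  Function.update (slotNone n) i (some α)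

theorem slotOne_self (n : ℕ) (i : Fin n) (α : Fin 3) : slotOne n i α i = some α := by
  unfold slotOne; rw [Function.update_self]

theorem slotOne_of_ne (n : ℕ) {i j : Fin n} (h : j ≠ i) (α : Fin 3) : slotOne n i α j = none := by
  unfold slotOne; rw [Function.update_of_ne h]; rfl

theorem slotOpen_N_none (n : ℕ) : slotN (slotNone (n + 1)) = 0 := by
  simp [slotN, slotNone, slotEv]

theorem slotOpen_N_one (n : ℕ) (i : Fin (n + 1)) (α : Fin 3) : slotN (slotOne (n + 1) i α) = 1 := by
  unfold slotN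
  rw [Finset.sum_eq_single i]
  · rw [slotOne_self]; rfl
  · intro b _ hb
    rw [slotOne_of_ne _ hb]; rfl
  · simp

theorem slotOpen_classify {n : ℕ} (x : Fin (n + 1) → Lab) (hN : slotN x ≤ 1) :
    x = slotNone (n + 1) ∨ ∃ i α, x = slotOne (n + 1) i α := by
  by_cases hex : ∃ i, x i ≠ none
  · obtain ⟨i, hi⟩ := hex
    obtain ⟨α, hα⟩ := Option.ne_none_iff_exists'.mp hi
    have hout := slot_none_outside x {i} (by
      intro j hj; rw [Finset.mem_singleton.mp hj, hα]; rfl) (by simpa using hN)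
    right
    refine ⟨i, α, ?_⟩
    funext l
    by_cases hl : l = i
    · subst hl; rw [slotOne_self, hα]
    · rw [slotOne_of_ne _ hl]
      exact hout l (by simpa using hl)
  · left
    push Not at hex
    funext l; exact hex l

/-- the configurations with at most one event. -/
def slotOpenCfg (n : ℕ) : Unit ⊕ (Fin (n + 1) × Fin 3) → (Fin (n + 1) → Lab)
  | Sum.inl _ => slotNone (n + 1)
  | Sum.inr p => slotOne (n + 1) p.1 p.2

theorem slotOpenCfg_injective (n : ℕ) : Function.Injective (slotOpenCfg n) := by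
  rintro (u | ⟨i, α⟩) (u' | ⟨i', α'⟩) h
  · rfl
  · have := congrFun h i'
    simp only [slotOpenCfg, slotOne_self] at this
    simp [slotNone] at this
  · have := congrFun h i
    simp only [slotOpenCfg, slotOne_self] at this
    simp [slotNone] at this
  · have h1 := congrFun h i
    simp only [slotOpenCfg, slotOne_self] at h1
    by_cases hk : i = i'
    · subst hk
      rw [slotOne_self] at h1
      simp only [Option.some.injEq] at h1
      subst h1; rfl
    · rw [slotOne_of_ne _ hk] at h1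
      simp at h1

theorem slotOpen_sum_split (n : ℕ) (F : (Fin (n + 1) → Lab) → ℂ) :
    ∑ x, F x = (F (slotNone (n + 1)) + ∑ i, ∑ α, F (slotOne (n + 1) i α))
      + ∑ x, (if slotN x ≤ 1 then 0 else F x) := by
  have h1 : ∑ p : Unit ⊕ (Fin (n + 1) × Fin 3), F (slotOpenCfg n p)
      = ∑ x, (if slotN x ≤ 1 then F x else 0) := by
    refine Finset.sum_of_injOn (slotOpenCfg n) (slotOpenCfg_injective n).injOn
      (fun _ _ => Finset.mem_coe.mpr (Finset.mem_univ _)) ?_ ?_
    · intro x _ hx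
      rw [if_neg]
      intro hlow
      apply hx
      rcases slotOpen_classify x hlow with h | ⟨i, α, h⟩
      · exact ⟨Sum.inl (), by simp, h.symm⟩
      · exact ⟨Sum.inr (i, α), by simp, h.symm⟩
    · intro p _
      rw [if_pos]
      rcases p with u | ⟨i, α⟩
      · simp only [slotOpenCfg]; rw [slotOpen_N_none]; omega
      · simp only [slotOpenCfg]; rw [slotOpen_N_one]
  have h2 : ∑ p : Unit ⊕ (Fin (n + 1) × Fin 3), F (slotOpenCfg n p)
      = F (slotNone (n + 1)) + ∑ i, ∑ α, F (slotOne (n + 1) i α) := by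
    rw [Fintype.sum_sum_type, Fintype.sum_prod_type]
    simp only [slotOpenCfg, Finset.univ_unique, Finset.sum_singleton]
  rw [← h2, h1, ← Finset.sum_add_distrib]
  refine Finset.sum_congr rfl fun x _ => ?_
  split_ifs <;> simp

/-- one event at the left end. -/
theorem slotOpen_T_first (γ : Lab → Lab → ℂ) (m : ℕ) (σ σ' : Fin (m + 1) → Fin 3) (α : Fin 3) :
    slotT γ σ σ' (slotOne (m + 2) 0 α) = γ none (some α) * mdlSite (0 : Fin (m + 1)) (Gc α) σ σ' := by
  unfold slotT
  rw [slotOne_self, slotOne_of_ne _ (slot_zero_ne_last m).symm, mdlSite_eq_tens, mdlTens_apply]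
  congr 1
  refine Finset.prod_congr rfl fun j _ => ?_
  by_cases h1 : j = 0
  · subst h1
    rw [Fin.castSucc_zero, slotOne_self, slotOne_of_ne _ (Fin.succ_ne_zero _), Function.update_self]
    simp [siteT]
  · have e1 : (j.castSucc : Fin (m + 2)) ≠ 0 := by
      intro h; apply h1; exact Fin.castSucc_injective _ (by rw [h, Fin.castSucc_zero])
    rw [slotOne_of_ne _ e1, slotOne_of_ne _ (Fin.succ_ne_zero _), Function.update_of_ne h1]
    simp [siteT]

/-- one event at the right end. -/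
theorem slotOpen_T_last (γ : Lab → Lab → ℂ) (m : ℕ) (σ σ' : Fin (m + 1) → Fin 3) (α : Fin 3) :
    slotT γ σ σ' (slotOne (m + 2) (Fin.last (m + 1)) α)
      = γ (some α) none * mdlSite (Fin.last m) (Gc α) σ σ' := by
  unfold slotT
  rw [slotOne_self, slotOne_of_ne _ (slot_zero_ne_last m), mdlSite_eq_tens, mdlTens_apply]
  congr 1
  refine Finset.prod_congr rfl fun j _ => ?_
  by_cases h1 : j = Fin.last m
  · subst h1
    rw [Fin.succ_last, slotOne_self, slotOne_of_ne _ (Fin.castSucc_lt_last _).ne,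
      Function.update_self]
    simp [siteT]
  · have e2 : (j.succ : Fin (m + 2)) ≠ Fin.last (m + 1) := by
      intro h; apply h1; exact Fin.succ_injective _ (by rw [h, Fin.succ_last])
    rw [slotOne_of_ne _ e2, slotOne_of_ne _ (Fin.castSucc_lt_last _).ne, Function.update_of_ne h1]
    simp [siteT]

/-- the `κ`-dependence of the closing weight of the open chain. -/
theorem slotOpen_gam_scale (β : Fin 3) (hL hR κ : ℝ) (a' a : Lab) :
    gamOpen β ((κ * hL : ℝ) * Complex.I) ((κ * hR : ℝ) * Complex.I) a' a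
      = (κ : ℂ) ^ (slotEv a + slotEv a') *
        gamOpen β ((hL : ℂ) * Complex.I) ((hR : ℂ) * Complex.I) a' a := by
  rcases a' with _ | α' <;> rcases a with _ | α <;> simp only [gamOpen, bpsi, slotEv]
  · simp
  · split_ifs <;> push_cast <;> ring
  · split_ifs <;> push_cast <;> ring
  · split_ifs <;> push_cast <;> ring

theorem slotOpen_gam_norm_le (β : Fin 3) (hL hR : ℝ) (a' a : Lab) :
    ‖gamOpen β ((hL : ℂ) * Complex.I) ((hR : ℂ) * Complex.I) a' a‖ ≤ (1 + |hR|) * (1 + |hL|) := by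
  have nI : ∀ x : ℝ, ‖((x : ℝ) : ℂ) * Complex.I‖ = |x| := by
    intro x
    rw [norm_mul, Complex.norm_I, mul_one, Complex.norm_real, Real.norm_eq_abs]
  have hb : ∀ (γ : Fin 3) (x : ℝ) (a : Lab), ‖bpsi γ ((x : ℂ) * Complex.I) a‖ ≤ 1 + |x| := by
    intro γ x a
    rcases a with _ | α
    · simp only [bpsi, norm_one]; linarith [abs_nonneg x]
    · simp only [bpsi]
      split_ifs
      · rw [nI]; linarith
      · rw [norm_zero]; linarith [abs_nonneg x]
  unfold gamOpen
  rw [norm_mul]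
  exact mul_le_mul (hb _ _ _) (hb _ _ _) (norm_nonneg _) (by linarith [abs_nonneg hR])

/-- expansion in the number of events. -/
theorem slotOpen_rowOp_eq (β : Fin 3) (hL hR κ : ℝ) (n : ℕ) (σ σ' : Fin n → Fin 3) :
    rowOp (tens κ) (gamOpen β ((κ * hL : ℝ) * Complex.I) ((κ * hR : ℝ) * Complex.I)) n σ σ'
      = ∑ x : Fin (n + 1) → Lab, (κ : ℂ) ^ (2 * slotN x) *
          slotT (gamOpen β ((hL : ℂ) * Complex.I) ((hR : ℂ) * Complex.I)) σ σ' x := by
  rw [slot_rowOp_eq]
  refine Finset.sum_congr rfl fun x _ => ?_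
  rw [← slot_P_add x]
  unfold slotT
  rw [slotOpen_gam_scale, add_assoc, pow_add]
  ring

/-- the terms with at most one event. -/
theorem slotOpen_main_terms (m : ℕ) (hL hR : ℝ) (β : Fin 3) (κ : ℝ)
    (σ σ' : Fin (m + 1) → Fin 3) :
    ((κ : ℂ) ^ (2 * slotN (slotNone (m + 2))) *
        slotT (gamOpen β ((hL : ℂ) * Complex.I) ((hR : ℂ) * Complex.I)) σ σ' (slotNone (m + 2))
      + ∑ i, ∑ α, (κ : ℂ) ^ (2 * slotN (slotOne (m + 2) i α)) *
        slotT (gamOpen β ((hL : ℂ) * Complex.I) ((hR : ℂ) * Complex.I)) σ σ' (slotOne (m + 2) i α))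
      = ((1 : Matrix (Fin (m + 1) → Fin 3) (Fin (m + 1) → Fin 3) ℂ)
          - (((κ ^ 2 : ℝ)) : ℂ) • chainOf cartSpin m hL hR β) σ σ' := by
  have hI : Complex.I * Complex.I = -1 := Complex.I_mul_I
  have e1 : ∀ (i : Fin m) (a : Fin 3),
      Claims.C0475.siteOp i.castSucc (cartSpin a) * Claims.C0475.siteOp i.succ (cartSpin a)
        = -(mdlSite i.castSucc (Gc a) * mdlSite i.succ (Gc a)) := by
    intro i a
    simp only [cartSpin, mdlSite_eq_C0475, mdlSite_smul, smul_mul_assoc, mul_smul_comm, smul_smul,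
      hI, neg_smul, one_smul]
  have e2 : ∀ (j : Fin (m + 1)) (a : Fin 3),
      Claims.C0475.siteOp j (cartSpin a) = Complex.I • mdlSite j (Gc a) := by
    intro j a
    simp only [cartSpin, mdlSite_eq_C0475, mdlSite_smul]
  have hsingle : ∀ (k : Fin m) (α : Fin 3),
      slotOne (m + 2) k.castSucc.succ α = slotSingle m k α := fun _ _ => rfl
  have hsplit : ∀ f : Fin (m + 2) → ℂ,
      ∑ i, f i = f 0 + (∑ k : Fin m, f k.castSucc.succ + f (Fin.last (m + 1))) := by
    intro f
    rw [Fin.sum_univ_succ, Fin.sum_univ_castSucc (fun i : Fin (m + 1) => f i.succ), Fin.succ_last]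
  rw [hsplit]
  simp only [slotOpen_N_none, slotOpen_N_one, hsingle, slot_N_single, slot_T_none, slot_T_single,
    slotOpen_T_first, slotOpen_T_last]
  unfold chainOf
  simp only [e1]
  simp only [e2, gamOpen, bpsi, one_mul, mul_one, ite_mul, zero_mul, mul_ite, mul_zero,
    Finset.sum_ite_eq', Finset.mem_univ, if_true, Finset.sum_neg_distrib, pow_zero]
  simp only [Matrix.sub_apply, Matrix.smul_apply, Matrix.neg_apply, Matrix.sum_apply, smul_eq_mul,
    ← Finset.mul_sum]
  push_cast
  ring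

/-- **Slot expansion, open chain** of `m+1 ≥ 2` sites, left field `hL` along `z`, right field `hR`
along the axis `β`.  The boundary labels `x 0`, `x last` carry the coefficients `κ hL i`, `κ hR i`. -/
theorem slot_open_expand (m : ℕ) (_hm : 1 ≤ m) (hL hR : ℝ) (β : Fin 3) :
    ∃ C : ℝ, ∀ κ : ℝ, 0 ≤ κ → κ ≤ 1 → ∀ σ σ' : Fin (m + 1) → Fin 3,
      ‖(rowOp (tens κ) (gamOpen β ((κ * hL : ℝ) * Complex.I) ((κ * hR : ℝ) * Complex.I)) (m + 1)
          - (1 - (((κ ^ 2 : ℝ)) : ℂ) • chainOf cartSpin m hL hR β)) σ σ'‖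
        ≤ C * κ ^ 4 := by
  set C : ℝ := (1 + |hR|) * (1 + |hL|) with hC
  have hC0 : 0 ≤ C := by positivity
  refine ⟨(Fintype.card (Fin (m + 2) → Lab) : ℝ) * C, ?_⟩
  intro κ hκ0 hκ1 σ σ'
  rw [Matrix.sub_apply, slotOpen_rowOp_eq, slotOpen_sum_split, slotOpen_main_terms,
    add_sub_cancel_left]
  have hterm : ∀ x : Fin (m + 2) → Lab,
      ‖(if slotN x ≤ 1 then 0 else (κ : ℂ) ^ (2 * slotN x) *
        slotT (gamOpen β ((hL : ℂ) * Complex.I) ((hR : ℂ) * Complex.I)) σ σ' x)‖ ≤ C * κ ^ 4 := by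
    intro x
    split_ifs with h
    · rw [norm_zero]; positivity
    · rw [norm_mul, norm_pow, Complex.norm_real, Real.norm_eq_abs, abs_of_nonneg hκ0]
      have h1 : κ ^ (2 * slotN x) ≤ κ ^ 4 := pow_le_pow_of_le_one hκ0 hκ1 (by omega)
      have h2 := slot_T_norm_le _ C (slotOpen_gam_norm_le β hL hR) σ σ' x
      calc κ ^ (2 * slotN x) * _ ≤ κ ^ 4 * C :=
            mul_le_mul h1 h2 (norm_nonneg _) (by positivity)
        _ = C * κ ^ 4 := by ring
  calc _ ≤ ∑ x : Fin (m + 2) → Lab, ‖(if slotN x ≤ 1 then 0 else (κ : ℂ) ^ (2 * slotN x) *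
        slotT (gamOpen β ((hL : ℂ) * Complex.I) ((hR : ℂ) * Complex.I)) σ σ' x)‖ :=
        norm_sum_le _ _
    _ ≤ ∑ _x : Fin (m + 2) → Lab, C * κ ^ 4 := Finset.sum_le_sum fun x _ => hterm x
    _ = (Fintype.card (Fin (m + 2) → Lab) : ℝ) * C * κ ^ 4 := by
        rw [Finset.sum_const, Finset.card_univ, nsmul_eq_mul]; ring

end Claimed.Agent.R297
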