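/-
Row 297, package C (spatial transfer), owner helper134.
Convergence of the discrete spatial traces / pairings to the physical partition functions.
-/
import Claimed.Agent.R297.TrConcreteDefs
import Claimed.Agent.R297.Duality
import Claimed.Agent.R297.TrExpLimit
import Claimed.Agent.R297.TrSlotRing
import Claimed.Agent.R297.TrSlotOpen
import Claimed.Agent.R297.TrCart
import Claimed.Agent.R297.TrKernel

namespace Claimed.Agent.R297

open Matrix Filter Topology

/-- `κ_M = sqrt (b / M)`: the square root of the time step. -/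
noncomputable def kap (b : ℝ) (M : ℕ) : ℝ := Real.sqrt (b / M)

theorem kap_nonneg (b : ℝ) (M : ℕ) : 0 ≤ kap b M := Real.sqrt_nonneg _

theorem kap_sq {b : ℝ} (hb : 0 ≤ b) (M : ℕ) : kap b M ^ 2 = b / M :=
  Real.sq_sqrt (by positivity)

theorem kap_le_one (b : ℝ) : ∀ᶠ M : ℕ in atTop, kap b M ≤ 1 := by
  obtain ⟨N, hN⟩ := exists_nat_ge b
  filter_upwards [eventually_ge_atTop (max N 1)] with M hM
  have hM1 : (1 : ℝ) ≤ M := by exact_mod_cast (le_max_right N 1).trans hM
  have hMb : b ≤ M := hN.trans (by exact_mod_cast (le_max_left N 1).trans hM)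
  unfold kap
  rw [Real.sqrt_le_one]
  rw [div_le_one (by linarith)]
  exact hMb

/-- `eventually` version of `trace_pow_tendsto_gibbsZ`. -/
theorem trace_pow_tendsto_gibbsZ' {ι : Type} [Fintype ι] [DecidableEq ι]
    {H : Matrix ι ι ℂ} (hH : H.IsHermitian) (b C : ℝ) (W : ℕ → Matrix ι ι ℂ)
    (hW : ∀ᶠ M : ℕ in atTop, ∀ i j,
      ‖(W M - (1 - (((b / M : ℝ)) : ℂ) • H)) i j‖ ≤ C / (M : ℝ) ^ 2) :
    Tendsto (fun M => trace (W M ^ M)) atTop (𝓝 ((gibbsZ H b : ℝ) : ℂ)) := by
  classical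
  obtain ⟨N, hN⟩ := eventually_atTop.1 hW
  set W' : ℕ → Matrix ι ι ℂ := fun M => if N ≤ M then W M else 1 - (((b / M : ℝ)) : ℂ) • H
    with hW'
  have h1 : Tendsto (fun M => trace (W' M ^ M)) atTop (𝓝 ((gibbsZ H b : ℝ) : ℂ)) := by
    refine trace_pow_tendsto_gibbsZ hH b |C| W' fun M hM i j => ?_
    have hpos : 0 ≤ |C| / (M : ℝ) ^ 2 := by positivity
    by_cases h : N ≤ M
    · simp only [hW', if_pos h]
      exact (hN M h i j).trans (div_le_div_of_nonneg_right (le_abs_self C) (by positivity))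
    · simp only [hW', if_neg h, sub_self, Matrix.zero_apply, norm_zero]
      exact hpos
  refine h1.congr' ?_
  filter_upwards [eventually_ge_atTop N] with M hM
  simp only [hW', if_pos hM]

theorem closeOp_kron3 (n : ℕ) : closeOp kron3 n = 1 := closeOp_one n

/-- the discrete spatial trace is the physical trace of the slot operator. -/
theorem trace_XM_UM (κ : ℝ) (n M : ℕ) (R : Matrix (Fin 3) (Fin 3) ℝ) :
    trace (XM κ M ^ n * UM R M) = trace ((rowOp (tens κ) (gam R) n) ^ M) := by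
  have h := net_duality (tens κ) (gam R) kron3 n M
  rw [closeOp_kron3, mul_one] at h
  exact h.symm

theorem pairing_XM (κ : ℝ) (n M : ℕ) (β : Fin 3) (cL cR : ℂ) :
    bvec 2 cL M ⬝ᵥ ((XM κ M ^ n) *ᵥ bvec β cR M)
      = trace ((rowOp (tens κ) (gamOpen β cL cR) n) ^ M) := by
  have h := net_duality (tens κ) (gamOpen β cL cR) kron3 n M
  rw [closeOp_kron3, mul_one, closeOp_gamOpen, mul_vecMulVec, trace_vecMulVec] at h
  rw [h, dotProduct_comm]
  rfl

/-- **Ring convergence.** -/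
theorem ring_tendsto {b : ℝ} (hb : 0 < b) (n : ℕ) (hn : 2 ≤ n) (R : Matrix (Fin 3) (Fin 3) ℝ) :
    Tendsto (fun M => trace (XM (kap b M) M ^ n * UM R M)) atTop
      (𝓝 ((gibbsZ (twistRing n R) b : ℝ) : ℂ)) := by
  obtain ⟨C, hC⟩ := slot_ring_expand n hn R
  rw [← gibbsZ_ringOf_cart]
  simp only [trace_XM_UM]
  refine trace_pow_tendsto_gibbsZ' (ringOf_cart_isHermitian n R) b (C * b ^ 2) _ ?_
  filter_upwards [kap_le_one b] with M hM i j
  have h := hC (kap b M) (kap_nonneg b M) hM i j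
  rw [kap_sq hb.le] at h
  refine h.trans (le_of_eq ?_)
  have : kap b M ^ 4 = (b / M) ^ 2 := by
    rw [← kap_sq hb.le M]; ring
  rw [this]; ring

/-- **Open-chain convergence.** -/
theorem open_tendsto {b : ℝ} (hb : 0 < b) (m : ℕ) (hm : 1 ≤ m) (hL hR : ℝ) (β : Fin 3) :
    Tendsto (fun M => bvec 2 ((kap b M * hL : ℝ) * Complex.I) M ⬝ᵥ
        ((XM (kap b M) M ^ (m + 1)) *ᵥ bvec β ((kap b M * hR : ℝ) * Complex.I) M)) atTop
      (𝓝 ((gibbsZ (chainOf Claims.C0475.spinOne m hL hR β) b : ℝ) : ℂ)) := by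
  obtain ⟨C, hC⟩ := slot_open_expand m hm hL hR β
  rw [← gibbsZ_chainOf_cart]
  simp only [pairing_XM]
  refine trace_pow_tendsto_gibbsZ' (chainOf_cart_isHermitian m hL hR β) b (C * b ^ 2) _ ?_
  filter_upwards [kap_le_one b] with M hM i j
  have h := hC (kap b M) (kap_nonneg b M) hM i j
  rw [kap_sq hb.le] at h
  refine h.trans (le_of_eq ?_)
  have : kap b M ^ 4 = (b / M) ^ 2 := by
    rw [← kap_sq hb.le M]; ring
  rw [this]; ring

end Claimed.Agent.R297
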