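/-
Row 297, package C (spatial transfer), owner helper134.
THE INTERFACE of package C.  `transfer_main` is what the seed / bootstrap / boundary packages consume.
-/
import Claimed.Agent.R297.TransferDefs
import Claimed.Agent.R297.TransferConv
import Claimed.Agent.R297.SpecLimit
import Claimed.Agent.R297.SectorVec

namespace Claimed.Agent.R297

open Matrix Filter Topology

theorem tm_re_tendsto {f : ℕ → ℂ} {x : ℝ} (h : Tendsto f atTop (𝓝 (x : ℂ))) :
    Tendsto (fun M => (f M).re) (hyperfilter ℕ : Filter ℕ) (𝓝 x) := by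
  have h1 := (Complex.continuous_re.tendsto (x : ℂ)).comp h
  simp only [Complex.ofReal_re] at h1
  exact h1.mono_left spec_hyperfilter_le_atTop

theorem tm_one_add_pow_le (x : ℝ) (hx : 0 ≤ x) (k : ℕ) : (1 + x) ^ k ≤ Real.exp (k * x) := by
  rw [Real.exp_nat_mul]
  exact pow_le_pow_left₀ (by linarith) (by linarith [Real.add_one_le_exp x]) k

theorem tm_HS {b : ℝ} (hb : 0 < b) (M : ℕ) :
    (trace (XM (kap b M) M ^ 2)).re ≤ 9 * Real.exp (6 * b) := by
  refine (XM_HS (kap b M) M).trans ?_
  rw [kap_sq hb.le]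
  have h1 := tm_one_add_pow_le (3 * (b / M)) (by positivity) (2 * M)
  have h2 : ((2 * M : ℕ) : ℝ) * (3 * (b / M)) ≤ 6 * b := by
    rcases Nat.eq_zero_or_pos M with rfl | hM
    · simp; positivity
    · have : (M : ℝ) ≠ 0 := by positivity
      push_cast
      field_simp
      norm_num
  have h3 := Real.exp_le_exp.2 h2
  linarith

theorem tm_norm {b : ℝ} (hb : 0 < b) (h : ℝ) (M : ℕ) :
    ∑ η, ‖bvec 2 (((kap b M * (-h) : ℝ) : ℂ) * Complex.I) M η‖ ^ 2 ≤ Real.exp (b * h ^ 2) := by
  rw [bvec_normSq]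
  have e : ‖((kap b M * (-h) : ℝ) : ℂ) * Complex.I‖ ^ 2 = b / M * h ^ 2 := by
    rw [norm_mul, Complex.norm_I, mul_one, Complex.norm_real, Real.norm_eq_abs, sq_abs, mul_pow,
      kap_sq hb.le]
    ring
  rw [e]
  have h1 := tm_one_add_pow_le (b / M * h ^ 2) (by positivity) M
  have h2 : (M : ℝ) * (b / M * h ^ 2) ≤ b * h ^ 2 := by
    rcases Nat.eq_zero_or_pos M with rfl | hM
    · simp; positivity
    · have : (M : ℝ) ≠ 0 := by positivity
      field_simp
      exact le_refl _
  exact h1.trans (Real.exp_le_exp.2 h2)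

/-- **Spatial transfer, exact list form.**  For every inverse temperature `b > 0`, shift `a` and
endpoint field `h` there are three real square-summable eigenvalue lists `I`, `O`, `N`
(sector lists of the spatial transfer operator; in the full list `O` occurs twice and `N` three
times) and summable nonnegative boundary weights such that the ring partition functions of length
`n ≥ 3` and the open-chain partition functions of length `n ≥ 2` (every parity) are the
corresponding moments.  `cO` is the total weight on the two copies of `O`. -/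
theorem transfer_main (a h b : ℝ) (hb : 0 < b) :
    ∃ lamI lamO lamN cI cO cN : ℕ → ℝ,
      Summable (fun k => lamI k ^ 2) ∧ Summable (fun k => lamO k ^ 2) ∧
      Summable (fun k => lamN k ^ 2) ∧
      (∀ k, 0 ≤ cI k) ∧ (∀ k, 0 ≤ cO k) ∧ (∀ k, 0 ≤ cN k) ∧
      Summable cI ∧ Summable cO ∧ Summable cN ∧
      (∑' k, cI k + ∑' k, cO k + ∑' k, cN k ≤ Real.exp (b * h ^ 2)) ∧
      (∀ n : ℕ, 3 ≤ n →
        Zring a n 1 b
          = ∑' k, lamI k ^ n + 2 * ∑' k, lamO k ^ n + 3 * ∑' k, lamN k ^ n ∧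
        Zring a n rotP b
          = ∑' k, lamI k ^ n + 2 * ∑' k, lamO k ^ n - ∑' k, lamN k ^ n ∧
        Zring a n rotC b = ∑' k, lamI k ^ n - ∑' k, lamO k ^ n) ∧
      (∀ n : ℕ, 2 ≤ n →
        Zopen a n h (-h) b
          = ∑' k, cI k * lamI k ^ n + ∑' k, cO k * lamO k ^ n + ∑' k, cN k * lamN k ^ n ∧
        Zopen a n h h b
          = ∑' k, cI k * lamI k ^ n + ∑' k, cO k * lamO k ^ n - ∑' k, cN k * lamN k ^ n ∧
        ZopenX a n h (-h) b
          = ∑' k, cI k * lamI k ^ n - (1 / 2) * ∑' k, cO k * lamO k ^ n) := by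
  classical
  set s : ℝ := Real.exp (-(a * b)) with hs
  have hspow : ∀ n : ℕ, s ^ n = Real.exp (-(a * b * n)) := by
    intro n
    rw [hs, ← Real.exp_nat_mul]
    congr 1
    ring
  have H : ∀ M, SectorHypC (XM (kap b M) M) (UM rotP M) (UM rotPx M) (UM rotC M) :=
    fun M => XM_sectorHyp _ _
  set v : ∀ M, (Fin M → Lab) → ℂ :=
    fun M => bvec 2 (((kap b M * (-h) : ℝ) : ℂ) * Complex.I) M with hv
  have hstar : ∀ M, star (v M) = bvec 2 (((kap b M * h : ℝ) : ℂ) * Complex.I) M := by
    intro M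
    rw [hv, star_bvec]
    congr 1
    simp
  have hav : ∀ M, UM rotP M *ᵥ v M = v M := fun M => UM_rotP_bvec _ _
  have hbv : ∀ M, UM rotPx M *ᵥ v M = star (v M) := by
    intro M
    rw [hstar, hv, UM_rotPx_bvec]
    congr 1
    simp
  have htv : ∀ M, UM rotC M *ᵥ v M = bvec 0 (((kap b M * (-h) : ℝ) : ℂ) * Complex.I) M :=
    fun M => UM_rotC_bvec _ _
  choose cI cO cN hcI hcO hcN hsum hq using fun M => (H M).lists_of_vec (v M) (hav M) (hbv M)
  have hV : ∀ M, ∑ i, cI M i + ∑ i, cO M i + ∑ i, cN M i ≤ Real.exp (b * h ^ 2) :=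
    fun M => (hsum M).le.trans (tm_norm hb h M)
  have hsI : ∀ M, 0 ≤ ∑ i, cI M i := fun M => Finset.sum_nonneg fun i _ => hcI M i
  have hsO : ∀ M, 0 ≤ ∑ i, cO M i := fun M => Finset.sum_nonneg fun i _ => hcO M i
  have hsN : ∀ M, 0 ≤ ∑ i, cN M i := fun M => Finset.sum_nonneg fun i _ => hcN M i
  have hBgen : ∀ (M : ℕ) (l : (Fin M → Lab) → ℝ),
      ∑ i, l i ^ 2 ≤ (trace (XM (kap b M) M ^ 2)).re →
      ∑ i, (s * l i) ^ 2 ≤ s ^ 2 * (9 * Real.exp (6 * b)) := by
    intro M l hl
    simp only [mul_pow, ← Finset.mul_sum]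
    exact mul_le_mul_of_nonneg_left (hl.trans (tm_HS hb M)) (sq_nonneg s)
  obtain ⟨lI, dI, -, -, sI, -, hdI, hdI0, -, -, hwI, hmI, hfI⟩ :=
    spec_limit_lists (hyperfilter ℕ) (ι := fun M => Fin M → Lab) (W := Unit)
      (fun M i => s * (H M).lamI i) (fun _ M => cI M) (s ^ 2 * (9 * Real.exp (6 * b)))
      (fun _ => Real.exp (b * h ^ 2)) (fun M => hBgen M _ (H M).sum_sq_lamI_le)
      (fun _ M => by
        simp only [abs_of_nonneg (hcI M _)]
        linarith [hV M, hsO M, hsN M])
  obtain ⟨lO, dO, -, -, sO, -, hdO, hdO0, -, -, hwO, hmO, hfO⟩ :=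
    spec_limit_lists (hyperfilter ℕ) (ι := fun M => Fin M → Lab) (W := Unit)
      (fun M i => s * (H M).lamO i) (fun _ M => cO M) (s ^ 2 * (9 * Real.exp (6 * b)))
      (fun _ => Real.exp (b * h ^ 2)) (fun M => hBgen M _ (H M).sum_sq_lamO_le)
      (fun _ M => by
        simp only [abs_of_nonneg (hcO M _)]
        linarith [hV M, hsI M, hsN M])
  obtain ⟨lN, dN, -, -, sN, -, hdN, hdN0, -, -, hwN, hmN, hfN⟩ :=
    spec_limit_lists (hyperfilter ℕ) (ι := fun M => Fin M → Lab) (W := Unit)
      (fun M i => s * (H M).lamN i) (fun _ M => cN M) (s ^ 2 * (9 * Real.exp (6 * b)))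
      (fun _ => Real.exp (b * h ^ 2)) (fun M => hBgen M _ (H M).sum_sq_lamN_le)
      (fun _ M => by
        simp only [abs_of_nonneg (hcN M _)]
        linarith [hV M, hsI M, hsO M])
  have pI : ∀ k, 0 ≤ dI () k := hdI0 () fun M i => hcI M i
  have pO : ∀ k, 0 ≤ dO () k := hdO0 () fun M i => hcO M i
  have pN : ∀ k, 0 ≤ dN () k := hdN0 () fun M i => hcN M i
  have aI := hdI (); have aO := hdO (); have aN := hdN ()
  simp only [abs_of_nonneg (pI _)] at aI
  simp only [abs_of_nonneg (pO _)] at aO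
  simp only [abs_of_nonneg (pN _)] at aN
  have htot : ∑' k, dI () k + ∑' k, dO () k + ∑' k, dN () k ≤ Real.exp (b * h ^ 2) := by
    refine le_of_forall_pos_le_add fun ε hε => ?_
    have e1 := hfI () (fun M i => hcI M i) (ε / 3) (by positivity)
    have e2 := hfO () (fun M i => hcO M i) (ε / 3) (by positivity)
    have e3 := hfN () (fun M i => hcN M i) (ε / 3) (by positivity)
    obtain ⟨M, h1, h2, h3⟩ := (e1.and (e2.and e3)).exists
    linarith [hV M]
  refine ⟨lI, lO, lN, dI (), dO (), dN (), sI, sO, sN, pI, pO, pN, aI.1, aO.1, aN.1,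
    htot, ?_, ?_⟩
  · -- rings
    intro n hn
    have hn1 : 1 ≤ n := by omega
    have tI := (hmI n hn).2
    have tO := (hmO n hn).2
    have tN := (hmN n hn).2
    have scale : ∀ (M : ℕ) (l : (Fin M → Lab) → ℝ), ∑ i, (s * l i) ^ n = s ^ n * ∑ i, l i ^ n := by
      intro M l
      simp only [mul_pow, ← Finset.mul_sum]
    have ring_lim : ∀ R : Matrix (Fin 3) (Fin 3) ℝ,
        Tendsto (fun M => s ^ n * (trace (XM (kap b M) M ^ n * UM R M)).re)
          (hyperfilter ℕ : Filter ℕ) (𝓝 (Zring a n R b)) := by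
      intro R
      unfold Zring
      rw [← hspow]
      exact (tm_re_tendsto (ring_tendsto hb n (by omega) R)).const_mul _
    refine ⟨?_, ?_, ?_⟩
    · refine tendsto_nhds_unique (ring_lim 1) ?_
      have e : (fun M => s ^ n * (trace (XM (kap b M) M ^ n * UM 1 M)).re)
          = fun M => ∑ i, (s * (H M).lamI i) ^ n + 2 * ∑ i, (s * (H M).lamO i) ^ n
              + 3 * ∑ i, (s * (H M).lamN i) ^ n := by
        funext M
        rw [UM_one, mul_one, (H M).trace_one n hn1, Complex.ofReal_re, scale, scale, scale]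
        ring
      rw [e]
      exact (tI.add (tO.const_mul 2)).add (tN.const_mul 3)
    · refine tendsto_nhds_unique (ring_lim rotP) ?_
      have e : (fun M => s ^ n * (trace (XM (kap b M) M ^ n * UM rotP M)).re)
          = fun M => ∑ i, (s * (H M).lamI i) ^ n + 2 * ∑ i, (s * (H M).lamO i) ^ n
              - ∑ i, (s * (H M).lamN i) ^ n := by
        funext M
        rw [(H M).trace_a n hn1, Complex.ofReal_re, scale, scale, scale]
        ring
      rw [e]
      exact (tI.add (tO.const_mul 2)).sub tN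
    · refine tendsto_nhds_unique (ring_lim rotC) ?_
      have e : (fun M => s ^ n * (trace (XM (kap b M) M ^ n * UM rotC M)).re)
          = fun M => ∑ i, (s * (H M).lamI i) ^ n - ∑ i, (s * (H M).lamO i) ^ n := by
        funext M
        rw [(H M).trace_t n hn1, Complex.ofReal_re, scale, scale]
        ring
      rw [e]
      exact tI.sub tO
  · -- open chains
    intro n hn
    obtain ⟨m, rfl⟩ : ∃ m, n = m + 1 := ⟨n - 1, by omega⟩
    have hm : 1 ≤ m := by omega
    have hn1 : 1 ≤ m + 1 := by omega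
    have tI := (hwI () (m + 1) hn1).2
    have tO := (hwO () (m + 1) hn1).2
    have tN := (hwN () (m + 1) hn1).2
    have scale : ∀ (M : ℕ) (c l : (Fin M → Lab) → ℝ),
        ∑ i, c i * (s * l i) ^ (m + 1) = s ^ (m + 1) * ∑ i, c i * l i ^ (m + 1) := by
      intro M c l
      rw [Finset.mul_sum]
      exact Finset.sum_congr rfl fun i _ => by rw [mul_pow]; ring
    have open_lim : ∀ (hR : ℝ) (β : Fin 3),
        Tendsto (fun M => s ^ (m + 1) * (star (v M) ⬝ᵥ ((XM (kap b M) M ^ (m + 1)) *ᵥ
            bvec β (((kap b M * hR : ℝ) : ℂ) * Complex.I) M)).re)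
          (hyperfilter ℕ : Filter ℕ)
          (𝓝 (s ^ (m + 1) * gibbsZ (chainOf Claims.C0475.spinOne m h hR β) b)) := by
      intro hR β
      have := tm_re_tendsto (open_tendsto hb m hm h hR β)
      simp only [← hstar] at this
      exact this.const_mul _
    refine ⟨?_, ?_, ?_⟩
    · have e0 : Zopen a (m + 1) h (-h) b
          = s ^ (m + 1) * gibbsZ (chainOf Claims.C0475.spinOne m h (-h) 2) b := by
        rw [hspow]; rfl
      rw [e0]
      refine tendsto_nhds_unique (open_lim (-h) 2) ?_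
      have e : (fun M => s ^ (m + 1) * (star (v M) ⬝ᵥ ((XM (kap b M) M ^ (m + 1)) *ᵥ
            bvec 2 (((kap b M * (-h) : ℝ) : ℂ) * Complex.I) M)).re)
          = fun M => ∑ i, cI M i * (s * (H M).lamI i) ^ (m + 1)
              + ∑ i, cO M i * (s * (H M).lamO i) ^ (m + 1)
              + ∑ i, cN M i * (s * (H M).lamN i) ^ (m + 1) := by
        funext M
        have := (hq M (m + 1) hn1).1
        rw [hv] at this
        rw [this, Complex.ofReal_re, scale, scale, scale]
        ring
      rw [e]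
      exact (tI.add tO).add tN
    · have e0 : Zopen a (m + 1) h h b
          = s ^ (m + 1) * gibbsZ (chainOf Claims.C0475.spinOne m h h 2) b := by
        rw [hspow]; rfl
      rw [e0]
      refine tendsto_nhds_unique (open_lim h 2) ?_
      have e : (fun M => s ^ (m + 1) * (star (v M) ⬝ᵥ ((XM (kap b M) M ^ (m + 1)) *ᵥ
            bvec 2 (((kap b M * h : ℝ) : ℂ) * Complex.I) M)).re)
          = fun M => ∑ i, cI M i * (s * (H M).lamI i) ^ (m + 1)
              + ∑ i, cO M i * (s * (H M).lamO i) ^ (m + 1)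
              - ∑ i, cN M i * (s * (H M).lamN i) ^ (m + 1) := by
        funext M
        have := (hq M (m + 1) hn1).2.1
        rw [← hstar M, this, Complex.ofReal_re, scale, scale, scale]
        ring
      rw [e]
      exact (tI.add tO).sub tN
    · have e0 : ZopenX a (m + 1) h (-h) b
          = s ^ (m + 1) * gibbsZ (chainOf Claims.C0475.spinOne m h (-h) 0) b := by
        rw [hspow]; rfl
      rw [e0]
      refine tendsto_nhds_unique (open_lim (-h) 0) ?_
      have e : (fun M => s ^ (m + 1) * (star (v M) ⬝ᵥ ((XM (kap b M) M ^ (m + 1)) *ᵥ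
            bvec 0 (((kap b M * (-h) : ℝ) : ℂ) * Complex.I) M)).re)
          = fun M => ∑ i, cI M i * (s * (H M).lamI i) ^ (m + 1)
              - (1 / 2) * ∑ i, cO M i * (s * (H M).lamO i) ^ (m + 1) := by
        funext M
        have := (hq M (m + 1) hn1).2.2
        rw [htv M] at this
        rw [this, Complex.ofReal_re, scale, scale]
        ring
      rw [e]
      exact tI.sub (tO.const_mul _)

/-- STABLE periodic corollary of `transfer_main` (use this one if you only need rings: its shape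
will not change when boundary clauses are added to `transfer_main`). -/
theorem transfer_ring (a b : ℝ) (hb : 0 < b) :
    ∃ lamI lamO lamN : ℕ → ℝ,
      Summable (fun k => lamI k ^ 2) ∧ Summable (fun k => lamO k ^ 2) ∧
      Summable (fun k => lamN k ^ 2) ∧
      (∀ n : ℕ, 3 ≤ n →
        Zring a n 1 b
          = ∑' k, lamI k ^ n + 2 * ∑' k, lamO k ^ n + 3 * ∑' k, lamN k ^ n ∧
        Zring a n rotP b
          = ∑' k, lamI k ^ n + 2 * ∑' k, lamO k ^ n - ∑' k, lamN k ^ n ∧
        Zring a n rotC b = ∑' k, lamI k ^ n - ∑' k, lamO k ^ n) := by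
  obtain ⟨lamI, lamO, lamN, _, _, _, sI, sO, sN, _, _, _, _, _, _, _, hring, _⟩ :=
    transfer_main a 0 b hb
  exact ⟨lamI, lamO, lamN, sI, sO, sN, hring⟩

end Claimed.Agent.R297
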