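/-
Row 297 (spin-one Haldane gap), package A3: the structure `TwoRep Z` follows from
* a physical representation `Z n b = ∑ₖ exp (-b eₖ)` (finite list, all `b > 0`), and
* a spatial representation `Z n b = ∑ᵢ xᵢ ^ n` (any summable real family, all even `n ≥ 4`).
-/
import Claimed.Agent.R297.Bootstrap

namespace Claimed.Agent.R297

open Filter Topology

section hasSum

variable {κ : Type*}

/-- `∑ y² ≤ (∑ y)²` for summable nonnegative families. -/
theorem hasSum_sq_le {y : κ → ℝ} (hy : ∀ i, 0 ≤ y i) {A B : ℝ} (hA : HasSum y A)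
    (hB : HasSum (fun i => y i ^ 2) B) : B ≤ A ^ 2 := by
  have h1 : Tendsto (fun s : Finset κ => ∑ i ∈ s, y i ^ 2) atTop (𝓝 B) := hB
  have h2 : Tendsto (fun s : Finset κ => (∑ i ∈ s, y i) ^ 2) atTop (𝓝 (A ^ 2)) :=
    Tendsto.pow hA 2
  exact le_of_tendsto_of_tendsto' h1 h2 fun s => sum_sq_le_sq_sum' s y fun i _ => hy i

/-- the purity-squaring inequality for summable nonnegative families. -/
theorem hasSum_two_mul_sq_sub_le {y : κ → ℝ} (hy : ∀ i, 0 ≤ y i) {A B C : ℝ} (hA : HasSum y A)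
    (hB : HasSum (fun i => y i ^ 2) B) (hC : HasSum (fun i => y i ^ 4) C) :
    2 * (B ^ 2 - C) ≤ (A ^ 2 - B) ^ 2 := by
  have tA : Tendsto (fun s : Finset κ => ∑ i ∈ s, y i) atTop (𝓝 A) := hA
  have tB : Tendsto (fun s : Finset κ => ∑ i ∈ s, y i ^ 2) atTop (𝓝 B) := hB
  have tC : Tendsto (fun s : Finset κ => ∑ i ∈ s, y i ^ 4) atTop (𝓝 C) := hC
  have h1 : Tendsto (fun s : Finset κ => 2 * ((∑ i ∈ s, y i ^ 2) ^ 2 - ∑ i ∈ s, y i ^ 4)) atTop
      (𝓝 (2 * (B ^ 2 - C))) := ((tB.pow 2).sub tC).const_mul 2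
  have h2 : Tendsto (fun s : Finset κ => ((∑ i ∈ s, y i) ^ 2 - ∑ i ∈ s, y i ^ 2) ^ 2) atTop
      (𝓝 ((A ^ 2 - B) ^ 2)) := ((tA.pow 2).sub tB).pow 2
  exact le_of_tendsto_of_tendsto' h1 h2 fun s => two_mul_sq_sub_le s y fun i _ => hy i

/-- `ℓ^p` monotonicity for summable nonnegative families. -/
theorem hasSum_pow_le {y : κ → ℝ} (hy : ∀ i, 0 ≤ y i) {n L : ℕ} (hn : 1 ≤ n) (hnL : n ≤ L)
    {A B : ℝ} (hA : HasSum (fun i => y i ^ n) A) (hB : HasSum (fun i => y i ^ L) B) :
    B ^ n ≤ A ^ L := by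
  have tA : Tendsto (fun s : Finset κ => ∑ i ∈ s, y i ^ n) atTop (𝓝 A) := hA
  have tB : Tendsto (fun s : Finset κ => ∑ i ∈ s, y i ^ L) atTop (𝓝 B) := hB
  exact le_of_tendsto_of_tendsto' (tB.pow n) (tA.pow L)
    fun s => pow_sum_pow_le s y (fun i _ => hy i) hn hnL

end hasSum

/-- **`TwoRep` from the two representations.** -/
theorem TwoRep.of_reps (Z : ℕ → ℝ → ℝ)
    (hphys : ∀ n, Even n → 4 ≤ n → ∃ (ι : Type) (_ : Fintype ι) (_ : Nonempty ι) (e : ι → ℝ),
      ∀ b, 0 < b → Z n b = ∑ k, Real.exp (-b * e k))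
    (hspat : ∀ b, 0 < b → ∃ (κ : Type) (x : κ → ℝ),
      ∀ n, Even n → 4 ≤ n → HasSum (fun i => x i ^ n) (Z n b)) : TwoRep Z where
  pos := by
    intro n b hn h4 hb
    obtain ⟨ι, _, _, e, he⟩ := hphys n hn h4
    rw [he b hb]
    exact Finset.sum_pos (fun k _ => Real.exp_pos _) Finset.univ_nonempty
  phys_le := by
    intro n b hn h4 hb
    obtain ⟨ι, _, _, e, he⟩ := hphys n hn h4
    rw [he b hb, he (2 * b) (by positivity)]
    have h := sum_sq_le_sq_sum' Finset.univ (fun k => Real.exp (-b * e k))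
      fun k _ => (Real.exp_pos _).le
    refine le_trans (le_of_eq ?_) h
    refine Finset.sum_congr rfl fun k _ => ?_
    rw [← Real.exp_nat_mul]; congr 1; push_cast; ring
  phys_sq := by
    intro n b hn h4 hb
    obtain ⟨ι, _, _, e, he⟩ := hphys n hn h4
    rw [he b hb, he (2 * b) (by positivity), he (2 * (2 * b)) (by positivity)]
    have h := two_mul_sq_sub_le Finset.univ (fun k => Real.exp (-b * e k))
      fun k _ => (Real.exp_pos _).le
    have e2 : ∑ k, Real.exp (-(2 * b) * e k) = ∑ k, Real.exp (-b * e k) ^ 2 := by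
      refine Finset.sum_congr rfl fun k _ => ?_
      rw [← Real.exp_nat_mul]; congr 1; push_cast; ring
    have e4 : ∑ k, Real.exp (-(2 * (2 * b)) * e k) = ∑ k, Real.exp (-b * e k) ^ 4 := by
      refine Finset.sum_congr rfl fun k _ => ?_
      rw [← Real.exp_nat_mul]; congr 1; push_cast; ring
    rw [e2, e4]; exact h
  spat_le := by
    intro n b hn h4 hb
    obtain ⟨κ, x, hx⟩ := hspat b hb
    have hA := hx n hn h4
    have hB := hx (2 * n) (by simp) (by omega)
    refine hasSum_sq_le (y := fun i => x i ^ n) (fun i => hn.pow_nonneg _) hA ?_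
    simpa only [← pow_mul, mul_comm n 2] using hB
  spat_sq := by
    intro n b hn h4 hb
    obtain ⟨κ, x, hx⟩ := hspat b hb
    have hA := hx n hn h4
    have hB := hx (2 * n) (by simp) (by omega)
    have hC := hx (2 * (2 * n)) (by simp) (by omega)
    refine hasSum_two_mul_sq_sub_le (y := fun i => x i ^ n) (fun i => hn.pow_nonneg _) hA ?_ ?_
    · simpa only [← pow_mul, mul_comm n 2] using hB
    · have : ∀ i, (x i ^ n) ^ 4 = x i ^ (2 * (2 * n)) := fun i => by
        rw [← pow_mul]; congr 1; ring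
      simpa only [this] using hC
  mono := by
    intro n L b hn h4 hL hnL hb
    obtain ⟨κ, x, hx⟩ := hspat b hb
    have hA := hx n hn h4
    have hB := hx L hL (by omega)
    refine hasSum_pow_le (y := fun i => |x i|) (fun i => abs_nonneg _) (by omega) hnL ?_ ?_
    · simpa only [hn.pow_abs] using hA
    · simpa only [hL.pow_abs] using hB

/-- Three sector lists with multiplicities `1, 2, 3` combined into a single family. -/
theorem hasSum_sectors {xI xO xN : ℕ → ℝ} {n : ℕ} {a b c : ℝ}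
    (hI : HasSum (fun i => xI i ^ n) a) (hO : HasSum (fun i => xO i ^ n) b)
    (hN : HasSum (fun i => xN i ^ n) c) :
    HasSum (fun i : ℕ ⊕ (ℕ ⊕ ℕ) ⊕ (ℕ ⊕ ℕ ⊕ ℕ) =>
      (Sum.elim xI (Sum.elim (Sum.elim xO xO) (Sum.elim xN (Sum.elim xN xN))) i) ^ n)
      (a + 2 * b + 3 * c) := by
  have e : a + 2 * b + 3 * c = a + ((b + b) + (c + (c + c))) := by ring
  rw [e]
  refine HasSum.sum ?_ (HasSum.sum (HasSum.sum ?_ ?_) (HasSum.sum ?_ (HasSum.sum ?_ ?_)))
  all_goals first | exact hI | exact hO | exact hN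

end Claimed.Agent.R297
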