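/-
Row 297 (spin-one Haldane gap): assembly of the periodic theorem (S0547) from
* `transfer_main` (package C),
* Hermiticity of the frozen ring Hamiltonian (package M),
* the two seeds `S(60,105/4) ≥ 7/8`, `T(120,105/4) ≥ 7/8` (package F).
-/
import Claimed.Agent.R297.BootstrapNumerics
import Claimed.Agent.R297.TwoRepOfLists
import Claimed.Agent.R297.TransferMain

namespace Claimed.Agent.R297

open Matrix

/-- a square-summable real family has summable `n`-th powers for `n ≥ 2`. -/
theorem summable_pow_of_summable_sq {κ : Type*} {x : κ → ℝ} (h : Summable fun k => x k ^ 2)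
    {n : ℕ} (hn : 2 ≤ n) : Summable fun k => x k ^ n := by
  set S := ∑' k, x k ^ 2 with hS
  have hS0 : 0 ≤ S := tsum_nonneg fun k => sq_nonneg _
  have hle : ∀ k, |x k| ≤ 1 + S := by
    intro k
    have h1 : x k ^ 2 ≤ S := h.le_tsum k fun j _ => sq_nonneg _
    have h2 : |x k| ^ 2 ≤ (1 + S) ^ 2 := by rw [sq_abs]; nlinarith
    exact le_of_pow_le_pow_left₀ (by norm_num) (by linarith) h2
  refine Summable.of_norm_bounded (g := fun k => (1 + S) ^ (n - 2) * x k ^ 2)
    (h.mul_left _) fun k => ?_
  obtain ⟨m, rfl⟩ : ∃ m, n = m + 2 := ⟨n - 2, by omega⟩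
  rw [Real.norm_eq_abs, abs_pow, pow_add, sq_abs, Nat.add_sub_cancel]
  exact mul_le_mul_of_nonneg_right (pow_le_pow_left₀ (abs_nonneg _) (hle k) m) (sq_nonneg _)

/-- the shifted periodic partition function `Tr exp (-b (H_n + a n))`. -/
noncomputable def Zper (a : ℝ) (n : ℕ) (b : ℝ) : ℝ := Zring a n 1 b

theorem Zper_phys (a : ℝ) (n : ℕ) (hH : (Claims.C0475.heisenbergRing n).IsHermitian) (b : ℝ) :
    Zper a n b = ∑ k, Real.exp (-b * (hH.eigenvalues k + a * n)) := by
  unfold Zper Zring
  have h1 : gibbsZ (twistRing n 1) b = ∑ k, Real.exp (-b * hH.eigenvalues k) := by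
    rw [twistRing_one]; exact gibbsZ_eq hH b
  rw [h1, Finset.mul_sum]
  refine Finset.sum_congr rfl fun k _ => ?_
  rw [← Real.exp_add]; congr 1; ring

theorem twoRep_Zper (a : ℝ) (hH : ∀ n, (Claims.C0475.heisenbergRing n).IsHermitian) :
    TwoRep (Zper a) := by
  refine TwoRep.of_reps _ ?_ ?_
  · intro n _ _
    exact ⟨Fin n → Fin 3, inferInstance, inferInstance,
      fun k => (hH n).eigenvalues k + a * n, fun b _ => Zper_phys a n (hH n) b⟩
  · intro b hb
    obtain ⟨lamI, lamO, lamN, sI, sO, sN, hrep⟩ := transfer_ring a b hb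
    refine ⟨_, Sum.elim lamI (Sum.elim (Sum.elim lamO lamO) (Sum.elim lamN (Sum.elim lamN lamN))),
      fun n _ h4 => ?_⟩
    have h := (hrep n (by omega)).1
    unfold Zper
    rw [h]
    exact hasSum_sectors (summable_pow_of_summable_sq sI (by omega)).hasSum
      (summable_pow_of_summable_sq sO (by omega)).hasSum
      (summable_pow_of_summable_sq sN (by omega)).hasSum

/-- **The periodic theorem from its three inputs** (the type is the frozen statement S0547). -/
theorem periodic_assembly (a : ℝ) (hH : ∀ n, (Claims.C0475.heisenbergRing n).IsHermitian)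
    (hS : 7 / 8 ≤ spur (Zper a) 60 (105 / 4)) (hT : 7 / 8 ≤ ppur (Zper a) 120 (105 / 4)) :
    (∀ L : ℕ, Even L → 60 ≤ L →
      Claims.C0475.UniqueGroundStateGapGT (Claims.C0475.heisenbergRing L)
        (4 / 105 * Real.log (80 / 79))) ∧
    (∀ L : ℕ, Even L → 2304 ≤ L →
      Claims.C0475.UniqueGroundStateGapGT (Claims.C0475.heisenbergRing L)
        (Real.log 20 / 784)) := by
  have hZ := twoRep_Zper a hH
  constructor
  · intro L hL h60
    exact gapGT_C0475 (hZ.rawGap_first hS hT hL h60 _ (hH L) (a * L)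
      fun b _ => Zper_phys a L (hH L) b)
  · intro L hL h2304
    exact gapGT_C0475 (hZ.rawGap_second hS hT hL (by omega) _ (hH L) (a * L)
      fun b _ => Zper_phys a L (hH L) b)

end Claimed.Agent.R297
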