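/-
Row 297 (spin-one Haldane gap), package G4 (boundary-field paper, analytic core).
Indefinite continuation of the coupled boundary update (Proposition "in:quadratic") and the
resulting same-field purity at all lengths (Proposition "co:purity").
Level `0` of this file is the level at which all three defects are at most `x₀ ≤ 1/100`
(level `5` of the paper); the reference lengths are `N j`, `N (j+1) = 2 N j`.
-/
import Claimed.Agent.R297.BdryRec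

namespace Claimed.Agent.R297

/-! ### scalar inequalities -/

theorem bdryD_mono {u v : ℝ} (hu : 0 ≤ u) (huv : u ≤ v) (hv : v < 1 / 2) :
    bdryD u ≤ bdryD v := by
  unfold bdryD
  rw [div_le_div_iff₀ (by linarith) (by linarith)]
  nlinarith

theorem bdry_scalar_q {x u' : ℝ} (hx0 : 0 ≤ x) (hx : x ≤ 1 / 100) (hu0 : 0 ≤ u')
    (hu' : u' ≤ 6 * x ^ 2) : bdryD u' ≤ (2 * x) ^ 2 := by
  unfold bdryD
  have h1 : x ^ 2 ≤ 1 / 10000 := by nlinarith
  rw [div_le_iff₀ (by nlinarith)]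
  nlinarith [sq_nonneg x, mul_nonneg (sq_nonneg x) hu0]

theorem bdry_scalar_F {x : ℝ} (hx0 : 0 ≤ x) (hx : x ≤ 1 / 100) :
    bdryF (2 * x) x (1 - x) ≤ 10 * x ^ 2 := by
  unfold bdryF
  have h1 : 2 * x / (1 - 2 * x) ≤ 5 / 2 * x := by
    rw [div_le_iff₀ (by linarith)]
    nlinarith
  have h2 : 1 / ((1 - x) ^ 2 * (1 - x)) - 1 ≤ 4 * x := by
    have hpos : 0 < (1 - x) ^ 2 * (1 - x) := by
      have : 0 < 1 - x := by linarith
      positivity
    rw [sub_le_iff_le_add, div_le_iff₀ hpos]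
    have h3 : 1 - 3 * x ≤ (1 - x) ^ 2 * (1 - x) := by nlinarith [sq_nonneg x, mul_nonneg hx0 (sq_nonneg x)]
    have h4 : 1 ≤ (4 * x + 1) * (1 - 3 * x) := by nlinarith
    calc (1:ℝ) ≤ (4 * x + 1) * (1 - 3 * x) := h4
      _ ≤ (4 * x + 1) * ((1 - x) ^ 2 * (1 - x)) :=
          mul_le_mul_of_nonneg_left h3 (by linarith)
  have h0 : 0 ≤ 2 * x / (1 - 2 * x) := div_nonneg (by linarith) (by linarith)
  calc 2 * x / (1 - 2 * x) * (1 / ((1 - x) ^ 2 * (1 - x)) - 1)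
      ≤ 2 * x / (1 - 2 * x) * (4 * x) := mul_le_mul_of_nonneg_left h2 h0
    _ ≤ 5 / 2 * x * (4 * x) := mul_le_mul_of_nonneg_right h1 (by linarith)
    _ = 10 * x ^ 2 := by ring

/-- Weierstrass product inequality for four factors. -/
theorem bdry_prod4_ge {a b c d : ℝ} (ha : 0 ≤ a) (hb : 0 ≤ b) (hc : 0 ≤ c) (hd : 0 ≤ d)
    (ha1 : a ≤ 1) (hb1 : b ≤ 1) (hc1 : c ≤ 1) (hd1 : d ≤ 1) :
    1 - (a + b + c + d) ≤ (1 - a) * (1 - b) * (1 - c) * (1 - d) := by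
  have h1 : 1 - (a + b) ≤ (1 - a) * (1 - b) := by nlinarith
  have h2 : 1 - (a + b + c) ≤ (1 - a) * (1 - b) * (1 - c) := by
    have : 0 ≤ (1 - a) * (1 - b) := mul_nonneg (by linarith) (by linarith)
    have h3 : (1 - a) * (1 - b) ≤ 1 := by nlinarith
    nlinarith
  have : 0 ≤ (1 - a) * (1 - b) * (1 - c) :=
    mul_nonneg (mul_nonneg (by linarith) (by linarith)) (by linarith)
  have h3 : (1 - a) * (1 - b) * (1 - c) ≤ 1 := by
    have h4 : (1 - a) * (1 - b) ≤ 1 := by nlinarith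
    have h5 : 0 ≤ (1 - a) * (1 - b) := mul_nonneg (by linarith) (by linarith)
    nlinarith
  nlinarith

theorem bdry_scalar_gimp {x u u' : ℝ} (hx0 : 0 ≤ x) (hx : x ≤ 1 / 100) (hu0 : 0 ≤ u)
    (hu : u ≤ x) (hu0' : 0 ≤ u') (hu' : u' ≤ 6 * x ^ 2) :
    1 - 10 * x ^ 2 ≤ gimp ((1 - x) * ((1 - u) * (1 - u')) * (1 - 10 * x ^ 2)) := by
  have hxx : x ^ 2 ≤ 1 / 10000 := by nlinarith
  have hxx0 : 0 ≤ x ^ 2 := sq_nonneg x
  set s0 := 1 - 2 * x - 16 * x ^ 2 with hs0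
  have hs0pos : 97 / 100 ≤ s0 := by rw [hs0]; nlinarith
  have hprod : s0 ≤ (1 - x) * ((1 - u) * (1 - u')) * (1 - 10 * x ^ 2) := by
    have := bdry_prod4_ge (a := x) (b := u) (c := u') (d := 10 * x ^ 2) hx0 hu0 hu0'
      (by positivity) (by linarith) (by linarith) (by nlinarith) (by nlinarith)
    have e : (1 - x) * ((1 - u) * (1 - u')) * (1 - 10 * x ^ 2) =
        (1 - x) * (1 - u) * (1 - u') * (1 - 10 * x ^ 2) := by ring
    rw [e, hs0]
    linarith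
  have hle1 : (1 - x) * ((1 - u) * (1 - u')) * (1 - 10 * x ^ 2) ≤ 1 := by
    have a1 : (1 - u) * (1 - u') ≤ 1 := by nlinarith
    have a0 : 0 ≤ (1 - u) * (1 - u') := mul_nonneg (by linarith) (by nlinarith)
    have a2 : (1 - x) * ((1 - u) * (1 - u')) ≤ 1 := by nlinarith
    have a3 : 0 ≤ (1 - x) * ((1 - u) * (1 - u')) := mul_nonneg (by linarith) a0
    nlinarith
  refine le_trans ?_ (gimp_mono (by linarith) hprod hle1)
  unfold gimp
  have h1 : (1 - s0) ^ 2 / (2 * s0 ^ 2) ≤ 10 * x ^ 2 := by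
    rw [div_le_iff₀ (by positivity)]
    have e : 1 - s0 = x * (2 + 16 * x) := by rw [hs0]; ring
    rw [e, mul_pow]
    have h2 : (2 + 16 * x) ^ 2 ≤ 5 := by nlinarith
    have h3 : (94:ℝ) / 100 ≤ s0 ^ 2 := by nlinarith
    nlinarith
  linarith

theorem bdry_scalar_final {x u u' : ℝ} (hx0 : 0 ≤ x) (hx : x ≤ 1 / 100) (hu0 : 0 ≤ u)
    (hu : u ≤ x) (hu0' : 0 ≤ u') (hu' : u' ≤ 6 * x ^ 2) :
    1 - 4 * x ≤ (1 - 2 * (10 * x ^ 2)) * (1 - x) * ((1 - u) * (1 - u')) := by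
  have hxx : x ^ 2 ≤ x / 100 := by nlinarith
  have hxx0 : 0 ≤ x ^ 2 := sq_nonneg x
  have := bdry_prod4_ge (a := 2 * (10 * x ^ 2)) (b := x) (c := u) (d := u') (by positivity) hx0
    hu0 hu0' (by nlinarith) (by linarith) (by linarith) (by nlinarith)
  have e : (1 - 2 * (10 * x ^ 2)) * (1 - x) * ((1 - u) * (1 - u')) =
      (1 - 2 * (10 * x ^ 2)) * (1 - x) * (1 - u) * (1 - u') := by ring
  rw [e]
  nlinarith

/-! ### the defect sequence -/

/-- `x_{j+1} = 10 x_j²`. -/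
noncomputable def bdryX (x0 : ℝ) : ℕ → ℝ
  | 0 => x0
  | j + 1 => 10 * bdryX x0 j ^ 2

theorem bdryX_zero (x0 : ℝ) : bdryX x0 0 = x0 := rfl

theorem bdryX_succ (x0 : ℝ) (j : ℕ) : bdryX x0 (j + 1) = 10 * bdryX x0 j ^ 2 := rfl

theorem bdryX_closed (x0 : ℝ) (j : ℕ) : bdryX x0 j = (10 * x0) ^ (2 ^ j) / 10 := by
  induction j with
  | zero => simp [bdryX_zero]
  | succ j ih =>
    rw [bdryX_succ, ih, pow_succ 2 j, pow_mul]
    ring

theorem bdryX_range {x0 : ℝ} (h0 : 0 ≤ x0) (h1 : x0 ≤ 1 / 100) (j : ℕ) :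
    0 ≤ bdryX x0 j ∧ bdryX x0 j ≤ 1 / 100 := by
  induction j with
  | zero => exact ⟨h0, h1⟩
  | succ j ih =>
    rw [bdryX_succ]
    obtain ⟨a, b⟩ := ih
    constructor
    · positivity
    · nlinarith

/-! ### the induction -/

section main

variable {Z Y Ys : ℕ → ℕ → ℝ} {k0 : ℕ} {N : ℕ → ℕ} {u lam c : ℕ → ℝ} {x0 : ℝ}

/-- Hypotheses of the indefinite continuation. -/
structure BTower (Z Y Ys : ℕ → ℕ → ℝ) (k0 : ℕ) (N : ℕ → ℕ) (u lam c : ℕ → ℝ) : Prop where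
  phys : BPhys Z Y Ys k0
  N_succ : ∀ j, N (j + 1) = 2 * N j
  N_even : Even (N 0)
  N_ge : k0 ≤ N 0
  u_nonneg : ∀ j, 0 ≤ u j
  u_succ : ∀ j, u (j + 1) ≤ 6 * u j ^ 2
  lead : ∀ j, BLead (Z j) (Y j) (Ys j) k0 (N j) (bdryD (u j)) (lam j) (c j)
  frac : ∀ j, (1 - u j) * Z j (N j) ≤ lam j ^ N j
  purT : ∀ j, (1 - u j) * Z j (N (j + 1)) ^ 2 ≤ Z (j + 1) (N (j + 1))

theorem BTower.N_even' (h : BTower Z Y Ys k0 N u lam c) (j : ℕ) : Even (N j) := by
  cases j with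
  | zero => exact h.N_even
  | succ j => rw [h.N_succ]; simp

theorem BTower.N_mono (h : BTower Z Y Ys k0 N u lam c) (j : ℕ) : k0 ≤ N j := by
  induction j with
  | zero => exact h.N_ge
  | succ j ih => rw [h.N_succ]; omega

/-- Proposition "in:quadratic". -/
theorem BTower.quadratic (h : BTower Z Y Ys k0 N u lam c) (hx0 : 0 ≤ x0) (hx1 : x0 ≤ 1 / 100)
    (hu : u 0 ≤ x0)
    (hE : Y 0 (N 0) - c 0 * lam 0 ^ N 0 ≤ x0 * Y 0 (N 0))
    (hη : (1 - x0) * Y 0 (N 1) ^ 2 ≤ Y 1 (N 1)) (j : ℕ) :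
    u j ≤ bdryX x0 j ∧
      Y j (N j) - c j * lam j ^ N j ≤ bdryX x0 j * Y j (N j) ∧
      (1 - bdryX x0 j) * Y j (N (j + 1)) ^ 2 ≤ Y (j + 1) (N (j + 1)) := by
  induction j with
  | zero => exact ⟨hu, hE, hη⟩
  | succ j ih =>
    obtain ⟨ihu, ihE, ihη⟩ := ih
    obtain ⟨hxa, hxb⟩ := bdryX_range hx0 hx1 j
    set x := bdryX x0 j with hx
    have hu0 := h.u_nonneg j
    have hu0' := h.u_nonneg (j + 1)
    have hu' : u (j + 1) ≤ 6 * x ^ 2 := by
      have := h.u_succ j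
      have h2 : u j ^ 2 ≤ x ^ 2 := pow_le_pow_left₀ hu0 ihu 2
      linarith
    have hxx : x ^ 2 ≤ 1 / 10000 := by nlinarith
    have hρ := blead_ratio_ge (u := u j) (u' := u (j + 1)) (lam' := lam (j + 1)) (h.lead j)
      (h.N_even' (j + 1)) (h.N_mono (j + 1)) (by linarith) (by nlinarith) (h.frac (j + 1))
      (h.purT j)
    have hq : bdryD (u (j + 1)) ^ (N (j + 1) - N j) ≤ (2 * x) ^ N (j + 1) := by
      have e1 : N (j + 1) - N j = N j := by rw [h.N_succ]; omega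
      rw [e1, h.N_succ, pow_mul]
      refine pow_le_pow_left₀ ?_ (bdry_scalar_q hxa hxb hu0' hu') _
      exact (h.lead (j + 1)).κ_nonneg
    have hstep := bdry_step (E := x) (η := x) (E' := 10 * x ^ 2) (η' := 10 * x ^ 2)
      (q := 2 * x) (ρ := (1 - u j) * (1 - u (j + 1))) h.phys (h.lead j) (h.lead (j + 1))
      (h.N_even' j) (h.N_even' (j + 1)) (h.N_mono j) (by rw [h.N_succ]; omega) ihE (by linarith)
      ihη (by linarith) (by linarith) (by linarith) hq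
      (mul_pos (by linarith) (by nlinarith)) hρ (bdry_scalar_F hxa hxb) (by nlinarith)
      (bdry_scalar_gimp hxa hxb hu0 ihu hu0' hu')
    rw [bdryX_succ, ← hx]
    refine ⟨by nlinarith, hstep.1, ?_⟩
    have e2 : N (j + 1 + 1) = 2 * N (j + 1) := h.N_succ (j + 1)
    rw [e2]
    exact hstep.2

/-- Proposition "co:purity": the same-field Gibbs purity at every length of a dyadic block. -/
theorem BTower.same_field (h : BTower Z Y Ys k0 N u lam c) (hx0 : 0 ≤ x0) (hx1 : x0 ≤ 1 / 100)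
    (hu : u 0 ≤ x0)
    (hE : Y 0 (N 0) - c 0 * lam 0 ^ N 0 ≤ x0 * Y 0 (N 0))
    (hη : (1 - x0) * Y 0 (N 1) ^ 2 ≤ Y 1 (N 1)) (j n : ℕ) (hn1 : N (j + 1) ≤ n)
    (hn2 : n ≤ 2 * N (j + 1)) :
    (1 - 4 * bdryX x0 j) * Ys j n ^ 2 ≤ Ys (j + 1) n := by
  obtain ⟨ihu, -, ihη⟩ := h.quadratic hx0 hx1 hu hE hη j
  obtain ⟨-, ihE', -⟩ := h.quadratic hx0 hx1 hu hE hη (j + 1)
  obtain ⟨hxa, hxb⟩ := bdryX_range hx0 hx1 j
  rw [bdryX_succ] at ihE'
  set x := bdryX x0 j with hx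
  have hu0 := h.u_nonneg j
  have hu0' := h.u_nonneg (j + 1)
  have hu' : u (j + 1) ≤ 6 * x ^ 2 := by
    have := h.u_succ j
    have h2 : u j ^ 2 ≤ x ^ 2 := pow_le_pow_left₀ hu0 ihu 2
    linarith
  have hxx : x ^ 2 ≤ 1 / 10000 := by nlinarith
  have hρ := blead_ratio_ge (u := u j) (u' := u (j + 1)) (lam' := lam (j + 1)) (h.lead j)
    (h.N_even' (j + 1)) (h.N_mono (j + 1)) (by linarith) (by nlinarith) (h.frac (j + 1))
    (h.purT j)
  have hmain := bdry_same_field (E' := 10 * x ^ 2) (η := x)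
    (ρ := (1 - u j) * (1 - u (j + 1))) h.phys (h.lead j) (h.lead (j + 1)) (h.N_even' (j + 1))
    (h.N_mono (j + 1)) hn1 hn2 ihη (by linarith) ihE' (by nlinarith)
    (mul_nonneg (by linarith) (by nlinarith)) hρ
  refine le_trans (mul_le_mul_of_nonneg_right ?_ (sq_nonneg _)) hmain
  exact bdry_scalar_final hxa hxb hu0 ihu hu0' hu'

end main

end Claimed.Agent.R297
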