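/-
Row 297 (spin-one Haldane gap), S0548 redesign (owner helper174), file 1: the numeric boundary chain.
Temperature levels `b_j = 2^j * 21/2`.  From the level-0 boundary seed and the periodic
concentration at the levels `1..5` we reach, at level `5` (`b = 336`), the hypotheses of
`BTower.gap` with `x₀ = 1/100`, `N 0 = 480`, `N 1 = 960`.
Lengths: `30 → 60 → 90`, then `M = 120, 240, 480`.
-/
import Claimed.Agent.R297.BdryMain

namespace Claimed.Agent.R297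

theorem binit_pow_le {κ q : ℝ} (hκ0 : 0 ≤ κ) {r s e : ℕ} (h : κ ≤ q ^ r) (he : e = r * s) :
    κ ^ s ≤ q ^ e := by
  rw [he, pow_mul]
  exact pow_le_pow_left₀ hκ0 h s

/-- **The boundary chain from level `0` to level `5`.** -/
theorem binit_chain {Z Y Ys : ℕ → ℕ → ℝ} (hP : BPhys Z Y Ys 3)
    {e0 : ℕ} {κ0 κ1 κ2 κ3 κ4 κ5 : ℝ} {lam c : ℕ → ℝ}
    (hL0 : BLead (Z 0) (Y 0) (Ys 0) 3 e0 κ0 (lam 0) (c 0))
    (hL1 : BLead (Z 1) (Y 1) (Ys 1) 3 30 κ1 (lam 1) (c 1))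
    (hL2 : BLead (Z 2) (Y 2) (Ys 2) 3 30 κ2 (lam 2) (c 2))
    (hL3 : BLead (Z 3) (Y 3) (Ys 3) 3 120 κ3 (lam 3) (c 3))
    (hL4 : BLead (Z 4) (Y 4) (Ys 4) 3 240 κ4 (lam 4) (c 4))
    (hL5 : BLead (Z 5) (Y 5) (Ys 5) 3 480 κ5 (lam 5) (c 5))
    (hκ1 : κ1 ≤ 92 / 1000) (hκ2 : κ2 ≤ 138 / 1000) (hκ3 : κ3 ≤ (254 / 1000) ^ 4)
    (hκ4 : κ4 ≤ (143 / 10000) ^ 2) (hκ5 : κ5 ≤ (1 / 1000) ^ 2)
    (hρ2 : 955 / 1000 * lam 2 ^ (2 * 120) ≤ lam 3 ^ 120)
    (hρ3 : 991 / 1000 * lam 3 ^ (2 * 240) ≤ lam 4 ^ 240)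
    (hρ4 : 9995 / 10000 * lam 4 ^ (2 * 480) ≤ lam 5 ^ 480)
    (hE0 : Y 0 30 - c 0 * lam 0 ^ 30 ≤ 185 / 1000 * Y 0 30)
    (hA0 : 619 / 1000 * Y 0 60 ^ 2 ≤ Y 1 60)
    (hA1 : 782 / 1000 * Y 1 90 ^ 2 ≤ Y 2 90)
    (hA2 : (1 - 87 / 1000) * Y 2 120 ^ 2 ≤ Y 3 120) :
    Y 5 480 - c 5 * lam 5 ^ 480 ≤ 1 / 1000 * Y 5 480 ∧
      (1 - 1 / 10000) * Y 5 960 ^ 2 ≤ Y 6 960 := by
  -- level 0 -> 1, lengths 30 -> 60
  have hE1 : Y 1 60 - c 1 * lam 1 ^ 60 ≤ 146 / 1000 * Y 1 60 := by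
    have h := bdry_recurrence hP (j := 0) (k := 30) (m := 60) (E := 185 / 1000) (t := 619 / 1000)
      (q := 92 / 1000) hL0 hL1 (by decide) (by decide) (by norm_num) (by norm_num) hE0
      (by norm_num) (by norm_num) hA0 (by norm_num) (by norm_num)
      (pow_le_pow_left₀ hL1.κ_nonneg hκ1 _)
    refine le_trans h (mul_le_mul_of_nonneg_right ?_ (hP.Y_pos 1 60 (by norm_num)).le)
    unfold bdryF
    norm_num
  -- level 1 -> 2, lengths 60 -> 90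
  have hE2 : Y 2 90 - c 2 * lam 2 ^ 90 ≤ 121 / 1000 * Y 2 90 := by
    have h := bdry_recurrence hP (j := 1) (k := 60) (m := 90) (E := 146 / 1000) (t := 782 / 1000)
      (q := 138 / 1000) hL1 hL2 (by decide) (by decide) (by norm_num) (by norm_num) hE1
      (by norm_num) (by norm_num) hA1 (by norm_num) (by norm_num)
      (pow_le_pow_left₀ hL2.κ_nonneg hκ2 _)
    refine le_trans h (mul_le_mul_of_nonneg_right ?_ (hP.Y_pos 2 90 (by norm_num)).le)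
    unfold bdryF
    norm_num
  -- level 2 -> 3
  obtain ⟨hE3, hA3⟩ := bdry_step hP (j := 2) (k := 90) (M := 120) (E := 121 / 1000)
    (η := 87 / 1000) (E' := 143 / 1000) (η' := 58 / 1000) (q := 254 / 1000) (ρ := 955 / 1000)
    hL2 hL3 (by decide) (by decide) (by norm_num) (by norm_num) hE2 (by norm_num) hA2
    (by norm_num) (by norm_num) (by norm_num)
    (binit_pow_le hL3.κ_nonneg hκ3 (by norm_num)) (by norm_num) hρ2
    (by unfold bdryF; norm_num) (by norm_num) (by unfold gimp; norm_num)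
  -- level 3 -> 4
  obtain ⟨hE4, hA4⟩ := bdry_step hP (j := 3) (k := 120) (M := 240) (E := 143 / 1000)
    (η := 58 / 1000) (E' := 7 / 1000) (η' := 32 / 10000) (q := 143 / 10000) (ρ := 991 / 1000)
    hL3 hL4 (by decide) (by decide) (by norm_num) (by norm_num) hE3 (by norm_num) hA3
    (by norm_num) (by norm_num) (by norm_num)
    (binit_pow_le hL4.κ_nonneg hκ4 (by norm_num)) (by norm_num) hρ3
    (by unfold bdryF; norm_num) (by norm_num) (by unfold gimp; norm_num)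
  -- level 4 -> 5
  obtain ⟨hE5, hA5⟩ := bdry_step hP (j := 4) (k := 240) (M := 480) (E := 7 / 1000)
    (η := 32 / 10000) (E' := 1 / 1000) (η' := 1 / 10000) (q := 1 / 1000) (ρ := 9995 / 10000)
    hL4 hL5 (by decide) (by decide) (by norm_num) (by norm_num) hE4 (by norm_num) hA4
    (by norm_num) (by norm_num) (by norm_num)
    (binit_pow_le hL5.κ_nonneg hκ5 (by norm_num)) (by norm_num) hρ4
    (by unfold bdryF; norm_num) (by norm_num) (by unfold gimp; norm_num)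
  exact ⟨hE5, hA5⟩

end Claimed.Agent.R297
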