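/-
Row 297 (spin-one Haldane gap), package G5 (boundary-field paper, analytic core).
From the same-field purity on all dyadic blocks to the spectral gap
(proof of the main theorem of the boundary paper, last step).
-/
import Claimed.Agent.R297.BdryMain
import Claimed.Agent.R297.GapOfPurity

namespace Claimed.Agent.R297

variable {Z Y Ys : ℕ → ℕ → ℝ} {k0 : ℕ} {N : ℕ → ℕ} {u lam c : ℕ → ℝ} {x0 : ℝ}

theorem BTower.N_closed (h : BTower Z Y Ys k0 N u lam c) (j : ℕ) : N j = 2 ^ j * N 0 := by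
  induction j with
  | zero => simp
  | succ j ih => rw [h.N_succ, ih]; ring

/-- every `n ≥ N 1` lies in a dyadic block `[N (j+1), 2 N (j+1)]`. -/
theorem BTower.exists_block (h : BTower Z Y Ys k0 N u lam c) (hN0 : 0 < N 0) {n : ℕ}
    (hn : N 1 ≤ n) : ∃ j, N (j + 1) ≤ n ∧ n ≤ 2 * N (j + 1) := by
  have hN1 : 0 < N 1 := by rw [h.N_succ]; omega
  set j := Nat.log 2 (n / N 1) with hj
  have hdiv : n / N 1 ≠ 0 := by
    have : 1 ≤ n / N 1 := (Nat.le_div_iff_mul_le hN1).2 (by simpa using hn)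
    omega
  have e1 : N (j + 1) = 2 ^ j * N 1 := by
    rw [h.N_closed (j + 1), h.N_closed 1]; ring
  refine ⟨j, ?_, ?_⟩
  · rw [e1]
    have := Nat.pow_log_le_self 2 hdiv
    exact (Nat.le_div_iff_mul_le hN1).1 this
  · rw [e1]
    have := Nat.lt_pow_succ_log_self (by norm_num : 1 < 2) (n / N 1)
    have h3 : n < 2 ^ (j + 1) * N 1 := (Nat.div_lt_iff_lt_mul hN1).1 this
    have : 2 ^ (j + 1) * N 1 = 2 * (2 ^ j * N 1) := by ring
    omega

/-- **Gap of the same-field chain.**  If `Ys j n` is the partition function at inverse temperature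
`2^j b` of the finite energy list `e` (any common shift `s`), the list has a unique minimum with
gap `> log (1/(10 x₀)) / b`. -/
theorem BTower.gap (h : BTower Z Y Ys k0 N u lam c) (hx0 : 0 < x0) (hx1 : x0 ≤ 1 / 100)
    (hu : u 0 ≤ x0)
    (hE : Y 0 (N 0) - c 0 * lam 0 ^ N 0 ≤ x0 * Y 0 (N 0))
    (hη : (1 - x0) * Y 0 (N 1) ^ 2 ≤ Y 1 (N 1)) (hN0 : 0 < N 0) {n : ℕ} (hn : N 1 ≤ n)
    {b : ℝ} (hb : 0 < b) {ι : Type*} [Fintype ι] [Nonempty ι] (e : ι → ℝ) (s : ℝ)
    (hrep : ∀ j, Ys j n = ∑ k, Real.exp (-(2 ^ j * b) * (e k + s))) :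
    ∃ k₀ : ι, ∀ k, k ≠ k₀ → e k₀ + Real.log (1 / (10 * x0)) / b < e k := by
  obtain ⟨j, hj1, hj2⟩ := h.exists_block hN0 hn
  have hpur := h.same_field hx0.le hx1 hu hE hη j n hj1 hj2
  obtain ⟨hxa, hxb⟩ := bdryX_range hx0.le hx1 j
  set x := bdryX x0 j with hx
  have hP : (1 - 4 * x) * (∑ k, Real.exp (-(2 ^ j * b) * (e k + s))) ^ 2 ≤
      ∑ k, Real.exp (-(2 * (2 ^ j * b)) * (e k + s)) := by
    rw [← hrep j]
    have : (2:ℝ) * (2 ^ j * b) = 2 ^ (j + 1) * b := by ring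
    rw [this, ← hrep (j + 1)]
    exact hpur
  obtain ⟨k₀, hk₀⟩ := exists_dominant_of_purity (fun k => e k + s) (2 ^ j * b) (4 * x)
    (by linarith) hP
  refine ⟨k₀, fun k hk => ?_⟩
  have h1 := hk₀ k hk
  set r := 10 * x0 with hr
  have hrpos : 0 < r := by positivity
  have hxr : x = r ^ (2 ^ j) / 10 := by rw [hx, bdryX_closed]
  have hrj : 0 < r ^ (2 ^ j) := by positivity
  have h2 : 4 * x / (1 - 4 * x) < r ^ (2 ^ j) := by
    rw [div_lt_iff₀ (by linarith)]
    have : r ^ (2 ^ j) = 10 * x := by rw [hxr]; ring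
    rw [this]
    have hxpos : 0 < x := by rw [hxr]; positivity
    nlinarith
  have h3 : Real.exp (-(2 ^ j * b) * (e k + s - (e k₀ + s))) < r ^ (2 ^ j) :=
    lt_of_le_of_lt h1 h2
  set δ := e k - e k₀ with hδ
  have h4 : Real.exp (-(2 ^ j * b) * (e k + s - (e k₀ + s))) = Real.exp (-b * δ) ^ (2 ^ j) := by
    rw [← Real.exp_nat_mul]; congr 1; push_cast; simp only [hδ]; ring
  rw [h4] at h3
  have h5 : Real.exp (-b * δ) < r := lt_of_pow_lt_pow_left₀ _ hrpos.le h3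
  have h6 : -b * δ < Real.log r := by
    rw [← Real.log_exp (-b * δ)]
    exact Real.log_lt_log (Real.exp_pos _) h5
  have h7 : Real.log (1 / r) / b < δ := by
    rw [div_lt_iff₀ hb, one_div, Real.log_inv]
    linarith
  simp only [hδ] at h7
  linarith

end Claimed.Agent.R297
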