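/-
Row 297 (Haldane gap), package M (model lemmas), owner helper100.

Hermitian-ness of the frozen Hamiltonians and of the twisted rings / open chains of `TransferDefs`.
-/
import Claimed.Agent.R297.ModelSite
import Claimed.Agent.R297.TransferDefs

set_option autoImplicit false

namespace Claimed.Agent.R297

open Matrix Complex

theorem mdl_spinOne_isHermitian (α : Fin 3) : (Claims.C0475.spinOne α).IsHermitian := by
  have h2 : (starRingEnd ℂ) ((Real.sqrt 2 : ℂ)) = (Real.sqrt 2 : ℂ) := Complex.conj_ofReal _
  fin_cases α <;> ext i j <;> fin_cases i <;> fin_cases j <;>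
    simp [Claims.C0475.spinOne, Matrix.conjTranspose_apply, h2]

theorem mdl_siteOp_isHermitian {ι : Type} [Fintype ι] [DecidableEq ι] (j : ι)
    {A : Matrix (Fin 3) (Fin 3) ℂ} (hA : A.IsHermitian) :
    (Claims.C0475.siteOp j A).IsHermitian := by
  rw [mdlSite_eq_C0475, Matrix.IsHermitian, mdlSite_conjTranspose, hA.eq]

/-- A product of two Hermitian one-site operators at distinct sites is Hermitian. -/
theorem mdl_siteOp_mul_isHermitian {ι : Type} [Fintype ι] [DecidableEq ι] {j k : ι} (hjk : j ≠ k)
    {A B : Matrix (Fin 3) (Fin 3) ℂ} (hA : A.IsHermitian) (hB : B.IsHermitian) :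
    (Claims.C0475.siteOp j A * Claims.C0475.siteOp k B).IsHermitian := by
  rw [Matrix.IsHermitian, Matrix.conjTranspose_mul, (mdl_siteOp_isHermitian j hA).eq,
    (mdl_siteOp_isHermitian k hB).eq, mdlSite_eq_C0475, mdlSite_eq_C0475, mdlSite_comm hjk]

/-- The square-type product (same matrix, arbitrary sites) is Hermitian. -/
theorem mdl_siteOp_mul_self_isHermitian {ι : Type} [Fintype ι] [DecidableEq ι] (j k : ι)
    {A : Matrix (Fin 3) (Fin 3) ℂ} (hA : A.IsHermitian) :
    (Claims.C0475.siteOp j A * Claims.C0475.siteOp k A).IsHermitian := by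
  by_cases hjk : j = k
  · subst hjk
    rw [Matrix.IsHermitian, Matrix.conjTranspose_mul, (mdl_siteOp_isHermitian j hA).eq]
  · exact mdl_siteOp_mul_isHermitian hjk hA hA

theorem mdl_isHermitian_sum {n γ : Type*} (s : Finset γ) (f : γ → Matrix n n ℂ)
    (h : ∀ c ∈ s, (f c).IsHermitian) : (∑ c ∈ s, f c).IsHermitian := by
  rw [Matrix.IsHermitian, Matrix.conjTranspose_sum]
  exact Finset.sum_congr rfl fun c hc => (h c hc).eq

theorem mdl_isHermitian_real_smul {n : Type*} (r : ℝ) {M : Matrix n n ℂ} (h : M.IsHermitian) :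
    ((r : ℂ) • M).IsHermitian := by
  rw [Matrix.IsHermitian, Matrix.conjTranspose_smul, h.eq]
  simp

/-- The frozen periodic Hamiltonian is Hermitian (every `n`). -/
theorem mdl_heisenbergRing_isHermitian (n : ℕ) : (Claims.C0475.heisenbergRing n).IsHermitian := by
  unfold Claims.C0475.heisenbergRing
  exact mdl_isHermitian_sum _ _ fun j _ => mdl_isHermitian_sum _ _ fun α _ =>
    mdl_siteOp_mul_self_isHermitian _ _ (mdl_spinOne_isHermitian α)

theorem mdl_finRotate_ne {n : ℕ} (hn : 2 ≤ n) (j : Fin n) : j ≠ finRotate n j := by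
  obtain ⟨m, rfl⟩ : ∃ m, n = m + 2 := ⟨n - 2, by omega⟩
  intro h
  have h1 := congrArg Fin.val h
  rw [finRotate_apply] at h1
  rcases Fin.eq_or_lt_of_le (Fin.le_last j) with hj | hj
  · subst hj; simp at h1
  · rw [Fin.val_add_one_of_lt hj] at h1; omega

/-- The twisted rings are Hermitian (any real seam matrix, at least two sites). -/
theorem mdl_twistRing_isHermitian {n : ℕ} (hn : 2 ≤ n) (R : Matrix (Fin 3) (Fin 3) ℝ) :
    (twistRing n R).IsHermitian := by
  unfold twistRing
  exact mdl_isHermitian_sum _ _ fun j _ => mdl_isHermitian_sum _ _ fun α _ =>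
    mdl_isHermitian_sum _ _ fun β _ => mdl_isHermitian_real_smul _
      (mdl_siteOp_mul_isHermitian (mdl_finRotate_ne hn j) (mdl_spinOne_isHermitian α)
        (mdl_spinOne_isHermitian β))

/-- The open chains with real endpoint fields are Hermitian. -/
theorem mdl_openChain_isHermitian (m : ℕ) (hL hR : ℝ) : (openChain m hL hR).IsHermitian := by
  unfold openChain
  refine Matrix.IsHermitian.sub (Matrix.IsHermitian.sub ?_ ?_) ?_
  · exact mdl_isHermitian_sum _ _ fun j _ => mdl_isHermitian_sum _ _ fun α _ =>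
      mdl_siteOp_mul_self_isHermitian _ _ (mdl_spinOne_isHermitian α)
  · exact mdl_isHermitian_real_smul _ (mdl_siteOp_isHermitian _ (mdl_spinOne_isHermitian 2))
  · exact mdl_isHermitian_real_smul _ (mdl_siteOp_isHermitian _ (mdl_spinOne_isHermitian 2))

/-- The open chains with right field along `x` are Hermitian. -/
theorem mdl_openChainX_isHermitian (m : ℕ) (hL hR : ℝ) : (openChainX m hL hR).IsHermitian := by
  unfold openChainX
  refine Matrix.IsHermitian.sub (Matrix.IsHermitian.sub ?_ ?_) ?_
  · exact mdl_isHermitian_sum _ _ fun j _ => mdl_isHermitian_sum _ _ fun α _ =>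
      mdl_siteOp_mul_self_isHermitian _ _ (mdl_spinOne_isHermitian α)
  · exact mdl_isHermitian_real_smul _ (mdl_siteOp_isHermitian _ (mdl_spinOne_isHermitian 2))
  · exact mdl_isHermitian_real_smul _ (mdl_siteOp_isHermitian _ (mdl_spinOne_isHermitian 0))

theorem mdl_heisenbergOpenField_eq (L : ℕ) (h : ℝ) :
    Claims.C0476.heisenbergOpenField L h = openChain (2 * L) h h := by
  unfold Claims.C0476.heisenbergOpenField openChain
  rw [smul_add, sub_sub]
  rfl

/-- The frozen open Hamiltonian with boundary field is Hermitian. -/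
theorem mdl_heisenbergOpenField_isHermitian (L : ℕ) (h : ℝ) :
    (Claims.C0476.heisenbergOpenField L h).IsHermitian := by
  rw [mdl_heisenbergOpenField_eq]
  exact mdl_openChain_isHermitian _ _ _

end Claimed.Agent.R297
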