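/-
Row 297 (spin-one Haldane gap), package G6 (boundary-field paper).
Glue between package C (`transfer_main`: three sector lists with boundary weights) and the abstract
boundary recursion (`BSpat`, `BPhys`).
-/
import Claimed.Agent.R297.BdryGap
import Claimed.Agent.R297.AssemblyPeriodic
import Claimed.Agent.R297.ModelHerm

namespace Claimed.Agent.R297

open Matrix

/-- index type of the full spatial list: `I`, two copies of `O`, three copies of `N`. -/
abbrev BIdx : Type := ℕ ⊕ (ℕ ⊕ ℕ) ⊕ (ℕ ⊕ ℕ ⊕ ℕ)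

/-- a family on the full index type from its six pieces. -/
def bglue (xI xO1 xO2 xN1 xN2 xN3 : ℕ → ℝ) : BIdx → ℝ :=
  Sum.elim xI (Sum.elim (Sum.elim xO1 xO2) (Sum.elim xN1 (Sum.elim xN2 xN3)))

theorem bglue_hasSum {f : BIdx → ℝ} {s1 s2 s3 s4 s5 s6 : ℝ}
    (h1 : HasSum (fun k => f (Sum.inl k)) s1)
    (h2 : HasSum (fun k => f (Sum.inr (Sum.inl (Sum.inl k)))) s2)
    (h3 : HasSum (fun k => f (Sum.inr (Sum.inl (Sum.inr k)))) s3)
    (h4 : HasSum (fun k => f (Sum.inr (Sum.inr (Sum.inl k)))) s4)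
    (h5 : HasSum (fun k => f (Sum.inr (Sum.inr (Sum.inr (Sum.inl k))))) s5)
    (h6 : HasSum (fun k => f (Sum.inr (Sum.inr (Sum.inr (Sum.inr k))))) s6) :
    HasSum f (s1 + ((s2 + s3) + (s4 + (s5 + s6)))) :=
  HasSum.sum h1 (HasSum.sum (HasSum.sum h2 h3) (HasSum.sum h4 (HasSum.sum h5 h6)))

/-- bounded weights times summable powers are summable. -/
theorem bdry_summable_weight {c x : ℕ → ℝ} {B : ℝ} (hc0 : ∀ k, 0 ≤ c k) (hcB : ∀ k, c k ≤ B)
    (hx : Summable fun k => x k ^ 2) {n : ℕ} (hn : 2 ≤ n) :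
    Summable fun k => c k * x k ^ n := by
  have h1 : Summable fun k => |x k ^ n| := (summable_pow_of_summable_sq hx hn).abs
  refine Summable.of_norm_bounded (g := fun k => B * |x k ^ n|) (h1.mul_left B) fun k => ?_
  rw [Real.norm_eq_abs, abs_mul, abs_of_nonneg (hc0 k)]
  exact mul_le_mul_of_nonneg_right (hcB k) (abs_nonneg _)

/-- The glued lists satisfy `BSpat`. -/
theorem bspat_glue {lamI lamO lamN cI cO cN : ℕ → ℝ} {Z Y Ys : ℕ → ℝ} {B : ℝ}
    (sI : Summable fun k => lamI k ^ 2) (sO : Summable fun k => lamO k ^ 2)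
    (sN : Summable fun k => lamN k ^ 2)
    (hcI : ∀ k, 0 ≤ cI k) (hcO : ∀ k, 0 ≤ cO k) (hcN : ∀ k, 0 ≤ cN k)
    (hB : ∀ k, cI k ≤ B ∧ cO k ≤ B ∧ cN k ≤ B)
    (hZ : ∀ n, 3 ≤ n → Z n = ∑' k, lamI k ^ n + 2 * ∑' k, lamO k ^ n + 3 * ∑' k, lamN k ^ n)
    (hY : ∀ n, 3 ≤ n → Y n = ∑' k, cI k * lamI k ^ n + ∑' k, cO k * lamO k ^ n
      + ∑' k, cN k * lamN k ^ n)
    (hYs : ∀ n, 3 ≤ n → Ys n = ∑' k, cI k * lamI k ^ n + ∑' k, cO k * lamO k ^ n
      - ∑' k, cN k * lamN k ^ n) :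
    BSpat (bglue lamI lamO lamO lamN lamN lamN) (bglue cI cO 0 cN 0 0)
      (bglue cI cO 0 (fun k => - cN k) 0 0) Z Y Ys 3 where
  w_nonneg := by
    rintro (k | (k | k) | k | k | k) <;> simp [bglue, hcI, hcO, hcN]
  σ_le := by
    rintro (k | (k | k) | k | k | k) <;> simp [bglue, abs_of_nonneg, hcI, hcO, hcN]
  hZ := by
    intro n hn
    have e : Z n = ∑' k, lamI k ^ n + ((∑' k, lamO k ^ n + ∑' k, lamO k ^ n) +
        (∑' k, lamN k ^ n + (∑' k, lamN k ^ n + ∑' k, lamN k ^ n))) := by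
      rw [hZ n hn]; ring
    rw [e]
    have hI := (summable_pow_of_summable_sq sI (n := n) (by omega)).hasSum
    have hO := (summable_pow_of_summable_sq sO (n := n) (by omega)).hasSum
    have hN := (summable_pow_of_summable_sq sN (n := n) (by omega)).hasSum
    exact bglue_hasSum hI hO hO hN hN hN
  hY := by
    intro n hn
    have e : Y n = ∑' k, cI k * lamI k ^ n + ((∑' k, cO k * lamO k ^ n + 0) +
        (∑' k, cN k * lamN k ^ n + (0 + 0))) := by
      rw [hY n hn]; ring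
    rw [e]
    have hI := (bdry_summable_weight hcI (fun k => (hB k).1) sI (n := n) (by omega)).hasSum
    have hO := (bdry_summable_weight hcO (fun k => (hB k).2.1) sO (n := n) (by omega)).hasSum
    have hN := (bdry_summable_weight hcN (fun k => (hB k).2.2) sN (n := n) (by omega)).hasSum
    refine bglue_hasSum hI hO ?_ hN ?_ ?_ <;> simp [bglue, hasSum_zero]
  hYs := by
    intro n hn
    have e : Ys n = ∑' k, cI k * lamI k ^ n + ((∑' k, cO k * lamO k ^ n + 0) +
        (- ∑' k, cN k * lamN k ^ n + (0 + 0))) := by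
      rw [hYs n hn]; ring
    rw [e]
    have hI := (bdry_summable_weight hcI (fun k => (hB k).1) sI (n := n) (by omega)).hasSum
    have hO := (bdry_summable_weight hcO (fun k => (hB k).2.1) sO (n := n) (by omega)).hasSum
    have hN := (bdry_summable_weight hcN (fun k => (hB k).2.2) sN (n := n) (by omega)).hasSum
    refine bglue_hasSum hI hO ?_ ?_ ?_ ?_
    · simp [bglue, hasSum_zero]
    · simpa [bglue] using hN.neg
    · simp [bglue, hasSum_zero]
    · simp [bglue, hasSum_zero]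
  simple := by
    rintro (k | (k | k) | k | k | k) hs
    · rfl
    · rfl
    · rfl
    · exact absurd rfl (hs (Sum.inr (Sum.inr (Sum.inr (Sum.inl k)))) (by simp))
    · rfl
    · rfl

/-! ### the physical side -/

section phys

variable {ι : Type*} [Fintype ι]

theorem bdry_gibbs_sq_le (e : ι → ℝ) (b : ℝ) :
    ∑ k, Real.exp (-(2 * b) * e k) ≤ (∑ k, Real.exp (-b * e k)) ^ 2 := by
  have h := sum_sq_le_sq_sum' Finset.univ (fun k => Real.exp (-b * e k))
    fun k _ => (Real.exp_pos _).le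
  refine le_trans (le_of_eq ?_) h
  refine Finset.sum_congr rfl fun k _ => ?_
  rw [← Real.exp_nat_mul]; congr 1; push_cast; ring

theorem bdry_gibbs_purity_sq (e : ι → ℝ) (b : ℝ) :
    2 * ((∑ k, Real.exp (-(2 * b) * e k)) ^ 2 - ∑ k, Real.exp (-(2 * (2 * b)) * e k)) ≤
      ((∑ k, Real.exp (-b * e k)) ^ 2 - ∑ k, Real.exp (-(2 * b) * e k)) ^ 2 := by
  have h := two_mul_sq_sub_le Finset.univ (fun k => Real.exp (-b * e k))
    fun k _ => (Real.exp_pos _).le
  have e2 : ∑ k, Real.exp (-(2 * b) * e k) = ∑ k, Real.exp (-b * e k) ^ 2 := by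
    refine Finset.sum_congr rfl fun k _ => ?_
    rw [← Real.exp_nat_mul]; congr 1; push_cast; ring
  have e4 : ∑ k, Real.exp (-(2 * (2 * b)) * e k) = ∑ k, Real.exp (-b * e k) ^ 4 := by
    refine Finset.sum_congr rfl fun k _ => ?_
    rw [← Real.exp_nat_mul]; congr 1; push_cast; ring
  rw [e2, e4]; exact h

end phys

/-- physical representation of the shifted open-chain partition function. -/
theorem Zopen_phys (a : ℝ) (m : ℕ) (hL hR b : ℝ) :
    Zopen a (m + 1) hL hR b = ∑ k, Real.exp (-b *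
      ((mdl_openChain_isHermitian m hL hR).eigenvalues k + a * (m + 1 : ℕ))) := by
  show Real.exp (-(a * b * (m + 1 : ℕ))) * gibbsZ (openChain m hL hR) b = _
  rw [gibbsZ_eq (mdl_openChain_isHermitian m hL hR), Finset.mul_sum]
  refine Finset.sum_congr rfl fun k _ => ?_
  rw [← Real.exp_add]; congr 1; ring

/-- the three families of partition functions at the temperature levels `2^j b₀`. -/
noncomputable def bZ (a b0 : ℝ) (j n : ℕ) : ℝ := Zring a n 1 (2 ^ j * b0)

noncomputable def bY (a h b0 : ℝ) (j n : ℕ) : ℝ := Zopen a n h (-h) (2 ^ j * b0)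

noncomputable def bYs (a h b0 : ℝ) (j n : ℕ) : ℝ := Zopen a n h h (2 ^ j * b0)

theorem bphys_concrete (a h b0 : ℝ) : BPhys (bZ a b0) (bY a h b0) (bYs a h b0) 3 where
  Z_pos := by
    intro j n _
    unfold bZ
    have := Zper_phys a n (mdl_heisenbergRing_isHermitian n) (2 ^ j * b0)
    unfold Zper at this
    rw [this]
    exact Finset.sum_pos (fun k _ => Real.exp_pos _) Finset.univ_nonempty
  Y_pos := by
    intro j n hn
    obtain ⟨m, rfl⟩ : ∃ m, n = m + 1 := ⟨n - 1, by omega⟩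
    unfold bY
    rw [Zopen_phys]
    exact Finset.sum_pos (fun k _ => Real.exp_pos _) Finset.univ_nonempty
  Ys_pos := by
    intro j n hn
    obtain ⟨m, rfl⟩ : ∃ m, n = m + 1 := ⟨n - 1, by omega⟩
    unfold bYs
    rw [Zopen_phys]
    exact Finset.sum_pos (fun k _ => Real.exp_pos _) Finset.univ_nonempty
  Z_le := by
    intro j n _
    unfold bZ
    have h1 := Zper_phys a n (mdl_heisenbergRing_isHermitian n) (2 ^ j * b0)
    have h2 := Zper_phys a n (mdl_heisenbergRing_isHermitian n) (2 ^ (j + 1) * b0)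
    unfold Zper at h1 h2
    rw [h1, h2]
    have e : (2:ℝ) ^ (j + 1) * b0 = 2 * (2 ^ j * b0) := by ring
    rw [e]
    exact bdry_gibbs_sq_le _ _
  Y_le := by
    intro j n hn
    obtain ⟨m, rfl⟩ : ∃ m, n = m + 1 := ⟨n - 1, by omega⟩
    unfold bY
    rw [Zopen_phys, Zopen_phys]
    have e : (2:ℝ) ^ (j + 1) * b0 = 2 * (2 ^ j * b0) := by ring
    rw [e]
    exact bdry_gibbs_sq_le _ _
  Y_sq := by
    intro j n hn
    obtain ⟨m, rfl⟩ : ∃ m, n = m + 1 := ⟨n - 1, by omega⟩
    unfold bY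
    rw [Zopen_phys, Zopen_phys, Zopen_phys]
    have e : (2:ℝ) ^ (j + 1) * b0 = 2 * (2 ^ j * b0) := by ring
    have e' : (2:ℝ) ^ (j + 2) * b0 = 2 * (2 * (2 ^ j * b0)) := by ring
    rw [e, e']
    exact bdry_gibbs_purity_sq _ _

end Claimed.Agent.R297
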