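/-
Row 297 (spin-one Haldane gap), S0548 redesign, owner helper174.
`BInitRaw a h b lamI lamO lamN cI cO cN` : the raw output of `transfer_main` at one inverse
temperature as a structure, with the derived `HasSum` forms and the glued `BSpat`.
-/
import Claimed.Agent.R297.BdryGlue

namespace Claimed.Agent.R297

/-- the raw output of `transfer_main` at one inverse temperature. -/
structure BInitRaw (a h b : ℝ) (lamI lamO lamN cI cO cN : ℕ → ℝ) : Prop where
  sI : Summable fun k => lamI k ^ 2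
  sO : Summable fun k => lamO k ^ 2
  sN : Summable fun k => lamN k ^ 2
  cI0 : ∀ k, 0 ≤ cI k
  cO0 : ∀ k, 0 ≤ cO k
  cN0 : ∀ k, 0 ≤ cN k
  scI : Summable cI
  scO : Summable cO
  scN : Summable cN
  ring : ∀ n : ℕ, 3 ≤ n →
    Zring a n 1 b = ∑' k, lamI k ^ n + 2 * ∑' k, lamO k ^ n + 3 * ∑' k, lamN k ^ n ∧
    Zring a n rotP b = ∑' k, lamI k ^ n + 2 * ∑' k, lamO k ^ n - ∑' k, lamN k ^ n ∧
    Zring a n rotC b = ∑' k, lamI k ^ n - ∑' k, lamO k ^ n
  opn : ∀ n : ℕ, 2 ≤ n →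
    Zopen a n h (-h) b
      = ∑' k, cI k * lamI k ^ n + ∑' k, cO k * lamO k ^ n + ∑' k, cN k * lamN k ^ n ∧
    Zopen a n h h b
      = ∑' k, cI k * lamI k ^ n + ∑' k, cO k * lamO k ^ n - ∑' k, cN k * lamN k ^ n ∧
    ZopenX a n h (-h) b
      = ∑' k, cI k * lamI k ^ n - (1 / 2) * ∑' k, cO k * lamO k ^ n

theorem binitRaw_exists (a h b : ℝ) (hb : 0 < b) :
    ∃ lamI lamO lamN cI cO cN : ℕ → ℝ, BInitRaw a h b lamI lamO lamN cI cO cN := by
  obtain ⟨lamI, lamO, lamN, cI, cO, cN, h1, h2, h3, h4, h5, h6, h7, h8, h9, -, h11, h12⟩ :=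
    transfer_main a h b hb
  exact ⟨lamI, lamO, lamN, cI, cO, cN, h1, h2, h3, h4, h5, h6, h7, h8, h9, h11, h12⟩

/-- a nonnegative summable family is bounded by its sum. -/
theorem binit_le_tsum {c : ℕ → ℝ} (h0 : ∀ k, 0 ≤ c k) (hs : Summable c) (k : ℕ) :
    c k ≤ ∑' j, c j := hs.le_tsum k fun j _ => h0 j

section

variable {a h b : ℝ} {lamI lamO lamN cI cO cN : ℕ → ℝ}

theorem BInitRaw.hasSumI (H : BInitRaw a h b lamI lamO lamN cI cO cN) {n : ℕ} (hn : 2 ≤ n) :
    HasSum (fun k => cI k * lamI k ^ n) (∑' k, cI k * lamI k ^ n) :=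
  (bdry_summable_weight H.cI0 (binit_le_tsum H.cI0 H.scI) H.sI hn).hasSum

theorem BInitRaw.hasSumO (H : BInitRaw a h b lamI lamO lamN cI cO cN) {n : ℕ} (hn : 2 ≤ n) :
    HasSum (fun k => cO k * lamO k ^ n) (∑' k, cO k * lamO k ^ n) :=
  (bdry_summable_weight H.cO0 (binit_le_tsum H.cO0 H.scO) H.sO hn).hasSum

theorem BInitRaw.hasSumN (H : BInitRaw a h b lamI lamO lamN cI cO cN) {n : ℕ} (hn : 2 ≤ n) :
    HasSum (fun k => cN k * lamN k ^ n) (∑' k, cN k * lamN k ^ n) :=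
  (bdry_summable_weight H.cN0 (binit_le_tsum H.cN0 H.scN) H.sN hn).hasSum

/-- the `I`-sector boundary moment from the three open partition functions. -/
theorem BInitRaw.momentI (H : BInitRaw a h b lamI lamO lamN cI cO cN) {n : ℕ} (hn : 2 ≤ n) :
    ∑' k, cI k * lamI k ^ n
      = (Zopen a n h (-h) b + Zopen a n h h b + 4 * ZopenX a n h (-h) b) / 6 := by
  obtain ⟨h1, h2, h3⟩ := H.opn n hn
  rw [h1, h2, h3]; ring

/-- sector moments in the shape used by `SectorRep`. -/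
theorem BInitRaw.sector (H : BInitRaw a h b lamI lamO lamN cI cO cN) (n : ℕ) (hn : 4 ≤ n) :
    ∃ mI mO mN : ℝ,
      HasSum (fun i => lamI i ^ n) mI ∧ HasSum (fun i => lamO i ^ n) mO ∧
      HasSum (fun i => lamN i ^ n) mN ∧
      Zring a n 1 b = mI + 2 * mO + 3 * mN ∧ Zring a n rotP b = mI + 2 * mO - mN ∧
      Zring a n rotC b = mI - mO :=
  ⟨_, _, _, (summable_pow_of_summable_sq H.sI (by omega)).hasSum,
    (summable_pow_of_summable_sq H.sO (by omega)).hasSum,
    (summable_pow_of_summable_sq H.sN (by omega)).hasSum, (H.ring n (by omega)).1,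
    (H.ring n (by omega)).2.1, (H.ring n (by omega)).2.2⟩

/-- the glued eigenvalue list. -/
def binitMu (lamI lamO lamN : ℕ → ℝ) : BIdx → ℝ := bglue lamI lamO lamO lamN lamN lamN

/-- the glued boundary weights. -/
def binitW (cI cO cN : ℕ → ℝ) : BIdx → ℝ := bglue cI cO 0 cN 0 0

/-- the glued signed boundary weights. -/
def binitS (cI cO cN : ℕ → ℝ) : BIdx → ℝ := bglue cI cO 0 (fun k => - cN k) 0 0

theorem BInitRaw.bspat (H : BInitRaw a h b lamI lamO lamN cI cO cN) :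
    BSpat (binitMu lamI lamO lamN) (binitW cI cO cN) (binitS cI cO cN)
      (fun n => Zring a n 1 b) (fun n => Zopen a n h (-h) b) (fun n => Zopen a n h h b) 3 :=
  bspat_glue (B := ∑' j, cI j + ∑' j, cO j + ∑' j, cN j) H.sI H.sO H.sN H.cI0 H.cO0 H.cN0
    (fun k => by
      have h1 := binit_le_tsum H.cI0 H.scI k
      have h2 := binit_le_tsum H.cO0 H.scO k
      have h3 := binit_le_tsum H.cN0 H.scN k
      have p1 : 0 ≤ ∑' j, cI j := tsum_nonneg H.cI0
      have p2 : 0 ≤ ∑' j, cO j := tsum_nonneg H.cO0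
      have p3 : 0 ≤ ∑' j, cN j := tsum_nonneg H.cN0
      exact ⟨by linarith, by linarith, by linarith⟩)
    (fun n hn => (H.ring n hn).1) (fun n hn => (H.opn n (by omega)).1)
    (fun n hn => (H.opn n (by omega)).2.1)

@[simp] theorem binitMu_inl (k : ℕ) : binitMu lamI lamO lamN (Sum.inl k) = lamI k := rfl

@[simp] theorem binitW_inl (k : ℕ) : binitW cI cO cN (Sum.inl k) = cI k := rfl

/-- a uniform bound on the three lists (one entry of `I` excepted) bounds the glued list. -/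
theorem binitMu_abs_le {k0 : ℕ} {r : ℝ} (hI : ∀ k, k ≠ k0 → |lamI k| ≤ r) (hO : ∀ k, |lamO k| ≤ r)
    (hN : ∀ k, |lamN k| ≤ r) (i : BIdx) (hi : i ≠ Sum.inl k0) :
    |binitMu lamI lamO lamN i| ≤ r := by
  rcases i with k | (k | k) | k | k | k
  · exact hI k fun hk => hi (by rw [hk])
  · exact hO k
  · exact hO k
  · exact hN k
  · exact hN k
  · exact hN k

end

end Claimed.Agent.R297
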