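/-
Row 297 (spin-one Haldane gap), package F1: elementary lemmas behind the initialisation at
length sixty (periodic paper, Section "Two finite initializations").
* `seed_filter`        : polynomial filter `x^6 (c0 + c1 x^2)^2`
* `seed_capped`        : two-piece capped-mass bound
* `seed_polygon`       : maximum of the convex quadratic `x^2 + y^2/2 + z^2/3` on the polygon
* `seed_spur_core`     : dominant spatial weight  =>  spatial purity `> 7/8`
* `seed_ppur_core`     : dominant Boltzmann factor =>  physical purity `> 7/8`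
-/
import Claimed.Agent.R297.TwoRepOfLists

namespace Claimed.Agent.R297

open Finset

section lemmas

variable {κ : Type*}

/-- Polynomial filter `F(x) = x^6 (c0 + c1 x^2)^2`. -/
theorem seed_filter {x : κ → ℝ} {M6 M8 M10 : ℝ}
    (h6 : HasSum (fun i => x i ^ 6) M6) (h8 : HasSum (fun i => x i ^ 8) M8)
    (h10 : HasSum (fun i => x i ^ 10) M10) {c0 c1 B v : ℝ}
    (hB : c0 ^ 2 * M6 + 2 * c0 * c1 * M8 + c1 ^ 2 * M10 ≤ B)
    (hv : 0 ≤ v) (hc1 : 0 ≤ c1) (hc : 0 ≤ c0 + c1 * v ^ 2)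
    (hF : B < v ^ 6 * (c0 + c1 * v ^ 2) ^ 2) (i : κ) : |x i| < v := by
  by_contra hcon
  push Not at hcon
  have hsum : HasSum (fun i => x i ^ 6 * (c0 + c1 * x i ^ 2) ^ 2)
      (c0 ^ 2 * M6 + 2 * c0 * c1 * M8 + c1 ^ 2 * M10) := by
    have := ((h6.mul_left (c0 ^ 2)).add (h8.mul_left (2 * c0 * c1))).add (h10.mul_left (c1 ^ 2))
    have e : (fun i => x i ^ 6 * (c0 + c1 * x i ^ 2) ^ 2) = fun i =>
        c0 ^ 2 * x i ^ 6 + 2 * c0 * c1 * x i ^ 8 + c1 ^ 2 * x i ^ 10 := by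
      funext i; ring
    rw [e]; exact this
  have hle := le_hasSum hsum i (fun j _ => by positivity)
  have h2 : v ^ 2 ≤ x i ^ 2 := by
    rw [← sq_abs (x i)]; exact pow_le_pow_left₀ hv hcon 2
  have h6' : v ^ 6 ≤ x i ^ 6 := by
    have := pow_le_pow_left₀ (sq_nonneg v) h2 3
    calc v ^ 6 = (v ^ 2) ^ 3 := by ring
      _ ≤ (x i ^ 2) ^ 3 := this
      _ = x i ^ 6 := by ring
  have h3 : c0 + c1 * v ^ 2 ≤ c0 + c1 * x i ^ 2 := by
    have := mul_le_mul_of_nonneg_left h2 hc1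
    linarith
  have h4 : (c0 + c1 * v ^ 2) ^ 2 ≤ (c0 + c1 * x i ^ 2) ^ 2 := pow_le_pow_left₀ hc h3 2
  have h5 : v ^ 6 * (c0 + c1 * v ^ 2) ^ 2 ≤ x i ^ 6 * (c0 + c1 * x i ^ 2) ^ 2 :=
    mul_le_mul h6' h4 (sq_nonneg _) (by positivity)
  linarith

/-- Two-point majorisation for natural powers. -/
theorem seed_two_pow_le {a h m : ℝ} (r : ℕ) (h0 : 0 ≤ m - h) (h1 : m - h ≤ a) (h2 : a ≤ h) :
    a ^ r + (m - a) ^ r ≤ h ^ r + (m - h) ^ r := by
  rcases eq_or_lt_of_le (le_trans h1 h2) with heq | hlt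
  · have ha : a = h := le_antisymm h2 (by linarith)
    subst ha
    exact le_rfl
  · set Q := m - h with hQ
    have hd : 0 < h - Q := by linarith
    set θ := (a - Q) / (h - Q) with hθ
    have hθ0 : 0 ≤ θ := div_nonneg (by linarith) hd.le
    have hθ1 : θ ≤ 1 := by rw [hθ, div_le_one hd]; linarith
    have ea : a = θ * h + (1 - θ) * Q := by
      rw [hθ]; field_simp; ring
    have eb : m - a = (1 - θ) * h + θ * Q := by
      have : m = h + Q := by rw [hQ]; ring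
      rw [this]
      nlinarith [ea]
    have hconv := convexOn_pow (𝕜 := ℝ) r
    have hh : h ∈ Set.Ici (0 : ℝ) := by
      simp only [Set.mem_Ici]; linarith
    have hQm : Q ∈ Set.Ici (0 : ℝ) := h0
    have c1 := hconv.2 hh hQm hθ0 (by linarith : (0 : ℝ) ≤ 1 - θ) (by ring)
    have c2 := hconv.2 hh hQm (by linarith : (0 : ℝ) ≤ 1 - θ) hθ0 (by ring)
    simp only [smul_eq_mul] at c1 c2
    rw [← ea] at c1
    rw [← eb] at c2
    nlinarith [c1, c2]

/-- Capped masses, two-piece form, finite version. -/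
theorem seed_capped_finset (s : Finset κ) (t : κ → ℝ) {h m : ℝ} (r : ℕ) (hr : 1 ≤ r)
    (ht0 : ∀ i ∈ s, 0 ≤ t i) (hth : ∀ i ∈ s, t i ≤ h) (hsum : ∑ i ∈ s, t i ≤ m)
    (hm1 : h ≤ m) (hm2 : m ≤ 2 * h) :
    ∑ i ∈ s, t i ^ r ≤ h ^ r + (m - h) ^ r := by
  classical
  have hh0 : 0 ≤ h := by linarith
  by_cases hex : ∃ i ∈ s, m - h ≤ t i
  · obtain ⟨i0, hi0, hge⟩ := hex
    rw [← Finset.add_sum_erase s (fun i => t i ^ r) hi0]
    have hrest0 : ∀ i ∈ s.erase i0, 0 ≤ t i := fun i hi => ht0 i (Finset.mem_of_mem_erase hi)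
    have h1 := pow_sum_pow_le (s.erase i0) t hrest0 (n := 1) (L := r) le_rfl hr
    simp only [pow_one] at h1
    have h2 : ∑ i ∈ s.erase i0, t i ≤ m - t i0 := by
      have := Finset.add_sum_erase s t hi0
      linarith
    have h3 : (∑ i ∈ s.erase i0, t i) ^ r ≤ (m - t i0) ^ r :=
      pow_le_pow_left₀ (Finset.sum_nonneg hrest0) h2 r
    have h4 := seed_two_pow_le r (by linarith : 0 ≤ m - h) hge (hth i0 hi0)
    linarith
  · push Not at hex
    obtain ⟨r', rfl⟩ : ∃ r', r = r' + 1 := ⟨r - 1, by omega⟩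
    have hmh : 0 ≤ m - h := by linarith
    have h1 : ∑ i ∈ s, t i ^ (r' + 1) ≤ ∑ i ∈ s, (m - h) ^ r' * t i := by
      refine Finset.sum_le_sum fun i hi => ?_
      rw [pow_succ]
      exact mul_le_mul_of_nonneg_right (pow_le_pow_left₀ (ht0 i hi) (hex i hi).le r') (ht0 i hi)
    rw [← Finset.mul_sum] at h1
    have h2 : (m - h) ^ r' * ∑ i ∈ s, t i ≤ (m - h) ^ r' * m :=
      mul_le_mul_of_nonneg_left hsum (pow_nonneg hmh _)
    have h3 : (m - h) ^ r' ≤ h ^ r' := pow_le_pow_left₀ hmh (by linarith) r'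
    have h4 : (m - h) ^ r' * h ≤ h ^ r' * h := mul_le_mul_of_nonneg_right h3 hh0
    have e1 : (m - h) ^ r' * m = (m - h) ^ (r' + 1) + (m - h) ^ r' * h := by ring
    have e2 : h ^ (r' + 1) = h ^ r' * h := by ring
    linarith

/-- Capped masses, two-piece form, summable version. -/
theorem seed_capped {t : κ → ℝ} {h m M Mr : ℝ} (r : ℕ) (hr : 1 ≤ r)
    (ht0 : ∀ i, 0 ≤ t i) (hth : ∀ i, t i ≤ h) (hM : HasSum t M) (hMm : M ≤ m)
    (hm1 : h ≤ m) (hm2 : m ≤ 2 * h) (hMr : HasSum (fun i => t i ^ r) Mr) :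
    Mr ≤ h ^ r + (m - h) ^ r :=
  hasSum_le_of_sum_le hMr fun s =>
    seed_capped_finset s t r hr (fun i _ => ht0 i) (fun i _ => hth i)
      (le_trans (sum_le_hasSum s (fun i _ => ht0 i) hM) hMm) hm1 hm2

/-- Uncapped bound. -/
theorem seed_uncapped {t : κ → ℝ} {m M Mr : ℝ} (r : ℕ) (hr : 1 ≤ r)
    (ht0 : ∀ i, 0 ≤ t i) (hM : HasSum t M) (hMm : M ≤ m)
    (hMr : HasSum (fun i => t i ^ r) Mr) : Mr ≤ m ^ r := by
  have h := hasSum_pow_le ht0 (n := 1) (L := r) le_rfl hr (by simpa using hM) hMr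
  have hM0 : 0 ≤ M := hM.nonneg ht0
  calc Mr = Mr ^ 1 := (pow_one _).symm
    _ ≤ M ^ r := h
    _ ≤ m ^ r := pow_le_pow_left₀ hM0 hMm r

end lemmas

/-- A convex quadratic on an interval is bounded by its endpoint values. -/
theorem seed_quad_le {α β γ L s R : ℝ} (hα : 0 ≤ α) (hs0 : 0 ≤ s) (hsL : s ≤ L) (h0 : γ ≤ R)
    (hL : α * L ^ 2 + β * L + γ ≤ R) : α * s ^ 2 + β * s + γ ≤ R := by
  have h1 : α * s ^ 2 ≤ α * (L * s) := by
    apply mul_le_mul_of_nonneg_left _ hα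
    nlinarith
  rcases le_total 0 (α * L + β) with hc | hc
  · have : (α * L + β) * s ≤ (α * L + β) * L := mul_le_mul_of_nonneg_left hsL hc
    nlinarith
  · have : (α * L + β) * s ≤ 0 := mul_nonpos_of_nonpos_of_nonneg hc hs0
    nlinarith

/-- Maximum of `x^2 + y^2/2 + z^2/3` over the polygon of the paper. -/
theorem seed_polygon {x y z X Y W R : ℝ} (hx : 0 ≤ x) (hy : 0 ≤ y) (hz : 0 ≤ z) (hxX : x ≤ X)
    (hxy : x + y ≤ Y) (hxyz : x + y + z ≤ W)
    (v1 : W ^ 2 / 3 ≤ R) (v2 : X ^ 2 + (W - X) ^ 2 / 3 ≤ R)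
    (v3 : X ^ 2 + (Y - X) ^ 2 / 2 + (W - Y) ^ 2 / 3 ≤ R)
    (v4 : Y ^ 2 / 2 + (W - Y) ^ 2 / 3 ≤ R) : x ^ 2 + y ^ 2 / 2 + z ^ 2 / 3 ≤ R := by
  have hz2 : z ^ 2 ≤ (W - x - y) ^ 2 := pow_le_pow_left₀ hz (by linarith) 2
  -- endpoint `y = 0`
  have g0 : x ^ 2 + (W - x) ^ 2 / 3 ≤ R := by
    have := seed_quad_le (α := 4 / 3) (β := -(2 * W / 3)) (γ := W ^ 2 / 3) (L := X) (s := x)
      (R := R) (by norm_num) hx hxX v1 (by nlinarith)
    nlinarith
  -- endpoint `y = Y - x`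
  have g1 : x ^ 2 + (Y - x) ^ 2 / 2 + (W - Y) ^ 2 / 3 ≤ R := by
    have := seed_quad_le (α := 3 / 2) (β := -Y) (γ := Y ^ 2 / 2 + (W - Y) ^ 2 / 3) (L := X)
      (s := x) (R := R) (by norm_num) hx hxX v4 (by nlinarith)
    nlinarith
  have := seed_quad_le (α := 5 / 6) (β := -(2 * (W - x) / 3)) (γ := x ^ 2 + (W - x) ^ 2 / 3)
    (L := Y - x) (s := y) (R := R) (by norm_num) hy (by linarith) g0 (by nlinarith)
  nlinarith

end Claimed.Agent.R297
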