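/-
Row 297 (spin-one Haldane gap), package F2: the two purity estimates of the initialisation at
length sixty, in abstract form.
* `seed_spur_core` : sector weights `w = |λ|^30` with total mass `≤ D`, `I`-mass `≤ τ`,
  `J`-mass `≤ τ₀` and fourth moment `> 1`  =>  `7/8 (∑ w²)² ≤ ∑ w⁴`.
* `seed_ppur_core` : a Boltzmann list with one factor `≥ 1` and total mass `≤ q`.
-/
import Claimed.Agent.R297.Seed60Lemmas

namespace Claimed.Agent.R297

open Finset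

section core

variable {κ : Type*}

theorem seed_pow4_le {w : κ → ℝ} (h0 : ∀ i, 0 ≤ w i) {c a1 a4 : ℝ} (hc : ∀ i, w i ≤ c)
    (H1 : HasSum w a1) (H4 : HasSum (fun i => w i ^ 4) a4) : a4 ≤ c ^ 3 * a1 := by
  refine hasSum_le (fun i => ?_) H4 (H1.mul_left (c ^ 3))
  have := pow_le_pow_left₀ (h0 i) (hc i) 3
  calc w i ^ 4 = w i ^ 3 * w i := by ring
    _ ≤ c ^ 3 * w i := mul_le_mul_of_nonneg_right this (h0 i)

/-- the chain `s₂ ≤ s₁²`, `s₄ ≤ s₂²` for a nonnegative summable family. -/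
theorem seed_chain {w : κ → ℝ} (h0 : ∀ i, 0 ≤ w i) {s1 s2 s4 : ℝ} (H1 : HasSum w s1)
    (H2 : HasSum (fun i => w i ^ 2) s2) (H4 : HasSum (fun i => w i ^ 4) s4) :
    0 ≤ s1 ∧ 0 ≤ s2 ∧ 0 ≤ s4 ∧ s2 ≤ s1 ^ 2 ∧ s4 ≤ s2 ^ 2 := by
  refine ⟨H1.nonneg h0, H2.nonneg fun i => by positivity, H4.nonneg fun i => by positivity,
    hasSum_sq_le h0 H1 H2, ?_⟩
  refine hasSum_sq_le (y := fun i => w i ^ 2) (fun i => by positivity) H2 ?_
  have : ∀ i, (w i ^ 2) ^ 2 = w i ^ 4 := fun i => by ring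
  simpa only [this] using H4

theorem seed_update_pow [DecidableEq κ] (w : κ → ℝ) (i0 : κ) (n : ℕ) (hn : n ≠ 0) :
    (fun i => Function.update w i0 0 i ^ n) = Function.update (fun i => w i ^ n) i0 0 := by
  funext i
  by_cases h : i = i0
  · subst h; simp [hn]
  · simp [Function.update_of_ne h]

end core

/-- **Spatial purity from a dominant weight** (paper, proof of the initialisation at sixty). -/
theorem seed_spur_core {κI κO κN : Type*} {wI : κI → ℝ} {wO : κO → ℝ} {wN : κN → ℝ}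
    (hI0 : ∀ i, 0 ≤ wI i) (hO0 : ∀ i, 0 ≤ wO i) (hN0 : ∀ i, 0 ≤ wN i)
    {a1 o1 n1 a2 o2 n2 a4 o4 n4 : ℝ}
    (hI1 : HasSum wI a1) (hO1 : HasSum wO o1) (hN1 : HasSum wN n1)
    (hI2 : HasSum (fun i => wI i ^ 2) a2) (hO2 : HasSum (fun i => wO i ^ 2) o2)
    (hN2 : HasSum (fun i => wN i ^ 2) n2)
    (hI4 : HasSum (fun i => wI i ^ 4) a4) (hO4 : HasSum (fun i => wO i ^ 4) o4)
    (hN4 : HasSum (fun i => wN i ^ 4) n4)
    (hD : a1 + 2 * o1 + 3 * n1 ≤ 1450 / 1000) (hτ : a1 ≤ 1225 / 1000)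
    (hτ0 : a1 + 2 * o1 ≤ 1264 / 1000) (h1 : 1 < a4 + 2 * o4 + 3 * n4) :
    7 / 8 * (a2 + 2 * o2 + 3 * n2) ^ 2 ≤ a4 + 2 * o4 + 3 * n4 := by
  classical
  obtain ⟨ha1, -, -, -, -⟩ := seed_chain hI0 hI1 hI2 hI4
  obtain ⟨ho1, ho2, ho4, ho21, ho42⟩ := seed_chain hO0 hO1 hO2 hO4
  obtain ⟨hn1, hn2, hn4, hn21, hn42⟩ := seed_chain hN0 hN1 hN2 hN4
  -- a weight above 0.88 in the `I` list
  have hex : ∃ i0, 88 / 100 < wI i0 := by
    by_contra hcon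
    push Not at hcon
    have bI := seed_pow4_le hI0 hcon hI1 hI4
    have bO := seed_pow4_le hO0 (c := 88 / 100)
      (fun i => le_trans (le_hasSum hO1 i fun j _ => hO0 j) (by linarith)) hO1 hO4
    have bN := seed_pow4_le hN0 (c := 88 / 100)
      (fun i => le_trans (le_hasSum hN1 i fun j _ => hN0 j) (by linarith)) hN1 hN4
    nlinarith
  obtain ⟨i0, hi0⟩ := hex
  set w0 := wI i0 with hw0
  -- remove it
  set w' := Function.update wI i0 0 with hw'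
  have hw'0 : ∀ i, 0 ≤ w' i := by
    intro i
    by_cases h : i = i0
    · subst h; simp [hw']
    · simp [hw', Function.update_of_ne h, hI0 i]
  have H1 : HasSum w' (a1 - w0) := by
    have := hI1.update i0 0
    have e : 0 - wI i0 + a1 = a1 - w0 := by rw [hw0]; ring
    rwa [e] at this
  have H2 : HasSum (fun i => w' i ^ 2) (a2 - w0 ^ 2) := by
    have := hI2.update i0 0
    have e : 0 - wI i0 ^ 2 + a2 = a2 - w0 ^ 2 := by rw [hw0]; ring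
    rw [hw', seed_update_pow wI i0 2 (by norm_num)]
    simpa only [e] using this
  have H4 : HasSum (fun i => w' i ^ 4) (a4 - w0 ^ 4) := by
    have := hI4.update i0 0
    have e : 0 - wI i0 ^ 4 + a4 = a4 - w0 ^ 4 := by rw [hw0]; ring
    rw [hw', seed_update_pow wI i0 4 (by norm_num)]
    simpa only [e] using this
  obtain ⟨hx1, hx2, hx4, hx21, hx42⟩ := seed_chain hw'0 H1 H2 H4
  set x := a1 - w0 with hx
  set x2 := a2 - w0 ^ 2 with hx2d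
  set x4 := a4 - w0 ^ 4 with hx4d
  set rest2 := x2 + 2 * o2 + 3 * n2 with hrest2
  set rest4 := x4 + 2 * o4 + 3 * n4 with hrest4
  have hr2 : 0 ≤ rest2 := by positivity
  have hr4 : 0 ≤ rest4 := by positivity
  have h42 : rest4 ≤ rest2 ^ 2 := by
    have : x2 ^ 2 + 2 * o2 ^ 2 + 3 * n2 ^ 2 ≤ rest2 ^ 2 := by
      rw [hrest2]
      nlinarith [mul_nonneg hx2 ho2, mul_nonneg hx2 hn2, mul_nonneg ho2 hn2, sq_nonneg o2,
        sq_nonneg n2]
    linarith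
  have h21 : rest2 ≤ x ^ 2 + (2 * o1) ^ 2 / 2 + (3 * n1) ^ 2 / 3 := by
    rw [hrest2]; nlinarith
  have key : ∀ t R : ℝ, t ≤ w0 →
      (1450 / 1000 - t) ^ 2 / 3 ≤ R →
      (1225 / 1000 - t) ^ 2 + (1450 / 1000 - t - (1225 / 1000 - t)) ^ 2 / 3 ≤ R →
      (1225 / 1000 - t) ^ 2 + (1264 / 1000 - t - (1225 / 1000 - t)) ^ 2 / 2 +
        (1450 / 1000 - t - (1264 / 1000 - t)) ^ 2 / 3 ≤ R →
      (1264 / 1000 - t) ^ 2 / 2 + (1450 / 1000 - t - (1264 / 1000 - t)) ^ 2 / 3 ≤ R →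
      rest2 ≤ R := by
    intro t R ht v1 v2 v3 v4
    refine le_trans h21 (seed_polygon (X := 1225 / 1000 - t) (Y := 1264 / 1000 - t)
      (W := 1450 / 1000 - t) hx1 (by positivity) (by positivity) ?_ ?_ ?_ v1 v2 v3 v4)
    · rw [hx]; linarith
    · rw [hx]; linarith
    · rw [hx]; linarith
  have htot4 : a4 + 2 * o4 + 3 * n4 = w0 ^ 4 + rest4 := by
    rw [hrest4, hx4d]; ring
  have htot2 : a2 + 2 * o2 + 3 * n2 = w0 ^ 2 + rest2 := by
    rw [hrest2, hx2d]; ring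
  have hw0pos : 0 ≤ w0 := hI0 i0
  -- first sharpening
  have s1 : 99 / 100 < w0 := by
    by_contra hcon
    push Not at hcon
    have hR := key (88 / 100) (1359 / 10000) hi0.le (by norm_num) (by norm_num) (by norm_num)
      (by norm_num)
    have h4 : w0 ^ 4 ≤ (99 / 100) ^ 4 := pow_le_pow_left₀ hw0pos hcon 4
    have h5 : rest2 ^ 2 ≤ (1359 / 10000) ^ 2 := pow_le_pow_left₀ hr2 hR 2
    rw [htot4] at h1
    norm_num at h4 h5
    linarith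
  -- second sharpening
  have s2 : 998 / 1000 < w0 := by
    by_contra hcon
    push Not at hcon
    have hR := key (99 / 100) (721 / 10000) s1.le (by norm_num) (by norm_num) (by norm_num)
      (by norm_num)
    have h4 : w0 ^ 4 ≤ (998 / 1000) ^ 4 := pow_le_pow_left₀ hw0pos hcon 4
    have h5 : rest2 ^ 2 ≤ (721 / 10000) ^ 2 := pow_le_pow_left₀ hr2 hR 2
    rw [htot4] at h1
    norm_num at h4 h5
    linarith
  have hR := key (998 / 1000) (68404 / 1000000) s2.le (by norm_num) (by norm_num) (by norm_num)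
    (by norm_num)
  have hw2 : (998 / 1000 : ℝ) ^ 2 ≤ w0 ^ 2 := pow_le_pow_left₀ (by norm_num) s2.le 2
  have h6 : w0 ^ 2 + rest2 ≤ 10687 / 10000 * w0 ^ 2 := by
    norm_num at hw2
    linarith
  have h7 : (w0 ^ 2 + rest2) ^ 2 ≤ (10687 / 10000 * w0 ^ 2) ^ 2 :=
    pow_le_pow_left₀ (by positivity) h6 2
  rw [htot4, htot2]
  have h8 : 0 ≤ w0 ^ 4 := by positivity
  nlinarith

/-- **Physical purity from a dominant Boltzmann factor.** -/
theorem seed_ppur_core {ι : Type*} [Fintype ι] (y : ι → ℝ) (hy : ∀ k, 0 ≤ y k) (k0 : ι)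
    (h1 : 1 ≤ y k0) {q Rq : ℝ} (hq : ∑ k, y k ^ 2 ≤ q) (hRq : 0 ≤ Rq)
    (hR : (q - 1) ^ 5 ≤ Rq ^ 2) (hfin : 7 / 8 * (1 + Rq) ^ 2 ≤ 1) :
    7 / 8 * (∑ k, y k ^ 5) ^ 2 ≤ ∑ k, y k ^ 10 := by
  classical
  set s := (Finset.univ : Finset ι).erase k0 with hs
  have hmem : k0 ∈ (Finset.univ : Finset ι) := Finset.mem_univ k0
  have e5 : ∑ k, y k ^ 5 = y k0 ^ 5 + ∑ k ∈ s, y k ^ 5 :=
    (Finset.add_sum_erase _ (fun k => y k ^ 5) hmem).symm
  have e2 : ∑ k, y k ^ 2 = y k0 ^ 2 + ∑ k ∈ s, y k ^ 2 :=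
    (Finset.add_sum_erase _ (fun k => y k ^ 2) hmem).symm
  have h52 := pow_sum_pow_le s y (fun k _ => hy k) (n := 2) (L := 5) (by norm_num) (by norm_num)
  have hy2 : 1 ≤ y k0 ^ 2 := one_le_pow₀ h1
  have hy5 : 1 ≤ y k0 ^ 5 := one_le_pow₀ h1
  have hr2 : ∑ k ∈ s, y k ^ 2 ≤ q - 1 := by linarith
  have hr20 : 0 ≤ ∑ k ∈ s, y k ^ 2 := Finset.sum_nonneg fun k _ => by positivity
  have hr50 : 0 ≤ ∑ k ∈ s, y k ^ 5 := Finset.sum_nonneg fun k _ => pow_nonneg (hy k) 5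
  have h3 : (∑ k ∈ s, y k ^ 2) ^ 5 ≤ (q - 1) ^ 5 := pow_le_pow_left₀ hr20 hr2 5
  have h4 : (∑ k ∈ s, y k ^ 5) ^ 2 ≤ Rq ^ 2 := by linarith
  have h5 : ∑ k ∈ s, y k ^ 5 ≤ Rq := (pow_le_pow_iff_left₀ hr50 hRq (by norm_num)).1 h4
  have h6 : ∑ k, y k ^ 5 ≤ (1 + Rq) * y k0 ^ 5 := by
    rw [e5]; nlinarith
  have h7 : (∑ k, y k ^ 5) ^ 2 ≤ ((1 + Rq) * y k0 ^ 5) ^ 2 :=
    pow_le_pow_left₀ (by rw [e5]; positivity) h6 2
  have h8 : y k0 ^ 10 ≤ ∑ k, y k ^ 10 :=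
    Finset.single_le_sum (f := fun k => y k ^ 10) (fun k _ => pow_nonneg (hy k) 10) hmem
  have h9 : ((1 + Rq) * y k0 ^ 5) ^ 2 = (1 + Rq) ^ 2 * y k0 ^ 10 := by ring
  have h10 : 0 ≤ y k0 ^ 10 := pow_nonneg (hy k0) 10
  nlinarith

end Claimed.Agent.R297
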