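/-
Row 297 (spin-one Haldane gap), package F3: the initialisation at length sixty
(periodic paper, Proposition "seed60") as an abstract theorem.

Input:
* `PhysList f`      : `f b = ∑ₖ exp (-b eₖ)` for a finite list (physical representation);
* `SectorRep Z ZP ZC` : spatial sector lists `I, O, N` at every inverse temperature with
  `Z = I + 2 O + 3 N`, `Z(P) = I + 2 O - N`, `Z(C) = I - O`;
* `Table60 Z ZP ZC` : the nine thermal values at `b = 21/2`, `n = 6, 8, 10`, to within `10⁻⁴`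
  (the paper proves `10⁻⁵`; the constants `U, V, m_I, m_O, m_N` are re-tuned here);
* a negative shifted energy at length `120` (trial vector).
Output: `7/8 ≤ spur Z 60 (105/4)` and `7/8 ≤ ppur Z 120 (105/4)`.
-/
import Claimed.Agent.R297.Seed60Core

namespace Claimed.Agent.R297

open Finset

/-- `f` is a finite sum of Boltzmann factors. -/
def PhysList (f : ℝ → ℝ) : Prop :=
  ∃ (ι : Type) (_ : Fintype ι) (e : ι → ℝ), ∀ b, 0 < b → f b = ∑ k, Real.exp (-b * e k)

/-- Spatial sector lists (Lemma "Sector moments"). -/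
def SectorRep (Z ZP ZC : ℕ → ℝ → ℝ) : Prop :=
  ∀ b, 0 < b → ∃ (κI κO κN : Type) (xI : κI → ℝ) (xO : κO → ℝ) (xN : κN → ℝ),
    ∀ n, 4 ≤ n → ∃ mI mO mN : ℝ,
      HasSum (fun i => xI i ^ n) mI ∧ HasSum (fun i => xO i ^ n) mO ∧
      HasSum (fun i => xN i ^ n) mN ∧
      Z n b = mI + 2 * mO + 3 * mN ∧ ZP n b = mI + 2 * mO - mN ∧ ZC n b = mI - mO

/-- The thermal table at `b = 21/2`, tolerance `10⁻⁴`. -/
structure Table60 (Z ZP ZC : ℕ → ℝ → ℝ) : Prop where
  z6 : |Z 6 (21 / 2) - 8945303 / 1000000| ≤ 1 / 10000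
  p6 : |ZP 6 (21 / 2) - 346734 / 1000000| ≤ 1 / 10000
  c6 : |ZC 6 (21 / 2) - 939987 / 1000000| ≤ 1 / 10000
  z8 : |Z 8 (21 / 2) - 3741281 / 1000000| ≤ 1 / 10000
  p8 : |ZP 8 (21 / 2) - 567167 / 1000000| ≤ 1 / 10000
  c8 : |ZC 8 (21 / 2) - 984108 / 1000000| ≤ 1 / 10000
  z10 : |Z 10 (21 / 2) - 2327547 / 1000000| ≤ 1 / 10000
  p10 : |ZP 10 (21 / 2) - 721090 / 1000000| ≤ 1 / 10000
  c10 : |ZC 10 (21 / 2) - 1002613 / 1000000| ≤ 1 / 10000

theorem seed_exp_pow (c e : ℝ) (n : ℕ) (c' : ℝ) (h : c' = n * c) :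
    Real.exp (-c' * e) = Real.exp (-c * e) ^ n := by
  rw [← Real.exp_nat_mul, h]; congr 1; ring

/-- raising the inverse temperature from `21/2` to `105/4`. -/
theorem seed_phys_52 {f : ℝ → ℝ} (hf : PhysList f) {m D : ℝ} (hm : f (21 / 2) ≤ m)
    (hD : 0 ≤ D) (hmD : m ^ 5 ≤ D ^ 2) : f (105 / 4) ≤ D := by
  obtain ⟨ι, _, e, he⟩ := hf
  set y : ι → ℝ := fun k => Real.exp (-(21 / 4) * e k) with hy
  have e2 : f (21 / 2) = ∑ k, y k ^ 2 := by
    rw [he _ (by norm_num)]
    exact Finset.sum_congr rfl fun k _ => seed_exp_pow (21 / 4) (e k) 2 _ (by norm_num)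
  have e5 : f (105 / 4) = ∑ k, y k ^ 5 := by
    rw [he _ (by norm_num)]
    exact Finset.sum_congr rfl fun k _ => seed_exp_pow (21 / 4) (e k) 5 _ (by norm_num)
  have h := pow_sum_pow_le Finset.univ y (fun k _ => (Real.exp_pos _).le) (n := 2) (L := 5)
    (by norm_num) (by norm_num)
  rw [← e2, ← e5] at h
  have h0 : 0 ≤ f (21 / 2) := by rw [e2]; exact Finset.sum_nonneg fun k _ => by positivity
  have h05 : 0 ≤ f (105 / 4) := by
    rw [e5]; exact Finset.sum_nonneg fun k _ => pow_nonneg (Real.exp_pos _).le 5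
  have h1 : f (21 / 2) ^ 5 ≤ m ^ 5 := pow_le_pow_left₀ h0 hm 5
  exact (pow_le_pow_iff_left₀ h05 hD (by norm_num : (2 : ℕ) ≠ 0)).1 (by linarith)

/-- moments `30` and `120` of a list whose tenth powers are capped. -/
theorem seed_capped_moments {κ : Type*} {x : κ → ℝ} {v m M10 M30 M120 : ℝ} (hv : ∀ i, |x i| < v)
    (h10 : HasSum (fun i => x i ^ 10) M10) (h30 : HasSum (fun i => x i ^ 30) M30)
    (h120 : HasSum (fun i => x i ^ 120) M120) (hm : M10 ≤ m) (hm1 : v ^ 10 ≤ m)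
    (hm2 : m ≤ 2 * v ^ 10) :
    M30 ≤ (v ^ 10) ^ 3 + (m - v ^ 10) ^ 3 ∧ M120 ≤ (v ^ 10) ^ 12 + (m - v ^ 10) ^ 12 := by
  have ht0 : ∀ i, 0 ≤ x i ^ 10 := fun i => (by decide : Even 10).pow_nonneg _
  have hth : ∀ i, x i ^ 10 ≤ v ^ 10 := by
    intro i
    rw [← (by decide : Even 10).pow_abs]
    exact pow_le_pow_left₀ (abs_nonneg _) (hv i).le 10
  constructor
  · refine seed_capped 3 (by norm_num) ht0 hth h10 hm hm1 hm2 ?_
    have : ∀ i, (x i ^ 10) ^ 3 = x i ^ 30 := fun i => by ring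
    simpa only [this] using h30
  · refine seed_capped 12 (by norm_num) ht0 hth h10 hm hm1 hm2 ?_
    have : ∀ i, (x i ^ 10) ^ 12 = x i ^ 120 := fun i => by ring
    simpa only [this] using h120

theorem seed_uncapped_moments {κ : Type*} {x : κ → ℝ} {m M10 M30 M120 : ℝ}
    (h10 : HasSum (fun i => x i ^ 10) M10) (h30 : HasSum (fun i => x i ^ 30) M30)
    (h120 : HasSum (fun i => x i ^ 120) M120) (hm : M10 ≤ m) :
    M30 ≤ m ^ 3 ∧ M120 ≤ m ^ 12 := by
  have ht0 : ∀ i, 0 ≤ x i ^ 10 := fun i => (by decide : Even 10).pow_nonneg _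
  constructor
  · refine seed_uncapped 3 (by norm_num) ht0 h10 hm ?_
    have : ∀ i, (x i ^ 10) ^ 3 = x i ^ 30 := fun i => by ring
    simpa only [this] using h30
  · refine seed_uncapped 12 (by norm_num) ht0 h10 hm ?_
    have : ∀ i, (x i ^ 10) ^ 12 = x i ^ 120 := fun i => by ring
    simpa only [this] using h120

/-- Step 1: upper bounds at the lower inverse temperature `21/2`. -/
theorem seed_low_temperature {Z ZP ZC : ℕ → ℝ → ℝ} (hS : SectorRep Z ZP ZC)
    (tab : Table60 Z ZP ZC) :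
    Z 30 (21 / 2) ≤ 11596 / 10000 ∧ ZP 30 (21 / 2) ≤ 10757 / 10000 ∧
      ZC 30 (21 / 2) ≤ 10757 / 10000 ∧ Z 120 (21 / 2) ≤ 13382 / 10000 := by
  obtain ⟨κI, κO, κN, xI, xO, xN, hx⟩ := hS (21 / 2) (by norm_num)
  obtain ⟨I6, O6, N6, hI6, hO6, hN6, z6, p6, c6⟩ := hx 6 (by norm_num)
  obtain ⟨I8, O8, N8, hI8, hO8, hN8, z8, p8, c8⟩ := hx 8 (by norm_num)
  obtain ⟨I10, O10, N10, hI10, hO10, hN10, z10, p10, c10⟩ := hx 10 (by norm_num)
  obtain ⟨I30, O30, N30, hI30, hO30, hN30, z30, p30, c30⟩ := hx 30 (by norm_num)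
  obtain ⟨I120, O120, N120, hI120, hO120, hN120, z120, -, -⟩ := hx 120 (by norm_num)
  have t1 := abs_le.1 tab.z6
  have t2 := abs_le.1 tab.p6
  have t3 := abs_le.1 tab.c6
  have t4 := abs_le.1 tab.z8
  have t5 := abs_le.1 tab.p8
  have t6 := abs_le.1 tab.c8
  have t7 := abs_le.1 tab.z10
  have t8 := abs_le.1 tab.p10
  have t9 := abs_le.1 tab.c10
  rw [z6] at t1; rw [p6] at t2; rw [c6] at t3
  rw [z8] at t4; rw [p8] at t5; rw [c8] at t6
  rw [z10] at t7; rw [p10] at t8; rw [c10] at t9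
  obtain ⟨t1a, t1b⟩ := t1
  obtain ⟨t2a, t2b⟩ := t2
  obtain ⟨t3a, t3b⟩ := t3
  obtain ⟨t4a, t4b⟩ := t4
  obtain ⟨t5a, t5b⟩ := t5
  obtain ⟨t6a, t6b⟩ := t6
  obtain ⟨t7a, t7b⟩ := t7
  obtain ⟨t8a, t8b⟩ := t8
  obtain ⟨t9a, t9b⟩ := t9
  -- the two filters
  have fI : ∀ i, |xI i| < 100243 / 100000 :=
    seed_filter hI6 hI8 hI10 (c0 := -2) (c1 := 10) (B := 657284 / 10000)
      (by linarith) (by norm_num) (by norm_num) (by norm_num) (by norm_num)
  have fN : ∀ i, |xN i| < 88645 / 100000 :=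
    seed_filter hN6 hN8 hN10 (c0 := -25) (c1 := 100) (B := 13928077 / 10000)
      (by linarith) (by norm_num) (by norm_num) (by norm_num) (by norm_num)
  -- tenth moments
  have mI : I10 ≤ 104275 / 100000 := by linarith
  have mO : O10 ≤ 401 / 10000 := by linarith
  have mN : N10 ≤ 40167 / 100000 := by linarith
  obtain ⟨bI30, bI120⟩ := seed_capped_moments fI hI10 hI30 hI120 mI (by norm_num) (by norm_num)
  obtain ⟨bN30, bN120⟩ := seed_capped_moments fN hN10 hN30 hN120 mN (by norm_num) (by norm_num)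
  obtain ⟨bO30, bO120⟩ := seed_uncapped_moments hO10 hO30 hO120 mO
  have nO30 : 0 ≤ O30 := hO30.nonneg fun i => (by decide : Even 30).pow_nonneg _
  have nN30 : 0 ≤ N30 := hN30.nonneg fun i => (by decide : Even 30).pow_nonneg _
  have cI30 : ((100243 / 100000 : ℝ) ^ 10) ^ 3 + (104275 / 100000 - (100243 / 100000) ^ 10) ^ 3
      ≤ 107554 / 100000 := by norm_num
  have cN30 : ((88645 / 100000 : ℝ) ^ 10) ^ 3 + (40167 / 100000 - (88645 / 100000) ^ 10) ^ 3
      ≤ 2796 / 100000 := by norm_num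
  have cO30 : (401 / 10000 : ℝ) ^ 3 ≤ 7 / 100000 := by norm_num
  have cI120 : ((100243 / 100000 : ℝ) ^ 10) ^ 12 + (104275 / 100000 - (100243 / 100000) ^ 10) ^ 12
      ≤ 133810 / 100000 := by norm_num
  have cN120 : ((88645 / 100000 : ℝ) ^ 10) ^ 12 + (40167 / 100000 - (88645 / 100000) ^ 10) ^ 12
      ≤ 1 / 1000000 := by norm_num
  have cO120 : (401 / 10000 : ℝ) ^ 12 ≤ 1 / 1000000 := by norm_num
  refine ⟨?_, ?_, ?_, ?_⟩
  · rw [z30]; linarith
  · rw [p30]; linarith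
  · rw [c30]; linarith
  · rw [z120]; linarith

/-- **The initialisation at length sixty.** -/
theorem seed60 {Z ZP ZC : ℕ → ℝ → ℝ} (hS : SectorRep Z ZP ZC) (tab : Table60 Z ZP ZC)
    (h30 : PhysList (Z 30)) (h30P : PhysList (ZP 30)) (h30C : PhysList (ZC 30))
    (htrial : ∃ (ι : Type) (_ : Fintype ι) (e : ι → ℝ),
      (∀ b, 0 < b → Z 120 b = ∑ k, Real.exp (-b * e k)) ∧ ∃ k, e k < 0) :
    7 / 8 ≤ spur Z 60 (105 / 4) ∧ 7 / 8 ≤ ppur Z 120 (105 / 4) := by
  obtain ⟨lz, lp, lc, lq⟩ := seed_low_temperature hS tab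
  obtain ⟨ι, _, e, he, k0, hk0⟩ := htrial
  -- the trial energy
  have hbig : ∀ b, 0 < b → 1 < Z 120 b := by
    intro b hb
    rw [he b hb]
    have h1 : 1 < Real.exp (-b * e k0) := by
      rw [Real.one_lt_exp_iff]; nlinarith
    exact lt_of_lt_of_le h1 (Finset.single_le_sum (f := fun k => Real.exp (-b * e k))
      (fun k _ => (Real.exp_pos _).le) (Finset.mem_univ k0))
  constructor
  · -- spatial purity
    have bD : Z 30 (105 / 4) ≤ 1450 / 1000 := seed_phys_52 h30 lz (by norm_num) (by norm_num)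
    have bP : ZP 30 (105 / 4) ≤ 1202 / 1000 := seed_phys_52 h30P lp (by norm_num) (by norm_num)
    have bC : ZC 30 (105 / 4) ≤ 1202 / 1000 := seed_phys_52 h30C lc (by norm_num) (by norm_num)
    obtain ⟨κI, κO, κN, xI, xO, xN, hx⟩ := hS (105 / 4) (by norm_num)
    obtain ⟨a1, o1, n1, hI1, hO1, hN1, z30, p30, c30⟩ := hx 30 (by norm_num)
    obtain ⟨a2, o2, n2, hI2, hO2, hN2, z60, -, -⟩ := hx 60 (by norm_num)
    obtain ⟨a4, o4, n4, hI4, hO4, hN4, z120, -, -⟩ := hx 120 (by norm_num)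
    have e30 : Even 30 := by decide
    have p2 : ∀ t : ℝ, (t ^ 30) ^ 2 = t ^ 60 := fun t => by ring
    have p4 : ∀ t : ℝ, (t ^ 30) ^ 4 = t ^ 120 := fun t => by ring
    have h1 := hbig (105 / 4) (by norm_num)
    rw [z120] at h1
    have core := seed_spur_core (wI := fun i => xI i ^ 30) (wO := fun i => xO i ^ 30)
      (wN := fun i => xN i ^ 30) (fun i => e30.pow_nonneg _) (fun i => e30.pow_nonneg _)
      (fun i => e30.pow_nonneg _) hI1 hO1 hN1 (by simpa only [p2] using hI2)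
      (by simpa only [p2] using hO2) (by simpa only [p2] using hN2)
      (by simpa only [p4] using hI4) (by simpa only [p4] using hO4)
      (by simpa only [p4] using hN4) (by linarith) (by linarith) (by linarith) h1
    have e60 : Even 60 := by decide
    have na2 : 0 ≤ a2 := hI2.nonneg fun i => e60.pow_nonneg _
    have no2 : 0 ≤ o2 := hO2.nonneg fun i => e60.pow_nonneg _
    have nn2 : 0 ≤ n2 := hN2.nonneg fun i => e60.pow_nonneg _
    have q4 : ∀ t : ℝ, (t ^ 60) ^ 2 = t ^ 120 := fun t => by ring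
    have ca := hasSum_sq_le (y := fun i => xI i ^ 60) (fun i => e60.pow_nonneg _) hI2
      (by simpa only [q4] using hI4)
    have co := hasSum_sq_le (y := fun i => xO i ^ 60) (fun i => e60.pow_nonneg _) hO2
      (by simpa only [q4] using hO4)
    have cn := hasSum_sq_le (y := fun i => xN i ^ 60) (fun i => e60.pow_nonneg _) hN2
      (by simpa only [q4] using hN4)
    have hpos : 0 < a2 + 2 * o2 + 3 * n2 := by
      by_contra hcon
      push Not at hcon
      have ha : a2 = 0 := by linarith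
      have ho : o2 = 0 := by linarith
      have hn : n2 = 0 := by linarith
      rw [ha] at ca; rw [ho] at co; rw [hn] at cn
      norm_num at ca co cn
      linarith
    unfold spur
    rw [show 2 * 60 = 120 by norm_num, z120, z60, le_div_iff₀ (by positivity)]
    exact core
  · -- physical purity
    set y : ι → ℝ := fun k => Real.exp (-(21 / 4) * e k) with hy
    have e2 : Z 120 (21 / 2) = ∑ k, y k ^ 2 := by
      rw [he _ (by norm_num)]
      exact Finset.sum_congr rfl fun k _ => seed_exp_pow (21 / 4) (e k) 2 _ (by norm_num)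
    have e5 : Z 120 (105 / 4) = ∑ k, y k ^ 5 := by
      rw [he _ (by norm_num)]
      exact Finset.sum_congr rfl fun k _ => seed_exp_pow (21 / 4) (e k) 5 _ (by norm_num)
    have e10 : Z 120 (2 * (105 / 4)) = ∑ k, y k ^ 10 := by
      rw [he _ (by norm_num)]
      exact Finset.sum_congr rfl fun k _ => seed_exp_pow (21 / 4) (e k) 10 _ (by norm_num)
    have hy1 : 1 ≤ y k0 := by
      simp only [hy]
      rw [Real.one_le_exp_iff]; nlinarith
    have core := seed_ppur_core y (fun k => (Real.exp_pos _).le) k0 hy1 (q := 13382 / 10000)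
      (Rq := 684 / 10000) (by rw [← e2]; exact lq) (by norm_num) (by norm_num) (by norm_num)
    have hpos := hbig (105 / 4) (by norm_num)
    unfold ppur
    rw [le_div_iff₀ (by positivity), e10, e5]
    exact core

end Claimed.Agent.R297
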