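/-
Row 297 (spin-one Haldane gap), package T: Temple's inequality for Hermitian matrices, in the
`Matrix.IsHermitian.eigenvalues` list form and without normalising the trial vector.

For a trial vector `v` put `N = Re⟨v,v⟩`, `A = Re⟨v,Hv⟩`, `B = Re⟨Hv,Hv⟩`.  If every eigenvalue other
than the one with index `k₀` is at least `μ`, then `E₀ (μ N - A) ≥ μ A - B`.
-/
import Mathlib

namespace Claimed.Agent.R297

open Matrix Finset

/-- spectral weights of a vector: `N = ∑ p`, `A = ∑ ε p`, `B = ∑ ε² p`. -/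
theorem temple_forms {n : Type*} [Fintype n] [DecidableEq n] (H : Matrix n n ℂ)
    (hH : H.IsHermitian) (v : n → ℂ) :
    ∃ p : n → ℝ, (∀ k, 0 ≤ p k) ∧ (star v ⬝ᵥ v).re = ∑ k, p k ∧
      (star v ⬝ᵥ (H *ᵥ v)).re = ∑ k, hH.eigenvalues k * p k ∧
      (star (H *ᵥ v) ⬝ᵥ (H *ᵥ v)).re = ∑ k, hH.eigenvalues k ^ 2 * p k := by
  set U : Matrix n n ℂ := (hH.eigenvectorUnitary : Matrix n n ℂ) with hU
  set ev := hH.eigenvalues with hev
  set D : Matrix n n ℂ := diagonal (fun k => ((ev k : ℝ) : ℂ)) with hD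
  have hUU : star U * U = 1 := Unitary.coe_star_mul_self hH.eigenvectorUnitary
  have hUU' : U * star U = 1 := Unitary.coe_mul_star_self hH.eigenvectorUnitary
  have hspec : H = U * D * star U := by
    have := hH.spectral_theorem
    rw [Unitary.conjStarAlgAut_apply] at this
    exact this
  set y : n → ℂ := star U *ᵥ v with hy
  have hvy : v = U *ᵥ y := by
    rw [hy, mulVec_mulVec, hUU', one_mulVec]
  -- isometry: `⟨U a, U b⟩ = ⟨a, b⟩`
  have hiso : ∀ a b : n → ℂ, star (U *ᵥ a) ⬝ᵥ (U *ᵥ b) = star a ⬝ᵥ b := by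
    intro a b
    have h1 : star (U *ᵥ a) = star a ᵥ* star U := by rw [star_mulVec]; rfl
    rw [h1, ← dotProduct_mulVec, mulVec_mulVec, hUU, one_mulVec]
  have hHv : H *ᵥ v = U *ᵥ (D *ᵥ y) := by
    rw [hspec, hy, mulVec_mulVec, mulVec_mulVec]
  have e1 : star v ⬝ᵥ v = star y ⬝ᵥ y := by
    conv_lhs => rw [hvy]
    exact hiso y y
  have e2 : star v ⬝ᵥ (H *ᵥ v) = star y ⬝ᵥ (D *ᵥ y) := by
    rw [hHv]
    conv_lhs => rw [hvy]
    exact hiso y _
  have e3 : star (H *ᵥ v) ⬝ᵥ (H *ᵥ v) = star (D *ᵥ y) ⬝ᵥ (D *ᵥ y) := by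
    rw [hHv]; exact hiso _ _
  have r1 : (star y ⬝ᵥ y).re = ∑ k, ‖y k‖ ^ 2 := by
    simp only [dotProduct, Pi.star_apply, Complex.re_sum]
    refine Finset.sum_congr rfl fun k _ => ?_
    rw [Complex.star_def, ← Complex.normSq_eq_conj_mul_self, Complex.ofReal_re,
      Complex.normSq_eq_norm_sq]
  have r2 : (star y ⬝ᵥ (D *ᵥ y)).re = ∑ k, ev k * ‖y k‖ ^ 2 := by
    simp only [dotProduct, Pi.star_apply, Complex.re_sum, hD, mulVec_diagonal]
    refine Finset.sum_congr rfl fun k _ => ?_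
    have : star (y k) * (((ev k : ℝ) : ℂ) * y k) = ((ev k : ℝ) : ℂ) * (star (y k) * y k) := by ring
    rw [this, Complex.star_def, ← Complex.normSq_eq_conj_mul_self, ← Complex.ofReal_mul,
      Complex.ofReal_re, Complex.normSq_eq_norm_sq]
  have r3 : (star (D *ᵥ y) ⬝ᵥ (D *ᵥ y)).re = ∑ k, ev k ^ 2 * ‖y k‖ ^ 2 := by
    simp only [dotProduct, Pi.star_apply, Complex.re_sum, hD, mulVec_diagonal]
    refine Finset.sum_congr rfl fun k _ => ?_
    have : star (((ev k : ℝ) : ℂ) * y k) * (((ev k : ℝ) : ℂ) * y k)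
        = ((ev k ^ 2 : ℝ) : ℂ) * (star (y k) * y k) := by
      rw [star_mul', Complex.star_def, Complex.conj_ofReal]
      push_cast; ring
    rw [this, Complex.star_def, ← Complex.normSq_eq_conj_mul_self, ← Complex.ofReal_mul,
      Complex.ofReal_re, Complex.normSq_eq_norm_sq]
  exact ⟨fun k => ‖y k‖ ^ 2, fun k => by positivity, by rw [e1, r1], by rw [e2, r2],
    by rw [e3, r3]⟩

/-- **Temple's inequality**, list form with a shift `s`: `ε k + s` are the shifted energies. -/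
theorem temple_list {n : Type*} [Fintype n] (ε p : n → ℝ) (hp : ∀ k, 0 ≤ p k) (k₀ : n) (s μ : ℝ)
    (hμ : ∀ k, k ≠ k₀ → μ ≤ ε k + s) (h0 : ε k₀ + s ≤ μ) :
    μ * (∑ k, ε k * p k + s * ∑ k, p k) -
        (∑ k, ε k ^ 2 * p k + 2 * s * ∑ k, ε k * p k + s ^ 2 * ∑ k, p k) ≤
      (ε k₀ + s) * (μ * ∑ k, p k - (∑ k, ε k * p k + s * ∑ k, p k)) := by
  have key : 0 ≤ ∑ k, (ε k + s - (ε k₀ + s)) * (ε k + s - μ) * p k := by
    refine Finset.sum_nonneg fun k _ => ?_
    by_cases hk : k = k₀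
    · subst hk; simp
    · have h1 := hμ k hk
      exact mul_nonneg (mul_nonneg (by linarith) (by linarith)) (hp k)
  have expand : ∑ k, (ε k + s - (ε k₀ + s)) * (ε k + s - μ) * p k =
      ∑ k, ε k ^ 2 * p k + (2 * s - (ε k₀ + s) - μ) * ∑ k, ε k * p k +
        (s - (ε k₀ + s)) * (s - μ) * ∑ k, p k := by
    rw [Finset.mul_sum, Finset.mul_sum, ← Finset.sum_add_distrib, ← Finset.sum_add_distrib]
    refine Finset.sum_congr rfl fun k _ => ?_
    ring
  rw [expand] at key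
  nlinarith

/-- **Temple's lower bound for the ground energy**, certificate form.  `N, A, B` are the norm,
energy and second moment of the trial vector for `H`; `s` is a shift.  If all shifted eigenvalues
but one are `≥ μ`, and `B' ≤ (μ - τ) A' + τ μ N` with `A' = A + s N < μ N`,
`B' = B + 2 s A + s² N`, then the remaining shifted eigenvalue is `≥ -τ`. -/
theorem temple_lower_bound {n : Type*} [Fintype n] [DecidableEq n] (H : Matrix n n ℂ)
    (hH : H.IsHermitian) (v : n → ℂ) (k₀ : n) (s μ τ : ℝ) (hτ : 0 ≤ τ) (hμ0 : 0 ≤ μ)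
    (hμ : ∀ k, k ≠ k₀ → μ ≤ hH.eigenvalues k + s)
    (hA : (star v ⬝ᵥ (H *ᵥ v)).re + s * (star v ⬝ᵥ v).re < μ * (star v ⬝ᵥ v).re)
    (hB : (star (H *ᵥ v) ⬝ᵥ (H *ᵥ v)).re + 2 * s * (star v ⬝ᵥ (H *ᵥ v)).re
        + s ^ 2 * (star v ⬝ᵥ v).re
      ≤ (μ - τ) * ((star v ⬝ᵥ (H *ᵥ v)).re + s * (star v ⬝ᵥ v).re)
        + τ * μ * (star v ⬝ᵥ v).re) :
    -τ ≤ hH.eigenvalues k₀ + s := by
  obtain ⟨p, hp, hN, hAe, hBe⟩ := temple_forms H hH v
  by_cases h0 : hH.eigenvalues k₀ + s ≤ μ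
  · have T := temple_list hH.eigenvalues p hp k₀ s μ hμ h0
    rw [← hN, ← hAe, ← hBe] at T
    set N := (star v ⬝ᵥ v).re
    set A := (star v ⬝ᵥ (H *ᵥ v)).re
    set B := (star (H *ᵥ v) ⬝ᵥ (H *ᵥ v)).re
    set E := hH.eigenvalues k₀ + s
    have hpos : 0 < μ * N - (A + s * N) := by linarith
    -- `(E + τ) * (μ N - A') ≥ 0`
    have : 0 ≤ (E + τ) * (μ * N - (A + s * N)) := by nlinarith
    by_contra hcon
    push Not at hcon
    have : (E + τ) * (μ * N - (A + s * N)) < 0 := mul_neg_of_neg_of_pos (by linarith) hpos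
    linarith
  · push Not at h0
    linarith

end Claimed.Agent.R297
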