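/-
Row 297 (spin-one Haldane gap), package S42a: abstract lemmas for the Temple-based initialisation.
* `seed42_ground`   : thermal mass `≤ m < 2` + Temple certificate  =>  a unique negative shifted
                      energy `e k₀ ∈ [-τ, 0)`, all other shifted energies `≥ μ`
* `seed42_raise`    : `∑ exp (-(c b₀) e) ≤ exp (τ b₀)^c + (m - 1)^c`
* `seed42_dominant` : `∑ w ≤ D`, `∑ w⁴ > 1`  =>  a dominant weight `w₀ > t₂`
* `seed42_purity`   : ... and the purity bound `σ (∑ w²)² ≤ ∑ w⁴`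
* `seed42_ppur_core`: physical purity after raising the temperature by an integer factor
-/
import Claimed.Agent.R297.Seed60
import Claimed.Agent.R297.Temple

namespace Claimed.Agent.R297

open Finset

section phys

variable {ι : Type*} [Fintype ι]

/-- The ground level of a finite list of shifted energies from a thermal mass bound and a Temple
certificate (`p` = spectral weights of the trial vector). -/
theorem seed42_ground (e p : ι → ℝ) (hp : ∀ k, 0 ≤ p k) {b0 m μ τ : ℝ} (hb0 : 0 < b0)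
    (hm : ∑ k, Real.exp (-b0 * e k) ≤ m) (hμm : m - 1 ≤ Real.exp (-b0 * μ)) (hμ0 : 0 ≤ μ)
    (hA : ∑ k, e k * p k < 0)
    (hB : ∑ k, e k ^ 2 * p k ≤ (μ - τ) * ∑ k, e k * p k + τ * μ * ∑ k, p k) :
    ∃ k0, e k0 < 0 ∧ -τ ≤ e k0 ∧ ∀ k, k ≠ k0 → μ ≤ e k := by
  classical
  have hex : ∃ k0 ∈ (Finset.univ : Finset ι), e k0 * p k0 < (fun _ => (0 : ℝ)) k0 :=
    Finset.exists_lt_of_sum_lt (by simpa using hA)
  obtain ⟨k0, -, hk0⟩ := hex
  have he0 : e k0 < 0 := by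
    by_contra hcon
    push Not at hcon
    have := mul_nonneg hcon (hp k0)
    simp only at hk0
    linarith
  have hz0 : 1 < Real.exp (-b0 * e k0) := by
    rw [Real.one_lt_exp_iff]; nlinarith
  have hothers : ∀ k, k ≠ k0 → μ ≤ e k := by
    intro k hk
    have h2 : Real.exp (-b0 * e k) + Real.exp (-b0 * e k0) ≤ ∑ j, Real.exp (-b0 * e j) := by
      rw [← Finset.add_sum_erase _ (fun j => Real.exp (-b0 * e j)) (Finset.mem_univ k0)]
      have : Real.exp (-b0 * e k) ≤ ∑ j ∈ Finset.univ.erase k0, Real.exp (-b0 * e j) :=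
        Finset.single_le_sum (f := fun j => Real.exp (-b0 * e j))
          (fun j _ => (Real.exp_pos _).le) (Finset.mem_erase.2 ⟨hk, Finset.mem_univ k⟩)
      linarith
    have h3 : Real.exp (-b0 * e k) < Real.exp (-b0 * μ) := by linarith
    rw [Real.exp_lt_exp] at h3
    nlinarith
  refine ⟨k0, he0, ?_, hothers⟩
  have T := temple_list e p hp k0 0 μ (by simpa using hothers) (by linarith)
  simp only [zero_mul, mul_zero, add_zero, ne_eq, OfNat.ofNat_ne_zero, not_false_eq_true,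
    zero_pow] at T
  set N := ∑ k, p k
  set A := ∑ k, e k * p k
  set B := ∑ k, e k ^ 2 * p k
  have hN : 0 ≤ N := Finset.sum_nonneg fun k _ => hp k
  have hpos : 0 < μ * N - A := by
    have := mul_nonneg hμ0 hN
    linarith
  have h5 : 0 ≤ (e k0 + τ) * (μ * N - A) := by nlinarith
  by_contra hcon
  push Not at hcon
  have : (e k0 + τ) * (μ * N - A) < 0 := mul_neg_of_neg_of_pos (by linarith) hpos
  linarith

/-- Raising the inverse temperature by an integer factor, with a two-sided bound on the ground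
level. -/
theorem seed42_raise (e : ι → ℝ) {b0 m τ : ℝ} (hb0 : 0 < b0) (k0 : ι) (h0 : e k0 ≤ 0)
    (hτ : -τ ≤ e k0) (hm : ∑ k, Real.exp (-b0 * e k) ≤ m) (c : ℕ) (hc : 1 ≤ c) :
    ∑ k, Real.exp (-(c * b0) * e k) ≤ Real.exp (τ * b0) ^ c + (m - 1) ^ c := by
  classical
  set z : ι → ℝ := fun k => Real.exp (-b0 * e k) with hz
  have hz0 : ∀ k, 0 ≤ z k := fun k => (Real.exp_pos _).le
  have e1 : ∑ k, Real.exp (-(c * b0) * e k) = ∑ k, z k ^ c :=
    Finset.sum_congr rfl fun k _ => seed_exp_pow b0 (e k) c _ rfl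
  rw [e1, ← Finset.add_sum_erase _ (fun k => z k ^ c) (Finset.mem_univ k0)]
  have h1 := pow_sum_pow_le (Finset.univ.erase k0) z (fun k _ => hz0 k) (n := 1) (L := c) le_rfl hc
  simp only [pow_one] at h1
  have hz1 : 1 ≤ z k0 := by
    simp only [hz]; rw [Real.one_le_exp_iff]; nlinarith
  have h2 : ∑ k ∈ Finset.univ.erase k0, z k ≤ m - 1 := by
    have := Finset.add_sum_erase _ z (Finset.mem_univ k0)
    linarith
  have h3 : (∑ k ∈ Finset.univ.erase k0, z k) ^ c ≤ (m - 1) ^ c :=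
    pow_le_pow_left₀ (Finset.sum_nonneg fun k _ => hz0 k) h2 c
  have h4 : z k0 ≤ Real.exp (τ * b0) := by
    simp only [hz]; rw [Real.exp_le_exp]; nlinarith
  have h5 : z k0 ^ c ≤ Real.exp (τ * b0) ^ c := pow_le_pow_left₀ (hz0 k0) h4 c
  linarith

/-- Physical purity after raising the temperature by the integer factor `c`. -/
theorem seed42_ppur_core (y : ι → ℝ) (hy : ∀ k, 0 ≤ y k) (k0 : ι) (h1 : 1 ≤ y k0) {q σ : ℝ}
    (hq : ∑ k, y k ≤ q) (c : ℕ) (hc : 1 ≤ c) (hσ0 : 0 ≤ σ)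
    (hfin : σ * (1 + (q - 1) ^ c) ^ 2 ≤ 1) :
    σ * (∑ k, y k ^ c) ^ 2 ≤ ∑ k, y k ^ (2 * c) := by
  classical
  set s := (Finset.univ : Finset ι).erase k0 with hs
  have hmem : k0 ∈ (Finset.univ : Finset ι) := Finset.mem_univ k0
  have ec : ∑ k, y k ^ c = y k0 ^ c + ∑ k ∈ s, y k ^ c :=
    (Finset.add_sum_erase _ (fun k => y k ^ c) hmem).symm
  have e1 : ∑ k, y k = y k0 + ∑ k ∈ s, y k := (Finset.add_sum_erase _ y hmem).symm
  have h52 := pow_sum_pow_le s y (fun k _ => hy k) (n := 1) (L := c) le_rfl hc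
  simp only [pow_one] at h52
  have hyc : 1 ≤ y k0 ^ c := one_le_pow₀ h1
  have hr1 : ∑ k ∈ s, y k ≤ q - 1 := by linarith
  have hr10 : 0 ≤ ∑ k ∈ s, y k := Finset.sum_nonneg fun k _ => hy k
  have hrc0 : 0 ≤ ∑ k ∈ s, y k ^ c := Finset.sum_nonneg fun k _ => pow_nonneg (hy k) c
  have h3 : (∑ k ∈ s, y k) ^ c ≤ (q - 1) ^ c := pow_le_pow_left₀ hr10 hr1 c
  have hR0 : 0 ≤ (q - 1) ^ c := le_trans (pow_nonneg hr10 c) h3
  have h6 : ∑ k, y k ^ c ≤ (1 + (q - 1) ^ c) * y k0 ^ c := by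
    rw [ec]; nlinarith
  have h7 : (∑ k, y k ^ c) ^ 2 ≤ ((1 + (q - 1) ^ c) * y k0 ^ c) ^ 2 :=
    pow_le_pow_left₀ (by rw [ec]; positivity) h6 2
  have h8 : y k0 ^ (2 * c) ≤ ∑ k, y k ^ (2 * c) :=
    Finset.single_le_sum (f := fun k => y k ^ (2 * c)) (fun k _ => pow_nonneg (hy k) _) hmem
  have h9 : ((1 + (q - 1) ^ c) * y k0 ^ c) ^ 2 = (1 + (q - 1) ^ c) ^ 2 * y k0 ^ (2 * c) := by
    rw [mul_pow, ← pow_mul, mul_comm c 2]
  have h10 : 0 ≤ y k0 ^ (2 * c) := pow_nonneg (hy k0) _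
  calc σ * (∑ k, y k ^ c) ^ 2 ≤ σ * ((1 + (q - 1) ^ c) ^ 2 * y k0 ^ (2 * c)) := by
        rw [← h9]; exact mul_le_mul_of_nonneg_left h7 hσ0
    _ = (σ * (1 + (q - 1) ^ c) ^ 2) * y k0 ^ (2 * c) := by ring
    _ ≤ 1 * y k0 ^ (2 * c) := mul_le_mul_of_nonneg_right hfin h10
    _ ≤ ∑ k, y k ^ (2 * c) := by rw [one_mul]; exact h8

end phys

section spat

variable {κ : Type*}

/-- A dominant weight from `∑ w ≤ D` and `∑ w⁴ > 1`. -/
theorem seed42_dominant [DecidableEq κ] {w : κ → ℝ} (hw : ∀ i, 0 ≤ w i) {s1 s4 D t1 t2 : ℝ}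
    (H1 : HasSum w s1) (H4 : HasSum (fun i => w i ^ 4) s4) (hD : s1 ≤ D) (h1 : 1 < s4)
    (ht1D : t1 ^ 3 * D ≤ 1) (ht1 : 0 ≤ t1) (ht2 : 0 ≤ t2) (ht2' : t2 ^ 4 + (D - t1) ^ 4 ≤ 1) :
    ∃ i0, t2 < w i0 ∧ (∀ i, i ≠ i0 → w i ≤ s1 - w i0) ∧
      HasSum (Function.update w i0 0) (s1 - w i0) := by
  have hs1 : 0 ≤ s1 := H1.nonneg hw
  have hex : ∃ i0, t1 < w i0 := by
    by_contra hcon
    push Not at hcon
    have b := seed_pow4_le hw hcon H1 H4
    have : t1 ^ 3 * s1 ≤ t1 ^ 3 * D := mul_le_mul_of_nonneg_left hD (by positivity)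
    linarith
  obtain ⟨i0, hi0⟩ := hex
  set w0 := w i0 with hw0
  set w' := Function.update w i0 0 with hw'
  have hw'0 : ∀ i, 0 ≤ w' i := by
    intro i
    by_cases h : i = i0
    · subst h; simp [hw']
    · simp [hw', Function.update_of_ne h, hw i]
  have G1 : HasSum w' (s1 - w0) := by
    have := H1.update i0 0
    have e : 0 - w i0 + s1 = s1 - w0 := by rw [hw0]; ring
    rwa [e] at this
  have G4 : HasSum (fun i => w' i ^ 4) (s4 - w0 ^ 4) := by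
    have := H4.update i0 0
    have e : 0 - w i0 ^ 4 + s4 = s4 - w0 ^ 4 := by rw [hw0]; ring
    rw [hw', seed_update_pow w i0 4 (by norm_num)]
    simpa only [e] using this
  have hrest0 : 0 ≤ s1 - w0 := G1.nonneg hw'0
  have h4 := seed_uncapped 4 (by norm_num) hw'0 G1 (by linarith : s1 - w0 ≤ D - t1) G4
  refine ⟨i0, ?_, ?_, G1⟩
  · have : t2 ^ 4 < w0 ^ 4 := by linarith
    exact lt_of_pow_lt_pow_left₀ 4 (hw i0) this
  · intro i hi
    have := le_hasSum G1 i fun j _ => hw'0 j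
    simpa [hw', Function.update_of_ne hi] using this

/-- The purity bound that goes with `seed42_dominant`. -/
theorem seed42_purity {w : κ → ℝ} (hw : ∀ i, 0 ≤ w i) {s1 s2 s4 D t1 t2 r σ : ℝ}
    (H1 : HasSum w s1) (H2 : HasSum (fun i => w i ^ 2) s2) (H4 : HasSum (fun i => w i ^ 4) s4)
    (hD : s1 ≤ D) (h1 : 1 < s4)
    (ht1D : t1 ^ 3 * D ≤ 1) (ht1 : 0 ≤ t1) (ht2 : 0 ≤ t2) (ht2' : t2 ^ 4 + (D - t1) ^ 4 ≤ 1)
    (hr : (D - t2) ^ 2 ≤ r * t2 ^ 2) (hr0 : 0 ≤ r) (hσ0 : 0 ≤ σ) (hσ : σ * (1 + r) ^ 2 ≤ 1) :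
    σ * s2 ^ 2 ≤ s4 := by
  classical
  obtain ⟨i0, hi0, -, G1⟩ := seed42_dominant hw H1 H4 hD h1 ht1D ht1 ht2 ht2'
  set w0 := w i0 with hw0
  set w' := Function.update w i0 0 with hw'
  have hw'0 : ∀ i, 0 ≤ w' i := by
    intro i
    by_cases h : i = i0
    · subst h; simp [hw']
    · simp [hw', Function.update_of_ne h, hw i]
  have G2 : HasSum (fun i => w' i ^ 2) (s2 - w0 ^ 2) := by
    have := H2.update i0 0
    have e : 0 - w i0 ^ 2 + s2 = s2 - w0 ^ 2 := by rw [hw0]; ring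
    rw [hw', seed_update_pow w i0 2 (by norm_num)]
    simpa only [e] using this
  have hrest0 : 0 ≤ s1 - w0 := G1.nonneg hw'0
  have h2 := hasSum_sq_le hw'0 G1 G2
  have h3 : (s1 - w0) ^ 2 ≤ (D - t2) ^ 2 := pow_le_pow_left₀ hrest0 (by linarith) 2
  have h4 : t2 ^ 2 ≤ w0 ^ 2 := pow_le_pow_left₀ ht2 hi0.le 2
  have h5 : s2 ≤ (1 + r) * w0 ^ 2 := by nlinarith
  have hs2 : 0 ≤ s2 := H2.nonneg fun i => by positivity
  have h6 : s2 ^ 2 ≤ ((1 + r) * w0 ^ 2) ^ 2 := pow_le_pow_left₀ hs2 h5 2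
  have h7 : w0 ^ 4 ≤ s4 := le_hasSum H4 i0 fun j _ => by positivity
  have h8 : 0 ≤ w0 ^ 4 := by positivity
  calc σ * s2 ^ 2 ≤ σ * ((1 + r) * w0 ^ 2) ^ 2 := mul_le_mul_of_nonneg_left h6 hσ0
    _ = (σ * (1 + r) ^ 2) * w0 ^ 4 := by ring
    _ ≤ 1 * w0 ^ 4 := mul_le_mul_of_nonneg_right hσ h8
    _ ≤ s4 := by rw [one_mul]; exact h7

/-- List form for consumers: a real eigenvalue list with `∑ x^30 ≤ D`, `∑ x^120 > 1` has a
dominant entry; every other entry satisfies `|x i|^30 ≤ κ |x i₀|^30`. -/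
theorem seed42_dominant_list {x : κ → ℝ} {Z30 Z120 D t1 t2 κ' : ℝ}
    (h30 : HasSum (fun i => x i ^ 30) Z30) (h120 : HasSum (fun i => x i ^ 120) Z120)
    (hD : Z30 ≤ D) (h1 : 1 < Z120)
    (ht1D : t1 ^ 3 * D ≤ 1) (ht1 : 0 ≤ t1) (ht2 : 0 ≤ t2) (ht2' : t2 ^ 4 + (D - t1) ^ 4 ≤ 1)
    (hκ : D - t2 ≤ κ' * t2) (hκ0 : 0 ≤ κ') :
    ∃ i0, t2 < x i0 ^ 30 ∧ Z30 - x i0 ^ 30 ≤ D - t2 ∧
      ∀ i, i ≠ i0 → |x i| ^ 30 ≤ κ' * |x i0| ^ 30 := by
  classical
  have e30 : Even 30 := by decide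
  have p4 : ∀ t : ℝ, (t ^ 30) ^ 4 = t ^ 120 := fun t => by ring
  obtain ⟨i0, hi0, hrest, -⟩ := seed42_dominant (w := fun i => x i ^ 30)
    (fun i => e30.pow_nonneg _) h30 (by simpa only [p4] using h120) hD h1 ht1D ht1 ht2 ht2'
  refine ⟨i0, hi0, by linarith, fun i hi => ?_⟩
  rw [e30.pow_abs, e30.pow_abs]
  have h2 := hrest i hi
  have h3 : κ' * t2 ≤ κ' * x i0 ^ 30 := mul_le_mul_of_nonneg_left hi0.le hκ0
  linarith

end spat

end Claimed.Agent.R297
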