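/-
Row 297 (spin-one Haldane gap), package S42b: the Temple-based initialisation (redesign of the
periodic inputs of the boundary paper on the `b = 21/2` table).

Inputs: `SectorRep`, `Table60` (tolerance `10⁻⁴`), a negative shifted energy at length `120`, and a
Temple certificate `TempleCert e (13/75) (304/100000)` for the shifted energies of the ring of
`30` sites.  Outputs:
* `seed42_Z30`  : `Z 30 21 ≤ 1.091397`, `Z 30 42 ≤ 1.136844`;
* `seed42`      : `963/1000 ≤ spur Z 60 42`, `974/1000 ≤ ppur Z 120 42`;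
* `seed42_rho21`, `seed42_rho42` : for ANY eigenvalue list of the spatial operator at `b = 21`, `42`
  a dominant entry with `|x i|^30 ≤ κ |x i₀|^30`, `κ = 0.0916`, `0.1372`.
-/
import Claimed.Agent.R297.Seed42Lemmas

namespace Claimed.Agent.R297

open Finset

/-- Temple certificate in list form: `p` are the spectral weights of a trial vector, `e` the
shifted energies. -/
def TempleCert {ι : Type*} [Fintype ι] (e : ι → ℝ) (μ τ : ℝ) : Prop :=
  ∃ p : ι → ℝ, (∀ k, 0 ≤ p k) ∧ ∑ k, e k * p k < 0 ∧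
    ∑ k, e k ^ 2 * p k ≤ (μ - τ) * ∑ k, e k * p k + τ * μ * ∑ k, p k

/-- The Temple certificate of a Hermitian matrix from a trial vector; `s` is the shift. -/
theorem templeCert_of_vector {n : Type*} [Fintype n] [DecidableEq n] (H : Matrix n n ℂ)
    (hH : H.IsHermitian) (v : n → ℂ) (s μ τ : ℝ)
    (hA : (star v ⬝ᵥ (H.mulVec v)).re + s * (star v ⬝ᵥ v).re < 0)
    (hB : (star (H.mulVec v) ⬝ᵥ (H.mulVec v)).re + 2 * s * (star v ⬝ᵥ (H.mulVec v)).re
        + s ^ 2 * (star v ⬝ᵥ v).re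
      ≤ (μ - τ) * ((star v ⬝ᵥ (H.mulVec v)).re + s * (star v ⬝ᵥ v).re)
        + τ * μ * (star v ⬝ᵥ v).re) :
    TempleCert (fun k => hH.eigenvalues k + s) μ τ := by
  obtain ⟨p, hp, hN, hAe, hBe⟩ := temple_forms H hH v
  have e1 : ∑ k, (hH.eigenvalues k + s) * p k
      = (star v ⬝ᵥ (H.mulVec v)).re + s * (star v ⬝ᵥ v).re := by
    rw [hN, hAe, Finset.mul_sum, ← Finset.sum_add_distrib]
    exact Finset.sum_congr rfl fun k _ => by ring
  have e2 : ∑ k, (hH.eigenvalues k + s) ^ 2 * p k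
      = (star (H.mulVec v) ⬝ᵥ (H.mulVec v)).re + 2 * s * (star v ⬝ᵥ (H.mulVec v)).re
        + s ^ 2 * (star v ⬝ᵥ v).re := by
    rw [hN, hAe, hBe, Finset.mul_sum, Finset.mul_sum, ← Finset.sum_add_distrib,
      ← Finset.sum_add_distrib]
    exact Finset.sum_congr rfl fun k _ => by ring
  refine ⟨p, hp, ?_, ?_⟩
  · rw [e1]; exact hA
  · rw [e1, e2, ← hN]; exact hB

/-- all sector lists glued into one list. -/
theorem SectorRep.single {Z ZP ZC : ℕ → ℝ → ℝ} (hS : SectorRep Z ZP ZC) {b : ℝ} (hb : 0 < b) :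
    ∃ (κ : Type) (x : κ → ℝ), ∀ n, 4 ≤ n → HasSum (fun i => x i ^ n) (Z n b) := by
  obtain ⟨κI, κO, κN, xI, xO, xN, hx⟩ := hS b hb
  refine ⟨κI ⊕ (κO ⊕ κO) ⊕ (κN ⊕ κN ⊕ κN),
    Sum.elim xI (Sum.elim (Sum.elim xO xO) (Sum.elim xN (Sum.elim xN xN))), fun n hn => ?_⟩
  obtain ⟨mI, mO, mN, hI, hO, hN, hz, -, -⟩ := hx n hn
  have e : Z n b = mI + ((mO + mO) + (mN + (mN + mN))) := by rw [hz]; ring
  rw [e]
  refine HasSum.sum ?_ (HasSum.sum (HasSum.sum ?_ ?_) (HasSum.sum ?_ (HasSum.sum ?_ ?_)))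
  all_goals first | exact hI | exact hO | exact hN

theorem seed42_exp_mu : (11596 / 10000 : ℝ) - 1 ≤ Real.exp (-(21 / 2) * (13 / 75)) := by
  have h1 : Real.exp (91 / 50) ^ 50 = Real.exp 1 ^ 91 := by
    rw [← Real.exp_nat_mul, ← Real.exp_nat_mul]; norm_num
  have h2 : Real.exp 1 ^ 91 ≤ (2.7182818286 : ℝ) ^ 91 :=
    pow_le_pow_left₀ (Real.exp_pos _).le Real.exp_one_lt_d9.le 91
  have h3 : (2.7182818286 : ℝ) ^ 91 ≤ (62656 / 10000) ^ 50 := by norm_num
  have h4 : Real.exp (91 / 50) ≤ 62656 / 10000 :=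
    le_of_pow_le_pow_left₀ (by norm_num : (50 : ℕ) ≠ 0) (by norm_num) (by linarith)
  have h5 : Real.exp (-(21 / 2) * (13 / 75)) = (Real.exp (91 / 50))⁻¹ := by
    rw [← Real.exp_neg]; norm_num
  rw [h5]
  have h6 : (62656 / 10000 : ℝ)⁻¹ ≤ (Real.exp (91 / 50))⁻¹ :=
    inv_anti₀ (Real.exp_pos _) h4
  refine le_trans ?_ h6
  norm_num

theorem seed42_exp_tau : Real.exp (304 / 100000 * (21 / 2)) ≤ 1032436 / 1000000 := by
  have h := Real.exp_bound' (x := 304 / 100000 * (21 / 2)) (by norm_num) (by norm_num)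
    (n := 4) (by norm_num)
  refine le_trans h ?_
  norm_num [Finset.sum_range_succ, Nat.factorial]

section main

variable {Z ZP ZC : ℕ → ℝ → ℝ}

/-- the ground level of the ring of `30` sites. -/
theorem seed42_ground30 (hS : SectorRep Z ZP ZC) (tab : Table60 Z ZP ZC)
    {ι : Type*} [Fintype ι] (e : ι → ℝ) (he : ∀ b, 0 < b → Z 30 b = ∑ k, Real.exp (-b * e k))
    (cert : TempleCert e (13 / 75) (304 / 100000)) :
    ∃ k0, e k0 < 0 ∧ -(304 / 100000) ≤ e k0 ∧ ∀ k, k ≠ k0 → 13 / 75 ≤ e k := by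
  obtain ⟨lz, -, -, -⟩ := seed_low_temperature hS tab
  obtain ⟨p, hp, hA, hB⟩ := cert
  rw [he _ (by norm_num)] at lz
  exact seed42_ground e p hp (by norm_num) lz seed42_exp_mu (by norm_num) hA hB

/-- upper bounds for the thirtieth spatial moment at `b = 21` and `b = 42`. -/
theorem seed42_Z30 (hS : SectorRep Z ZP ZC) (tab : Table60 Z ZP ZC)
    {ι : Type*} [Fintype ι] (e : ι → ℝ) (he : ∀ b, 0 < b → Z 30 b = ∑ k, Real.exp (-b * e k))
    (cert : TempleCert e (13 / 75) (304 / 100000)) :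
    Z 30 21 ≤ 1091397 / 1000000 ∧ Z 30 42 ≤ 1136844 / 1000000 := by
  obtain ⟨k0, h0, hτ, -⟩ := seed42_ground30 hS tab e he cert
  obtain ⟨lz, -, -, -⟩ := seed_low_temperature hS tab
  rw [he _ (by norm_num)] at lz
  have hE := seed42_exp_tau
  have hE0 : 0 ≤ Real.exp (304 / 100000 * (21 / 2)) := (Real.exp_pos _).le
  constructor
  · have h := seed42_raise e (by norm_num : (0 : ℝ) < 21 / 2) k0 h0.le hτ lz 2 (by norm_num)
    rw [he _ (by norm_num)]
    have e1 : ((2 : ℕ) : ℝ) * (21 / 2) = 21 := by norm_num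
    rw [e1] at h
    have h2 : Real.exp (304 / 100000 * (21 / 2)) ^ 2 ≤ (1032436 / 1000000) ^ 2 :=
      pow_le_pow_left₀ hE0 hE 2
    refine le_trans h (le_trans (add_le_add_left h2 _) ?_)
    norm_num
  · have h := seed42_raise e (by norm_num : (0 : ℝ) < 21 / 2) k0 h0.le hτ lz 4 (by norm_num)
    rw [he _ (by norm_num)]
    have e1 : ((4 : ℕ) : ℝ) * (21 / 2) = 42 := by norm_num
    rw [e1] at h
    have h2 : Real.exp (304 / 100000 * (21 / 2)) ^ 4 ≤ (1032436 / 1000000) ^ 4 :=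
      pow_le_pow_left₀ hE0 hE 4
    refine le_trans h (le_trans (add_le_add_left h2 _) ?_)
    norm_num

/-- the trial energy at length `120`. -/
theorem seed42_Z120_gt {ι : Type*} [Fintype ι] (e : ι → ℝ)
    (he : ∀ b, 0 < b → Z 120 b = ∑ k, Real.exp (-b * e k)) {k0 : ι} (hk0 : e k0 < 0) {b : ℝ}
    (hb : 0 < b) : 1 < Z 120 b := by
  rw [he b hb]
  have h1 : 1 < Real.exp (-b * e k0) := by
    rw [Real.one_lt_exp_iff]; nlinarith
  exact lt_of_lt_of_le h1 (Finset.single_le_sum (f := fun k => Real.exp (-b * e k))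
    (fun k _ => (Real.exp_pos _).le) (Finset.mem_univ k0))

/-- dominant spatial eigenvalue at `b = 21`, for any eigenvalue list. -/
theorem seed42_rho21 {κ : Type*} {x : κ → ℝ} (h30 : HasSum (fun i => x i ^ 30) (Z 30 21))
    (h120 : HasSum (fun i => x i ^ 120) (Z 120 21)) (hD : Z 30 21 ≤ 1091397 / 1000000)
    (h1 : 1 < Z 120 21) :
    ∃ i0, 9999 / 10000 < x i0 ^ 30 ∧ Z 30 21 - x i0 ^ 30 ≤ 91497 / 1000000 ∧
      ∀ i, i ≠ i0 → |x i| ^ 30 ≤ 916 / 10000 * |x i0| ^ 30 := by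
  obtain ⟨i0, a, b, c⟩ := seed42_dominant_list (t1 := 971 / 1000) (t2 := 9999 / 10000)
    (κ' := 916 / 10000) h30 h120 hD h1 (by norm_num) (by norm_num) (by norm_num) (by norm_num)
    (by norm_num) (by norm_num)
  exact ⟨i0, a, by norm_num at b ⊢; linarith, c⟩

/-- dominant spatial eigenvalue at `b = 42`, for any eigenvalue list. -/
theorem seed42_rho42 {κ : Type*} {x : κ → ℝ} (h30 : HasSum (fun i => x i ^ 30) (Z 30 42))
    (h120 : HasSum (fun i => x i ^ 120) (Z 120 42)) (hD : Z 30 42 ≤ 1136844 / 1000000)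
    (h1 : 1 < Z 120 42) :
    ∃ i0, 9997 / 10000 < x i0 ^ 30 ∧ Z 30 42 - x i0 ^ 30 ≤ 137144 / 1000000 ∧
      ∀ i, i ≠ i0 → |x i| ^ 30 ≤ 1372 / 10000 * |x i0| ^ 30 := by
  obtain ⟨i0, a, b, c⟩ := seed42_dominant_list (t1 := 958 / 1000) (t2 := 9997 / 10000)
    (κ' := 1372 / 10000) h30 h120 hD h1 (by norm_num) (by norm_num) (by norm_num) (by norm_num)
    (by norm_num) (by norm_num)
  exact ⟨i0, a, by norm_num at b ⊢; linarith, c⟩

/-- **The Temple-based seeds at `(60, 42)`.** -/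
theorem seed42 (hS : SectorRep Z ZP ZC) (tab : Table60 Z ZP ZC)
    {ι : Type*} [Fintype ι] (e : ι → ℝ) (he : ∀ b, 0 < b → Z 30 b = ∑ k, Real.exp (-b * e k))
    (cert : TempleCert e (13 / 75) (304 / 100000))
    {ι' : Type*} [Fintype ι'] (e' : ι' → ℝ)
    (he' : ∀ b, 0 < b → Z 120 b = ∑ k, Real.exp (-b * e' k)) {k0 : ι'} (hk0 : e' k0 < 0) :
    963 / 1000 ≤ spur Z 60 42 ∧ 974 / 1000 ≤ ppur Z 120 42 := by
  obtain ⟨-, hD⟩ := seed42_Z30 hS tab e he cert
  have h1 : 1 < Z 120 42 := seed42_Z120_gt e' he' hk0 (by norm_num)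
  constructor
  · obtain ⟨κ, x, hx⟩ := hS.single (b := 42) (by norm_num)
    have e30 : Even 30 := by decide
    have p2 : ∀ t : ℝ, (t ^ 30) ^ 2 = t ^ 60 := fun t => by ring
    have p4 : ∀ t : ℝ, (t ^ 30) ^ 4 = t ^ 120 := fun t => by ring
    have core := seed42_purity (w := fun i => x i ^ 30) (fun i => e30.pow_nonneg _)
      (t1 := 958 / 1000) (t2 := 9997 / 10000) (r := 1883 / 100000) (σ := 963 / 1000)
      (hx 30 (by norm_num)) (by simpa only [p2] using hx 60 (by norm_num))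
      (by simpa only [p4] using hx 120 (by norm_num)) hD h1 (by norm_num) (by norm_num)
      (by norm_num) (by norm_num) (by norm_num) (by norm_num) (by norm_num) (by norm_num)
    have e60 : Even 60 := by decide
    have q4 : ∀ t : ℝ, (t ^ 60) ^ 2 = t ^ 120 := fun t => by ring
    have hsq := hasSum_sq_le (y := fun i => x i ^ 60) (fun i => e60.pow_nonneg _)
      (hx 60 (by norm_num)) (by simpa only [q4] using hx 120 (by norm_num))
    have hpos : 0 < Z 60 42 ^ 2 := by linarith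
    unfold spur
    rw [show 2 * 60 = 120 by norm_num, le_div_iff₀ hpos]
    exact core
  · obtain ⟨-, -, -, lq⟩ := seed_low_temperature hS tab
    set y : ι' → ℝ := fun k => Real.exp (-(21 / 2) * e' k) with hy
    have e1 : Z 120 (21 / 2) = ∑ k, y k := he' _ (by norm_num)
    have e4 : Z 120 42 = ∑ k, y k ^ 4 := by
      rw [he' _ (by norm_num)]
      exact Finset.sum_congr rfl fun k _ => seed_exp_pow (21 / 2) (e' k) 4 _ (by norm_num)
    have e8 : Z 120 (2 * 42) = ∑ k, y k ^ (2 * 4) := by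
      rw [he' _ (by norm_num)]
      exact Finset.sum_congr rfl fun k _ => seed_exp_pow (21 / 2) (e' k) (2 * 4) _ (by norm_num)
    have hy1 : 1 ≤ y k0 := by
      simp only [hy]
      rw [Real.one_le_exp_iff]; nlinarith
    have core := seed42_ppur_core y (fun k => (Real.exp_pos _).le) k0 hy1 (q := 13382 / 10000)
      (σ := 974 / 1000) (by rw [← e1]; exact lq) 4 (by norm_num) (by norm_num) (by norm_num)
    unfold ppur
    rw [le_div_iff₀ (by positivity), e8, e4]
    exact core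

end main

end Claimed.Agent.R297
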