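/-
Row 297 (spin-one Haldane gap), package F4: a trial vector with Rayleigh quotient below `c`
forces an eigenvalue below `c` (in the `Matrix.IsHermitian.eigenvalues` list).
-/
import Mathlib

namespace Claimed.Agent.R297

open Matrix Finset

/-- quadratic forms of a Hermitian matrix in its eigenbasis. -/
theorem seed_quadratic_forms {n : Type*} [Fintype n] [DecidableEq n] (H : Matrix n n ℂ)
    (hH : H.IsHermitian) (v : n → ℂ) :
    ∃ y : n → ℂ, (star v ⬝ᵥ v).re = ∑ k, ‖y k‖ ^ 2 ∧
      (star v ⬝ᵥ (H *ᵥ v)).re = ∑ k, hH.eigenvalues k * ‖y k‖ ^ 2 := by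
  set U : Matrix n n ℂ := (hH.eigenvectorUnitary : Matrix n n ℂ) with hU
  set ev := hH.eigenvalues with hev
  set D : Matrix n n ℂ := diagonal (fun k => ((ev k : ℝ) : ℂ)) with hD
  have hUU : star U * U = 1 := Unitary.coe_star_mul_self hH.eigenvectorUnitary
  have hUU' : U * star U = 1 := Unitary.coe_mul_star_self hH.eigenvectorUnitary
  have hspec : H = U * D * star U := by
    have := hH.spectral_theorem
    rw [Unitary.conjStarAlgAut_apply] at this
    exact this
  set y : n → ℂ := star U *ᵥ v with hy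
  have hvy : v = U *ᵥ y := by
    rw [hy, mulVec_mulVec, hUU', one_mulVec]
  have hstar : star v = star y ᵥ* star U := by
    rw [hvy, star_mulVec]; rfl
  have e1 : star v ⬝ᵥ v = star y ⬝ᵥ y := by
    rw [hstar]
    conv_lhs => rw [hvy]
    rw [← dotProduct_mulVec, mulVec_mulVec, hUU, one_mulVec]
  have e2 : star v ⬝ᵥ (H *ᵥ v) = star y ⬝ᵥ (D *ᵥ y) := by
    rw [hstar, ← dotProduct_mulVec, mulVec_mulVec, hspec]
    have : star U * (U * D * star U) = D * star U := by
      rw [← mul_assoc, ← mul_assoc, hUU, one_mul]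
    rw [this, ← mulVec_mulVec]
  have r1 : (star y ⬝ᵥ y).re = ∑ k, ‖y k‖ ^ 2 := by
    simp only [dotProduct, Pi.star_apply, Complex.re_sum]
    refine Finset.sum_congr rfl fun k _ => ?_
    rw [Complex.star_def, ← Complex.normSq_eq_conj_mul_self, Complex.ofReal_re,
      Complex.normSq_eq_norm_sq]
  have r2 : (star y ⬝ᵥ (D *ᵥ y)).re = ∑ k, ev k * ‖y k‖ ^ 2 := by
    simp only [dotProduct, Pi.star_apply, Complex.re_sum, hD, mulVec_diagonal]
    refine Finset.sum_congr rfl fun k _ => ?_
    have : star (y k) * (((ev k : ℝ) : ℂ) * y k) = ((ev k : ℝ) : ℂ) * (star (y k) * y k) := by ring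
    rw [this, Complex.star_def, ← Complex.normSq_eq_conj_mul_self, ← Complex.ofReal_mul,
      Complex.ofReal_re, Complex.normSq_eq_norm_sq]
  exact ⟨y, by rw [e1, r1], by rw [e2, r2]⟩

/-- A trial vector with Rayleigh quotient `< c` gives an eigenvalue `< c`. -/
theorem seed_exists_eigenvalue_lt {n : Type*} [Fintype n] [DecidableEq n] (H : Matrix n n ℂ)
    (hH : H.IsHermitian) (c : ℝ) (v : n → ℂ)
    (hv : (star v ⬝ᵥ (H *ᵥ v)).re < c * (star v ⬝ᵥ v).re) : ∃ k, hH.eigenvalues k < c := by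
  obtain ⟨y, h1, h2⟩ := seed_quadratic_forms H hH v
  by_contra hcon
  push Not at hcon
  rw [h1, h2, Finset.mul_sum] at hv
  have : ∑ k, c * ‖y k‖ ^ 2 ≤ ∑ k, hH.eigenvalues k * ‖y k‖ ^ 2 :=
    Finset.sum_le_sum fun k _ => mul_le_mul_of_nonneg_right (hcon k) (by positivity)
  linarith

/-- All eigenvalues of a Hermitian matrix lie above any lower bound of the quadratic form. -/
theorem seed_eigenvalue_ge {n : Type*} [Fintype n] [DecidableEq n] (H : Matrix n n ℂ)
    (hH : H.IsHermitian) (c : ℝ)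
    (hform : ∀ v : n → ℂ, c * (star v ⬝ᵥ v).re ≤ (star v ⬝ᵥ (H *ᵥ v)).re) (k : n) :
    c ≤ hH.eigenvalues k := by
  have h := hform (hH.eigenvectorBasis k).ofLp
  rw [hH.mulVec_eigenvectorBasis k] at h
  have hn : (star (hH.eigenvectorBasis k).ofLp ⬝ᵥ (hH.eigenvectorBasis k).ofLp).re = 1 := by
    have h1 : ‖hH.eigenvectorBasis k‖ = 1 := hH.eigenvectorBasis.orthonormal.1 k
    have h2 := EuclideanSpace.norm_eq (hH.eigenvectorBasis k)
    rw [h1] at h2
    have h3 : ∑ i, ‖(hH.eigenvectorBasis k).ofLp i‖ ^ 2 = 1 := by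
      have := congrArg (fun t => t ^ 2) h2
      simp only [one_pow] at this
      rw [Real.sq_sqrt (Finset.sum_nonneg fun i _ => by positivity)] at this
      exact this.symm
    rw [← h3]
    simp only [dotProduct, Pi.star_apply, Complex.re_sum]
    refine Finset.sum_congr rfl fun i _ => ?_
    rw [Complex.star_def, ← Complex.normSq_eq_conj_mul_self, Complex.ofReal_re,
      Complex.normSq_eq_norm_sq]
  have h4 : (star (hH.eigenvectorBasis k).ofLp ⬝ᵥ
      (hH.eigenvalues k • (hH.eigenvectorBasis k).ofLp)).re = hH.eigenvalues k := by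
    rw [dotProduct_smul, Complex.real_smul, Complex.re_ofReal_mul, hn, mul_one]
  rw [h4, hn, mul_one] at h
  exact h

end Claimed.Agent.R297
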