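/-
Row 297 (spin-one Haldane gap), package F5: glue between `seed60` and the concrete partition
functions `Zring` of package C.  After this file the two seeds of the periodic bootstrap follow
from exactly three inputs:
* `transfer_ring` (package C),
* the thermal table `Table60` for `Zring a n 1|rotP|rotC (21/2)`, `n = 6, 8, 10`, tolerance `10⁻⁴`,
* a trial vector on the ring of `120` sites with energy below `-120 a`.
-/
import Claimed.Agent.R297.Seed60
import Claimed.Agent.R297.Seed60Trial
import Claimed.Agent.R297.SeedTools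
import Claimed.Agent.R297.TransferMain
import Claimed.Agent.R297.ModelHerm

namespace Claimed.Agent.R297

open Matrix

/-- the shift of the two papers. -/
noncomputable def seedShift : ℝ := 700741 / 500000

theorem seed_Zring_eq (a : ℝ) {n : ℕ} (R : Matrix (Fin 3) (Fin 3) ℝ)
    (hH : (twistRing n R).IsHermitian) (b : ℝ) :
    Zring a n R b = ∑ k, Real.exp (-b * (hH.eigenvalues k + a * n)) := by
  unfold Zring
  rw [gibbsZ_eq hH, Finset.mul_sum]
  refine Finset.sum_congr rfl fun k _ => ?_
  rw [← Real.exp_add]; congr 1; ring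

theorem seed_physList_Zring (a : ℝ) {n : ℕ} (hn : 2 ≤ n) (R : Matrix (Fin 3) (Fin 3) ℝ) :
    PhysList (Zring a n R) :=
  ⟨Fin n → Fin 3, inferInstance,
    fun k => (mdl_twistRing_isHermitian hn R).eigenvalues k + a * n,
    fun b _ => seed_Zring_eq a R (mdl_twistRing_isHermitian hn R) b⟩

theorem seed_sectorRep_Zring (a : ℝ) :
    SectorRep (fun n b => Zring a n 1 b) (fun n b => Zring a n rotP b)
      (fun n b => Zring a n rotC b) := by
  intro b hb
  obtain ⟨lamI, lamO, lamN, sI, sO, sN, h⟩ := transfer_ring a b hb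
  refine ⟨ℕ, ℕ, ℕ, lamI, lamO, lamN, fun n hn => ⟨_, _, _,
    (seedT_summable_pow sI (by omega)).hasSum, (seedT_summable_pow sO (by omega)).hasSum,
    (seedT_summable_pow sN (by omega)).hasSum, (h n (by omega)).1, (h n (by omega)).2.1,
    (h n (by omega)).2.2⟩⟩

/-- **The two seeds of the periodic bootstrap from the thermal table and the trial vector.** -/
theorem seed60_Zring
    (tab : Table60 (fun n b => Zring seedShift n 1 b) (fun n b => Zring seedShift n rotP b)
      (fun n b => Zring seedShift n rotC b))
    (trial : ∃ v : (Fin 120 → Fin 3) → ℂ,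
      (star v ⬝ᵥ (Claims.C0475.heisenbergRing 120 *ᵥ v)).re
        < -(120 * 700741 / 500000) * (star v ⬝ᵥ v).re) :
    7 / 8 ≤ spur (fun n b => Zring seedShift n 1 b) 60 (105 / 4) ∧
      7 / 8 ≤ ppur (fun n b => Zring seedShift n 1 b) 120 (105 / 4) := by
  refine seed60 (seed_sectorRep_Zring seedShift) tab (seed_physList_Zring _ (by norm_num) _)
    (seed_physList_Zring _ (by norm_num) _) (seed_physList_Zring _ (by norm_num) _) ?_
  have hH : (twistRing 120 1).IsHermitian := mdl_twistRing_isHermitian (by norm_num) 1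
  refine ⟨Fin 120 → Fin 3, inferInstance, fun k => hH.eigenvalues k + seedShift * (120 : ℕ),
    fun b _ => seed_Zring_eq seedShift 1 hH b, ?_⟩
  obtain ⟨v, hv⟩ := trial
  rw [← twistRing_one] at hv
  obtain ⟨k, hk⟩ := seed_exists_eigenvalue_lt _ hH _ v hv
  refine ⟨k, ?_⟩
  unfold seedShift
  push_cast
  linarith

end Claimed.Agent.R297
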