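/-
Row 297 (spin-one Haldane gap), package S42c: the Temple-based periodic inputs for the concrete
partition functions `Zring seedShift n 1 b`.  Inputs: `transfer_ring`, `Table60`, the trial vector at
`N = 120` and the energy / second-moment certificate at `N = 30`.
-/
import Claimed.Agent.R297.Seed42
import Claimed.Agent.R297.Seed60Glue

namespace Claimed.Agent.R297

open Matrix

section shift

variable {n : Type*} [Fintype n] [DecidableEq n]

theorem seed42_shift_mulVec (H : Matrix n n ℂ) (s : ℝ) (v : n → ℂ) :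
    (H + (s : ℂ) • (1 : Matrix n n ℂ)) *ᵥ v = H *ᵥ v + (s : ℂ) • v := by
  rw [add_mulVec, smul_mulVec, one_mulVec]

theorem seed42_shift_energy (H : Matrix n n ℂ) (s : ℝ) (v : n → ℂ) :
    (star v ⬝ᵥ ((H + (s : ℂ) • (1 : Matrix n n ℂ)) *ᵥ v)).re
      = (star v ⬝ᵥ (H *ᵥ v)).re + s * (star v ⬝ᵥ v).re := by
  rw [seed42_shift_mulVec, dotProduct_add, dotProduct_smul, Complex.add_re, smul_eq_mul,
    Complex.re_ofReal_mul]

theorem seed42_shift_second (H : Matrix n n ℂ) (s : ℝ) (v : n → ℂ) :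
    (star ((H + (s : ℂ) • (1 : Matrix n n ℂ)) *ᵥ v) ⬝ᵥ
        ((H + (s : ℂ) • (1 : Matrix n n ℂ)) *ᵥ v)).re
      = (star (H *ᵥ v) ⬝ᵥ (H *ᵥ v)).re + 2 * s * (star v ⬝ᵥ (H *ᵥ v)).re
        + s ^ 2 * (star v ⬝ᵥ v).re := by
  rw [seed42_shift_mulVec, star_add, add_dotProduct, dotProduct_add, dotProduct_add]
  have h1 : star ((s : ℂ) • v) = (s : ℂ) • star v := by
    rw [star_smul]; simp
  have h2 : (star (H *ᵥ v) ⬝ᵥ v).re = (star v ⬝ᵥ (H *ᵥ v)).re := by
    rw [star_dotProduct, Complex.star_def, Complex.conj_re]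
  rw [h1, smul_dotProduct, smul_dotProduct, dotProduct_smul, dotProduct_smul]
  simp only [Complex.add_re, smul_eq_mul, Complex.re_ofReal_mul, h2]
  ring

end shift

/-- the `N = 30` certificate (energy and second moment of a trial vector for `H + 30 a`). -/
def Trial30Cert : Prop :=
  ∃ v : (Fin 30 → Fin 3) → ℂ,
    (star v ⬝ᵥ ((Claims.C0475.heisenbergRing 30 +
        (((30 * 700741 / 500000 : ℝ)) : ℂ) • (1 : Matrix _ _ ℂ)) *ᵥ v)).re < 0 ∧
    -(163 / 100000) * (star v ⬝ᵥ v).re ≤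
      (star v ⬝ᵥ ((Claims.C0475.heisenbergRing 30 +
        (((30 * 700741 / 500000 : ℝ)) : ℂ) • (1 : Matrix _ _ ℂ)) *ᵥ v)).re ∧
    (star ((Claims.C0475.heisenbergRing 30 +
        (((30 * 700741 / 500000 : ℝ)) : ℂ) • (1 : Matrix _ _ ℂ)) *ᵥ v) ⬝ᵥ
      ((Claims.C0475.heisenbergRing 30 +
        (((30 * 700741 / 500000 : ℝ)) : ℂ) • (1 : Matrix _ _ ℂ)) *ᵥ v)).re
      ≤ 248 / 1000000 * (star v ⬝ᵥ v).re

/-- the `N = 120` trial vector. -/
def Trial120Cert : Prop :=
  ∃ v : (Fin 120 → Fin 3) → ℂ,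
    (star v ⬝ᵥ (Claims.C0475.heisenbergRing 120 *ᵥ v)).re
      < -(120 * 700741 / 500000) * (star v ⬝ᵥ v).re

/-- the thermal table for the concrete rings. -/
def Table60Ring : Prop :=
  Table60 (fun n b => Zring seedShift n 1 b) (fun n b => Zring seedShift n rotP b)
    (fun n b => Zring seedShift n rotC b)

theorem seed42_templeCert30 (h : Trial30Cert) :
    TempleCert (fun k => (mdl_twistRing_isHermitian (n := 30) (by norm_num) 1).eigenvalues k
      + seedShift * (30 : ℕ)) (13 / 75) (304 / 100000) := by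
  obtain ⟨v, hA, hA', hB⟩ := h
  rw [seed42_shift_energy] at hA hA'
  rw [seed42_shift_second] at hB
  rw [← twistRing_one] at hA hA' hB
  have hs : seedShift * ((30 : ℕ) : ℝ) = 30 * 700741 / 500000 := by
    unfold seedShift; norm_num
  rw [hs]
  refine templeCert_of_vector _ _ v _ _ _ hA ?_
  refine le_trans hB ?_
  set N := (star v ⬝ᵥ v).re
  set A := (star v ⬝ᵥ (twistRing 30 1 *ᵥ v)).re + 30 * 700741 / 500000 * N
  nlinarith

theorem seed42_neg120 (h : Trial120Cert) :
    ∃ k, (mdl_twistRing_isHermitian (n := 120) (by norm_num) 1).eigenvalues k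
      + seedShift * (120 : ℕ) < 0 := by
  obtain ⟨v, hv⟩ := h
  rw [← twistRing_one] at hv
  obtain ⟨k, hk⟩ := seed_exists_eigenvalue_lt _
    (mdl_twistRing_isHermitian (n := 120) (by norm_num) 1) _ v hv
  refine ⟨k, ?_⟩
  unfold seedShift
  push_cast
  linarith

/-- **All periodic inputs of the redesigned boundary chain, for the concrete rings.** -/
theorem seed42_Zring (tab : Table60Ring) (t120 : Trial120Cert) (t30 : Trial30Cert) :
    Zring seedShift 30 1 21 ≤ 1091397 / 1000000 ∧ Zring seedShift 30 1 42 ≤ 1136844 / 1000000 ∧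
    (∀ b, 0 < b → 1 < Zring seedShift 120 1 b) ∧
    963 / 1000 ≤ spur (fun n b => Zring seedShift n 1 b) 60 42 ∧
    974 / 1000 ≤ ppur (fun n b => Zring seedShift n 1 b) 120 42 := by
  have hS := seed_sectorRep_Zring seedShift
  have he30 : ∀ b : ℝ, 0 < b → (fun n b => Zring seedShift n 1 b) 30 b = ∑ k, Real.exp (-b *
      ((mdl_twistRing_isHermitian (n := 30) (by norm_num) 1).eigenvalues k
        + seedShift * (30 : ℕ))) := fun b _ => seed_Zring_eq seedShift 1 _ b
  have he120 : ∀ b : ℝ, 0 < b → (fun n b => Zring seedShift n 1 b) 120 b = ∑ k, Real.exp (-b *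
      ((mdl_twistRing_isHermitian (n := 120) (by norm_num) 1).eigenvalues k
        + seedShift * (120 : ℕ))) := fun b _ => seed_Zring_eq seedShift 1 _ b
  obtain ⟨k0, hk0⟩ := seed42_neg120 t120
  have cert := seed42_templeCert30 t30
  obtain ⟨z21, z42⟩ := seed42_Z30 hS tab _ he30 cert
  obtain ⟨s, t⟩ := seed42 hS tab _ he30 cert _ he120 hk0
  exact ⟨z21, z42, fun b hb => seed42_Z120_gt (Z := fun n b => Zring seedShift n 1 b) _ he120 hk0 hb,
    s, t⟩

end Claimed.Agent.R297
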