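/-
Row 297 (spin-one Haldane gap), package F6: level-0 spectral information at `b = 21/2` for GIVEN
sector lists (the lists are arguments, so that a consumer can use its own lists, e.g. the ones of
`transfer_main`).

`SectorLists Z ZP ZC b xI xO xN` : the three lists have the moments of Lemma "Sector moments" at `b`.
`seed_level0` : from the thermal table (tolerance `10⁻⁴`) and `1 < Z 120 (21/2)`:
* `|xI i| < U = 1.00243`, `|xN i| < V = 0.88645`, `xO i ^ 10 ≤ m_O = 0.0401`;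
* there is `k₀` with `|xI k₀| > ℓ = 0.9999`, and `xI i ^ 10 ≤ m_I - ℓ^10` for `i ≠ k₀`;
* every other eigenvalue (in any sector) has modulus `≤ ρ₀ |xI k₀|`, `ρ₀ = 0.8866`.
-/
import Claimed.Agent.R297.Seed60

namespace Claimed.Agent.R297

open Finset

/-- the three lists have the sector moments at inverse temperature `b`. -/
def SectorLists (Z ZP ZC : ℕ → ℝ → ℝ) (b : ℝ) {κI κO κN : Type*} (xI : κI → ℝ) (xO : κO → ℝ)
    (xN : κN → ℝ) : Prop :=
  ∀ n, 4 ≤ n → ∃ mI mO mN : ℝ,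
    HasSum (fun i => xI i ^ n) mI ∧ HasSum (fun i => xO i ^ n) mO ∧
    HasSum (fun i => xN i ^ n) mN ∧
    Z n b = mI + 2 * mO + 3 * mN ∧ ZP n b = mI + 2 * mO - mN ∧ ZC n b = mI - mO

/-- two distinct terms of a nonnegative summable family. -/
theorem seed_two_terms_le {κ : Type*} {f : κ → ℝ} {s : ℝ} (hf : ∀ i, 0 ≤ f i) (hs : HasSum f s)
    {i j : κ} (hij : i ≠ j) : f i + f j ≤ s := by
  classical
  have := sum_le_hasSum ({i, j} : Finset κ) (fun k _ => hf k) hs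
  rwa [Finset.sum_pair hij] at this

theorem seed_abs_le_of_pow10 {x y : ℝ} (hy : 0 ≤ y) (h : x ^ 10 ≤ y ^ 10) : |x| ≤ y := by
  have h2 : |x| ^ 10 ≤ y ^ 10 := by rwa [(by decide : Even 10).pow_abs]
  exact le_of_pow_le_pow_left₀ (by norm_num) hy h2

/-- **Level-0 spectral information for given lists.** -/
theorem seed_level0 {Z ZP ZC : ℕ → ℝ → ℝ} {κI κO κN : Type*} {xI : κI → ℝ} {xO : κO → ℝ}
    {xN : κN → ℝ} (hx : SectorLists Z ZP ZC (21 / 2) xI xO xN) (tab : Table60 Z ZP ZC)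
    (h120 : 1 < Z 120 (21 / 2)) :
    (∀ i, |xI i| < 100243 / 100000) ∧ (∀ i, |xN i| < 88645 / 100000) ∧
    (∀ i, xO i ^ 10 ≤ 401 / 10000) ∧
    ∃ k0, 9999 / 10000 < |xI k0| ∧
      (∀ i, i ≠ k0 → xI i ^ 10 ≤ 104275 / 100000 - (9999 / 10000) ^ 10) ∧
      (∀ i, i ≠ k0 → |xI i| ≤ 8866 / 10000 * |xI k0|) ∧
      (∀ i, |xO i| ≤ 8866 / 10000 * |xI k0|) ∧ (∀ i, |xN i| ≤ 8866 / 10000 * |xI k0|) := by
  obtain ⟨I6, O6, N6, hI6, hO6, hN6, z6, p6, c6⟩ := hx 6 (by norm_num)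
  obtain ⟨I8, O8, N8, hI8, hO8, hN8, z8, p8, c8⟩ := hx 8 (by norm_num)
  obtain ⟨I10, O10, N10, hI10, hO10, hN10, z10, p10, c10⟩ := hx 10 (by norm_num)
  obtain ⟨I120, O120, N120, hI120, hO120, hN120, z120, -, -⟩ := hx 120 (by norm_num)
  obtain ⟨I30, O30, N30, hI30, hO30, hN30, -, -, -⟩ := hx 30 (by norm_num)
  have t1 := abs_le.1 tab.z6
  have t2 := abs_le.1 tab.p6
  have t3 := abs_le.1 tab.c6
  have t4 := abs_le.1 tab.z8
  have t5 := abs_le.1 tab.p8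
  have t6 := abs_le.1 tab.c8
  have t7 := abs_le.1 tab.z10
  have t8 := abs_le.1 tab.p10
  have t9 := abs_le.1 tab.c10
  rw [z6] at t1; rw [p6] at t2; rw [c6] at t3
  rw [z8] at t4; rw [p8] at t5; rw [c8] at t6
  rw [z10] at t7; rw [p10] at t8; rw [c10] at t9
  obtain ⟨t1a, t1b⟩ := t1
  obtain ⟨t2a, t2b⟩ := t2
  obtain ⟨t3a, t3b⟩ := t3
  obtain ⟨t4a, t4b⟩ := t4
  obtain ⟨t5a, t5b⟩ := t5
  obtain ⟨t6a, t6b⟩ := t6
  obtain ⟨t7a, t7b⟩ := t7
  obtain ⟨t8a, t8b⟩ := t8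
  obtain ⟨t9a, t9b⟩ := t9
  have fI : ∀ i, |xI i| < 100243 / 100000 :=
    seed_filter hI6 hI8 hI10 (c0 := -2) (c1 := 10) (B := 657284 / 10000)
      (by linarith) (by norm_num) (by norm_num) (by norm_num) (by norm_num)
  have fN : ∀ i, |xN i| < 88645 / 100000 :=
    seed_filter hN6 hN8 hN10 (c0 := -25) (c1 := 100) (B := 13928077 / 10000)
      (by linarith) (by norm_num) (by norm_num) (by norm_num) (by norm_num)
  have mI : I10 ≤ 104275 / 100000 := by linarith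
  have mO : O10 ≤ 401 / 10000 := by linarith
  have mN : N10 ≤ 40167 / 100000 := by linarith
  have e10 : Even 10 := by decide
  have fO : ∀ i, xO i ^ 10 ≤ 401 / 10000 := fun i =>
    le_trans (le_hasSum hO10 i fun j _ => e10.pow_nonneg _) mO
  obtain ⟨-, bN120⟩ := seed_capped_moments fN hN10 hN30 hN120 mN (by norm_num) (by norm_num)
  obtain ⟨-, bO120⟩ := seed_uncapped_moments hO10 hO30 hO120 mO
  -- a large eigenvalue in `I`
  have hex : ∃ k0, 9999 / 10000 < |xI k0| := by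
    by_contra hcon
    push Not at hcon
    have hlt : ∀ i, |xI i| < 99991 / 100000 := fun i => lt_of_le_of_lt (hcon i) (by norm_num)
    obtain ⟨-, bI120⟩ := seed_capped_moments hlt hI10 hI30 hI120 mI (by norm_num) (by norm_num)
    have cI120 : ((99991 / 100000 : ℝ) ^ 10) ^ 12 + (104275 / 100000 - (99991 / 100000) ^ 10) ^ 12
        ≤ 99 / 100 := by norm_num
    have cN120 : ((88645 / 100000 : ℝ) ^ 10) ^ 12 + (40167 / 100000 - (88645 / 100000) ^ 10) ^ 12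
        ≤ 1 / 1000000 := by norm_num
    have cO120 : (401 / 10000 : ℝ) ^ 12 ≤ 1 / 1000000 := by norm_num
    rw [z120] at h120
    linarith
  obtain ⟨k0, hk0⟩ := hex
  have hk10 : (9999 / 10000 : ℝ) ^ 10 ≤ xI k0 ^ 10 :=
    calc (9999 / 10000 : ℝ) ^ 10 ≤ |xI k0| ^ 10 := pow_le_pow_left₀ (by norm_num) hk0.le 10
      _ = xI k0 ^ 10 := e10.pow_abs _
  have hrest : ∀ i, i ≠ k0 → xI i ^ 10 ≤ 104275 / 100000 - (9999 / 10000) ^ 10 := by
    intro i hi
    have := seed_two_terms_le (f := fun i => xI i ^ 10) (fun i => e10.pow_nonneg _) hI10 hi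
    linarith
  have hρ : (8866 / 10000 * (9999 / 10000) : ℝ) ≤ 8866 / 10000 * |xI k0| :=
    mul_le_mul_of_nonneg_left hk0.le (by norm_num)
  refine ⟨fI, fN, fO, k0, hk0, hrest, ?_, ?_, ?_⟩
  · intro i hi
    refine le_trans (seed_abs_le_of_pow10 (y := 8866 / 10000 * (9999 / 10000)) (by norm_num) ?_) hρ
    exact le_trans (hrest i hi) (by norm_num)
  · intro i
    refine le_trans (seed_abs_le_of_pow10 (y := 8866 / 10000 * (9999 / 10000)) (by norm_num) ?_) hρ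
    exact le_trans (fO i) (by norm_num)
  · intro i
    refine le_trans (fN i).le (le_trans ?_ hρ)
    norm_num

/-- The same in the shape asked for by the boundary initialisation (`BInit*`). -/
theorem seed_level0_abs {κI κO κN : Type*} {xI : κI → ℝ} {xO : κO → ℝ} {xN : κN → ℝ}
    {Z ZP ZC : ℕ → ℝ → ℝ}
    (hx : ∀ n, 4 ≤ n → ∃ mI mO mN : ℝ, HasSum (fun i => xI i ^ n) mI ∧
      HasSum (fun i => xO i ^ n) mO ∧ HasSum (fun i => xN i ^ n) mN ∧
      Z n (21 / 2) = mI + 2 * mO + 3 * mN ∧ ZP n (21 / 2) = mI + 2 * mO - mN ∧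
      ZC n (21 / 2) = mI - mO)
    (tab : Table60 Z ZP ZC) (h120 : 1 < Z 120 (21 / 2)) :
    (∀ i, |xI i| < 100243 / 100000) ∧ (∀ i, |xN i| < 88645 / 100000) ∧
    (∀ i, |xO i| ≤ 73 / 100) ∧
    ∃ k0, 9999 / 10000 < |xI k0| ∧ ∀ k, k ≠ k0 → |xI k| ≤ 74 / 100 := by
  obtain ⟨fI, fN, fO, k0, hk0, hrest, -, -, -⟩ := seed_level0 (xI := xI) (xO := xO) (xN := xN) hx
    tab h120
  refine ⟨fI, fN, fun i => ?_, k0, hk0, fun k hk => ?_⟩
  · exact seed_abs_le_of_pow10 (by norm_num) (le_trans (fO i) (by norm_num))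
  · exact seed_abs_le_of_pow10 (by norm_num) (le_trans (hrest k hk) (by norm_num))

/-- `SectorLists` from `tsum` identities (the shape of `transfer_ring` / `transfer_main`). -/
theorem sectorLists_of_tsum {Z ZP ZC : ℕ → ℝ → ℝ} {b : ℝ} {lamI lamO lamN : ℕ → ℝ}
    (sI : ∀ n, 4 ≤ n → Summable fun k => lamI k ^ n)
    (sO : ∀ n, 4 ≤ n → Summable fun k => lamO k ^ n)
    (sN : ∀ n, 4 ≤ n → Summable fun k => lamN k ^ n)
    (h : ∀ n, 4 ≤ n →
      Z n b = ∑' k, lamI k ^ n + 2 * ∑' k, lamO k ^ n + 3 * ∑' k, lamN k ^ n ∧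
      ZP n b = ∑' k, lamI k ^ n + 2 * ∑' k, lamO k ^ n - ∑' k, lamN k ^ n ∧
      ZC n b = ∑' k, lamI k ^ n - ∑' k, lamO k ^ n) :
    SectorLists Z ZP ZC b lamI lamO lamN := fun n hn =>
  ⟨_, _, _, (sI n hn).hasSum, (sO n hn).hasSum, (sN n hn).hasSum, (h n hn).1, (h n hn).2.1,
    (h n hn).2.2⟩

end Claimed.Agent.R297
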