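/-
Row 297 (spin-one Haldane gap), S0548 redesign (Temple design, `b₀ = 21/2`), owner helper174.
LEVEL 0 of the boundary chain, list-free and list parts:
* `binit_filter`     : `c_k P(λ_k)² ≤ I₆ - .26 I₅ - .3631 I₄ + .0494 I₃ + .0361 I₂`
* `binit_c0_le`      : the boundary weight of the leading line is at most `0.015692`
* `binit_level0_res` : residual and total of `Y₀ m` from `BLead` with `e = 1`, `κ = 0.8866`
* numerical consequences `E₀ ≤ .185`, `EA · Y₀ m ≤ 1 + R_m`.
-/
import Claimed.Agent.R297.BdryGlue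
import Claimed.Agent.R297.Seed42Glue
import Claimed.Agent.R297.BInitChain
import Claimed.Agent.R297.BInitRaw
import Claimed.Agent.R297.Seed60Lists

namespace Claimed.Agent.R297

/-- the filter polynomial `P(x) = x³ - 0.13 x² - 0.19 x`. -/
noncomputable def binitP (x : ℝ) : ℝ := x ^ 3 - 13 / 100 * x ^ 2 - 19 / 100 * x

theorem binit_P_sq (x : ℝ) : binitP x ^ 2 = x ^ 6 - 26 / 100 * x ^ 5 - 3631 / 10000 * x ^ 4
    + 494 / 10000 * x ^ 3 + 361 / 10000 * x ^ 2 := by
  unfold binitP; ring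

theorem binit_P_ge {x : ℝ} (hx : 9999 / 10000 ≤ x) : 67974 / 100000 ≤ binitP x := by
  unfold binitP
  nlinarith [mul_nonneg (sub_nonneg.2 hx) (sub_nonneg.2 hx),
    mul_nonneg (mul_nonneg (sub_nonneg.2 hx) (sub_nonneg.2 hx)) (sub_nonneg.2 hx)]

/-- The positive filter: one line of a weighted list against five weighted moments. -/
theorem binit_filter {κ : Type*} {c x : κ → ℝ} (hc : ∀ k, 0 ≤ c k) {S2 S3 S4 S5 S6 : ℝ}
    (h2 : HasSum (fun k => c k * x k ^ 2) S2) (h3 : HasSum (fun k => c k * x k ^ 3) S3)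
    (h4 : HasSum (fun k => c k * x k ^ 4) S4) (h5 : HasSum (fun k => c k * x k ^ 5) S5)
    (h6 : HasSum (fun k => c k * x k ^ 6) S6) (k0 : κ) :
    c k0 * binitP (x k0) ^ 2 ≤ S6 - 26 / 100 * S5 - 3631 / 10000 * S4 + 494 / 10000 * S3
      + 361 / 10000 * S2 := by
  have H : HasSum (fun k => c k * binitP (x k) ^ 2) (S6 - 26 / 100 * S5 - 3631 / 10000 * S4
      + 494 / 10000 * S3 + 361 / 10000 * S2) := by
    have := (((h6.sub (h5.mul_left (26 / 100))).sub (h4.mul_left (3631 / 10000))).add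
      (h3.mul_left (494 / 10000))).add (h2.mul_left (361 / 10000))
    have e : (fun k => c k * binitP (x k) ^ 2) = fun b =>
        c b * x b ^ 6 - 26 / 100 * (c b * x b ^ 5) - 3631 / 10000 * (c b * x b ^ 4)
          + 494 / 10000 * (c b * x b ^ 3) + 361 / 10000 * (c b * x b ^ 2) := by
      funext k
      rw [binit_P_sq]; ring
    rw [e]
    exact this
  exact le_hasSum H k0 fun k _ => mul_nonneg (hc k) (sq_nonneg _)

/-- the boundary weight of a line with `x ≥ 0.9999`. -/
theorem binit_c0_le {c0 x0 Q : ℝ} (hc : 0 ≤ c0) (hx : 9999 / 10000 ≤ x0)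
    (hQ : c0 * binitP x0 ^ 2 ≤ Q) (hQ' : Q ≤ 725 / 100000) : c0 ≤ 15692 / 1000000 := by
  have h1 := binit_P_ge hx
  have h2 : (67974 / 100000 : ℝ) ^ 2 ≤ binitP x0 ^ 2 := pow_le_pow_left₀ (by norm_num) h1 2
  have h3 : c0 * (67974 / 100000 : ℝ) ^ 2 ≤ c0 * binitP x0 ^ 2 := mul_le_mul_of_nonneg_left h2 hc
  nlinarith

/-- residual and total of `Y₀ m` at level `0`. -/
theorem binit_level0_res {Z Y Ys : ℕ → ℝ} {lam c : ℝ}
    (hL : BLead Z Y Ys 3 1 (8866 / 10000) lam c) (hU : lam ≤ 100243 / 100000)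
    (hc : c ≤ 15692 / 1000000) (hY6 : Y 6 ≤ 448 / 10000) {m : ℕ} (hm : Even m) (h6 : 6 ≤ m) :
    Y m - c * lam ^ m ≤ 448 / 10000 * (8866 / 10000 * (100243 / 100000)) ^ (m - 6) ∧
      Y m ≤ 15692 / 1000000 * (100243 / 100000) ^ m
        + 448 / 10000 * (8866 / 10000 * (100243 / 100000)) ^ (m - 6) := by
  have hl := hL.lam_pos
  have h1 := hL.Y_res 6 m ((8866 / 10000) ^ (m - 6)) (by decide) hm (by norm_num) h6
    (by positivity) (by rw [pow_one])
  have h2 : 0 ≤ c * lam ^ 6 := mul_nonneg hL.c_nonneg (by positivity)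
  have h3 : lam ^ (m - 6) ≤ (100243 / 100000) ^ (m - 6) := pow_le_pow_left₀ hl.le hU _
  have h4 : Y 6 - c * lam ^ 6 ≤ 448 / 10000 := by linarith
  have h5 : 0 ≤ Y 6 - c * lam ^ 6 := by
    have := hL.Y_ge 6 (by decide) (by norm_num)
    linarith
  have hres : Y m - c * lam ^ m ≤ 448 / 10000 * (8866 / 10000 * (100243 / 100000)) ^ (m - 6) := by
    refine le_trans h1 ?_
    rw [mul_pow]
    calc (8866 / 10000 : ℝ) ^ (m - 6) * lam ^ (m - 6) * (Y 6 - c * lam ^ 6)
        ≤ (8866 / 10000 : ℝ) ^ (m - 6) * (100243 / 100000) ^ (m - 6) * (448 / 10000) := by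
          apply mul_le_mul _ h4 h5 (by positivity)
          exact mul_le_mul_of_nonneg_left h3 (by positivity)
      _ = _ := by ring
  refine ⟨hres, ?_⟩
  have h6' : lam ^ m ≤ (100243 / 100000) ^ m := pow_le_pow_left₀ hl.le hU _
  have h7 : c * lam ^ m ≤ 15692 / 1000000 * (100243 / 100000) ^ m :=
    mul_le_mul hc h6' (by positivity) (by norm_num)
  linarith

/-- `exp (b₀ α) ≤ EA`. -/
theorem binit_exp_EA : Real.exp (21 / 2 * (2021 / 5000)) ≤ 697 / 10 := by
  have e : (21 / 2 * (2021 / 5000) : ℝ) = 4 * 1 + 2441 / 10000 := by norm_num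
  have h4 : Real.exp (4 * 1) = Real.exp 1 ^ 4 := by
    rw [← Real.exp_nat_mul]; norm_num
  have h1 : Real.exp 1 ^ 4 ≤ (2.7182818286 : ℝ) ^ 4 :=
    pow_le_pow_left₀ (Real.exp_pos _).le Real.exp_one_lt_d9.le 4
  have h2 : Real.exp (2441 / 10000) ≤ 127648 / 100000 := by
    have h := Real.exp_bound' (x := 2441 / 10000) (by norm_num) (by norm_num) (n := 6)
      (by norm_num)
    refine le_trans h ?_
    norm_num [Finset.sum_range_succ, Nat.factorial]
  rw [e, Real.exp_add, h4]
  calc Real.exp 1 ^ 4 * Real.exp (2441 / 10000)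
      ≤ (2.7182818286 : ℝ) ^ 4 * (127648 / 100000) :=
        mul_le_mul h1 h2 (Real.exp_pos _).le (by positivity)
    _ ≤ 697 / 10 := by norm_num

theorem binit_num30 : (697 / 10 : ℝ) * (448 / 10000 * (8866 / 10000 * (100243 / 100000)) ^ (30 - 6))
    ≤ 185 / 1000 := by norm_num

theorem binit_num60 : (697 / 10 : ℝ) * (15692 / 1000000 * (100243 / 100000) ^ 60
    + 448 / 10000 * (8866 / 10000 * (100243 / 100000)) ^ (60 - 6)) ≤ 1 + 271 / 1000 := by norm_num

theorem binit_num90 : (697 / 10 : ℝ) * (15692 / 1000000 * (100243 / 100000) ^ 90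
    + 448 / 10000 * (8866 / 10000 * (100243 / 100000)) ^ (90 - 6)) ≤ 1 + 361 / 1000 := by norm_num

theorem binit_num120 : (697 / 10 : ℝ) * (15692 / 1000000 * (100243 / 100000) ^ 120
    + 448 / 10000 * (8866 / 10000 * (100243 / 100000)) ^ (120 - 6)) ≤ 1 + 464 / 1000 := by norm_num

/-- `I`-sector boundary moment at `b₀ = 21/2` (data side). -/
noncomputable def binitI (n : ℕ) : ℝ :=
  (Zopen seedShift n (3 / 5) (-(3 / 5)) (21 / 2) + Zopen seedShift n (3 / 5) (3 / 5) (21 / 2)
    + 4 * ZopenX seedShift n (3 / 5) (-(3 / 5)) (21 / 2)) / 6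

/-- (D3) the two inequalities on the short open chains at `b₀ = 21/2`. -/
def BInitThermalCert : Prop :=
  Zopen seedShift 6 (3 / 5) (-(3 / 5)) (21 / 2) ≤ 448 / 10000 ∧
  binitI 6 - 26 / 100 * binitI 5 - 3631 / 10000 * binitI 4 + 494 / 10000 * binitI 3
    + 361 / 10000 * binitI 2 ≤ 725 / 100000

/-- **Level 0.**  The leading line at `b₀ = 21/2` lies in the sector `I`. -/
theorem binit_level0 {lamI lamO lamN cI cO cN : ℕ → ℝ}
    (H : BInitRaw seedShift (3 / 5) (21 / 2) lamI lamO lamN cI cO cN)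
    (tab : Table60Ring) (h120 : 1 < Zring seedShift 120 1 (21 / 2)) (hD : BInitThermalCert) :
    ∃ k0, BLead (fun n => Zring seedShift n 1 (21 / 2))
        (fun n => Zopen seedShift n (3 / 5) (-(3 / 5)) (21 / 2))
        (fun n => Zopen seedShift n (3 / 5) (3 / 5) (21 / 2)) 3 1 (8866 / 10000)
        (lamI k0) (cI k0) ∧
      lamI k0 ≤ 100243 / 100000 ∧ cI k0 ≤ 15692 / 1000000 := by
  obtain ⟨fI, fN, fO, k0, hk0, hrest⟩ := seed_level0_abs
    (Z := fun n b => Zring seedShift n 1 b) (ZP := fun n b => Zring seedShift n rotP b)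
    (ZC := fun n b => Zring seedShift n rotC b) H.sector tab h120
  have hS := H.bspat
  have hothers : ∀ i, i ≠ Sum.inl k0 → |binitMu lamI lamO lamN i| ≤ 88645 / 100000 :=
    binitMu_abs_le (fun k hk => (hrest k hk).trans (by norm_num))
      (fun k => (fO k).trans (by norm_num)) (fun k => (fN k).le)
  have hdom : ∀ i, |binitMu lamI lamO lamN i| ≤ |binitMu lamI lamO lamN (Sum.inl k0)| := by
    intro i
    by_cases hi : i = Sum.inl k0
    · rw [hi]
    · refine (hothers i hi).trans ?_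
      rw [binitMu_inl]
      linarith
  obtain ⟨-, -, -, lq⟩ := seed_low_temperature (seed_sectorRep_Zring seedShift) tab
  have hpow : (98 / 100 : ℝ) ≤ lamI k0 ^ 120 := by
    rw [← (by decide : Even 120).pow_abs]
    refine le_trans (by norm_num) (pow_le_pow_left₀ (by norm_num) hk0.le 120)
  have hZ121 : 0 < Zring seedShift 121 1 (21 / 2) := by
    have := (bphys_concrete seedShift (3 / 5) (21 / 2)).Z_pos 0 121 (by norm_num)
    simpa [bZ] using this
  have hpos : 0 < lamI k0 := hS.lead_pos (Sum.inl k0) hdom (N := 120) (by decide) (by norm_num)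
    (by rw [binitMu_inl]; linarith) hZ121
  have hl : 9999 / 10000 < lamI k0 := by rwa [abs_of_pos hpos] at hk0
  have hU : lamI k0 < 100243 / 100000 := by
    have := fI k0
    rwa [abs_of_pos hpos] at this
  have hlead := hS.lead (Sum.inl k0) hpos (e := 1) (κ := 8866 / 10000) le_rfl (by norm_num)
    (by norm_num) (by
      intro i hi
      rw [pow_one, pow_one, binitMu_inl]
      refine (hothers i hi).trans ?_
      linarith)
  refine ⟨k0, hlead, hU.le, ?_⟩
  have hf := binit_filter H.cI0 (H.hasSumI (n := 2) le_rfl) (H.hasSumI (n := 3) (by norm_num))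
    (H.hasSumI (n := 4) (by norm_num)) (H.hasSumI (n := 5) (by norm_num))
    (H.hasSumI (n := 6) (by norm_num)) k0
  rw [H.momentI le_rfl, H.momentI (n := 3) (by norm_num), H.momentI (n := 4) (by norm_num),
    H.momentI (n := 5) (by norm_num), H.momentI (n := 6) (by norm_num)] at hf
  exact binit_c0_le (H.cI0 k0) hl.le hf hD.2

end Claimed.Agent.R297
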