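/-
Row 297 (spin-one Haldane gap), S0548 redesign, owner helper174.
LEVELS 1 and 2 (`b = 21`, `b = 42`): the leading line with `|ξ|^30 ≤ κ lam^30` from the
Temple-based bounds on the thirtieth spatial moment (`Seed42`).
-/
import Claimed.Agent.R297.BInitRaw
import Claimed.Agent.R297.Seed42Glue

namespace Claimed.Agent.R297

/-- A dominant entry of the glued list (exponent `30`) gives `BLead`. -/
theorem binit_lead30 {ι : Type*} {μ w σ : ι → ℝ} {Z Y Ys : ℕ → ℝ} (hS : BSpat μ w σ Z Y Ys 3)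
    {κ : ℝ} (hκ0 : 0 ≤ κ) (hκ1 : κ < 1) (i0 : ι) (hlt : Z 30 < 2 * μ i0 ^ 30) (h31 : 0 < Z 31)
    (hres : ∀ i, i ≠ i0 → |μ i| ^ 30 ≤ κ * |μ i0| ^ 30) :
    BLead Z Y Ys 3 30 κ (μ i0) (w i0) := by
  have hdom : ∀ i, |μ i| ≤ |μ i0| := by
    intro i
    by_cases hi : i = i0
    · rw [hi]
    · have h1 := hres i hi
      have h2 : 0 ≤ |μ i0| ^ 30 := by positivity
      exact le_of_pow_le_pow_left₀ (by norm_num : (30 : ℕ) ≠ 0) (abs_nonneg _) (by nlinarith)
  have hpos : 0 < μ i0 := hS.lead_pos i0 hdom (N := 30) (by decide) (by norm_num) hlt h31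
  refine hS.lead i0 hpos (by norm_num) hκ0 hκ1 fun i hi => ?_
  have := hres i hi
  rwa [abs_of_pos hpos] at this

theorem binit_Zring_pos (a : ℝ) (n : ℕ) (b : ℝ) : 0 < Zring a n 1 b := by
  have := Zper_phys a n (mdl_heisenbergRing_isHermitian n) b
  unfold Zper at this
  rw [this]
  exact Finset.sum_pos (fun k _ => Real.exp_pos _) Finset.univ_nonempty

/-- **Level 1** (`b = 21`). -/
theorem binit_level1 {h : ℝ} {lamI lamO lamN cI cO cN : ℕ → ℝ}
    (H : BInitRaw seedShift h 21 lamI lamO lamN cI cO cN)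
    (hD : Zring seedShift 30 1 21 ≤ 1091397 / 1000000) (h1 : 1 < Zring seedShift 120 1 21) :
    ∃ i0, BLead (fun n => Zring seedShift n 1 21) (fun n => Zopen seedShift n h (-h) 21)
      (fun n => Zopen seedShift n h h 21) 3 30 (916 / 10000)
      (binitMu lamI lamO lamN i0) (binitW cI cO cN i0) := by
  have hS := H.bspat
  obtain ⟨i0, ha, -, hc⟩ := seed42_rho21 (Z := fun n b => Zring seedShift n 1 b)
    (hS.hZ 30 (by norm_num)) (hS.hZ 120 (by norm_num)) hD h1
  exact ⟨i0, binit_lead30 hS (by norm_num) (by norm_num) i0 (by linarith)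
    (binit_Zring_pos _ _ _) hc⟩

/-- **Level 2** (`b = 42`). -/
theorem binit_level2 {h : ℝ} {lamI lamO lamN cI cO cN : ℕ → ℝ}
    (H : BInitRaw seedShift h 42 lamI lamO lamN cI cO cN)
    (hD : Zring seedShift 30 1 42 ≤ 1136844 / 1000000) (h1 : 1 < Zring seedShift 120 1 42) :
    ∃ i0, BLead (fun n => Zring seedShift n 1 42) (fun n => Zopen seedShift n h (-h) 42)
      (fun n => Zopen seedShift n h h 42) 3 30 (1372 / 10000)
      (binitMu lamI lamO lamN i0) (binitW cI cO cN i0) := by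
  have hS := H.bspat
  obtain ⟨i0, ha, -, hc⟩ := seed42_rho42 (Z := fun n b => Zring seedShift n 1 b)
    (hS.hZ 30 (by norm_num)) (hS.hZ 120 (by norm_num)) hD h1
  exact ⟨i0, binit_lead30 hS (by norm_num) (by norm_num) i0 (by linarith)
    (binit_Zring_pos _ _ _) hc⟩

end Claimed.Agent.R297
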