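/-
Row 297 (spin-one Haldane gap), package G7 (boundary-field paper).
Concrete temperature levels `b_j = 2^j b₀`:
* `bspat_of_transfer`     : `transfer_main` repackaged with `BSpat` on the glued list;
* `BSpat.lead_of_dominant`     : a dominant entry of the glued list gives `BLead`;
* `blead_of_spur`         : `BLead` from a spatial purity bound;
* `bdry_purity_of_ground` : one Boltzmann weight `≥ γ`, total `≤ γ (1+R)`  ⟹
                            `(Y_j)² ≤ (1 + R^(2^j))² Y_{j+1}`  (Lemma "in:seedbounds", second half);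
* `BPhys.shift`, `BLevels`, `btw_levels`, `BLevels.tower` : all levels above the periodic seeds
                            (from `TwoRep.dyadic`) and the tower that starts `t` levels higher.
-/
import Claimed.Agent.R297.BdryGlue

namespace Claimed.Agent.R297

open Matrix

/-- `transfer_main` together with `BSpat` for the glued lists. -/
theorem bspat_of_transfer (a h b : ℝ) (hb : 0 < b) :
    ∃ lamI lamO lamN cI cO cN : ℕ → ℝ,
      Summable (fun k => lamI k ^ 2) ∧ Summable (fun k => lamO k ^ 2) ∧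
      Summable (fun k => lamN k ^ 2) ∧
      (∀ k, 0 ≤ cI k) ∧ (∀ k, 0 ≤ cO k) ∧ (∀ k, 0 ≤ cN k) ∧
      Summable cI ∧ Summable cO ∧ Summable cN ∧
      (∀ n : ℕ, 3 ≤ n →
        Zring a n 1 b
          = ∑' k, lamI k ^ n + 2 * ∑' k, lamO k ^ n + 3 * ∑' k, lamN k ^ n ∧
        Zring a n rotP b
          = ∑' k, lamI k ^ n + 2 * ∑' k, lamO k ^ n - ∑' k, lamN k ^ n ∧
        Zring a n rotC b = ∑' k, lamI k ^ n - ∑' k, lamO k ^ n) ∧
      (∀ n : ℕ, 2 ≤ n →
        Zopen a n h (-h) b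
          = ∑' k, cI k * lamI k ^ n + ∑' k, cO k * lamO k ^ n + ∑' k, cN k * lamN k ^ n ∧
        Zopen a n h h b
          = ∑' k, cI k * lamI k ^ n + ∑' k, cO k * lamO k ^ n - ∑' k, cN k * lamN k ^ n ∧
        ZopenX a n h (-h) b
          = ∑' k, cI k * lamI k ^ n - (1 / 2) * ∑' k, cO k * lamO k ^ n) ∧
      BSpat (bglue lamI lamO lamO lamN lamN lamN) (bglue cI cO 0 cN 0 0)
        (bglue cI cO 0 (fun k => - cN k) 0 0) (fun n => Zring a n 1 b)
        (fun n => Zopen a n h (-h) b) (fun n => Zopen a n h h b) 3 := by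
  obtain ⟨lamI, lamO, lamN, cI, cO, cN, sI, sO, sN, hcI, hcO, hcN, scI, scO, scN, -, hring,
    hopen⟩ := transfer_main a h b hb
  refine ⟨lamI, lamO, lamN, cI, cO, cN, sI, sO, sN, hcI, hcO, hcN, scI, scO, scN, hring, hopen,
    ?_⟩
  refine bspat_glue (B := ∑' k, cI k + ∑' k, cO k + ∑' k, cN k) sI sO sN hcI hcO hcN ?_
    (fun n hn => (hring n hn).1) (fun n hn => (hopen n (by omega)).1)
    (fun n hn => (hopen n (by omega)).2.1)
  intro k
  have h1 : cI k ≤ ∑' k, cI k := scI.le_tsum k fun j _ => hcI j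
  have h2 : cO k ≤ ∑' k, cO k := scO.le_tsum k fun j _ => hcO j
  have h3 : cN k ≤ ∑' k, cN k := scN.le_tsum k fun j _ => hcN j
  have p1 : 0 ≤ ∑' k, cI k := tsum_nonneg hcI
  have p2 : 0 ≤ ∑' k, cO k := tsum_nonneg hcO
  have p3 : 0 ≤ ∑' k, cN k := tsum_nonneg hcN
  refine ⟨by linarith, by linarith, by linarith⟩

/-- A dominant entry (in the shape produced by the seed packages) gives the list-free summary. -/
theorem BSpat.lead_of_dominant {ι : Type*} {μ w σ : ι → ℝ} {Z Y Ys : ℕ → ℝ} {k0 : ℕ}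
    (h : BSpat μ w σ Z Y Ys k0) (i₀ : ι) {e : ℕ} {κ : ℝ} (he : Even e) (he1 : 1 ≤ e)
    (hk : k0 ≤ e) (hκ0 : 0 ≤ κ) (hκ : κ < 1)
    (hres : ∀ i, i ≠ i₀ → |μ i| ^ e ≤ κ * |μ i₀| ^ e)
    (hlt : Z e < 2 * μ i₀ ^ e) (hodd : 0 < Z (e + 1)) :
    0 < μ i₀ ∧ BLead Z Y Ys k0 e κ (μ i₀) (w i₀) := by
  have hdom : ∀ i, |μ i| ≤ |μ i₀| := by
    intro i
    by_cases hi : i = i₀
    · rw [hi]
    · have h4 : |μ i| ^ e ≤ |μ i₀| ^ e := by
        have h5 := hres i hi
        have h6 : 0 ≤ |μ i₀| ^ e := by positivity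
        nlinarith
      exact le_of_pow_le_pow_left₀ (by omega) (abs_nonneg _) h4
  have hpos : 0 < μ i₀ := h.lead_pos i₀ hdom he hk hlt hodd
  refine ⟨hpos, h.lead i₀ hpos he1 hκ0 hκ fun i hi => ?_⟩
  have := hres i hi
  rwa [abs_of_pos hpos] at this

/-! ### physical purity from one large Boltzmann weight -/

/-- `∑ x^p ≤ (∑ x)^p` for nonnegative finite families, `p ≥ 1`. -/
theorem bdry_sum_pow_le {ι : Type*} (s : Finset ι) (x : ι → ℝ) (hx : ∀ i ∈ s, 0 ≤ x i) {p : ℕ}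
    (hp : 1 ≤ p) : ∑ i ∈ s, x i ^ p ≤ (∑ i ∈ s, x i) ^ p := by
  have h := pow_sum_pow_le s x hx (n := 1) (L := p) le_rfl hp
  simpa using h

/-- Lemma "in:seedbounds", second half, for a finite nonnegative list `g`. -/
theorem bdry_purity_of_ground {ι : Type*} [Fintype ι] (g : ι → ℝ) (hg : ∀ k, 0 ≤ g k) (k₀ : ι)
    {γ R : ℝ} (hγ : 0 < γ) (hk₀ : γ ≤ g k₀) (hR : 0 ≤ R) (htot : ∑ k, g k ≤ γ * (1 + R))
    {p : ℕ} (hp : 1 ≤ p) :
    (∑ k, g k ^ p) ^ 2 ≤ (1 + R ^ p) ^ 2 * ∑ k, g k ^ (2 * p) := by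
  classical
  set G := g k₀ with hG
  have hGpos : 0 < G := lt_of_lt_of_le hγ hk₀
  -- the rest
  have hsplit : ∀ f : ι → ℝ, ∑ k, f k = f k₀ + ∑ k ∈ Finset.univ.erase k₀, f k := fun f =>
    (Finset.add_sum_erase _ f (Finset.mem_univ k₀)).symm
  have hrest : ∑ k ∈ Finset.univ.erase k₀, g k ≤ R * G := by
    have h1 := hsplit g
    have h2 : γ * (1 + R) ≤ G * (1 + R) := mul_le_mul_of_nonneg_right hk₀ (by linarith)
    rw [← hG] at h1
    linarith
  have hrest0 : 0 ≤ ∑ k ∈ Finset.univ.erase k₀, g k := Finset.sum_nonneg fun k _ => hg k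
  have hrestp : ∑ k ∈ Finset.univ.erase k₀, g k ^ p ≤ (R * G) ^ p :=
    le_trans (bdry_sum_pow_le _ g (fun k _ => hg k) hp) (pow_le_pow_left₀ hrest0 hrest p)
  have h1 : ∑ k, g k ^ p ≤ G ^ p * (1 + R ^ p) := by
    rw [hsplit fun k => g k ^ p, ← hG]
    rw [mul_pow] at hrestp
    nlinarith
  have h0 : 0 ≤ ∑ k, g k ^ p := Finset.sum_nonneg fun k _ => pow_nonneg (hg k) _
  have h2 : G ^ (2 * p) ≤ ∑ k, g k ^ (2 * p) :=
    Finset.single_le_sum (f := fun k => g k ^ (2 * p)) (fun k _ => pow_nonneg (hg k) _)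
      (Finset.mem_univ k₀)
  calc (∑ k, g k ^ p) ^ 2 ≤ (G ^ p * (1 + R ^ p)) ^ 2 := pow_le_pow_left₀ h0 h1 2
    _ = (1 + R ^ p) ^ 2 * G ^ (2 * p) := by rw [mul_pow, ← pow_mul, mul_comm p 2]; ring
    _ ≤ (1 + R ^ p) ^ 2 * ∑ k, g k ^ (2 * p) := mul_le_mul_of_nonneg_left h2 (by positivity)

/-- The same for the opposite-field chain: an eigenvalue `ε` with `ε + a n ≤ α` and the bound
`Y_0(n) ≤ e^{-b₀ α} (1 + R)` give the physical purity at every level. -/
theorem bY_purity_of_ground (a h b0 : ℝ) (hb0 : 0 < b0) (m : ℕ) {α R EA : ℝ}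
    (k₀ : Fin (m + 1) → Fin 3)
    (hk₀ : (mdl_openChain_isHermitian m h (-h)).eigenvalues k₀ + a * (m + 1 : ℕ) ≤ α)
    (hEA : Real.exp (b0 * α) ≤ EA) (hR : 0 ≤ R)
    (htot : EA * bY a h b0 0 (m + 1) ≤ 1 + R) (j : ℕ) :
    bY a h b0 j (m + 1) ^ 2 ≤ (1 + R ^ (2 ^ j)) ^ 2 * bY a h b0 (j + 1) (m + 1) := by
  set e : (Fin (m + 1) → Fin 3) → ℝ := fun k =>
    (mdl_openChain_isHermitian m h (-h)).eigenvalues k + a * (m + 1 : ℕ) with he
  set g : (Fin (m + 1) → Fin 3) → ℝ := fun k => Real.exp (-b0 * e k) with hg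
  have hlev : ∀ i : ℕ, bY a h b0 i (m + 1) = ∑ k, g k ^ (2 ^ i) := by
    intro i
    unfold bY
    rw [Zopen_phys]
    refine Finset.sum_congr rfl fun k _ => ?_
    simp only [hg, he]
    rw [← Real.exp_nat_mul]
    congr 1
    push_cast
    ring
  have hEApos : 0 < EA := lt_of_lt_of_le (Real.exp_pos _) hEA
  have hγ : (0:ℝ) < 1 / EA := by positivity
  have hground : 1 / EA ≤ g k₀ := by
    have h1 : Real.exp (-(b0 * α)) ≤ g k₀ := by
      simp only [hg]
      apply Real.exp_le_exp.2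
      have : e k₀ ≤ α := hk₀
      nlinarith
    have h2 : 1 / EA ≤ Real.exp (-(b0 * α)) := by
      rw [Real.exp_neg, one_div]
      exact inv_anti₀ (Real.exp_pos _) hEA
    linarith
  have htot' : ∑ k, g k ≤ 1 / EA * (1 + R) := by
    have h0 := hlev 0
    simp only [pow_zero, pow_one] at h0
    rw [← h0, div_mul_eq_mul_div, one_mul, le_div_iff₀ hEApos]
    linarith
  have key := bdry_purity_of_ground g (fun k => (Real.exp_pos _).le) k₀ hγ hground hR htot'
    (p := 2 ^ j) Nat.one_le_two_pow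
  rw [hlev j, hlev (j + 1), pow_succ 2 j, mul_comm (2 ^ j) 2]
  exact key

/-! ### shifting the start level -/

theorem BPhys.shift {Z Y Ys : ℕ → ℕ → ℝ} {k0 : ℕ} (h : BPhys Z Y Ys k0) (s : ℕ) :
    BPhys (fun j => Z (j + s)) (fun j => Y (j + s)) (fun j => Ys (j + s)) k0 where
  Z_pos := fun j n hn => h.Z_pos (j + s) n hn
  Y_pos := fun j n hn => h.Y_pos (j + s) n hn
  Ys_pos := fun j n hn => h.Ys_pos (j + s) n hn
  Z_le := fun j n hn => by
    have := h.Z_le (j + s) n hn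
    rwa [show j + s + 1 = j + 1 + s by omega] at this
  Y_le := fun j n hn => by
    have := h.Y_le (j + s) n hn
    rwa [show j + s + 1 = j + 1 + s by omega] at this
  Y_sq := fun j n hn => by
    have := h.Y_sq (j + s) n hn
    rwa [show j + s + 1 = j + 1 + s by omega, show j + s + 2 = j + 2 + s by omega] at this

theorem bZ_eq_Zper (a b0 : ℝ) (j n : ℕ) : bZ a b0 j n = Zper a n (2 ^ j * b0) := rfl

/-- `BLead` at one concrete level from a bound on the spatial purity. -/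
theorem blead_of_spur (a h b0 : ℝ) (hb0 : 0 < b0) (j : ℕ) {n : ℕ} {u : ℝ} (hn : Even n)
    (hn3 : 3 ≤ n) (hu : u < 1 / 2) (hS : 1 - u ≤ spur (Zper a) n (2 ^ j * b0)) :
    ∃ l c : ℝ, BLead (bZ a b0 j) (bY a h b0 j) (bYs a h b0 j) 3 n (bdryD u) l c ∧
      (1 - u) * bZ a b0 j n ≤ l ^ n := by
  have hb : 0 < 2 ^ j * b0 := by positivity
  obtain ⟨lamI, lamO, lamN, cI, cO, cN, -, -, -, -, -, -, -, -, -, -, -, hsp⟩ :=
    bspat_of_transfer a h (2 ^ j * b0) hb
  have hP := bphys_concrete a h b0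
  have hpos : 0 < bZ a b0 j n := hP.Z_pos j n hn3
  have hP' : (1 - u) * bZ a b0 j n ^ 2 ≤ bZ a b0 j (2 * n) := by
    unfold spur at hS
    rw [le_div_iff₀ (by rw [← bZ_eq_Zper]; positivity)] at hS
    exact hS
  obtain ⟨i₀, -, h1, -, h2⟩ := hsp.exists_lead_of_purity (n := n) (u := u) hn hn3 (by omega) hu
    hpos (hP.Z_pos j (n + 1) (by omega)) hP'
  exact ⟨_, _, h2, h1⟩

/-- The data at all temperature levels `i + s` above the periodic seed level `s`
(lengths `2^i n₀`, defects `u i`). -/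
structure BLevels (a h b0 : ℝ) (s n₀ : ℕ) (u lam c : ℕ → ℝ) : Prop where
  lead : ∀ i, BLead (bZ a b0 (i + s)) (bY a h b0 (i + s)) (bYs a h b0 (i + s)) 3 (2 ^ i * n₀)
    (bdryD (u i)) (lam i) (c i)
  frac : ∀ i, (1 - u i) * bZ a b0 (i + s) (2 ^ i * n₀) ≤ lam i ^ (2 ^ i * n₀)
  purS : ∀ i, (1 - u i) * bZ a b0 (i + s) (2 ^ i * n₀) ^ 2 ≤ bZ a b0 (i + s) (2 * (2 ^ i * n₀))
  purT : ∀ i, (1 - u i) * bZ a b0 (i + s) (2 * (2 ^ i * n₀)) ^ 2 ≤
    bZ a b0 (i + 1 + s) (2 * (2 ^ i * n₀))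

/-- **All levels above the periodic seeds.**  `s` is the seed level, `b₀` the base inverse
temperature; the periodic purities at `(n₀, 2^s b₀)` are at least `1 - u₀`. -/
theorem btw_levels (a h b0 : ℝ) (hb0 : 0 < b0) (s : ℕ) {u₀ C : ℝ} (hsc : BootScalars u₀ C)
    {n₀ : ℕ} (hn : Even n₀) (h4 : 4 ≤ n₀)
    (hS : 1 - u₀ ≤ spur (Zper a) n₀ (2 ^ s * b0))
    (hT : 1 - u₀ ≤ ppur (Zper a) (2 * n₀) (2 ^ s * b0)) :
    ∃ lam c : ℕ → ℝ, BLevels a h b0 s n₀ (udef u₀ C) lam c := by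
  have hZ := twoRep_Zper a mdl_heisenbergRing_isHermitian
  have hbs : 0 < 2 ^ s * b0 := by positivity
  have hdy := hZ.dyadic hsc hn h4 hbs hS hT
  have hlev : ∀ j : ℕ, (2:ℝ) ^ j * (2 ^ s * b0) = 2 ^ (j + s) * b0 := fun j => by
    rw [pow_add]; ring
  have hulo : ∀ j, udef u₀ C j < 1 / 2 := fun j => by
    have := hsc.udef_le j
    have := hsc.u_lt
    linarith
  have hlen : ∀ j : ℕ, 3 ≤ 2 ^ j * n₀ := fun j =>
    le_trans (by omega) (Nat.le_mul_of_pos_left n₀ (by positivity))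
  have hex : ∀ j : ℕ, ∃ l c : ℝ,
      BLead (bZ a b0 (j + s)) (bY a h b0 (j + s)) (bYs a h b0 (j + s)) 3 (2 ^ j * n₀)
        (bdryD (udef u₀ C j)) l c ∧ (1 - udef u₀ C j) * bZ a b0 (j + s) (2 ^ j * n₀) ≤
          l ^ (2 ^ j * n₀) := by
    intro j
    have h1 := (hdy j).1
    rw [hlev j] at h1
    exact blead_of_spur a h b0 hb0 (j + s) (n := 2 ^ j * n₀) (hn.mul_left _) (hlen j) (hulo j) h1
  choose lam c hlc using hex
  refine ⟨lam, c, fun j => (hlc j).1, fun j => (hlc j).2, fun j => ?_, fun j => ?_⟩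
  · have h1 := (hdy j).1
    rw [hlev j] at h1
    unfold spur at h1
    have hpos : 0 < Zper a (2 ^ j * n₀) (2 ^ (j + s) * b0) :=
      (bphys_concrete a h b0).Z_pos (j + s) _ (hlen j)
    rw [le_div_iff₀ (by positivity)] at h1
    exact h1
  · have h1 := (hdy j).2
    rw [hlev j] at h1
    unfold ppur at h1
    have hpos : 0 < Zper a (2 * (2 ^ j * n₀)) (2 ^ (j + s) * b0) :=
      (bphys_concrete a h b0).Z_pos (j + s) _ (by have := hlen j; omega)
    rw [le_div_iff₀ (by positivity)] at h1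
    have e2 : (2:ℝ) * (2 ^ (j + s) * b0) = 2 ^ (j + 1 + s) * b0 := by
      rw [show j + 1 + s = (j + s) + 1 by omega, pow_succ]; ring
    rw [bZ_eq_Zper, bZ_eq_Zper, ← e2]
    exact h1

/-- The tower that starts `t` levels above the seed level. -/
theorem BLevels.tower {a h b0 : ℝ} {s n₀ : ℕ} {u lam c : ℕ → ℝ} (H : BLevels a h b0 s n₀ u lam c)
    (hn : Even n₀) (h3 : 3 ≤ n₀) (hu0 : ∀ i, 0 ≤ u i) (hu : ∀ i, u (i + 1) ≤ 6 * u i ^ 2)
    (t : ℕ) :
    BTower (fun j => bZ a b0 (j + (t + s))) (fun j => bY a h b0 (j + (t + s)))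
      (fun j => bYs a h b0 (j + (t + s))) 3 (fun j => 2 ^ (j + t) * n₀) (fun j => u (j + t))
      (fun j => lam (j + t)) (fun j => c (j + t)) where
  phys := (bphys_concrete a h b0).shift (t + s)
  N_succ := fun j => by
    show 2 ^ (j + 1 + t) * n₀ = 2 * (2 ^ (j + t) * n₀)
    rw [show j + 1 + t = (j + t) + 1 by omega, pow_succ]; ring
  N_even := hn.mul_left _
  N_ge := le_trans h3 (Nat.le_mul_of_pos_left n₀ (by positivity))
  u_nonneg := fun j => hu0 _
  u_succ := fun j => by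
    have := hu (j + t)
    rwa [show j + t + 1 = j + 1 + t by omega] at this
  lead := fun j => by
    have := H.lead (j + t)
    rwa [show j + t + s = j + (t + s) by omega] at this
  frac := fun j => by
    have := H.frac (j + t)
    rwa [show j + t + s = j + (t + s) by omega] at this
  purT := fun j => by
    have := H.purT (j + t)
    rw [show j + t + s = j + (t + s) by omega, show j + t + 1 + s = j + 1 + (t + s) by omega,
      show 2 * (2 ^ (j + t) * n₀) = 2 ^ (j + 1 + t) * n₀ by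
        rw [show j + 1 + t = (j + t) + 1 by omega, pow_succ]; ring] at this
    exact this

theorem BootScalars.udef_succ_le_six {u₀ C : ℝ} (hsc : BootScalars u₀ C) (hC : C ≤ 6) (i : ℕ) :
    udef u₀ C (i + 1) ≤ 6 * udef u₀ C i ^ 2 := by
  rw [hsc.udef_succ i]
  exact mul_le_mul_of_nonneg_right hC (sq_nonneg _)

end Claimed.Agent.R297
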