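/-
Row 297 (spin-one Haldane gap), package G8 (boundary-field paper): the last step.
* `boundary_gap_of_tower` : a `BTower` on the concrete levels `2^(j+S) b₀` with small initial
                            defects gives the gap of the equal-field open chain of every length
                            `≥ N 1`;
* `boundary_of_levels`    : the frozen statement S0548 from `BLevels` (seed level `2`, `b = 42`,
                            `n₀ = 60`) and the two outputs of the finite chain at level `5`.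
-/
import Claimed.Agent.R297.BdryTower

namespace Claimed.Agent.R297

open Matrix

/-- The gap of the equal-field chain from a tower on the concrete levels. -/
theorem boundary_gap_of_tower {a h b0 : ℝ} (hb0 : 0 < b0) {S : ℕ} {N : ℕ → ℕ}
    {u lam c : ℕ → ℝ} {x0 : ℝ}
    (T : BTower (fun j => bZ a b0 (j + S)) (fun j => bY a h b0 (j + S))
      (fun j => bYs a h b0 (j + S)) 3 N u lam c)
    (hx0 : 0 < x0) (hx1 : x0 ≤ 1 / 100) (hu : u 0 ≤ x0)
    (hE : bY a h b0 (0 + S) (N 0) - c 0 * lam 0 ^ N 0 ≤ x0 * bY a h b0 (0 + S) (N 0))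
    (hη : (1 - x0) * bY a h b0 (0 + S) (N 1) ^ 2 ≤ bY a h b0 (1 + S) (N 1)) (hN0 : 0 < N 0)
    {m : ℕ} (hm : N 1 ≤ m + 1) {g : ℝ} (hg : g ≤ Real.log (1 / (10 * x0)) / (2 ^ S * b0)) :
    RawGapGT (openChain m h h) g := by
  have hb : 0 < 2 ^ S * b0 := by positivity
  obtain ⟨k₀, hk₀⟩ := T.gap hx0 hx1 hu hE hη hN0 hm hb
    (mdl_openChain_isHermitian m h h).eigenvalues (a * (m + 1 : ℕ)) (fun j => by
      show bYs a h b0 (j + S) (m + 1) = _
      unfold bYs
      rw [Zopen_phys]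
      refine Finset.sum_congr rfl fun k _ => ?_
      congr 1
      rw [pow_add]
      ring)
  refine rawGap_of_eigenvalues _ (mdl_openChain_isHermitian m h h) g k₀ fun k hk => ?_
  have := hk₀ k hk
  linarith

/-- **S0548 from the levels above the periodic seeds and the finite boundary chain.** -/
theorem boundary_of_levels {a : ℝ} {u lam c : ℕ → ℝ}
    (H : BLevels a (3 / 5) (21 / 2) 2 60 u lam c)
    (hu0 : ∀ i, 0 ≤ u i) (hu : ∀ i, u (i + 1) ≤ 6 * u i ^ 2) (hu3 : u 3 ≤ 1 / 100)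
    {xE xη : ℝ} (hxE : xE ≤ 1 / 100) (hxη : xη ≤ 1 / 100)
    (hE : bY a (3 / 5) (21 / 2) 5 480 - c 3 * lam 3 ^ 480 ≤ xE * bY a (3 / 5) (21 / 2) 5 480)
    (hη : (1 - xη) * bY a (3 / 5) (21 / 2) 5 960 ^ 2 ≤ bY a (3 / 5) (21 / 2) 6 960)
    (L : ℕ) (hL : 960 ≤ L) :
    Claims.C0476.UniqueGroundStateGapGT (Claims.C0476.heisenbergOpenField L (3 / 5))
      (Real.log 10 / 392) := by
  have T := H.tower (by decide) (by norm_num) hu0 hu 3
  have hP := bphys_concrete a (3 / 5) (21 / 2)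
  have hY1 : 0 < bY a (3 / 5) (21 / 2) 5 480 := hP.Y_pos 5 480 (by norm_num)
  have hY2 : 0 < bY a (3 / 5) (21 / 2) 5 960 := hP.Y_pos 5 960 (by norm_num)
  rw [mdl_heisenbergOpenField_eq]
  apply gapGT_C0476
  refine boundary_gap_of_tower (x0 := 1 / 100) (by norm_num) T (by norm_num) le_rfl hu3 ?_ ?_
    (by norm_num) (m := 2 * L) ?_ ?_
  · show bY a (3 / 5) (21 / 2) 5 480 - c 3 * lam 3 ^ 480 ≤ 1 / 100 * bY a (3 / 5) (21 / 2) 5 480
    nlinarith
  · show (1 - 1 / 100) * bY a (3 / 5) (21 / 2) 5 960 ^ 2 ≤ bY a (3 / 5) (21 / 2) 6 960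
    have : 0 < bY a (3 / 5) (21 / 2) 5 960 ^ 2 := by positivity
    nlinarith
  · show 2 ^ (1 + 3) * 60 ≤ 2 * L + 1
    omega
  · have h10 : 0 < Real.log 10 := Real.log_pos (by norm_num)
    rw [show (1:ℝ) / (10 * (1 / 100)) = 10 by norm_num,
      show (2:ℝ) ^ (3 + 2) * (21 / 2) = 336 by norm_num]
    apply div_le_div_of_nonneg_left h10.le (by norm_num) (by norm_num)

end Claimed.Agent.R297
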