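/-
Row 297 (spin-one Haldane gap), package G9 (boundary-field paper): S0548 from the three lowest
temperature levels.  `b_j = 2^j * 21/2`.  Inputs: `BLead` at the levels `0, 1, 2`, the periodic
seeds at `(60 | 120, 42)`, the boundary seed at level `0` and three physical purities.
Everything above is supplied by `btw_levels`, `binit_chain` and `boundary_of_levels`.
-/
import Claimed.Agent.R297.BdryAssembly
import Claimed.Agent.R297.BInitChain

namespace Claimed.Agent.R297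

theorem bdry_bootScalars : BootScalars (37 / 1000) 6 where
  u_pos := by norm_num
  u_lt := by norm_num
  G_le := by norm_num
  r_lt := by norm_num
  C_gt := by norm_num

/-- the list `x0, x1, x2, f 1, f 2, f 3, ...`. -/
def bdryPatch (x0 x1 x2 : ℝ) (f : ℕ → ℝ) : ℕ → ℝ
  | 0 => x0
  | 1 => x1
  | 2 => x2
  | (j + 3) => f (j + 1)

/-- **S0548 from the levels `0, 1, 2`.** -/
theorem boundary_of_low_levels {a : ℝ} {e0 : ℕ} {κ0 κ1 κ2 l0 l1 l2 c0 c1 c2 : ℝ}
    (hL0 : BLead (bZ a (21 / 2) 0) (bY a (3 / 5) (21 / 2) 0) (bYs a (3 / 5) (21 / 2) 0) 3 e0 κ0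
      l0 c0)
    (hL1 : BLead (bZ a (21 / 2) 1) (bY a (3 / 5) (21 / 2) 1) (bYs a (3 / 5) (21 / 2) 1) 3 30 κ1
      l1 c1)
    (hL2 : BLead (bZ a (21 / 2) 2) (bY a (3 / 5) (21 / 2) 2) (bYs a (3 / 5) (21 / 2) 2) 3 30 κ2
      l2 c2)
    (hκ1 : κ1 ≤ 92 / 1000) (hκ2 : κ2 ≤ 138 / 1000)
    (hS : 963 / 1000 ≤ spur (fun n b => Zring a n 1 b) 60 42)
    (hT : 974 / 1000 ≤ ppur (fun n b => Zring a n 1 b) 120 42)
    (hE0 : bY a (3 / 5) (21 / 2) 0 30 - c0 * l0 ^ 30 ≤ 185 / 1000 * bY a (3 / 5) (21 / 2) 0 30)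
    (hA0 : 619 / 1000 * bY a (3 / 5) (21 / 2) 0 60 ^ 2 ≤ bY a (3 / 5) (21 / 2) 1 60)
    (hA1 : 782 / 1000 * bY a (3 / 5) (21 / 2) 1 90 ^ 2 ≤ bY a (3 / 5) (21 / 2) 2 90)
    (hA2 : (1 - 87 / 1000) * bY a (3 / 5) (21 / 2) 2 120 ^ 2 ≤ bY a (3 / 5) (21 / 2) 3 120)
    (L : ℕ) (hL : 960 ≤ L) :
    Claims.C0476.UniqueGroundStateGapGT (Claims.C0476.heisenbergOpenField L (3 / 5))
      (Real.log 10 / 392) := by
  have hsc := bdry_bootScalars
  have h42 : (2:ℝ) ^ 2 * (21 / 2) = 42 := by norm_num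
  have hS' : 1 - 37 / 1000 ≤ spur (Zper a) 60 (2 ^ 2 * (21 / 2)) := by
    rw [h42]
    refine le_trans (by norm_num) hS
  have hT' : 1 - 37 / 1000 ≤ ppur (Zper a) (2 * 60) (2 ^ 2 * (21 / 2)) := by
    rw [h42]
    refine le_trans (by norm_num) hT
  obtain ⟨lam, c, H⟩ := btw_levels a (3 / 5) (21 / 2) (by norm_num) 2 hsc (n₀ := 60) (by decide)
    (by norm_num) hS' hT'
  set u := udef (37 / 1000) 6 with hu
  have u0 : u 0 = 37 / 1000 := by rw [hu]; unfold udef; norm_num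
  have u1 : u 1 = 8214 / 1000000 := by rw [hu]; unfold udef; norm_num
  have u2 : u 2 = 6 * (8214 / 1000000) ^ 2 := by rw [hu]; unfold udef; norm_num
  have u3 : u 3 = 6 * (6 * (8214 / 1000000) ^ 2) ^ 2 := by rw [hu]; unfold udef; norm_num
  have hP := bphys_concrete a (3 / 5) (21 / 2)
  -- the ratios of the leading eigenvalues
  have hρ2 : 955 / 1000 * l2 ^ (2 * 120) ≤ lam 1 ^ 120 := by
    have h := blead_ratio_ge (Z := bZ a (21 / 2)) (Y := bY a (3 / 5) (21 / 2))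
      (Ys := bYs a (3 / 5) (21 / 2)) (j := 2) (M := 120) (u := u 0) (u' := u 1) (lam' := lam 1)
      hL2 (by decide) (by norm_num) (by rw [u0]; norm_num) (by rw [u1]; norm_num) (H.frac 1)
      (H.purT 0)
    refine le_trans (mul_le_mul_of_nonneg_right ?_ (pow_pos hL2.lam_pos _).le) h
    rw [u0, u1]; norm_num
  have hρ3 : 991 / 1000 * lam 1 ^ (2 * 240) ≤ lam 2 ^ 240 := by
    have h := blead_ratio_ge (Z := bZ a (21 / 2)) (Y := bY a (3 / 5) (21 / 2))
      (Ys := bYs a (3 / 5) (21 / 2)) (j := 3) (M := 240) (u := u 1) (u' := u 2) (lam' := lam 2)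
      (H.lead 1) (by decide) (by norm_num) (by rw [u1]; norm_num) (by rw [u2]; norm_num)
      (H.frac 2) (H.purT 1)
    refine le_trans (mul_le_mul_of_nonneg_right ?_ (pow_pos (H.lead 1).lam_pos _).le) h
    rw [u1, u2]; norm_num
  have hρ4 : 9995 / 10000 * lam 2 ^ (2 * 480) ≤ lam 3 ^ 480 := by
    have h := blead_ratio_ge (Z := bZ a (21 / 2)) (Y := bY a (3 / 5) (21 / 2))
      (Ys := bYs a (3 / 5) (21 / 2)) (j := 4) (M := 480) (u := u 2) (u' := u 3) (lam' := lam 3)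
      (H.lead 2) (by decide) (by norm_num) (by rw [u2]; norm_num) (by rw [u3]; norm_num)
      (H.frac 3) (H.purT 2)
    refine le_trans (mul_le_mul_of_nonneg_right ?_ (pow_pos (H.lead 2).lam_pos _).le) h
    rw [u2, u3]; norm_num
  obtain ⟨hE, hη⟩ := binit_chain hP (lam := bdryPatch l0 l1 l2 lam) (c := bdryPatch c0 c1 c2 c)
    hL0 hL1 hL2 (H.lead 1) (H.lead 2) (H.lead 3) hκ1 hκ2
    (by rw [u1]; unfold bdryD; norm_num) (by rw [u2]; unfold bdryD; norm_num)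
    (by rw [u3]; unfold bdryD; norm_num) hρ2 hρ3 hρ4 hE0 hA0 hA1 hA2
  exact boundary_of_levels H (fun i => (hsc.udef_pos i).le)
    (fun i => hsc.udef_succ_le_six le_rfl i) (by rw [u3]; norm_num) (xE := 1 / 1000)
    (xη := 1 / 10000) (by norm_num) (by norm_num) hE hη L hL

end Claimed.Agent.R297
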