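/-
Row 297 (spin-one Haldane gap), S0548 redesign (Temple design, `b₀ = 21/2`), owner helper174.
**Final assembly**: the frozen statement S0548 from the finite certificates
(D1) `Table60Ring`, (D2) `Trial120Cert`, `Trial30Cert`, (D3) `BInitThermalCert`,
(D4) `BInitTrialCert k` for `k + 1 = 30, 60, 90, 120`.
-/
import Claimed.Agent.R297.BInitLevel0
import Claimed.Agent.R297.BInitLevel12
import Claimed.Agent.R297.BdryAssembly2

namespace Claimed.Agent.R297

open Matrix

/-- (D4) a trial vector for the opposite-field open chain on `k + 1` sites with shifted energy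
below `α = 2021/5000`. -/
def BInitTrialCert (k : ℕ) : Prop :=
  ∃ v : (Fin (k + 1) → Fin 3) → ℂ,
    (star v ⬝ᵥ (openChain k (3 / 5) (-(3 / 5)) *ᵥ v)).re
      < (2021 / 5000 - ((k : ℝ) + 1) * (700741 / 500000)) * (star v ⬝ᵥ v).re

theorem binit_trial_eig {k : ℕ} (h : BInitTrialCert k) :
    ∃ k0, (mdl_openChain_isHermitian k (3 / 5) (-(3 / 5))).eigenvalues k0
      + seedShift * (k + 1 : ℕ) ≤ 2021 / 5000 := by
  obtain ⟨v, hv⟩ := h
  obtain ⟨k0, hk0⟩ := seed_exists_eigenvalue_lt _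
    (mdl_openChain_isHermitian k (3 / 5) (-(3 / 5))) _ v hv
  refine ⟨k0, ?_⟩
  unfold seedShift
  push_cast
  linarith

/-- lower bound for the opposite-field partition function at `b₀`. -/
theorem binit_bY_ge {m : ℕ} {k0 : Fin (m + 1) → Fin 3}
    (hk0 : (mdl_openChain_isHermitian m (3 / 5) (-(3 / 5))).eigenvalues k0
      + seedShift * (m + 1 : ℕ) ≤ 2021 / 5000) :
    10 / 697 ≤ Zopen seedShift (m + 1) (3 / 5) (-(3 / 5)) (21 / 2) := by
  rw [Zopen_phys]
  have h1 : Real.exp (-(21 / 2) * ((mdl_openChain_isHermitian m (3 / 5) (-(3 / 5))).eigenvalues k0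
      + seedShift * (m + 1 : ℕ))) ≤ ∑ k, Real.exp (-(21 / 2) *
      ((mdl_openChain_isHermitian m (3 / 5) (-(3 / 5))).eigenvalues k
        + seedShift * (m + 1 : ℕ))) :=
    Finset.single_le_sum (f := fun k => Real.exp (-(21 / 2) *
      ((mdl_openChain_isHermitian m (3 / 5) (-(3 / 5))).eigenvalues k
        + seedShift * (m + 1 : ℕ)))) (fun k _ => (Real.exp_pos _).le) (Finset.mem_univ k0)
  refine le_trans ?_ h1
  have h2 : Real.exp (-(21 / 2 * (2021 / 5000))) ≤ Real.exp (-(21 / 2) *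
      ((mdl_openChain_isHermitian m (3 / 5) (-(3 / 5))).eigenvalues k0
        + seedShift * (m + 1 : ℕ))) := by
    rw [Real.exp_le_exp]; nlinarith
  refine le_trans ?_ h2
  rw [Real.exp_neg]
  have h3 := binit_exp_EA
  have h4 : (697 / 10 : ℝ)⁻¹ ≤ (Real.exp (21 / 2 * (2021 / 5000)))⁻¹ :=
    inv_anti₀ (Real.exp_pos _) h3
  refine le_trans ?_ h4
  norm_num

theorem binit_bZ0 : bZ seedShift (21 / 2) 0 = fun n => Zring seedShift n 1 (21 / 2) := by
  funext n; simp [bZ]

theorem binit_bY0 (h : ℝ) : bY seedShift h (21 / 2) 0 = fun n => Zopen seedShift n h (-h) (21 / 2) := by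
  funext n; simp [bY]

theorem binit_bYs0 (h : ℝ) : bYs seedShift h (21 / 2) 0 = fun n => Zopen seedShift n h h (21 / 2) := by
  funext n; simp [bYs]

theorem binit_bZ1 : bZ seedShift (21 / 2) 1 = fun n => Zring seedShift n 1 21 := by
  funext n; unfold bZ; norm_num

theorem binit_bY1 (h : ℝ) : bY seedShift h (21 / 2) 1 = fun n => Zopen seedShift n h (-h) 21 := by
  funext n; unfold bY; norm_num

theorem binit_bYs1 (h : ℝ) : bYs seedShift h (21 / 2) 1 = fun n => Zopen seedShift n h h 21 := by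
  funext n; unfold bYs; norm_num

theorem binit_bZ2 : bZ seedShift (21 / 2) 2 = fun n => Zring seedShift n 1 42 := by
  funext n; unfold bZ; norm_num

theorem binit_bY2 (h : ℝ) : bY seedShift h (21 / 2) 2 = fun n => Zopen seedShift n h (-h) 42 := by
  funext n; unfold bY; norm_num

theorem binit_bYs2 (h : ℝ) : bYs seedShift h (21 / 2) 2 = fun n => Zopen seedShift n h h 42 := by
  funext n; unfold bYs; norm_num

/-- from `Y² ≤ (1+r)² Y'` to `t Y² ≤ Y'`. -/
theorem binit_purity_num {y y' r t : ℝ} (h : y ^ 2 ≤ (1 + r) ^ 2 * y') (hy' : 0 ≤ y') (ht : 0 ≤ t)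
    (hr : t * (1 + r) ^ 2 ≤ 1) : t * y ^ 2 ≤ y' := by
  calc t * y ^ 2 ≤ t * ((1 + r) ^ 2 * y') := mul_le_mul_of_nonneg_left h ht
    _ = (t * (1 + r) ^ 2) * y' := by ring
    _ ≤ 1 * y' := mul_le_mul_of_nonneg_right hr hy'
    _ = y' := one_mul _

/-- **S0548 from the finite certificates.** -/
theorem binit_main (tab : Table60Ring) (t120 : Trial120Cert) (t30 : Trial30Cert)
    (hD3 : BInitThermalCert) (h30 : BInitTrialCert 29) (h60 : BInitTrialCert 59)
    (h90 : BInitTrialCert 89) (h120 : BInitTrialCert 119) (L : ℕ) (hL : 960 ≤ L) :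
    Claims.C0476.UniqueGroundStateGapGT (Claims.C0476.heisenbergOpenField L (3 / 5))
      (Real.log 10 / 392) := by
  obtain ⟨z21, z42, hbig, hS, hT⟩ := seed42_Zring tab t120 t30
  obtain ⟨aI, aO, aN, dI, dO, dN, H0⟩ := binitRaw_exists seedShift (3 / 5) (21 / 2) (by norm_num)
  obtain ⟨bI, bO, bN, eI, eO, eN, H1⟩ := binitRaw_exists seedShift (3 / 5) 21 (by norm_num)
  obtain ⟨gI, gO, gN, fI, fO, fN, H2⟩ := binitRaw_exists seedShift (3 / 5) 42 (by norm_num)
  obtain ⟨k0, hL0, hU, hc⟩ := binit_level0 H0 tab (hbig _ (by norm_num)) hD3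
  obtain ⟨i1, hL1⟩ := binit_level1 H1 z21 (hbig _ (by norm_num))
  obtain ⟨i2, hL2⟩ := binit_level2 H2 z42 (hbig _ (by norm_num))
  have hP := bphys_concrete seedShift (3 / 5) (21 / 2)
  obtain ⟨j30, hj30⟩ := binit_trial_eig h30
  obtain ⟨j60, hj60⟩ := binit_trial_eig h60
  obtain ⟨j90, hj90⟩ := binit_trial_eig h90
  obtain ⟨j120, hj120⟩ := binit_trial_eig h120
  have r30 := (binit_level0_res hL0 hU hc hD3.1 (m := 30) (by decide) (by norm_num)).1
  have r60 := (binit_level0_res hL0 hU hc hD3.1 (m := 60) (by decide) (by norm_num)).2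
  have r90 := (binit_level0_res hL0 hU hc hD3.1 (m := 90) (by decide) (by norm_num)).2
  have r120 := (binit_level0_res hL0 hU hc hD3.1 (m := 120) (by decide) (by norm_num)).2
  have g30 := binit_bY_ge hj30
  have e0 : ∀ n, bY seedShift (3 / 5) (21 / 2) 0 n
      = Zopen seedShift n (3 / 5) (-(3 / 5)) (21 / 2) := fun n => congrFun (binit_bY0 _) n
  refine boundary_of_low_levels (a := seedShift) (e0 := 1) (κ0 := 8866 / 10000)
    (κ1 := 916 / 10000) (κ2 := 1372 / 10000) (l0 := aI k0) (c0 := dI k0)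
    (l1 := binitMu bI bO bN i1) (c1 := binitW eI eO eN i1)
    (l2 := binitMu gI gO gN i2) (c2 := binitW fI fO fN i2) ?_ ?_ ?_ (by norm_num) (by norm_num)
    hS hT ?_ ?_ ?_ ?_ L hL
  · rw [binit_bZ0, binit_bY0, binit_bYs0]; exact hL0
  · rw [binit_bZ1, binit_bY1, binit_bYs1]; exact hL1
  · rw [binit_bZ2, binit_bY2, binit_bYs2]; exact hL2
  · rw [e0]
    have hn := binit_num30
    have g30' : 10 / 697 ≤ Zopen seedShift 30 (3 / 5) (-(3 / 5)) (21 / 2) := g30
    set y := Zopen seedShift 30 (3 / 5) (-(3 / 5)) (21 / 2)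
    set q : ℝ := 448 / 10000 * (8866 / 10000 * (100243 / 100000)) ^ (30 - 6)
    have r30' : y - dI k0 * aI k0 ^ 30 ≤ q := r30
    clear_value q y
    linarith
  · have hp := bY_purity_of_ground seedShift (3 / 5) (21 / 2) (by norm_num) 59 j60 hj60
      binit_exp_EA (R := 271 / 1000) (by norm_num) (by
        rw [e0]
        exact le_trans (mul_le_mul_of_nonneg_left r60 (by norm_num)) binit_num60) 0
    exact binit_purity_num hp (hP.Y_pos 1 60 (by norm_num)).le (by norm_num) (by norm_num)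
  · have hp := bY_purity_of_ground seedShift (3 / 5) (21 / 2) (by norm_num) 89 j90 hj90
      binit_exp_EA (R := 361 / 1000) (by norm_num) (by
        rw [e0]
        exact le_trans (mul_le_mul_of_nonneg_left r90 (by norm_num)) binit_num90) 1
    exact binit_purity_num hp (hP.Y_pos 2 90 (by norm_num)).le (by norm_num) (by norm_num)
  · have hp := bY_purity_of_ground seedShift (3 / 5) (21 / 2) (by norm_num) 119 j120 hj120
      binit_exp_EA (R := 464 / 1000) (by norm_num) (by
        rw [e0]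
        exact le_trans (mul_le_mul_of_nonneg_left r120 (by norm_num)) binit_num120) 2
    exact binit_purity_num hp (hP.Y_pos 3 120 (by norm_num)).le (by norm_num) (by norm_num)

end Claimed.Agent.R297
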