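/-
Row 297 (spin-one Haldane gap), package G1 (boundary-field paper, analytic core).
Summable lists with one dominant entry.

* `bdry_rest_le`      : comparison of two sums after removal of one common index.
* `bdry_sq_rest_le`   : the sum of squares of a nonnegative family is at most the square of the sum,
                        after removal of one index.
* `bdry_exists_dominant` : a nonnegative summable family of purity `≥ 1 - u`, `u < 1/2`, has an entry
                        `a i₀ ≥ (1 - u) A`, and the rest is at most `u / (2 - 3 u) * a i₀`.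
-/
import Mathlib

namespace Claimed.Agent.R297

open Finset

variable {ι : Type*}

/-- Remove the index `i₀` from two sums and compare the rests termwise. -/
theorem bdry_rest_le {f g : ι → ℝ} {F G C : ℝ} (i₀ : ι) (hf : HasSum f F) (hg : HasSum g G)
    (h : ∀ i, i ≠ i₀ → |f i| ≤ C * g i) : |F - f i₀| ≤ C * (G - g i₀) := by
  classical
  have hf' : HasSum (Function.update f i₀ 0) (0 - f i₀ + F) := hf.update i₀ 0
  have hg' : HasSum (Function.update g i₀ 0) (0 - g i₀ + G) := hg.update i₀ 0
  have hg'' := hg'.mul_left C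
  have key : ∀ i, |Function.update f i₀ 0 i| ≤ C * Function.update g i₀ 0 i := by
    intro i
    by_cases hi : i = i₀
    · subst hi; simp
    · simpa [Function.update_of_ne hi] using h i hi
  have h1 : 0 - f i₀ + F ≤ C * (0 - g i₀ + G) :=
    hasSum_le (fun i => le_trans (le_abs_self _) (key i)) hf' hg''
  have h2 : -(0 - f i₀ + F) ≤ C * (0 - g i₀ + G) :=
    hasSum_le (fun i => le_trans (neg_le_abs _) (key i)) hf'.neg hg''
  rw [abs_le]
  constructor <;> linarith

/-- One entry of a nonnegative family is at most the sum. -/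
theorem bdry_single_le {f : ι → ℝ} {F : ℝ} (i₀ : ι) (hf : HasSum f F) (h : ∀ i, 0 ≤ f i) :
    f i₀ ≤ F := le_hasSum hf i₀ (fun i _ => h i)

/-- Another entry of a nonnegative family is at most the sum without the entry `i₀`. -/
theorem bdry_other_le {f : ι → ℝ} {F : ℝ} {i i₀ : ι} (hi : i ≠ i₀) (hf : HasSum f F)
    (h : ∀ i, 0 ≤ f i) : f i ≤ F - f i₀ := by
  classical
  have hf' : HasSum (Function.update f i₀ 0) (0 - f i₀ + F) := hf.update i₀ 0
  have h1 : Function.update f i₀ 0 i ≤ 0 - f i₀ + F := by
    refine le_hasSum hf' i (fun k _ => ?_)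
    by_cases hk : k = i₀
    · subst hk; simp
    · simpa [Function.update_of_ne hk] using h k
  rw [Function.update_of_ne hi] at h1
  linarith

/-- Sum of squares is at most the square of the sum (summable nonnegative families). -/
theorem bdry_sq_le {a : ι → ℝ} {A A2 : ℝ} (ha : ∀ i, 0 ≤ a i) (hA : HasSum a A)
    (hA2 : HasSum (fun i => a i ^ 2) A2) : A2 ≤ A ^ 2 := by
  have h1 : HasSum (fun i => A * a i) (A * A) := hA.mul_left A
  have : A2 ≤ A * A := by
    refine hasSum_le (fun i => ?_) hA2 h1
    have := bdry_single_le i hA ha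
    nlinarith [ha i]
  nlinarith

/-- A summable nonnegative family whose purity is at least `1 - u`, `u < 1/2`, has a dominant
entry.  (Lemma "Squaring and concentration" of the boundary paper, second half.) -/
theorem bdry_exists_dominant {a : ι → ℝ} {A A2 u : ℝ} (ha : ∀ i, 0 ≤ a i) (hA : HasSum a A)
    (hA2 : HasSum (fun i => a i ^ 2) A2) (hApos : 0 < A) (hu : u < 1 / 2)
    (hP : (1 - u) * A ^ 2 ≤ A2) :
    ∃ i₀, (1 - u) * A ≤ a i₀ ∧ (A - a i₀) * (2 - 3 * u) ≤ u * a i₀ := by
  classical
  -- existence of a large entry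
  have hex : ∃ i₀, (1 - u) * A ≤ a i₀ := by
    by_contra hcon
    push Not at hcon
    -- some entry is positive
    have hpos : ∃ i, 0 < a i := by
      by_contra hc
      push Not at hc
      have h0 : a = fun _ => 0 := funext fun i => le_antisymm (hc i) (ha i)
      rw [h0] at hA
      have := hA.unique hasSum_zero
      linarith
    obtain ⟨i, hi⟩ := hpos
    have h1 : HasSum (fun k => (1 - u) * A * a k) ((1 - u) * A * A) := hA.mul_left _
    have : A2 < (1 - u) * A * A := by
      refine hasSum_lt (i := i) (fun k => ?_) ?_ hA2 h1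
      · have := hcon k
        show a k ^ 2 ≤ (1 - u) * A * a k
        nlinarith [ha k]
      · have := hcon i
        show a i ^ 2 < (1 - u) * A * a i
        nlinarith
    nlinarith
  obtain ⟨i₀, hi₀⟩ := hex
  refine ⟨i₀, hi₀, ?_⟩
  -- the rest
  have hR : HasSum (Function.update a i₀ 0) (0 - a i₀ + A) := hA.update i₀ 0
  have hR2 : HasSum (Function.update (fun i => a i ^ 2) i₀ 0) (0 - a i₀ ^ 2 + A2) :=
    hA2.update i₀ 0
  have hR2' : HasSum (fun i => Function.update a i₀ 0 i ^ 2) (0 - a i₀ ^ 2 + A2) := by
    convert hR2 using 1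
    funext i
    by_cases hi : i = i₀
    · subst hi; simp
    · simp [Function.update_of_ne hi]
  have hnn : ∀ i, 0 ≤ Function.update a i₀ 0 i := by
    intro i
    by_cases hi : i = i₀
    · subst hi; simp
    · simpa [Function.update_of_ne hi] using ha i
  have hsq := bdry_sq_le hnn hR hR2'
  have hle : a i₀ ≤ A := bdry_single_le i₀ hA ha
  set a0 := a i₀
  set R := A - a0 with hRdef
  have hR0 : 0 ≤ R := by linarith
  -- 2 a0 R ≤ u A²
  have h2 : 2 * a0 * R ≤ u * A ^ 2 := by
    have : A2 ≤ a0 ^ 2 + R ^ 2 := by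
      have : 0 - a0 + A = R := by rw [hRdef]; ring
      rw [this] at hsq; linarith
    have hAeq : A = a0 + R := by rw [hRdef]; ring
    nlinarith
  have hAeq : A = a0 + R := by rw [hRdef]; ring
  have ha0 : 0 < a0 := lt_of_lt_of_le (by nlinarith) hi₀
  -- R ≤ u A
  have hRu : R ≤ u * A := by nlinarith
  have hu0 : 0 ≤ u := by
    by_contra hneg
    push Not at hneg
    nlinarith
  -- goal: R (2 - 3u) ≤ u a0.
  -- from 2 a0 R ≤ u (a0 + R)^2 and R ≤ u (a0+R)
  rw [hAeq] at h2 hRu
  nlinarith [mul_nonneg hR0 ha0.le, mul_nonneg hu0 hR0, mul_nonneg hu0 ha0.le]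

end Claimed.Agent.R297
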