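/-
Row 297 (spin-one Haldane gap), package G2 (boundary-field paper, analytic core).
One temperature level: the spatial eigenvalue list `μ`, the boundary weights `w` and the signed
boundary weights `σ`.  From a dominant simple positive eigenvalue we extract the list-free
interface `BLead`, which is all that the multi-level recursion uses.
-/
import Claimed.Agent.R297.BdryList

namespace Claimed.Agent.R297

/-- The spatial representation at one temperature: `Z n = ∑ μ^n`, `Y n = ∑ w μ^n`,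
`Ys n = ∑ σ μ^n` for `n ≥ k0`. A simple eigenvalue has `σ = w`. -/
structure BSpat {ι : Type*} (μ w σ : ι → ℝ) (Z Y Ys : ℕ → ℝ) (k0 : ℕ) : Prop where
  w_nonneg : ∀ i, 0 ≤ w i
  σ_le : ∀ i, |σ i| ≤ w i
  hZ : ∀ n, k0 ≤ n → HasSum (fun i => μ i ^ n) (Z n)
  hY : ∀ n, k0 ≤ n → HasSum (fun i => w i * μ i ^ n) (Y n)
  hYs : ∀ n, k0 ≤ n → HasSum (fun i => σ i * μ i ^ n) (Ys n)
  simple : ∀ i, (∀ k, k ≠ i → μ k ≠ μ i) → σ i = w i

/-- List-free summary of one temperature level: `lam` is the simple positive leading spatial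
eigenvalue, `c` the boundary weight of its line, and every other eigenvalue `ξ` satisfies
`|ξ|^e ≤ κ lam^e`. -/
structure BLead (Z Y Ys : ℕ → ℝ) (k0 e : ℕ) (κ lam c : ℝ) : Prop where
  lam_pos : 0 < lam
  c_nonneg : 0 ≤ c
  κ_nonneg : 0 ≤ κ
  κ_lt_one : κ < 1
  Z_ge : ∀ N, Even N → k0 ≤ N → lam ^ N ≤ Z N
  Z_bdd : ∃ C, ∀ N, Even N → k0 ≤ N → Z N ≤ C * lam ^ N
  Y_ge : ∀ k, Even k → k0 ≤ k → c * lam ^ k ≤ Y k
  Y_res : ∀ k m q, Even k → Even m → k0 ≤ k → k ≤ m → 0 ≤ q → κ ^ (m - k) ≤ q ^ e →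
    Y m - c * lam ^ m ≤ q * lam ^ (m - k) * (Y k - c * lam ^ k)
  Ys_res : ∀ M N, Even M → k0 ≤ M → M ≤ N →
    |Ys N - c * lam ^ N| ≤ lam ^ (N - M) * (Y M - c * lam ^ M)

variable {ι : Type*} {μ w σ : ι → ℝ} {Z Y Ys : ℕ → ℝ} {k0 : ℕ}

theorem bdry_even_pow_abs (x : ℝ) {n : ℕ} (hn : Even n) : |x| ^ n = x ^ n := hn.pow_abs x

/-- The sign of the dominant eigenvalue: if the remaining even moment is smaller than the leading
one and the next odd moment is positive, the dominant eigenvalue is positive. -/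
theorem BSpat.lead_pos (h : BSpat μ w σ Z Y Ys k0) (i₀ : ι) (hdom : ∀ i, |μ i| ≤ |μ i₀|)
    {N : ℕ} (hN : Even N) (hk : k0 ≤ N) (hlt : Z N < 2 * μ i₀ ^ N) (hpos : 0 < Z (N + 1)) :
    0 < μ i₀ := by
  by_contra hneg
  push Not at hneg
  have h1 := bdry_rest_le (C := |μ i₀|) i₀ (h.hZ (N + 1) (by omega)) (h.hZ N hk) (by
    intro i _
    rw [abs_pow, pow_succ, ← bdry_even_pow_abs (μ i) hN, mul_comm]
    exact mul_le_mul_of_nonneg_right (hdom i) (by positivity))
  have h2 : μ i₀ ^ (N + 1) = - (|μ i₀| * μ i₀ ^ N) := by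
    rw [abs_of_nonpos hneg, pow_succ]; ring
  have h3 := (abs_le.1 h1).2
  have h4 : 0 ≤ |μ i₀| := abs_nonneg _
  rw [h2] at h3
  nlinarith

/-- Construction of the list-free summary. -/
theorem BSpat.lead (h : BSpat μ w σ Z Y Ys k0) (i₀ : ι) (hpos : 0 < μ i₀) {e : ℕ} {κ : ℝ}
    (he : 1 ≤ e) (hκ0 : 0 ≤ κ) (hκ : κ < 1) (hres : ∀ i, i ≠ i₀ → |μ i| ^ e ≤ κ * μ i₀ ^ e) :
    BLead Z Y Ys k0 e κ (μ i₀) (w i₀) := by
  set lam := μ i₀ with hlam
  have hlt : ∀ i, i ≠ i₀ → |μ i| < lam := by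
    intro i hi
    have h1 : |μ i| ^ e < lam ^ e := by
      have := hres i hi
      have h2 : 0 < lam ^ e := by positivity
      nlinarith
    exact lt_of_pow_lt_pow_left₀ e hpos.le h1
  have hle : ∀ i, i ≠ i₀ → |μ i| ≤ lam := fun i hi => (hlt i hi).le
  have hσ : σ i₀ = w i₀ := by
    apply h.simple
    intro k hk heq
    have := hlt k hk
    rw [heq, ← hlam, abs_of_pos hpos] at this
    exact lt_irrefl _ this
  refine ⟨hpos, h.w_nonneg i₀, hκ0, hκ, ?_, ?_, ?_, ?_, ?_⟩
  · intro N hN hk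
    exact bdry_single_le (f := fun i => μ i ^ N) i₀ (h.hZ N hk) (fun i => hN.pow_nonneg _)
  · -- bounded by the first admissible even moment
    obtain ⟨K, hK, hKk⟩ : ∃ K, Even K ∧ k0 ≤ K := ⟨2 * k0, by simp, by omega⟩
    refine ⟨Z K / lam ^ K + 1 + ∑ N ∈ Finset.range K, |Z N| / lam ^ N, ?_⟩
    intro N hN hk
    have hS : 0 ≤ ∑ N ∈ Finset.range K, |Z N| / lam ^ N :=
      Finset.sum_nonneg fun i _ => by positivity
    have hZK : 0 ≤ Z K := le_trans (by positivity) (bdry_single_le (f := fun i => μ i ^ K) i₀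
      (h.hZ K hKk) (fun i => hK.pow_nonneg _))
    by_cases hNK : K ≤ N
    · have h1 := bdry_rest_le (C := lam ^ (N - K)) i₀ (h.hZ N hk) (h.hZ K hKk) (by
        intro i hi
        rw [abs_pow, ← bdry_even_pow_abs (μ i) hK]
        have : |μ i| ^ N = |μ i| ^ (N - K) * |μ i| ^ K := by
          rw [← pow_add]; congr 1; omega
        rw [this]
        exact mul_le_mul_of_nonneg_right (pow_le_pow_left₀ (abs_nonneg _) (hle i hi) _)
          (by positivity))
      have h2 := (abs_le.1 h1).2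
      have h3 : lam ^ N = lam ^ (N - K) * lam ^ K := by
        rw [← pow_add]; congr 1; omega
      have h4 : Z N ≤ lam ^ (N - K) * Z K := by
        rw [← hlam] at h2
        nlinarith
      have h5 : Z K / lam ^ K * lam ^ N = lam ^ (N - K) * Z K := by
        rw [h3]; field_simp
      have h6 : 0 < lam ^ N := by positivity
      nlinarith
    · push Not at hNK
      have h1 : |Z N| / lam ^ N ≤ ∑ N ∈ Finset.range K, |Z N| / lam ^ N :=
        Finset.single_le_sum (f := fun N => |Z N| / lam ^ N) (fun i _ => by positivity)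
          (Finset.mem_range.2 hNK)
      have h6 : 0 < lam ^ N := by positivity
      have h7 : Z N = Z N / lam ^ N * lam ^ N := by field_simp
      have h8 : Z N / lam ^ N ≤ |Z N| / lam ^ N :=
        div_le_div_of_nonneg_right (le_abs_self _) h6.le
      have h9 : 0 ≤ Z K / lam ^ K := by positivity
      rw [h7]
      apply mul_le_mul_of_nonneg_right _ h6.le
      linarith
  · intro k hk hk0
    exact bdry_single_le (f := fun i => w i * μ i ^ k) i₀ (h.hY k hk0)
      (fun i => mul_nonneg (h.w_nonneg i) (hk.pow_nonneg _))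
  · intro k m q hk hm hk0 hkm hq hκq
    have h1 := bdry_rest_le (C := q * lam ^ (m - k)) i₀ (h.hY m (by omega)) (h.hY k hk0) (by
      intro i hi
      rw [abs_mul, abs_of_nonneg (h.w_nonneg i), abs_pow, ← bdry_even_pow_abs (μ i) hk]
      have e1 : |μ i| ^ m = |μ i| ^ (m - k) * |μ i| ^ k := by
        rw [← pow_add]; congr 1; omega
      have e2 : |μ i| ^ (m - k) ≤ q * lam ^ (m - k) := by
        -- compare e-th powers
        have h3 : (|μ i| ^ (m - k)) ^ e ≤ (q * lam ^ (m - k)) ^ e := by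
          calc (|μ i| ^ (m - k)) ^ e = (|μ i| ^ e) ^ (m - k) := by
                rw [← pow_mul, ← pow_mul, mul_comm]
            _ ≤ (κ * lam ^ e) ^ (m - k) := pow_le_pow_left₀ (by positivity) (hres i hi) _
            _ = κ ^ (m - k) * (lam ^ (m - k)) ^ e := by
                rw [mul_pow, ← pow_mul, ← pow_mul, mul_comm e]
            _ ≤ q ^ e * (lam ^ (m - k)) ^ e :=
                mul_le_mul_of_nonneg_right hκq (by positivity)
            _ = (q * lam ^ (m - k)) ^ e := by rw [mul_pow]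
        exact le_of_pow_le_pow_left₀ (by omega) (by positivity) h3
      rw [e1]
      calc w i * (|μ i| ^ (m - k) * |μ i| ^ k) = |μ i| ^ (m - k) * (w i * |μ i| ^ k) := by ring
        _ ≤ q * lam ^ (m - k) * (w i * |μ i| ^ k) :=
            mul_le_mul_of_nonneg_right e2 (mul_nonneg (h.w_nonneg i) (by positivity)))
    exact (abs_le.1 h1).2
  · intro M N hM hM0 hMN
    have h1 := bdry_rest_le (C := lam ^ (N - M)) i₀ (h.hYs N (by omega)) (h.hY M hM0) (by
      intro i hi
      rw [abs_mul, abs_pow, ← bdry_even_pow_abs (μ i) hM]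
      have e1 : |μ i| ^ N = |μ i| ^ (N - M) * |μ i| ^ M := by
        rw [← pow_add]; congr 1; omega
      rw [e1]
      calc |σ i| * (|μ i| ^ (N - M) * |μ i| ^ M) ≤ w i * (lam ^ (N - M) * |μ i| ^ M) := by
            apply mul_le_mul (h.σ_le i) _ (by positivity) (h.w_nonneg i)
            exact mul_le_mul_of_nonneg_right (pow_le_pow_left₀ (abs_nonneg _) (hle i hi) _)
              (by positivity)
        _ = lam ^ (N - M) * (w i * |μ i| ^ M) := by ring)
    rw [hσ] at h1
    exact h1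

/-- `d(u) = u / (2 - 3u)`: bound for (rest)/(leading weight) of a list of purity `≥ 1 - u`. -/
noncomputable def bdryD (u : ℝ) : ℝ := u / (2 - 3 * u)

theorem bdryD_lt_one {u : ℝ} (hu : u < 1 / 2) : bdryD u < 1 := by
  unfold bdryD
  rw [div_lt_one (by linarith)]
  linarith

/-- A level whose spatial purity at the even length `n` is at least `1 - u`, `u < 1/2`, has a
simple positive leading eigenvalue. -/
theorem BSpat.exists_lead_of_purity (h : BSpat μ w σ Z Y Ys k0) {n : ℕ} {u : ℝ} (hn : Even n)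
    (hk : k0 ≤ n) (hn1 : 1 ≤ n) (hu : u < 1 / 2) (hZpos : 0 < Z n) (hodd : 0 < Z (n + 1))
    (hP : (1 - u) * Z n ^ 2 ≤ Z (2 * n)) :
    ∃ i₀, 0 < μ i₀ ∧ (1 - u) * Z n ≤ μ i₀ ^ n ∧ Z n - μ i₀ ^ n ≤ bdryD u * μ i₀ ^ n ∧
      BLead Z Y Ys k0 n (bdryD u) (μ i₀) (w i₀) := by
  have hA2 : HasSum (fun i => (μ i ^ n) ^ 2) (Z (2 * n)) := by
    have := h.hZ (2 * n) (by omega)
    convert this using 2 with i
    rw [← pow_mul, mul_comm]
  obtain ⟨i₀, h1, h2⟩ := bdry_exists_dominant (a := fun i => μ i ^ n) (fun i => hn.pow_nonneg _)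
    (h.hZ n hk) hA2 hZpos hu hP
  have hd : 0 < 2 - 3 * u := by linarith
  have h3 : Z n - μ i₀ ^ n ≤ bdryD u * μ i₀ ^ n := by
    unfold bdryD
    rw [div_mul_eq_mul_div, le_div_iff₀ hd]
    exact h2
  have ha0 : 0 < μ i₀ ^ n := lt_of_lt_of_le (by nlinarith) h1
  have hd1 := bdryD_lt_one hu
  have hu0 : 0 ≤ u := by
    have := bdry_sq_le (a := fun i => μ i ^ n) (fun i => hn.pow_nonneg _) (h.hZ n hk) hA2
    have h5 : 0 < Z n ^ 2 := by positivity
    by_contra hc
    push Not at hc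
    nlinarith
  have hd0 : 0 ≤ bdryD u := by unfold bdryD; positivity
  have hres : ∀ i, i ≠ i₀ → |μ i| ^ n ≤ bdryD u * μ i₀ ^ n := by
    intro i hi
    rw [bdry_even_pow_abs _ hn]
    exact le_trans (bdry_other_le (f := fun i => μ i ^ n) hi (h.hZ n hk)
      (fun i => hn.pow_nonneg _)) h3
  have hdom : ∀ i, |μ i| ≤ |μ i₀| := by
    intro i
    by_cases hi : i = i₀
    · rw [hi]
    · have h4 : |μ i| ^ n ≤ |μ i₀| ^ n := by
        rw [bdry_even_pow_abs (μ i₀) hn]
        have := hres i hi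
        nlinarith
      exact le_of_pow_le_pow_left₀ (by omega) (abs_nonneg _) h4
  have hpos : 0 < μ i₀ := h.lead_pos i₀ hdom hn hk (by nlinarith) hodd
  exact ⟨i₀, hpos, h1, h3, h.lead i₀ hpos hn1 hd0 hd1 hres⟩

end Claimed.Agent.R297
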