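/-
Row 297 (spin-one Haldane gap), package G3 (boundary-field paper, analytic core).
Two consecutive temperature levels `j`, `j+1` (inverse temperatures `b`, `2b`):
* `BPhys`                : the closed inequalities that come from the physical representation;
* `blead_ratio_le`       : `lam' ≤ lam²`;
* `blead_ratio_ge`       : `(1-u)(1-u') lam^(2M) ≤ lam'^M`;
* `bdry_recurrence`      : Lemma "Transfer between temperatures";
* `bdry_purity_transfer`, `BPhys.gimp_step` : the physical half of the coupled boundary update;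
* `bdry_step`            : Proposition "Coupled boundary update";
* `bdry_same_field`      : Lemma "Signed boundary comparison" + Proposition on the same-field purity.
-/
import Claimed.Agent.R297.BdryLevel
import Claimed.Agent.R297.Bootstrap

namespace Claimed.Agent.R297

/-- Closed inequalities between the temperature levels (level `j` has inverse temperature
`2^j b₀`), consequences of `F (j) = ∑ g_k^(2^j)` for a finite nonnegative list. -/
structure BPhys (Z Y Ys : ℕ → ℕ → ℝ) (k0 : ℕ) : Prop where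
  Z_pos : ∀ j n, k0 ≤ n → 0 < Z j n
  Y_pos : ∀ j n, k0 ≤ n → 0 < Y j n
  Ys_pos : ∀ j n, k0 ≤ n → 0 < Ys j n
  Z_le : ∀ j n, k0 ≤ n → Z (j + 1) n ≤ Z j n ^ 2
  Y_le : ∀ j n, k0 ≤ n → Y (j + 1) n ≤ Y j n ^ 2
  Y_sq : ∀ j n, k0 ≤ n →
    2 * (Y (j + 1) n ^ 2 - Y (j + 2) n) ≤ (Y j n ^ 2 - Y (j + 1) n) ^ 2

variable {Z Y Ys : ℕ → ℕ → ℝ} {k0 : ℕ}

/-- `B_m ≤ B_k` in unnormalised form. -/
theorem BLead.Y_mono {Z Y Ys : ℕ → ℝ} {k0 e : ℕ} {κ lam c : ℝ} (h : BLead Z Y Ys k0 e κ lam c)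
    {k m : ℕ} (hk : Even k) (hm : Even m) (hk0 : k0 ≤ k) (hkm : k ≤ m) :
    Y m ≤ lam ^ (m - k) * Y k := by
  have h1 := h.Y_res k m 1 hk hm hk0 hkm zero_le_one
    (by rw [one_pow]; exact pow_le_one₀ h.κ_nonneg h.κ_lt_one.le)
  have h2 : lam ^ m = lam ^ (m - k) * lam ^ k := by rw [← pow_add]; congr 1; omega
  rw [h2] at h1
  nlinarith

/-- The leading eigenvalue at the doubled inverse temperature is at most the square. -/
theorem blead_ratio_le (hP : BPhys Z Y Ys k0) {j e e' : ℕ} {κ κ' lam lam' c c' : ℝ}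
    (hL : BLead (Z j) (Y j) (Ys j) k0 e κ lam c)
    (hL' : BLead (Z (j + 1)) (Y (j + 1)) (Ys (j + 1)) k0 e' κ' lam' c') : lam' ≤ lam ^ 2 := by
  obtain ⟨C, hC⟩ := hL.Z_bdd
  have hl := hL.lam_pos
  have hl' := hL'.lam_pos
  by_contra hcon
  push Not at hcon
  have hr : 1 < lam' / lam ^ 2 := by rw [one_lt_div (by positivity)]; exact hcon
  obtain ⟨n, hn⟩ := pow_unbounded_of_one_lt (C ^ 2) hr
  set N := 2 * (n + k0) with hN
  have hNe : Even N := by simp [hN]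
  have hNk : k0 ≤ N := by omega
  have h1 : lam' ^ N ≤ Z (j + 1) N := hL'.Z_ge N hNe hNk
  have h2 := hP.Z_le j N hNk
  have h3 := hC N hNe hNk
  have h4 := hP.Z_pos j N hNk
  have h5 : Z j N ^ 2 ≤ (C * lam ^ N) ^ 2 := pow_le_pow_left₀ h4.le h3 2
  have h6 : (lam' / lam ^ 2) ^ N ≤ C ^ 2 := by
    rw [div_pow, div_le_iff₀ (by positivity)]
    calc lam' ^ N ≤ (C * lam ^ N) ^ 2 := by linarith
      _ = C ^ 2 * (lam ^ 2) ^ N := by rw [mul_pow, ← pow_mul, ← pow_mul, mul_comm N 2]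
  have h7 : (lam' / lam ^ 2) ^ n ≤ (lam' / lam ^ 2) ^ N :=
    pow_le_pow_right₀ hr.le (by omega)
  linarith

/-- Lower bound for `(lam'/lam²)^M` at the reference length. -/
theorem blead_ratio_ge {j M e : ℕ} {κ lam lam' c u u' : ℝ}
    (hL : BLead (Z j) (Y j) (Ys j) k0 e κ lam c) (hM : Even M) (hMk : k0 ≤ M)
    (hu : u ≤ 1) (hu' : u' ≤ 1)
    (hfrac : (1 - u') * Z (j + 1) M ≤ lam' ^ M)
    (hT : (1 - u) * Z j M ^ 2 ≤ Z (j + 1) M) :
    (1 - u) * (1 - u') * lam ^ (2 * M) ≤ lam' ^ M := by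
  have h1 := hL.Z_ge M hM hMk
  have hl := hL.lam_pos
  have h2 : (lam ^ M) ^ 2 ≤ Z j M ^ 2 := pow_le_pow_left₀ (by positivity) h1 2
  have h3 : lam ^ (2 * M) = (lam ^ M) ^ 2 := by rw [← pow_mul, mul_comm]
  rw [h3]
  calc (1 - u) * (1 - u') * (lam ^ M) ^ 2 ≤ (1 - u) * (1 - u') * Z j M ^ 2 :=
        mul_le_mul_of_nonneg_left h2 (mul_nonneg (by linarith) (by linarith))
    _ = (1 - u') * ((1 - u) * Z j M ^ 2) := by ring
    _ ≤ (1 - u') * Z (j + 1) M := mul_le_mul_of_nonneg_left hT (by linarith)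
    _ ≤ lam' ^ M := hfrac

/-- `F(q,e,t) = q/(1-q) (1/((1-e)² t) - 1)`. -/
noncomputable def bdryF (q e t : ℝ) : ℝ := q / (1 - q) * (1 / ((1 - e) ^ 2 * t) - 1)

/-- Lemma "Transfer between temperatures". -/
theorem bdry_recurrence (hP : BPhys Z Y Ys k0) {j e e' k m : ℕ} {κ κ' lam lam' c c' E t q : ℝ}
    (hL : BLead (Z j) (Y j) (Ys j) k0 e κ lam c)
    (hL' : BLead (Z (j + 1)) (Y (j + 1)) (Ys (j + 1)) k0 e' κ' lam' c')
    (hk : Even k) (hm : Even m) (hk0 : k0 ≤ k) (hkm : k ≤ m)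
    (hE : Y j k - c * lam ^ k ≤ E * Y j k) (hE1 : E < 1)
    (ht0 : 0 < t) (ht : t * Y j m ^ 2 ≤ Y (j + 1) m)
    (hq0 : 0 ≤ q) (hq1 : q < 1) (hq : κ' ^ (m - k) ≤ q ^ e') :
    Y (j + 1) m - c' * lam' ^ m ≤ bdryF q E t * Y (j + 1) m := by
  have hl := hL.lam_pos
  have hl' := hL'.lam_pos
  have hr := blead_ratio_le hP hL hL'
  have hm0 : k0 ≤ m := le_trans hk0 hkm
  set s := m - k with hs
  set yk := Y j k
  set ym := Y j m
  set yk' := Y (j + 1) k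
  set ym' := Y (j + 1) m
  have hyk : 0 < yk := hP.Y_pos j k hk0
  have hym : 0 < ym := hP.Y_pos j m hm0
  have hyk' : 0 < yk' := hP.Y_pos (j + 1) k hk0
  have hym' : 0 < ym' := hP.Y_pos (j + 1) m hm0
  have e1 : lam' ^ m = lam' ^ s * lam' ^ k := by rw [← pow_add]; congr 1; omega
  have e2 : lam ^ m = lam ^ s * lam ^ k := by rw [← pow_add]; congr 1; omega
  -- (1)
  have h1 := hL'.Y_res k m q hk hm hk0 hkm hq0 hq
  have h1' : (1 - q) * (ym' - c' * lam' ^ m) ≤ q * (lam' ^ s * yk' - ym') := by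
    have : q * lam' ^ s * (yk' - c' * lam' ^ k) = q * (lam' ^ s * yk' - c' * lam' ^ m) := by
      rw [e1]; ring
    rw [this] at h1
    linarith
  -- (2)
  have h2 : lam' ^ s * yk' ≤ (lam ^ s * yk) ^ 2 := by
    have a1 : lam' ^ s ≤ (lam ^ 2) ^ s := pow_le_pow_left₀ hl'.le hr s
    have a2 : yk' ≤ yk ^ 2 := hP.Y_le j k hk0
    calc lam' ^ s * yk' ≤ (lam ^ 2) ^ s * yk ^ 2 :=
          mul_le_mul a1 a2 hyk'.le (by positivity)
      _ = (lam ^ s * yk) ^ 2 := by rw [mul_pow, ← pow_mul, ← pow_mul, mul_comm 2 s]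
  -- (3)
  have h3 : (1 - E) * (lam ^ s * yk) ≤ ym := by
    have a1 := hL.Y_ge m hm hm0
    have a2 : (1 - E) * yk ≤ c * lam ^ k := by linarith
    have a3 : 0 < lam ^ s := by positivity
    calc (1 - E) * (lam ^ s * yk) = lam ^ s * ((1 - E) * yk) := by ring
      _ ≤ lam ^ s * (c * lam ^ k) := mul_le_mul_of_nonneg_left a2 a3.le
      _ = c * lam ^ m := by rw [e2]; ring
      _ ≤ ym := a1
  have hE' : 0 < 1 - E := by linarith
  have h4 : (1 - E) ^ 2 * t * (lam ^ s * yk) ^ 2 ≤ ym' := by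
    have a1 : ((1 - E) * (lam ^ s * yk)) ^ 2 ≤ ym ^ 2 :=
      pow_le_pow_left₀ (by positivity) h3 2
    calc (1 - E) ^ 2 * t * (lam ^ s * yk) ^ 2 = t * ((1 - E) * (lam ^ s * yk)) ^ 2 := by ring
      _ ≤ t * ym ^ 2 := mul_le_mul_of_nonneg_left a1 ht0.le
      _ ≤ ym' := ht
  have h5 : lam' ^ s * yk' ≤ 1 / ((1 - E) ^ 2 * t) * ym' := by
    have hpos : 0 < (1 - E) ^ 2 * t := by positivity
    rw [div_mul_eq_mul_div, one_mul, le_div_iff₀ hpos]
    calc lam' ^ s * yk' * ((1 - E) ^ 2 * t) ≤ (lam ^ s * yk) ^ 2 * ((1 - E) ^ 2 * t) :=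
          mul_le_mul_of_nonneg_right h2 hpos.le
      _ = (1 - E) ^ 2 * t * (lam ^ s * yk) ^ 2 := by ring
      _ ≤ ym' := h4
  have hq' : 0 < 1 - q := by linarith
  unfold bdryF
  rw [div_mul_eq_mul_div, div_mul_eq_mul_div, le_div_iff₀ hq']
  calc (ym' - c' * lam' ^ m) * (1 - q) = (1 - q) * (ym' - c' * lam' ^ m) := by ring
    _ ≤ q * (lam' ^ s * yk' - ym') := h1'
    _ ≤ q * (1 / ((1 - E) ^ 2 * t) * ym' - ym') :=
        mul_le_mul_of_nonneg_left (by linarith) hq0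
    _ = q * (1 / ((1 - E) ^ 2 * t) - 1) * ym' := by ring

/-- Physical purity at the doubled length, from the new boundary concentration. -/
theorem bdry_purity_transfer {j e e' M : ℕ} {κ κ' lam lam' c c' E' η ρ : ℝ}
    (hP : BPhys Z Y Ys k0)
    (hL : BLead (Z j) (Y j) (Ys j) k0 e κ lam c)
    (hL' : BLead (Z (j + 1)) (Y (j + 1)) (Ys (j + 1)) k0 e' κ' lam' c')
    (hM : Even M) (hMk : k0 ≤ M)
    (hη : (1 - η) * Y j M ^ 2 ≤ Y (j + 1) M) (hη1 : η ≤ 1)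
    (hE' : Y (j + 1) M - c' * lam' ^ M ≤ E' * Y (j + 1) M) (hE'1 : E' ≤ 1)
    (hρ0 : 0 ≤ ρ) (hρ : ρ * lam ^ (2 * M) ≤ lam' ^ M) :
    (1 - η) * ρ * (1 - E') * Y j (2 * M) ^ 2 ≤ Y (j + 1) (2 * M) := by
  have hl := hL.lam_pos
  have hl' := hL'.lam_pos
  have h2M : Even (2 * M) := by simp
  have h2Mk : k0 ≤ 2 * M := by omega
  have hyM : 0 < Y j M := hP.Y_pos j M hMk
  have hy2M : 0 < Y j (2 * M) := hP.Y_pos j (2 * M) h2Mk
  have h1 : Y j (2 * M) ≤ lam ^ M * Y j M := by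
    have := hL.Y_mono hM h2M hMk (by omega)
    have e : 2 * M - M = M := by omega
    rwa [e] at this
  have h2 : Y j (2 * M) ^ 2 ≤ lam ^ (2 * M) * Y j M ^ 2 := by
    calc Y j (2 * M) ^ 2 ≤ (lam ^ M * Y j M) ^ 2 := pow_le_pow_left₀ hy2M.le h1 2
      _ = lam ^ (2 * M) * Y j M ^ 2 := by rw [mul_pow, ← pow_mul, mul_comm M 2]
  have h3 : c' * lam' ^ (2 * M) ≤ Y (j + 1) (2 * M) := hL'.Y_ge (2 * M) h2M h2Mk
  have h4 : (1 - E') * Y (j + 1) M ≤ c' * lam' ^ M := by linarith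
  have e2 : lam' ^ (2 * M) = lam' ^ M * lam' ^ M := by rw [← pow_add]; congr 1; omega
  have hA : 0 ≤ (1 - η) * (1 - E') := mul_nonneg (by linarith) (by linarith)
  calc (1 - η) * ρ * (1 - E') * Y j (2 * M) ^ 2
      ≤ (1 - η) * ρ * (1 - E') * (lam ^ (2 * M) * Y j M ^ 2) :=
        mul_le_mul_of_nonneg_left h2 (by
          have : (1 - η) * ρ * (1 - E') = (1 - η) * (1 - E') * ρ := by ring
          rw [this]; exact mul_nonneg hA hρ0)
    _ = (1 - η) * (1 - E') * Y j M ^ 2 * (ρ * lam ^ (2 * M)) := by ring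
    _ ≤ (1 - η) * (1 - E') * Y j M ^ 2 * lam' ^ M :=
        mul_le_mul_of_nonneg_left hρ (mul_nonneg hA (by positivity))
    _ = lam' ^ M * ((1 - E') * ((1 - η) * Y j M ^ 2)) := by ring
    _ ≤ lam' ^ M * ((1 - E') * Y (j + 1) M) :=
        mul_le_mul_of_nonneg_left (mul_le_mul_of_nonneg_left hη (by linarith)) (by positivity)
    _ ≤ lam' ^ M * (c' * lam' ^ M) := mul_le_mul_of_nonneg_left h4 (by positivity)
    _ = c' * lam' ^ (2 * M) := by rw [e2]; ring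
    _ ≤ Y (j + 1) (2 * M) := h3

/-- Physical squaring for the opposite-field chain. -/
theorem BPhys.gimp_step (hP : BPhys Z Y Ys k0) {j n : ℕ} {s : ℝ} (hn : k0 ≤ n) (hs : 0 < s)
    (h : s * Y j n ^ 2 ≤ Y (j + 1) n) : gimp s * Y (j + 1) n ^ 2 ≤ Y (j + 2) n := by
  have hA := hP.Y_pos j n hn
  have hB := hP.Y_pos (j + 1) n hn
  have h1 := hP.Y_le j n hn
  have h2 := hP.Y_sq j n hn
  set A := Y j n
  set B := Y (j + 1) n
  set C := Y (j + 2) n
  have h3 : s * (A ^ 2 - B) ≤ (1 - s) * B := by nlinarith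
  have h4 : 0 ≤ A ^ 2 - B := by linarith
  have h5 : (s * (A ^ 2 - B)) ^ 2 ≤ ((1 - s) * B) ^ 2 :=
    pow_le_pow_left₀ (mul_nonneg hs.le h4) h3 2
  unfold gimp
  have h6 : (1 - s) ^ 2 / (2 * s ^ 2) * B ^ 2 = ((1 - s) * B) ^ 2 / (2 * s ^ 2) := by
    rw [mul_pow]; ring
  have h7 : (A ^ 2 - B) ^ 2 ≤ ((1 - s) * B) ^ 2 / s ^ 2 := by
    rw [le_div_iff₀ (by positivity)]
    calc (A ^ 2 - B) ^ 2 * s ^ 2 = (s * (A ^ 2 - B)) ^ 2 := by ring
      _ ≤ _ := h5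
  have h8 : ((1 - s) * B) ^ 2 / (2 * s ^ 2) = ((1 - s) * B) ^ 2 / s ^ 2 / 2 := by
    field_simp
  rw [sub_mul, one_mul, h6, h8]
  linarith

/-- Proposition "Coupled boundary update". -/
theorem bdry_step (hP : BPhys Z Y Ys k0) {j e e' k M : ℕ}
    {κ κ' lam lam' c c' E η E' η' q ρ : ℝ}
    (hL : BLead (Z j) (Y j) (Ys j) k0 e κ lam c)
    (hL' : BLead (Z (j + 1)) (Y (j + 1)) (Ys (j + 1)) k0 e' κ' lam' c')
    (hk : Even k) (hM : Even M) (hk0 : k0 ≤ k) (hkM : k ≤ M)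
    (hE : Y j k - c * lam ^ k ≤ E * Y j k) (hE1 : E < 1)
    (hη : (1 - η) * Y j M ^ 2 ≤ Y (j + 1) M) (hη1 : η < 1)
    (hq0 : 0 ≤ q) (hq1 : q < 1) (hq : κ' ^ (M - k) ≤ q ^ e')
    (hρ0 : 0 < ρ) (hρ : ρ * lam ^ (2 * M) ≤ lam' ^ M)
    (hE' : bdryF q E (1 - η) ≤ E') (hE'1 : E' < 1)
    (hη' : 1 - η' ≤ gimp ((1 - η) * ρ * (1 - E'))) :
    Y (j + 1) M - c' * lam' ^ M ≤ E' * Y (j + 1) M ∧
      (1 - η') * Y (j + 1) (2 * M) ^ 2 ≤ Y (j + 2) (2 * M) := by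
  have hMk : k0 ≤ M := le_trans hk0 hkM
  have h1 : Y (j + 1) M - c' * lam' ^ M ≤ E' * Y (j + 1) M :=
    le_trans (bdry_recurrence hP hL hL' hk hM hk0 hkM hE hE1 (by linarith) hη hq0 hq1 hq)
      (mul_le_mul_of_nonneg_right hE' (hP.Y_pos (j + 1) M hMk).le)
  refine ⟨h1, ?_⟩
  have h2 := bdry_purity_transfer hP hL hL' hM hMk hη hη1.le h1 hE'1.le hρ0.le hρ
  have h3 := hP.gimp_step (j := j) (n := 2 * M) (by omega)
    (mul_pos (mul_pos (by linarith) hρ0) (by linarith)) h2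
  exact le_trans (mul_le_mul_of_nonneg_right hη' (by positivity)) h3

/-- Same-field purity at every length in `[M, 2M]` (Lemma "Signed boundary comparison" and the
following Proposition). -/
theorem bdry_same_field (hP : BPhys Z Y Ys k0) {j e e' M n : ℕ}
    {κ κ' lam lam' c c' E' η ρ : ℝ}
    (hL : BLead (Z j) (Y j) (Ys j) k0 e κ lam c)
    (hL' : BLead (Z (j + 1)) (Y (j + 1)) (Ys (j + 1)) k0 e' κ' lam' c')
    (hM : Even M) (hMk : k0 ≤ M) (hMn : M ≤ n) (hn2 : n ≤ 2 * M)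
    (hη : (1 - η) * Y j M ^ 2 ≤ Y (j + 1) M) (hη1 : η ≤ 1)
    (hE' : Y (j + 1) M - c' * lam' ^ M ≤ E' * Y (j + 1) M) (hE'1 : 2 * E' ≤ 1)
    (hρ0 : 0 ≤ ρ) (hρ : ρ * lam ^ (2 * M) ≤ lam' ^ M) :
    (1 - 2 * E') * (1 - η) * ρ * Ys j n ^ 2 ≤ Ys (j + 1) n := by
  have hl := hL.lam_pos
  have hl' := hL'.lam_pos
  have hr := blead_ratio_le hP hL hL'
  have hnk : k0 ≤ n := le_trans hMk hMn
  have hyM : 0 < Y j M := hP.Y_pos j M hMk
  have hyM' : 0 < Y (j + 1) M := hP.Y_pos (j + 1) M hMk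
  have hys : 0 < Ys j n := hP.Ys_pos j n hnk
  set s := n - M with hs
  have e1 : lam ^ n = lam ^ s * lam ^ M := by rw [← pow_add]; congr 1; omega
  have e1' : lam' ^ n = lam' ^ s * lam' ^ M := by rw [← pow_add]; congr 1; omega
  -- upper bound at level j
  have h1 : Ys j n ≤ lam ^ s * Y j M := by
    have := (abs_le.1 (hL.Ys_res M n hM hMk hMn)).2
    rw [e1] at this
    nlinarith
  -- lower bound at level j+1
  have h2 : lam' ^ s * ((1 - 2 * E') * Y (j + 1) M) ≤ Ys (j + 1) n := by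
    have := (abs_le.1 (hL'.Ys_res M n hM hMk hMn)).1
    rw [e1'] at this
    have h3 : 0 < lam' ^ s := by positivity
    have h4 : lam' ^ s * ((1 - 2 * E') * Y (j + 1) M) ≤
        lam' ^ s * (2 * (c' * lam' ^ M) - Y (j + 1) M) :=
      mul_le_mul_of_nonneg_left (by linarith) h3.le
    nlinarith
  -- the ratio of leading eigenvalues
  have h5 : ρ * lam ^ (2 * s) ≤ lam' ^ s := by
    set t := 2 * M - n with ht
    have a1 : lam' ^ M = lam' ^ s * lam' ^ t := by rw [← pow_add]; congr 1; omega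
    have a2 : lam ^ (2 * M) = lam ^ (2 * s) * (lam ^ 2) ^ t := by
      rw [← pow_mul, ← pow_add]; congr 1; omega
    have a3 : lam' ^ t ≤ (lam ^ 2) ^ t := pow_le_pow_left₀ hl'.le hr t
    have a4 : 0 < lam' ^ t := by positivity
    have a5 : ρ * lam ^ (2 * s) * lam' ^ t ≤ lam' ^ s * lam' ^ t := by
      calc ρ * lam ^ (2 * s) * lam' ^ t ≤ ρ * lam ^ (2 * s) * (lam ^ 2) ^ t :=
            mul_le_mul_of_nonneg_left a3 (by positivity)
        _ = ρ * lam ^ (2 * M) := by rw [a2]; ring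
        _ ≤ lam' ^ M := hρ
        _ = lam' ^ s * lam' ^ t := a1
    exact le_of_mul_le_mul_right a5 a4
  have h6 : Ys j n ^ 2 ≤ lam ^ (2 * s) * Y j M ^ 2 := by
    calc Ys j n ^ 2 ≤ (lam ^ s * Y j M) ^ 2 := pow_le_pow_left₀ hys.le h1 2
      _ = lam ^ (2 * s) * Y j M ^ 2 := by rw [mul_pow, ← pow_mul, mul_comm s 2]
  have hA : 0 ≤ (1 - 2 * E') * (1 - η) := mul_nonneg (by linarith) (by linarith)
  calc (1 - 2 * E') * (1 - η) * ρ * Ys j n ^ 2
      ≤ (1 - 2 * E') * (1 - η) * ρ * (lam ^ (2 * s) * Y j M ^ 2) :=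
        mul_le_mul_of_nonneg_left h6 (mul_nonneg hA hρ0)
    _ = (1 - 2 * E') * (1 - η) * Y j M ^ 2 * (ρ * lam ^ (2 * s)) := by ring
    _ ≤ (1 - 2 * E') * (1 - η) * Y j M ^ 2 * lam' ^ s :=
        mul_le_mul_of_nonneg_left h5 (mul_nonneg hA (by positivity))
    _ = lam' ^ s * ((1 - 2 * E') * ((1 - η) * Y j M ^ 2)) := by ring
    _ ≤ lam' ^ s * ((1 - 2 * E') * Y (j + 1) M) :=
        mul_le_mul_of_nonneg_left (mul_le_mul_of_nonneg_left hη (by linarith)) (by positivity)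
    _ ≤ Ys (j + 1) n := h2

end Claimed.Agent.R297
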