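/-
Row 297 (spin-one Haldane gap), package D4 (helper81): packed lane arithmetic.
A vector `f : ℕ → ℕ` with `N` entries `< 2^w` is stored in the single natural number
`lanePack w f N = ∑_{i<N} f i * 2^(w*i)`.  This file gives the entrywise meaning of the
arithmetic and bitwise operations on such numbers.
-/
import Mathlib

namespace Claimed.Agent.R297

/-- the packed number with `N` lanes of width `w`. -/
def lanePack (w : ℕ) (f : ℕ → ℕ) (N : ℕ) : ℕ := ∑ i ∈ Finset.range N, f i * 2 ^ (w * i)

@[simp] theorem lanePack_zero (w : ℕ) (f : ℕ → ℕ) : lanePack w f 0 = 0 := by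
  simp [lanePack]

theorem lanePack_succ (w : ℕ) (f : ℕ → ℕ) (N : ℕ) :
    lanePack w f (N + 1) = lanePack w f N + f N * 2 ^ (w * N) := by
  simp [lanePack, Finset.sum_range_succ]

theorem lanePack_congr {w N : ℕ} {f g : ℕ → ℕ} (h : ∀ i, i < N → f i = g i) :
    lanePack w f N = lanePack w g N := by
  unfold lanePack
  exact Finset.sum_congr rfl fun i hi => by rw [h i (Finset.mem_range.1 hi)]

theorem lanePack_add (w : ℕ) (f g : ℕ → ℕ) (N : ℕ) :
    lanePack w f N + lanePack w g N = lanePack w (fun i => f i + g i) N := by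
  unfold lanePack
  rw [← Finset.sum_add_distrib]
  exact Finset.sum_congr rfl fun i _ => by ring

theorem lanePack_mul_left (w c : ℕ) (f : ℕ → ℕ) (N : ℕ) :
    c * lanePack w f N = lanePack w (fun i => c * f i) N := by
  unfold lanePack
  rw [Finset.mul_sum]
  exact Finset.sum_congr rfl fun i _ => by ring

theorem lanePack_le {w N : ℕ} {f g : ℕ → ℕ} (h : ∀ i, i < N → f i ≤ g i) :
    lanePack w f N ≤ lanePack w g N := by
  unfold lanePack
  exact Finset.sum_le_sum fun i hi => Nat.mul_le_mul_right _ (h i (Finset.mem_range.1 hi))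

theorem lanePack_sub {w N : ℕ} {f g : ℕ → ℕ} (h : ∀ i, i < N → g i ≤ f i) :
    lanePack w f N - lanePack w g N = lanePack w (fun i => f i - g i) N := by
  have e : lanePack w f N = lanePack w (fun i => f i - g i) N + lanePack w g N := by
    rw [lanePack_add]
    exact lanePack_congr fun i hi => (Nat.sub_add_cancel (h i hi)).symm
  rw [e, Nat.add_sub_cancel]

theorem lanePack_lt {w N : ℕ} {f : ℕ → ℕ} (h : ∀ i, i < N → f i < 2 ^ w) :
    lanePack w f N < 2 ^ (w * N) := by
  induction N with
  | zero => simp
  | succ N ih =>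
    rw [lanePack_succ]
    have h1 := ih fun i hi => h i (Nat.lt_succ_of_lt hi)
    have h2 : f N + 1 ≤ 2 ^ w := h N (Nat.lt_succ_self N)
    calc lanePack w f N + f N * 2 ^ (w * N) < 2 ^ (w * N) + f N * 2 ^ (w * N) := by omega
      _ = (f N + 1) * 2 ^ (w * N) := by ring
      _ ≤ 2 ^ w * 2 ^ (w * N) := Nat.mul_le_mul_right _ h2
      _ = 2 ^ (w * (N + 1)) := by rw [← pow_add]; congr 1; ring

theorem lanePack_split (w : ℕ) (f : ℕ → ℕ) (N K : ℕ) :
    lanePack w f (N + K) = lanePack w f N + lanePack w (fun i => f (N + i)) K * 2 ^ (w * N) := by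
  unfold lanePack
  rw [Finset.sum_range_add, Finset.sum_mul]
  congr 1
  exact Finset.sum_congr rfl fun i _ => by rw [mul_assoc, ← pow_add]; congr 2; ring

/-- trailing zero lanes do not matter. -/
theorem lanePack_extend {w N N' : ℕ} {f : ℕ → ℕ} (hN : N ≤ N')
    (h : ∀ i, N ≤ i → i < N' → f i = 0) : lanePack w f N' = lanePack w f N := by
  obtain ⟨K, rfl⟩ := Nat.exists_eq_add_of_le hN
  rw [lanePack_split]
  have : lanePack w (fun i => f (N + i)) K = 0 := by
    unfold lanePack
    exact Finset.sum_eq_zero fun i hi => by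
      show f (N + i) * 2 ^ (w * i) = 0
      rw [h (N + i) (Nat.le_add_right _ _) (by have := Finset.mem_range.1 hi; omega), zero_mul]
  rw [this]; simp

/-- the bits of a packed number. -/
theorem lanePack_testBit {w N : ℕ} {f : ℕ → ℕ} (hw : 0 < w) (h : ∀ i, i < N → f i < 2 ^ w)
    (k : ℕ) :
    (lanePack w f N).testBit k = (decide (k / w < N) && (f (k / w)).testBit (k % w)) := by
  induction N with
  | zero => simp
  | succ N ih =>
    have hN := ih fun i hi => h i (Nat.lt_succ_of_lt hi)
    have hlt := lanePack_lt (w := w) (N := N) (f := f) fun i hi => h i (Nat.lt_succ_of_lt hi)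
    rw [lanePack_succ, Nat.add_comm, Nat.mul_comm (f N), Nat.testBit_two_pow_mul_add _ hlt]
    by_cases hk : k < w * N
    · have hkN : k / w < N := (Nat.div_lt_iff_lt_mul hw).2 (by rwa [Nat.mul_comm] at hk)
      simp only [hk, if_true, hN, hkN, Nat.lt_succ_of_lt hkN]
    · have hkN : N ≤ k / w := (Nat.le_div_iff_mul_le hw).2 (by rw [Nat.mul_comm]; omega)
      simp only [hk, if_false]
      by_cases hk2 : k / w = N
      · have e : k - w * N = k % w := by
          have := Nat.div_add_mod k w
          rw [hk2] at this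
          omega
        simp [hk2, e]
      · have hk3 : N + 1 ≤ k / w := by omega
        have hk4 : w * (N + 1) ≤ k := by
          have := (Nat.le_div_iff_mul_le hw).1 hk3
          rwa [Nat.mul_comm] at this
        have : ¬ (k / w < N + 1) := by omega
        simp only [this, decide_false, Bool.false_and]
        apply Nat.testBit_lt_two_pow
        calc f N < 2 ^ w := h N (Nat.lt_succ_self N)
          _ ≤ 2 ^ (k - w * N) := Nat.pow_le_pow_right (by norm_num) (by
              have : w * (N + 1) = w * N + w := by ring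
              omega)

theorem lanePack_and {w N : ℕ} {f g : ℕ → ℕ} (hw : 0 < w) (hf : ∀ i, i < N → f i < 2 ^ w)
    (hg : ∀ i, i < N → g i < 2 ^ w) :
    lanePack w f N &&& lanePack w g N = lanePack w (fun i => f i &&& g i) N := by
  apply Nat.eq_of_testBit_eq
  intro k
  rw [Nat.testBit_and, lanePack_testBit hw hf, lanePack_testBit hw hg,
    lanePack_testBit hw fun i hi => lt_of_le_of_lt Nat.and_le_left (hf i hi)]
  rw [Nat.testBit_and]
  cases decide (k / w < N) <;> simp

theorem lanePack_or {w N : ℕ} {f g : ℕ → ℕ} (hw : 0 < w) (hf : ∀ i, i < N → f i < 2 ^ w)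
    (hg : ∀ i, i < N → g i < 2 ^ w) :
    lanePack w f N ||| lanePack w g N = lanePack w (fun i => f i ||| g i) N := by
  apply Nat.eq_of_testBit_eq
  intro k
  rw [Nat.testBit_or, lanePack_testBit hw hf, lanePack_testBit hw hg,
    lanePack_testBit hw fun i hi => Nat.or_lt_two_pow (hf i hi) (hg i hi)]
  rw [Nat.testBit_or]
  cases decide (k / w < N) <;> simp

/-- selecting lanes with a `0 / all ones` mask. -/
theorem lanePack_mask {w N : ℕ} {f : ℕ → ℕ} (hw : 0 < w) (hf : ∀ i, i < N → f i < 2 ^ w)
    (m : ℕ → Bool) :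
    lanePack w f N &&& lanePack w (fun i => if m i then 2 ^ w - 1 else 0) N
      = lanePack w (fun i => if m i then f i else 0) N := by
  rw [lanePack_and hw hf]
  · refine lanePack_congr fun i hi => ?_
    cases m i
    · simp
    · simp only [if_true]
      rw [Nat.and_two_pow_sub_one_eq_mod, Nat.mod_eq_of_lt (hf i hi)]
  · intro i _
    have : 0 < 2 ^ w := by positivity
    split <;> omega

theorem lanePack_shiftLeft (w : ℕ) (f : ℕ → ℕ) (N k : ℕ) :
    lanePack w f N <<< (w * k) = lanePack w (fun i => if i < k then 0 else f (i - k)) (k + N) := by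
  rw [lanePack_split, Nat.shiftLeft_eq]
  have h0 : lanePack w (fun i => if i < k then 0 else f (i - k)) k = 0 := by
    unfold lanePack
    exact Finset.sum_eq_zero fun i hi => by simp [Finset.mem_range.1 hi]
  rw [h0, zero_add]
  congr 1
  exact lanePack_congr fun i _ => by simp

theorem lanePack_shiftRight {w N k : ℕ} {f : ℕ → ℕ} (hf : ∀ i, i < k → f i < 2 ^ w) :
    lanePack w f (k + N) >>> (w * k) = lanePack w (fun i => f (k + i)) N := by
  rw [lanePack_split, Nat.shiftRight_eq_div_pow]
  have hlt := lanePack_lt hf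
  rw [Nat.add_mul_div_right _ _ (by positivity), Nat.div_eq_of_lt hlt, zero_add]

theorem lanePack_mod {w N k : ℕ} {f : ℕ → ℕ} (hf : ∀ i, i < k → f i < 2 ^ w) :
    lanePack w f (k + N) % 2 ^ (w * k) = lanePack w f k := by
  rw [lanePack_split, Nat.add_mul_mod_self_right, Nat.mod_eq_of_lt (lanePack_lt hf)]

/-- reading one lane. -/
theorem lanePack_lane {w N : ℕ} {f : ℕ → ℕ} (hf : ∀ i, i < N → f i < 2 ^ w) {i : ℕ}
    (hi : i < N) : (lanePack w f N >>> (w * i)) % 2 ^ w = f i := by
  obtain ⟨K, rfl⟩ := Nat.exists_eq_add_of_lt hi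
  have e : i + K + 1 = i + (1 + K) := by ring
  rw [e, lanePack_shiftRight fun j hj => hf j (by omega)]
  have := lanePack_mod (w := w) (N := K) (k := 1) (f := fun j => f (i + j))
    (fun j hj => hf _ (by omega))
  rw [Nat.mul_one] at this
  rw [this]
  simp [lanePack]

theorem lanePack_inj {w N : ℕ} {f g : ℕ → ℕ} (hf : ∀ i, i < N → f i < 2 ^ w)
    (hg : ∀ i, i < N → g i < 2 ^ w) (h : lanePack w f N = lanePack w g N) :
    ∀ i, i < N → f i = g i := by
  intro i hi
  rw [← lanePack_lane hf hi, ← lanePack_lane hg hi, h]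

/-- entrywise floor division by `2^s`: shift right and clear the bits that came from the
next lane. -/
theorem lanePack_shr_mask {w N s : ℕ} {f : ℕ → ℕ} (hw : 0 < w)
    (hf : ∀ i, i < N → f i < 2 ^ w) (hs : s ≤ w) :
    (lanePack w f N >>> s) &&& lanePack w (fun _ => 2 ^ (w - s) - 1) N
      = lanePack w (fun i => f i / 2 ^ s) N := by
  apply Nat.eq_of_testBit_eq
  intro k
  have hm : ∀ i, i < N → (fun _ : ℕ => 2 ^ (w - s) - 1) i < 2 ^ w := by
    intro i _
    have h1 : 2 ^ (w - s) ≤ 2 ^ w := Nat.pow_le_pow_right (by norm_num) (Nat.sub_le _ _)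
    have h2 : 0 < 2 ^ (w - s) := by positivity
    show 2 ^ (w - s) - 1 < 2 ^ w
    omega
  have hd : ∀ i, i < N → (fun i => f i / 2 ^ s) i < 2 ^ w := fun i hi =>
    lt_of_le_of_lt (Nat.div_le_self _ _) (hf i hi)
  rw [Nat.testBit_and, Nat.testBit_shiftRight, lanePack_testBit hw hf, lanePack_testBit hw hm,
    lanePack_testBit hw hd, Nat.testBit_two_pow_sub_one, Nat.testBit_div_two_pow]
  by_cases hk : k % w < w - s
  · have e1 : (s + k) / w = k / w := by
      have h1 := Nat.div_add_mod k w
      have h2 : s + k = (s + k % w) + w * (k / w) := by omega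
      rw [h2, Nat.add_mul_div_left _ _ hw, Nat.div_eq_of_lt (by omega), zero_add]
    have e2 : (s + k) % w = k % w + s := by
      have h1 := Nat.div_add_mod k w
      have h2 : s + k = (s + k % w) + w * (k / w) := by omega
      rw [h2, Nat.add_mul_mod_self_left, Nat.mod_eq_of_lt (by omega)]
      omega
    rw [e1, e2]
    simp only [hk, decide_true, Bool.and_true]
    cases decide (k / w < N) <;> simp
  · simp only [hk, decide_false, Bool.and_false]
    by_cases hkN : k / w < N
    · have : (f (k / w)).testBit (k % w + s) = false := by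
        apply Nat.testBit_lt_two_pow
        exact lt_of_lt_of_le (hf _ hkN) (Nat.pow_le_pow_right (by norm_num) (by omega))
      simp [this]
    · simp [hkN]

/-- The lemmas that are written on demand are cited here once, so that no two downstream files hold
their own copies (RULES.md, rule 6). -/
theorem lanesBasic_eqns_cited : True := by
  have := @lanePack.eq_1; have := @lanePack.eq_def; have := @lanePack.congr_simp
  trivial

end Claimed.Agent.R297
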