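/-
Row 297 (spin-one Haldane gap), package D4 (helper81): masked shift-and-add programs on packed
lanes, and their entrywise meaning.
-/
import Claimed.Agent.R297.LanesBasic

namespace Claimed.Agent.R297

/-- all lanes equal to `v`. -/
def laneConst (w N v : ℕ) : ℕ := v * ((2 ^ (w * N) - 1) / (2 ^ w - 1))

theorem laneConst_eq {w : ℕ} (hw : 0 < w) (N v : ℕ) :
    laneConst w N v = lanePack w (fun _ => v) N := by
  have h1 : lanePack w (fun _ => 1) N * (2 ^ w - 1) = 2 ^ (w * N) - 1 := by
    have h := Nat.geomSum_eq (m := 2 ^ w) (by
      calc 2 = 2 ^ 1 := by norm_num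
        _ ≤ 2 ^ w := Nat.pow_le_pow_right (by norm_num) hw) N
    have h2 : lanePack w (fun _ => 1) N = ∑ k ∈ Finset.range N, (2 ^ w) ^ k := by
      unfold lanePack
      exact Finset.sum_congr rfl fun i _ => by rw [one_mul, pow_mul]
    rw [h2, h, ← pow_mul]
    refine Nat.div_mul_cancel ?_
    rw [pow_mul]
    exact Nat.sub_one_dvd_pow_sub_one _ _
  have hpos : 0 < 2 ^ w - 1 := by
    have : 2 ^ 1 ≤ 2 ^ w := Nat.pow_le_pow_right (by norm_num) hw
    omega
  unfold laneConst
  rw [← h1, Nat.mul_div_cancel _ hpos, lanePack_mul_left]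
  simp

/-- One masked move: the lanes selected by the mask are moved up or down by `sh` lanes and
multiplied by `coef`.  `μ` is the meaning of the mask `m`. -/
structure LaneOp where
  μ : ℕ → Bool
  m : ℕ
  up : Bool
  sh : ℕ
  coef : ℕ

/-- the packed computation (a move by `0` lanes and a coefficient `1` cost nothing). -/
def LaneOp.app (w X : ℕ) (op : LaneOp) : ℕ :=
  bif op.coef == 1 then
    (bif op.sh == 0 then X &&& op.m
      else bif op.up then (X &&& op.m) <<< (w * op.sh) else (X &&& op.m) >>> (w * op.sh))
  else
    op.coef * (bif op.sh == 0 then X &&& op.m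
      else bif op.up then (X &&& op.m) <<< (w * op.sh) else (X &&& op.m) >>> (w * op.sh))

/-- the entrywise meaning (without the coefficient). -/
def LaneOp.fn {α : Type} [Zero α] (N : ℕ) (op : LaneOp) (f : ℕ → α) (i : ℕ) : α :=
  if op.up = true then (if op.sh ≤ i ∧ op.μ (i - op.sh) = true then f (i - op.sh) else 0)
  else (if i + op.sh < N ∧ op.μ (i + op.sh) = true then f (i + op.sh) else 0)

structure LaneOp.Valid (w N : ℕ) (op : LaneOp) : Prop where
  mask : op.m = lanePack w (fun i => if op.μ i then 2 ^ w - 1 else 0) N
  range : op.up = true → ∀ i, i < N → op.μ i = true → i + op.sh < N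

theorem LaneOp.app_eq {w N : ℕ} (hw : 0 < w) {op : LaneOp} (hop : op.Valid w N) {f : ℕ → ℕ}
    (hf : ∀ i, i < N → f i < 2 ^ w) :
    op.app w (lanePack w f N) = lanePack w (fun i => op.coef * op.fn N f i) N := by
  have hmask : lanePack w f N &&& op.m = lanePack w (fun i => if op.μ i then f i else 0) N := by
    rw [hop.mask, lanePack_mask hw hf]
  have hg : ∀ i, i < N → (fun i => if op.μ i then f i else 0) i < 2 ^ w := by
    intro i hi
    show (if op.μ i then f i else 0) < 2 ^ w
    split
    · exact hf i hi
    · positivity
  have key : (bif op.up then (lanePack w f N &&& op.m) <<< (w * op.sh)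
      else (lanePack w f N &&& op.m) >>> (w * op.sh)) = lanePack w (fun i => op.fn N f i) N := by
    rw [hmask]
    cases hup : op.up
    · -- move down
      simp only [cond_false]
      by_cases hsh : op.sh ≤ N
      · obtain ⟨K, hK⟩ := Nat.exists_eq_add_of_le hsh
        have e1 : lanePack w (fun i => if op.μ i then f i else 0) N >>> (w * op.sh)
            = lanePack w (fun i => if op.μ (op.sh + i) then f (op.sh + i) else 0) K := by
          conv_lhs => rw [hK]
          exact lanePack_shiftRight fun i hi => hg i (by omega)
        rw [e1]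
        have e2 : lanePack w (fun i => op.fn N f i) N = lanePack w (fun i => op.fn N f i) K := by
          refine lanePack_extend (by omega) fun i h1 h2 => ?_
          unfold LaneOp.fn
          rw [hup]
          simp only [Bool.false_eq_true, if_false]
          rw [if_neg (by omega)]
        rw [e2]
        refine lanePack_congr fun i hi => ?_
        unfold LaneOp.fn
        rw [hup]
        simp only [Bool.false_eq_true, if_false]
        have : i + op.sh < N := by omega
        simp only [this, true_and, Nat.add_comm op.sh i]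
      · have hlt : lanePack w (fun i => if op.μ i then f i else 0) N < 2 ^ (w * op.sh) :=
          lt_of_lt_of_le (lanePack_lt hg) (Nat.pow_le_pow_right (by norm_num)
            (Nat.mul_le_mul_left _ (by omega)))
        rw [Nat.shiftRight_eq_div_pow, Nat.div_eq_of_lt hlt]
        symm
        unfold lanePack
        refine Finset.sum_eq_zero fun i hi => ?_
        have hi' := Finset.mem_range.1 hi
        unfold LaneOp.fn
        rw [hup]
        simp only [Bool.false_eq_true, if_false]
        rw [if_neg (by omega), zero_mul]
    · -- move up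
      simp only [cond_true]
      rw [lanePack_shiftLeft]
      have e2 : lanePack w (fun i => if i < op.sh then 0 else
            (if op.μ (i - op.sh) then f (i - op.sh) else 0)) (op.sh + N)
          = lanePack w (fun i => if i < op.sh then 0 else
            (if op.μ (i - op.sh) then f (i - op.sh) else 0)) N := by
        refine lanePack_extend (by omega) fun i h1 h2 => ?_
        by_cases h3 : i < op.sh
        · simp [h3]
        · simp only [h3, if_false]
          by_cases h4 : op.μ (i - op.sh) = true
          · have := hop.range hup (i - op.sh) (by omega) h4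
            omega
          · simp [h4]
      rw [e2]
      refine lanePack_congr fun i _ => ?_
      unfold LaneOp.fn
      rw [hup]
      simp only [if_true]
      by_cases h3 : i < op.sh
      · rw [if_pos h3, if_neg (by omega)]
      · rw [if_neg h3]
        have : op.sh ≤ i := by omega
        simp only [this, true_and]
  have key2 : (bif op.sh == 0 then lanePack w f N &&& op.m
      else bif op.up then (lanePack w f N &&& op.m) <<< (w * op.sh)
        else (lanePack w f N &&& op.m) >>> (w * op.sh)) = lanePack w (fun i => op.fn N f i) N := by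
    rw [← key]
    cases hs : (op.sh == 0)
    · rfl
    · have h0 : op.sh = 0 := by simpa using hs
      cases op.up <;> simp [h0]
  unfold LaneOp.app
  rw [key2]
  cases hc : (op.coef == 1)
  · simp only [cond_false]
    rw [lanePack_mul_left]
  · simp only [cond_true]
    have : op.coef = 1 := by simpa using hc
    simp [this]

/-- sum of the results of a list of masked moves. -/
def laneSum (w X : ℕ) (ops : List LaneOp) : ℕ := (ops.map (LaneOp.app w X)).sum

/-- entrywise meaning of `laneSum`. -/
def laneSumFn {α : Type} [Semiring α] (N : ℕ) (ops : List LaneOp) (f : ℕ → α) (i : ℕ) : α :=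
  (ops.map fun op => (op.coef : α) * op.fn N f i).sum

theorem laneSum_eq {w N : ℕ} (hw : 0 < w) {ops : List LaneOp} (hops : ∀ op ∈ ops, op.Valid w N)
    {f : ℕ → ℕ} (hf : ∀ i, i < N → f i < 2 ^ w) :
    laneSum w (lanePack w f N) ops = lanePack w (laneSumFn N ops f) N := by
  induction ops with
  | nil =>
    simp only [laneSum, List.map_nil, List.sum_nil]
    symm
    unfold lanePack
    exact Finset.sum_eq_zero fun i _ => by simp [laneSumFn]
  | cons op ops ih =>
    have h1 := ih fun o ho => hops o (List.mem_cons_of_mem _ ho)
    unfold laneSum at h1 ⊢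
    rw [List.map_cons, List.sum_cons, h1, LaneOp.app_eq hw (hops op List.mem_cons_self) hf,
      lanePack_add]
    refine lanePack_congr fun i _ => ?_
    simp [laneSumFn]

theorem LaneOp.fn_cast (N : ℕ) (op : LaneOp) (f : ℕ → ℕ) (i : ℕ) :
    ((op.fn N f i : ℕ) : ℤ) = op.fn N (fun j => (f j : ℤ)) i := by
  unfold LaneOp.fn
  split <;> split <;> simp

theorem laneSumFn_cast (N : ℕ) (ops : List LaneOp) (f : ℕ → ℕ) (i : ℕ) :
    ((laneSumFn N ops f i : ℕ) : ℤ) = laneSumFn N ops (fun j => (f j : ℤ)) i := by
  induction ops with
  | nil => simp [laneSumFn]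
  | cons op ops ih =>
    unfold laneSumFn at ih ⊢
    rw [List.map_cons, List.sum_cons, List.map_cons, List.sum_cons, Nat.cast_add, ih,
      Nat.cast_mul, LaneOp.fn_cast]
    simp

theorem LaneOp.fn_congr {α : Type} [Zero α] {N : ℕ} (op : LaneOp) {f g : ℕ → α}
    (h : ∀ j, j < N → f j = g j) {i : ℕ} (hi : i < N) : op.fn N f i = op.fn N g i := by
  unfold LaneOp.fn
  split
  · split
    · exact h _ (by omega)
    · rfl
  · split
    · rename_i h2
      exact h _ h2.1
    · rfl

theorem laneSumFn_congr {α : Type} [Semiring α] {N : ℕ} (ops : List LaneOp) {f g : ℕ → α}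
    (h : ∀ j, j < N → f j = g j) {i : ℕ} (hi : i < N) :
    laneSumFn N ops f i = laneSumFn N ops g i := by
  unfold laneSumFn
  congr 1
  refine List.map_congr_left fun op _ => ?_
  rw [op.fn_congr h hi]

theorem LaneOp.fn_add_const (N : ℕ) (op : LaneOp) (z : ℕ → ℤ) (c : ℤ) (i : ℕ) :
    op.fn N (fun j => z j + c) i = op.fn N z i + c * op.fn N (fun _ => (1 : ℤ)) i := by
  unfold LaneOp.fn
  split <;> split <;> simp

theorem laneSumFn_add_const (N : ℕ) (ops : List LaneOp) (z : ℕ → ℤ) (c : ℤ) (i : ℕ) :
    laneSumFn N ops (fun j => z j + c) i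
      = laneSumFn N ops z i + c * laneSumFn N ops (fun _ => (1 : ℤ)) i := by
  induction ops with
  | nil => simp [laneSumFn]
  | cons op ops ih =>
    unfold laneSumFn at ih ⊢
    rw [List.map_cons, List.sum_cons, List.map_cons, List.sum_cons, List.map_cons, List.sum_cons,
      ih, LaneOp.fn_add_const]
    ring

/-- the total weight of a program. -/
def laneWeight (ops : List LaneOp) : ℕ := (ops.map LaneOp.coef).sum

theorem LaneOp.fn_abs_le (N : ℕ) (op : LaneOp) {z : ℕ → ℤ} {B : ℤ} (hB : 0 ≤ B)
    (hz : ∀ j, j < N → |z j| ≤ B) {i : ℕ} (hi : i < N) : |op.fn N z i| ≤ B := by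
  unfold LaneOp.fn
  split
  · split
    · exact hz _ (by omega)
    · simpa using hB
  · split
    · rename_i h2
      exact hz _ h2.1
    · simpa using hB

theorem laneSumFn_abs_le (N : ℕ) (ops : List LaneOp) {z : ℕ → ℤ} {B : ℤ} (hB : 0 ≤ B)
    (hz : ∀ j, j < N → |z j| ≤ B) {i : ℕ} (hi : i < N) :
    |laneSumFn N ops z i| ≤ laneWeight ops * B := by
  induction ops with
  | nil => simp [laneSumFn, laneWeight]
  | cons op ops ih =>
    unfold laneSumFn laneWeight at ih ⊢
    rw [List.map_cons, List.sum_cons, List.map_cons, List.sum_cons]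
    have h1 := op.fn_abs_le N hB hz hi
    have h2 : |(op.coef : ℤ) * op.fn N z i| ≤ op.coef * B := by
      rw [abs_mul, Nat.abs_cast]
      exact mul_le_mul_of_nonneg_left h1 (by positivity)
    calc |(op.coef : ℤ) * op.fn N z i + (ops.map fun op => (op.coef : ℤ) * op.fn N z i).sum|
        ≤ |(op.coef : ℤ) * op.fn N z i| + |(ops.map fun op => (op.coef : ℤ) * op.fn N z i).sum| :=
          abs_add_le _ _
      _ ≤ op.coef * B + ((ops.map LaneOp.coef).sum : ℕ) * B := add_le_add h2 ih
      _ = ((op.coef + (ops.map LaneOp.coef).sum : ℕ) : ℤ) * B := by push_cast; ring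

/-- The lemmas that are written on demand are cited here once, so that no two downstream files hold
their own copies (RULES.md, rule 6). -/
theorem lanesProg_eqns_cited : True := by
  have := @laneConst.eq_1; have := @laneConst.eq_def; have := @laneConst.congr_simp
  have := @LaneOp.app.eq_1; have := @LaneOp.app.eq_def; have := @LaneOp.app.congr_simp
  have := @LaneOp.fn.eq_1; have := @LaneOp.fn.eq_def; have := @LaneOp.fn.congr_simp
  have := @laneSum.eq_1; have := @laneSum.eq_def; have := @laneSum.congr_simp
  have := @laneSumFn.eq_1; have := @laneSumFn.eq_def; have := @laneSumFn.congr_simp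
  have := @laneWeight.eq_1; have := @laneWeight.eq_def; have := @laneWeight.congr_simp
  trivial

end Claimed.Agent.R297
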