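/-
Row 297 (spin-one Haldane gap), package D4 (helper81): one rounded recurrence step
`y₀ = ⌊A y₁ / 2^s⌋ + c e - y₂` on biased packed lanes, with a run-time range check.
-/
import Claimed.Agent.R297.LanesProg

namespace Claimed.Agent.R297

/-- `X` stores the integer vector `z` (entries in `[-2^a, 2^a)`) with bias `2^o`. -/
def LaneRep (w N o a X : ℕ) (z : ℕ → ℤ) : Prop :=
  ∃ f : ℕ → ℕ, X = lanePack w f N ∧
    ∀ i, i < N → (f i : ℤ) = z i + 2 ^ o ∧ -2 ^ a ≤ z i ∧ z i < 2 ^ a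

/-- the integer operator described by the two programs. -/
def laneA (N : ℕ) (pos neg : List LaneOp) (z : ℕ → ℤ) (i : ℕ) : ℤ :=
  laneSumFn N pos z i - laneSumFn N neg z i

/-- the constant that repairs the bias after applying the two programs. -/
def laneCorr (w N o g : ℕ) (pos neg : List LaneOp) : ℕ :=
  (laneConst w N (2 ^ (o + g)) + laneSum w (laneConst w N (2 ^ o)) neg)
    - laneSum w (laneConst w N (2 ^ o)) pos

/-- the rounded step.  Result `none` if the range check fails. -/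
def laneStep (w N o a g : ℕ) (pos neg : List LaneOp) (s c Ev X1 X2 : ℕ) : Option ℕ :=
  let T := (laneSum w X1 pos + laneCorr w N o g pos neg) - laneSum w X1 neg
  let D := (T >>> s) &&& laneConst w N (2 ^ (w - s) - 1)
  let X0 := (D + c * Ev) - (X2 + laneConst w N (2 ^ (o + g - s) - 2 ^ (o + 1)))
  if (X0 + laneConst w N (2 ^ a)) &&& laneConst w N (2 ^ w - 2 ^ (a + 1)) = laneConst w N (2 ^ o)
  then some X0 else none

theorem lane_and_high {v w k : ℕ} (hv : v < 2 ^ w) (hk : k ≤ w) :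
    v &&& (2 ^ w - 2 ^ k) = v / 2 ^ k * 2 ^ k := by
  have e : 2 ^ w - 2 ^ k = (2 ^ (w - k) - 1) <<< k := by
    rw [Nat.shiftLeft_eq, Nat.sub_mul, one_mul, ← pow_add, Nat.sub_add_cancel hk]
  rw [e]
  apply Nat.eq_of_testBit_eq
  intro j
  rw [Nat.testBit_and, Nat.testBit_shiftLeft, Nat.testBit_two_pow_sub_one, Nat.testBit_mul_two_pow,
    Nat.testBit_div_two_pow]
  by_cases hj : k ≤ j
  · have e2 : j - k + k = j := Nat.sub_add_cancel hj
    simp only [ge_iff_le, hj, decide_true, Bool.true_and, e2]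
    by_cases hjw : j < w
    · have : j - k < w - k := by omega
      simp [this]
    · have : v.testBit j = false := Nat.testBit_lt_two_pow
        (lt_of_lt_of_le hv (Nat.pow_le_pow_right (by norm_num) (by omega)))
      simp [this]
  · simp [hj]

theorem laneSumFn_one_le (N : ℕ) (ops : List LaneOp) (i : ℕ) :
    laneSumFn N ops (fun _ => (1 : ℕ)) i ≤ laneWeight ops := by
  induction ops with
  | nil => simp [laneSumFn, laneWeight]
  | cons op ops ih =>
    unfold laneSumFn laneWeight at ih ⊢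
    rw [List.map_cons, List.sum_cons, List.map_cons, List.sum_cons]
    refine add_le_add ?_ ih
    have : op.fn N (fun _ => (1 : ℕ)) i ≤ 1 := by
      unfold LaneOp.fn
      split <;> split <;> simp
    calc ((op.coef : ℕ) : ℕ) * op.fn N (fun _ => (1 : ℕ)) i ≤ op.coef * 1 :=
          Nat.mul_le_mul_left _ this
      _ = op.coef := by simp

theorem laneCorr_eq {w N o g : ℕ} (hw : 0 < w) (how : o < w) {pos neg : List LaneOp}
    (hpos : ∀ op ∈ pos, op.Valid w N) (hneg : ∀ op ∈ neg, op.Valid w N)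
    (hwt : laneWeight pos ≤ 2 ^ g) :
    ∃ κ : ℕ → ℕ, laneCorr w N o g pos neg = lanePack w κ N ∧
      ∀ i, (κ i : ℤ) = 2 ^ (o + g) + 2 ^ o * laneSumFn N neg (fun _ => (1 : ℤ)) i
        - 2 ^ o * laneSumFn N pos (fun _ => (1 : ℤ)) i := by
  have hO : ∀ i, i < N → (fun _ : ℕ => 2 ^ o) i < 2 ^ w := fun _ _ =>
    Nat.pow_lt_pow_right (by norm_num) how
  have hmul : ∀ (ops : List LaneOp) (i : ℕ), laneSumFn N ops (fun _ => 2 ^ o) i
      = 2 ^ o * laneSumFn N ops (fun _ => (1 : ℕ)) i := by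
    intro ops i
    induction ops with
    | nil => simp [laneSumFn]
    | cons op ops ih =>
      unfold laneSumFn at ih ⊢
      rw [List.map_cons, List.sum_cons, List.map_cons, List.sum_cons, ih, Nat.mul_add]
      congr 1
      unfold LaneOp.fn
      split <;> split <;> simp [Nat.mul_comm]
  have hle : ∀ i, i < N → laneSumFn N pos (fun _ => 2 ^ o) i
      ≤ 2 ^ (o + g) + laneSumFn N neg (fun _ => 2 ^ o) i := by
    intro i _
    rw [hmul pos i]
    calc 2 ^ o * laneSumFn N pos (fun _ => (1 : ℕ)) i ≤ 2 ^ o * 2 ^ g :=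
          Nat.mul_le_mul_left _ ((laneSumFn_one_le N pos i).trans hwt)
      _ = 2 ^ (o + g) := by rw [pow_add]
      _ ≤ _ := Nat.le_add_right _ _
  refine ⟨fun i => 2 ^ (o + g) + laneSumFn N neg (fun _ => 2 ^ o) i
      - laneSumFn N pos (fun _ => 2 ^ o) i, ?_, ?_⟩
  · unfold laneCorr
    rw [laneConst_eq hw, laneConst_eq hw, laneSum_eq hw hneg hO, laneSum_eq hw hpos hO,
      lanePack_add, lanePack_sub hle]
  · intro i
    have h1 : laneSumFn N pos (fun _ => 2 ^ o) i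
        ≤ 2 ^ (o + g) + laneSumFn N neg (fun _ => 2 ^ o) i := by
      rw [hmul pos i]
      calc 2 ^ o * laneSumFn N pos (fun _ => (1 : ℕ)) i ≤ 2 ^ o * 2 ^ g :=
            Nat.mul_le_mul_left _ ((laneSumFn_one_le N pos i).trans hwt)
        _ = 2 ^ (o + g) := by rw [pow_add]
        _ ≤ _ := Nat.le_add_right _ _
    show ((2 ^ (o + g) + laneSumFn N neg (fun _ => 2 ^ o) i
      - laneSumFn N pos (fun _ => 2 ^ o) i : ℕ) : ℤ) = _
    rw [Nat.cast_sub h1, Nat.cast_add, hmul, hmul, Nat.cast_mul, Nat.cast_mul, laneSumFn_cast,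
      laneSumFn_cast]
    push_cast
    ring

/-- numerical side conditions of the engine. -/
structure LaneParams (w N o a g : ℕ) (pos neg : List LaneOp) : Prop where
  hw : 0 < w
  hogw : o + g + 1 ≤ w
  hao : a + 1 ≤ o
  hpos : ∀ op ∈ pos, op.Valid w N
  hneg : ∀ op ∈ neg, op.Valid w N
  hwt : laneWeight pos ≤ 2 ^ g
  hR : (laneWeight pos + laneWeight neg) * 2 ^ a < 2 ^ (o + g)

theorem laneA_abs_le {N a : ℕ} {pos neg : List LaneOp} {z : ℕ → ℤ}
    (hz : ∀ i, i < N → -2 ^ a ≤ z i ∧ z i < 2 ^ a) {i : ℕ} (hi : i < N) :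
    |laneA N pos neg z i| ≤ ((laneWeight pos + laneWeight neg) * 2 ^ a : ℕ) := by
  have hz' : ∀ j, j < N → |z j| ≤ (2 : ℤ) ^ a := fun j hj => by
    rw [abs_le]; exact ⟨(hz j hj).1, (hz j hj).2.le⟩
  have h1 := laneSumFn_abs_le N pos (by positivity) hz' hi
  have h2 := laneSumFn_abs_le N neg (by positivity) hz' hi
  unfold laneA
  calc |laneSumFn N pos z i - laneSumFn N neg z i|
      ≤ |laneSumFn N pos z i| + |laneSumFn N neg z i| := abs_sub _ _
    _ ≤ laneWeight pos * 2 ^ a + laneWeight neg * 2 ^ a := add_le_add h1 h2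
    _ = _ := by push_cast; ring

theorem lane_sub_cast {p q : ℕ} {x : ℤ} (h : (p : ℤ) - (q : ℤ) = x) (hx : 0 ≤ x) :
    q ≤ p ∧ ((p - q : ℕ) : ℤ) = x := by
  omega

/-- the accumulated vector `A z + 2^(o+g)`. -/
theorem laneStep_T {w N o a g : ℕ} {pos neg : List LaneOp} (hP : LaneParams w N o a g pos neg)
    {X1 : ℕ} {z1 : ℕ → ℤ} (h1 : LaneRep w N o a X1 z1) :
    ∃ t : ℕ → ℕ, (laneSum w X1 pos + laneCorr w N o g pos neg) - laneSum w X1 neg
        = lanePack w t N ∧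
      ∀ i, i < N → (t i : ℤ) = laneA N pos neg z1 i + 2 ^ (o + g) ∧ t i < 2 ^ w := by
  obtain ⟨f1, rfl, hf1⟩ := h1
  have hw := hP.hw
  have how : o < w := by have := hP.hogw; omega
  obtain ⟨κ, hκ, hκ'⟩ := laneCorr_eq (o := o) (g := g) hw how hP.hpos hP.hneg hP.hwt
  have p_ao : (2 : ℤ) ^ (a + 1) ≤ 2 ^ o := pow_le_pow_right₀ (by norm_num) hP.hao
  have p_a1 : (2 : ℤ) ^ (a + 1) = 2 * 2 ^ a := by ring
  have p_ow : (2 : ℤ) ^ (o + g + 1) ≤ 2 ^ w := pow_le_pow_right₀ (by norm_num) hP.hogw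
  have p_og1 : (2 : ℤ) ^ (o + g + 1) = 2 * 2 ^ (o + g) := by ring
  have p_o1 : (2 : ℤ) * 2 ^ o ≤ 2 ^ w := by
    have : (2 : ℤ) ^ (o + 1) ≤ 2 ^ w := pow_le_pow_right₀ (by norm_num) (by omega)
    calc (2 : ℤ) * 2 ^ o = 2 ^ (o + 1) := by ring
      _ ≤ _ := this
  have p_a : (0 : ℤ) < 2 ^ a := by positivity
  have hf1lt : ∀ i, i < N → f1 i < 2 ^ w := by
    intro i hi
    obtain ⟨e1, e2, e3⟩ := hf1 i hi
    have : (f1 i : ℤ) < 2 ^ w := by rw [e1]; linarith only [e3, p_ao, p_a1, p_o1, p_a]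
    exact_mod_cast this
  have hPz : ∀ i, i < N → ((laneSumFn N pos f1 i : ℕ) : ℤ)
      = laneSumFn N pos z1 i + 2 ^ o * laneSumFn N pos (fun _ => (1 : ℤ)) i := by
    intro i hi
    rw [laneSumFn_cast, ← laneSumFn_add_const]
    exact laneSumFn_congr pos (fun j hj => (hf1 j hj).1) hi
  have hQz : ∀ i, i < N → ((laneSumFn N neg f1 i : ℕ) : ℤ)
      = laneSumFn N neg z1 i + 2 ^ o * laneSumFn N neg (fun _ => (1 : ℤ)) i := by
    intro i hi
    rw [laneSumFn_cast, ← laneSumFn_add_const]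
    exact laneSumFn_congr neg (fun j hj => (hf1 j hj).1) hi
  have hRz : (((laneWeight pos + laneWeight neg) * 2 ^ a : ℕ) : ℤ) < 2 ^ (o + g) := by
    exact_mod_cast hP.hR
  have key : ∀ i, i < N → laneSumFn N neg f1 i ≤ laneSumFn N pos f1 i + κ i ∧
      ((laneSumFn N pos f1 i + κ i - laneSumFn N neg f1 i : ℕ) : ℤ)
        = laneA N pos neg z1 i + 2 ^ (o + g) := by
    intro i hi
    have hA := abs_le.1 (laneA_abs_le (pos := pos) (neg := neg) (fun j hj => (hf1 j hj).2) hi)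
    refine lane_sub_cast ?_ (by linarith only [hA.1, hRz])
    rw [Nat.cast_add, hPz i hi, hQz i hi, hκ' i]
    unfold laneA
    ring
  refine ⟨fun i => laneSumFn N pos f1 i + κ i - laneSumFn N neg f1 i, ?_, fun i hi => ⟨(key i hi).2, ?_⟩⟩
  · rw [laneSum_eq hw hP.hpos hf1lt, laneSum_eq hw hP.hneg hf1lt, hκ, lanePack_add,
      lanePack_sub fun i hi => (key i hi).1]
  · have hA := abs_le.1 (laneA_abs_le (pos := pos) (neg := neg) (fun j hj => (hf1 j hj).2) hi)
    have : ((laneSumFn N pos f1 i + κ i - laneSumFn N neg f1 i : ℕ) : ℤ) < 2 ^ w := by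
      rw [(key i hi).2]; linarith only [hA.2, hRz, p_ow, p_og1]
    exact_mod_cast this

/-- the rounded vector `⌊A z / 2^s⌋ + 2^(o+g-s)`. -/
theorem laneStep_D {w N o g s : ℕ} (hw : 0 < w) (hsw : s ≤ w) (hsg : s ≤ o + g) {t : ℕ → ℕ}
    {y : ℕ → ℤ} (ht : ∀ i, i < N → (t i : ℤ) = y i + 2 ^ (o + g) ∧ t i < 2 ^ w) :
    (lanePack w t N >>> s) &&& laneConst w N (2 ^ (w - s) - 1)
        = lanePack w (fun i => t i / 2 ^ s) N ∧
      ∀ i, i < N → ((t i / 2 ^ s : ℕ) : ℤ) = y i / 2 ^ s + 2 ^ (o + g - s) := by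
  constructor
  · rw [laneConst_eq hw, lanePack_shr_mask hw (fun i hi => (ht i hi).2) hsw]
  · intro i hi
    have p_split : (2 : ℤ) ^ (o + g) = 2 ^ s * 2 ^ (o + g - s) := by
      rw [← pow_add]; congr 1; omega
    rw [Int.natCast_div, (ht i hi).1, p_split]
    push_cast
    rw [Int.add_mul_ediv_left _ _ (by positivity)]

theorem lane_floor_bounds {A R : ℤ} {o a s : ℕ} (hA : |A| ≤ R)
    (hRs : R + 2 ^ s * (2 ^ a + 1) ≤ 2 ^ o * 2 ^ s) :
    -(2 : ℤ) ^ o + 2 ^ a ≤ A / 2 ^ s ∧ A / 2 ^ s ≤ 2 ^ o := by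
  have hA' := abs_le.1 hA
  have p_s : (0 : ℤ) < 2 ^ s := by positivity
  have p_a : (0 : ℤ) < 2 ^ a := by positivity
  constructor
  · rw [Int.le_ediv_iff_mul_le p_s]
    nlinarith only [hA'.1, hRs, p_s, p_a]
  · have : A / 2 ^ s < 2 ^ o + 1 := by
      rw [Int.ediv_lt_iff_lt_mul p_s]
      nlinarith only [hA'.2, hRs, p_s, p_a]
    omega

/-- meaning of the range check on one lane. -/
theorem lane_check {x w a o : ℕ} (hx : x + 2 ^ a < 2 ^ w) (haw : a + 1 ≤ w)
    (h : (x + 2 ^ a) &&& (2 ^ w - 2 ^ (a + 1)) = 2 ^ o) :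
    (2 : ℤ) ^ o - 2 ^ a ≤ x ∧ (x : ℤ) < 2 ^ o + 2 ^ a := by
  rw [lane_and_high hx haw] at h
  have hmod := Nat.div_add_mod (x + 2 ^ a) (2 ^ (a + 1))
  have hmlt := Nat.mod_lt (x + 2 ^ a) (show 0 < 2 ^ (a + 1) by positivity)
  rw [Nat.mul_comm, h] at hmod
  generalize (x + 2 ^ a) % 2 ^ (a + 1) = r at hmod hmlt
  have h3 : ((2 ^ o + r : ℕ) : ℤ) = ((x + 2 ^ a : ℕ) : ℤ) := by exact_mod_cast hmod
  have h4 : (r : ℤ) < 2 ^ (a + 1) := by exact_mod_cast hmlt
  have h5 : (0 : ℤ) ≤ (r : ℤ) := by positivity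
  have p_a1 : (2 : ℤ) ^ (a + 1) = 2 * 2 ^ a := by ring
  push_cast at h3
  constructor <;> linarith only [h3, h4, h5, p_a1]

/-- **Correctness of one step.** -/
theorem laneStep_spec {w N o a g : ℕ} {pos neg : List LaneOp} (hP : LaneParams w N o a g pos neg)
    {s c Ev X1 X2 X0 : ℕ} {z1 z2 : ℕ → ℤ} {e : ℕ → ℕ}
    (hs : s + 1 ≤ g)
    (hRs : (laneWeight pos + laneWeight neg) * 2 ^ a + 2 ^ s * (2 ^ a + 1) ≤ 2 ^ (o + s))
    (hc : c ≤ 2 ^ a) (hEv : Ev = lanePack w e N) (he : ∀ i, i < N → e i ≤ 1)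
    (h1 : LaneRep w N o a X1 z1) (h2 : LaneRep w N o a X2 z2)
    (h : laneStep w N o a g pos neg s c Ev X1 X2 = some X0) :
    LaneRep w N o a X0 (fun i => laneA N pos neg z1 i / 2 ^ s + c * e i - z2 i) := by
  have hw := hP.hw
  have how : o < w := by have := hP.hogw; omega
  obtain ⟨t, hT, ht⟩ := laneStep_T hP h1
  obtain ⟨hD, hd⟩ := laneStep_D (s := s) hw (by have := hP.hogw; omega) (by omega) ht
  have hz1 : ∀ j, j < N → -2 ^ a ≤ z1 j ∧ z1 j < 2 ^ a := by
    obtain ⟨f1, -, hf1⟩ := h1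
    exact fun j hj => (hf1 j hj).2
  obtain ⟨f2, rfl, hf2⟩ := h2
  have hRs' : (((laneWeight pos + laneWeight neg) * 2 ^ a : ℕ) : ℤ) + 2 ^ s * (2 ^ a + 1)
      ≤ 2 ^ o * 2 ^ s := by
    have : (((laneWeight pos + laneWeight neg) * 2 ^ a + 2 ^ s * (2 ^ a + 1) : ℕ) : ℤ)
        ≤ ((2 ^ (o + s) : ℕ) : ℤ) := by exact_mod_cast hRs
    rw [pow_add] at this
    push_cast at this ⊢
    exact this
  have hfl : ∀ i, i < N → -(2 : ℤ) ^ o + 2 ^ a ≤ laneA N pos neg z1 i / 2 ^ s ∧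
      laneA N pos neg z1 i / 2 ^ s ≤ 2 ^ o := fun i hi =>
    lane_floor_bounds (laneA_abs_le hz1 hi) hRs'
  have hko_le : 2 ^ (o + 1) ≤ 2 ^ (o + g - s) := Nat.pow_le_pow_right (by norm_num) (by omega)
  have hkoz : ((2 ^ (o + g - s) - 2 ^ (o + 1) : ℕ) : ℤ) = 2 ^ (o + g - s) - 2 * 2 ^ o := by
    rw [Nat.cast_sub hko_le]; push_cast; ring
  unfold laneStep at h
  generalize 2 ^ (o + g - s) - 2 ^ (o + 1) = ko at hkoz h
  have hcz : (c : ℤ) ≤ 2 ^ a := by exact_mod_cast hc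
  have key : ∀ i, i < N → f2 i + ko ≤ t i / 2 ^ s + c * e i ∧
      ((t i / 2 ^ s + c * e i - (f2 i + ko) : ℕ) : ℤ)
        = (laneA N pos neg z1 i / 2 ^ s + c * e i - z2 i) + 2 ^ o := by
    intro i hi
    obtain ⟨e1, e2, e3⟩ := hf2 i hi
    have hce : (0 : ℤ) ≤ (c : ℤ) * (e i : ℤ) := by positivity
    refine lane_sub_cast ?_ (by linarith only [(hfl i hi).1, hce, e3])
    rw [Nat.cast_add, hd i hi, Nat.cast_add, e1, hkoz]
    push_cast
    ring
  have hX0 : (lanePack w (fun i => t i / 2 ^ s) N + c * Ev)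
      - (lanePack w f2 N + laneConst w N ko)
      = lanePack w (fun i => t i / 2 ^ s + c * e i - (f2 i + ko)) N := by
    rw [hEv, lanePack_mul_left, lanePack_add, laneConst_eq hw, lanePack_add,
      lanePack_sub fun i hi => (key i hi).1]
  have p_o2 : (4 : ℤ) * 2 ^ o ≤ 2 ^ w := by
    have : (2 : ℤ) ^ (o + 2) ≤ 2 ^ w := pow_le_pow_right₀ (by norm_num) (by have := hP.hogw; omega)
    calc (4 : ℤ) * 2 ^ o = 2 ^ (o + 2) := by ring
      _ ≤ _ := this
  have p_ao : (2 : ℤ) ^ (a + 1) ≤ 2 ^ o := pow_le_pow_right₀ (by norm_num) hP.hao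
  have p_a1 : (2 : ℤ) ^ (a + 1) = 2 * 2 ^ a := by ring
  have p_a : (0 : ℤ) < 2 ^ a := by positivity
  have hx0lt : ∀ i, i < N → (t i / 2 ^ s + c * e i - (f2 i + ko)) + 2 ^ a < 2 ^ w := by
    intro i hi
    obtain ⟨e1, e2, e3⟩ := hf2 i hi
    have hei : (e i : ℤ) ≤ 1 := by exact_mod_cast he i hi
    have hc0 : (0 : ℤ) ≤ (c : ℤ) := by positivity
    have hce : (c : ℤ) * (e i : ℤ) ≤ 2 ^ a := by nlinarith only [hei, hcz, hc0]
    have : (((t i / 2 ^ s + c * e i - (f2 i + ko)) + 2 ^ a : ℕ) : ℤ) < 2 ^ w := by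
      rw [Nat.cast_add, (key i hi).2]
      push_cast
      linarith only [(hfl i hi).2, hce, e2, p_o2, p_ao, p_a1, p_a]
    exact_mod_cast this
  simp only [hT, hD, hX0] at h
  split at h
  · rename_i hchk
    have hX : X0 = lanePack w (fun i => t i / 2 ^ s + c * e i - (f2 i + ko)) N := by
      simpa using h.symm
    refine ⟨_, hX, fun i hi => ⟨(key i hi).2, ?_⟩⟩
    have haw : a + 1 ≤ w := by have := hP.hogw; have := hP.hao; omega
    have hhigh : ∀ i, i < N → (fun _ : ℕ => 2 ^ w - 2 ^ (a + 1)) i < 2 ^ w := by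
      intro _ _
      have h1 : 0 < 2 ^ (a + 1) := by positivity
      have h2 : 0 < 2 ^ w := by positivity
      show 2 ^ w - 2 ^ (a + 1) < 2 ^ w
      omega
    rw [laneConst_eq hw, laneConst_eq hw, laneConst_eq hw, lanePack_add,
      lanePack_and hw hx0lt hhigh] at hchk
    have hl := lanePack_inj (fun j hj => lt_of_le_of_lt Nat.and_le_left (hx0lt j hj))
      (fun _ _ => Nat.pow_lt_pow_right (by norm_num) how) hchk i hi
    have hc2 := lane_check (hx0lt i hi) haw hl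
    rw [(key i hi).2] at hc2
    constructor
    · linarith only [hc2.1]
    · linarith only [hc2.2]
  · simp at h

/-- The lemmas that are written on demand are cited here once, so that no two downstream files hold
their own copies (RULES.md, rule 6). -/
theorem lanesStep_eqns_cited : True := by
  have := @LaneRep.eq_1; have := @LaneRep.eq_def; have := @LaneRep.congr_simp
  have := @laneA.eq_1; have := @laneA.eq_def; have := @laneA.congr_simp
  have := @laneCorr.eq_1; have := @laneCorr.eq_def; have := @laneCorr.congr_simp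
  have := @laneStep.eq_1; have := @laneStep.eq_def; have := @laneStep.congr_simp
  trivial

end Claimed.Agent.R297
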