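/-
Row 297 (spin-one Haldane gap), package D4 (helper81): from lanes to configurations.
A layout identifies the lanes `0..N-1` with a subset `S` of an index type `ι`; a masked move is
then the action of a partial-permutation matrix on `ι`.
-/
import Claimed.Agent.R297.LanesStep

namespace Claimed.Agent.R297

open Matrix

/-- identification of the lanes `i < N` with the subset `S` of `ι`. -/
structure LaneLayout (ι : Type) (N : ℕ) where
  code : ι → ℕ
  dec : ℕ → ι
  S : ι → Prop
  dec_mem : ∀ i, i < N → S (dec i)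
  code_dec : ∀ i, i < N → code (dec i) = i
  dec_code : ∀ x, S x → dec (code x) = x
  code_lt : ∀ x, S x → code x < N

/-- a masked move described on configurations: the configurations `y` with `D y` are sent to
`σ y`, with weight `coef`. -/
structure SiteOp (ι : Type) where
  D : ι → Bool
  σ : ι → ι
  m : ℕ
  up : Bool
  sh : ℕ
  coef : ℕ

variable {ι : Type} {N : ℕ}

def SiteOp.toLane (L : LaneLayout ι N) (op : SiteOp ι) : LaneOp :=
  ⟨fun i => op.D (L.dec i), op.m, op.up, op.sh, op.coef⟩

structure SiteOp.Valid (w : ℕ) (L : LaneLayout ι N) (op : SiteOp ι) : Prop where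
  mask : op.m = lanePack w (fun i => if op.D (L.dec i) then 2 ^ w - 1 else 0) N
  mem : ∀ y, L.S y → op.D y = true → L.S (op.σ y)
  mem' : ∀ y, op.D y = true → L.S (op.σ y) → L.S y
  shift : ∀ y, L.S y → op.D y = true →
    (if op.up = true then L.code (op.σ y) = L.code y + op.sh
      else L.code (op.σ y) + op.sh = L.code y)

theorem SiteOp.Valid.toLane {w : ℕ} {L : LaneLayout ι N} {op : SiteOp ι} (h : op.Valid w L) :
    (op.toLane L).Valid w N where
  mask := h.mask
  range := by
    intro hup i hi hμ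
    have hS := L.dec_mem i hi
    have h1 := h.shift (L.dec i) hS hμ
    have hup' : op.up = true := hup
    rw [if_pos hup', L.code_dec i hi] at h1
    have h2 := L.code_lt _ (h.mem _ hS hμ)
    show i + op.sh < N
    omega

theorem SiteOp.fn_up {α : Type} [Zero α] (L : LaneLayout ι N) (op : SiteOp ι) (h : op.up = true)
    (f : ℕ → α) (i : ℕ) : (op.toLane L).fn N f i
      = if op.sh ≤ i ∧ op.D (L.dec (i - op.sh)) = true then f (i - op.sh) else 0 := by
  unfold LaneOp.fn
  rw [if_pos (show (op.toLane L).up = true from h)]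
  rfl

theorem SiteOp.fn_down {α : Type} [Zero α] (L : LaneLayout ι N) (op : SiteOp ι)
    (h : ¬ op.up = true) (f : ℕ → α) (i : ℕ) : (op.toLane L).fn N f i
      = if i + op.sh < N ∧ op.D (L.dec (i + op.sh)) = true then f (i + op.sh) else 0 := by
  unfold LaneOp.fn
  rw [if_neg (show ¬ (op.toLane L).up = true from h)]
  rfl

/-- the matrix of a move (with its coefficient). -/
def SiteOp.mat [DecidableEq ι] (op : SiteOp ι) : Matrix ι ι ℤ :=
  fun x y => if op.D y = true ∧ op.σ y = x then (op.coef : ℤ) else 0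

theorem SiteOp.fn_eq [Fintype ι] [DecidableEq ι] {w : ℕ} {L : LaneLayout ι N} {op : SiteOp ι}
    (h : op.Valid w L) (z : ι → ℤ) {x : ι} (hx : L.S x) :
    (op.coef : ℤ) * (op.toLane L).fn N (fun i => z (L.dec i)) (L.code x) = (op.mat *ᵥ z) x := by
  classical
  have hxN := L.code_lt x hx
  -- the right-hand side
  have hR : (op.mat *ᵥ z) x
      = ∑ y, if op.D y = true ∧ op.σ y = x then (op.coef : ℤ) * z y else 0 := by
    unfold Matrix.mulVec dotProduct SiteOp.mat
    exact Finset.sum_congr rfl fun y _ => by rw [ite_mul, zero_mul]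
  rw [hR]
  -- uniqueness of the source
  have huniq : ∀ y y', op.D y = true ∧ op.σ y = x → op.D y' = true ∧ op.σ y' = x → y = y' := by
    intro y y' hy hy'
    have hyS := h.mem' y hy.1 (by rw [hy.2]; exact hx)
    have hyS' := h.mem' y' hy'.1 (by rw [hy'.2]; exact hx)
    have s1 := h.shift y hyS hy.1
    have s2 := h.shift y' hyS' hy'.1
    rw [hy.2] at s1
    rw [hy'.2] at s2
    have : L.code y = L.code y' := by
      by_cases hup : op.up = true
      · rw [if_pos hup] at s1 s2; omega
      · rw [if_neg hup] at s1 s2; omega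
    rw [← L.dec_code y hyS, ← L.dec_code y' hyS', this]
  by_cases hex : ∃ y, op.D y = true ∧ op.σ y = x
  · obtain ⟨y, hy⟩ := hex
    have hyS := h.mem' y hy.1 (by rw [hy.2]; exact hx)
    have s1 := h.shift y hyS hy.1
    rw [hy.2] at s1
    rw [Finset.sum_eq_single y]
    · rw [if_pos hy]
      congr 1
      by_cases hup : op.up = true
      · rw [if_pos hup] at s1
        rw [SiteOp.fn_up L op hup]
        have e1 : L.code x - op.sh = L.code y := by omega
        rw [e1, L.dec_code y hyS, if_pos ⟨by omega, hy.1⟩]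
      · rw [if_neg hup] at s1
        rw [SiteOp.fn_down L op hup]
        rw [s1, L.dec_code y hyS, if_pos ⟨L.code_lt y hyS, hy.1⟩]
    · intro y' _ hne
      rw [if_neg fun hy' => hne (huniq y' y hy' hy)]
    · intro hn; exact absurd (Finset.mem_univ y) hn
  · rw [Finset.sum_eq_zero fun y _ => if_neg fun hy => hex ⟨y, hy⟩]
    have : (op.toLane L).fn N (fun i => z (L.dec i)) (L.code x) = 0 := by
      by_cases hup : op.up = true
      · rw [SiteOp.fn_up L op hup]
        rw [if_neg]
        rintro ⟨h1, h2⟩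
        have hi : L.code x - op.sh < N := by omega
        have hS := L.dec_mem _ hi
        have s1 := h.shift _ hS h2
        rw [if_pos hup, L.code_dec _ hi] at s1
        have hS' := h.mem _ hS h2
        apply hex
        refine ⟨_, h2, ?_⟩
        rw [← L.dec_code _ hS', s1, Nat.sub_add_cancel h1, L.dec_code x hx]
      · rw [SiteOp.fn_down L op hup]
        rw [if_neg]
        rintro ⟨h1, h2⟩
        have hS := L.dec_mem _ h1
        have s1 := h.shift _ hS h2
        rw [if_neg hup, L.code_dec _ h1] at s1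
        have hS' := h.mem _ hS h2
        apply hex
        refine ⟨_, h2, ?_⟩
        have : L.code (op.σ (L.dec (L.code x + op.sh))) = L.code x := by omega
        rw [← L.dec_code _ hS', this, L.dec_code x hx]
    rw [this, mul_zero]

theorem SiteOp.mulVec_off [Fintype ι] [DecidableEq ι] {w : ℕ} {L : LaneLayout ι N} {op : SiteOp ι}
    (h : op.Valid w L) {z : ι → ℤ} (hz : ∀ y, ¬ L.S y → z y = 0) {x : ι} (hx : ¬ L.S x) :
    (op.mat *ᵥ z) x = 0 := by
  unfold Matrix.mulVec dotProduct SiteOp.mat
  refine Finset.sum_eq_zero fun y _ => ?_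
  show (if op.D y = true ∧ op.σ y = x then (op.coef : ℤ) else 0) * z y = 0
  by_cases hy : L.S y
  · rw [if_neg, zero_mul]
    rintro ⟨h1, h2⟩
    exact hx (h2 ▸ h.mem y hy h1)
  · rw [hz y hy, mul_zero]

/-- the integer matrix of a pair of programs. -/
def siteMat [DecidableEq ι] (pos neg : List (SiteOp ι)) : Matrix ι ι ℤ :=
  (pos.map SiteOp.mat).sum - (neg.map SiteOp.mat).sum

theorem siteSum_eq [Fintype ι] [DecidableEq ι] {w : ℕ} {L : LaneLayout ι N}
    {ops : List (SiteOp ι)} (h : ∀ op ∈ ops, op.Valid w L) (z : ι → ℤ) {x : ι} (hx : L.S x) :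
    laneSumFn N (ops.map (SiteOp.toLane L)) (fun i => z (L.dec i)) (L.code x)
      = ((ops.map SiteOp.mat).sum *ᵥ z) x := by
  induction ops with
  | nil => simp [laneSumFn]
  | cons op ops ih =>
    have h1 := ih fun o ho => h o (List.mem_cons_of_mem _ ho)
    unfold laneSumFn at h1 ⊢
    rw [List.map_cons, List.map_cons, List.sum_cons, List.map_cons, List.sum_cons, add_mulVec,
      Pi.add_apply, ← h1, ← SiteOp.fn_eq (h op List.mem_cons_self) z hx]
    rfl

theorem siteSum_off [Fintype ι] [DecidableEq ι] {w : ℕ} {L : LaneLayout ι N}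
    {ops : List (SiteOp ι)} (h : ∀ op ∈ ops, op.Valid w L) {z : ι → ℤ}
    (hz : ∀ y, ¬ L.S y → z y = 0) {x : ι} (hx : ¬ L.S x) :
    ((ops.map SiteOp.mat).sum *ᵥ z) x = 0 := by
  induction ops with
  | nil => simp
  | cons op ops ih =>
    have h1 := ih fun o ho => h o (List.mem_cons_of_mem _ ho)
    rw [List.map_cons, List.sum_cons, add_mulVec, Pi.add_apply, h1,
      SiteOp.mulVec_off (h op List.mem_cons_self) hz hx, add_zero]

theorem siteMat_eq [Fintype ι] [DecidableEq ι] {w : ℕ} {L : LaneLayout ι N}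
    {pos neg : List (SiteOp ι)} (hpos : ∀ op ∈ pos, op.Valid w L)
    (hneg : ∀ op ∈ neg, op.Valid w L) (z : ι → ℤ) {x : ι} (hx : L.S x) :
    laneA N (pos.map (SiteOp.toLane L)) (neg.map (SiteOp.toLane L)) (fun i => z (L.dec i))
      (L.code x) = (siteMat pos neg *ᵥ z) x := by
  unfold laneA siteMat
  rw [siteSum_eq hpos z hx, siteSum_eq hneg z hx, sub_mulVec, Pi.sub_apply]

theorem siteMat_off [Fintype ι] [DecidableEq ι] {w : ℕ} {L : LaneLayout ι N}
    {pos neg : List (SiteOp ι)} (hpos : ∀ op ∈ pos, op.Valid w L)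
    (hneg : ∀ op ∈ neg, op.Valid w L) {z : ι → ℤ} (hz : ∀ y, ¬ L.S y → z y = 0) {x : ι}
    (hx : ¬ L.S x) : (siteMat pos neg *ᵥ z) x = 0 := by
  unfold siteMat
  rw [sub_mulVec, Pi.sub_apply, siteSum_off hpos hz hx, siteSum_off hneg hz hx, sub_zero]

/-- `X` stores the vector `z : ι → ℤ`, which is supported on `S`. -/
def SiteRep (w o a : ℕ) (L : LaneLayout ι N) (X : ℕ) (z : ι → ℤ) : Prop :=
  LaneRep w N o a X (fun i => z (L.dec i)) ∧ ∀ y, ¬ L.S y → z y = 0

theorem LaneRep.congr {w N o a X : ℕ} {z z' : ℕ → ℤ} (h : LaneRep w N o a X z)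
    (hz : ∀ i, i < N → z i = z' i) : LaneRep w N o a X z' := by
  obtain ⟨f, hX, hf⟩ := h
  exact ⟨f, hX, fun i hi => by rw [← hz i hi]; exact hf i hi⟩

/-- **One step on configurations.** -/
theorem siteStep_spec [Fintype ι] [DecidableEq ι] {w o a g : ℕ} {L : LaneLayout ι N}
    {pos neg : List (SiteOp ι)}
    (hP : LaneParams w N o a g (pos.map (SiteOp.toLane L)) (neg.map (SiteOp.toLane L)))
    (hpos : ∀ op ∈ pos, op.Valid w L) (hneg : ∀ op ∈ neg, op.Valid w L)
    {s c Ev X1 X2 X0 : ℕ} {z1 z2 : ι → ℤ} {e : ι → ℕ}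
    (hs : s + 1 ≤ g)
    (hRs : (laneWeight (pos.map (SiteOp.toLane L)) + laneWeight (neg.map (SiteOp.toLane L)))
      * 2 ^ a + 2 ^ s * (2 ^ a + 1) ≤ 2 ^ (o + s))
    (hc : c ≤ 2 ^ a) (hEv : Ev = lanePack w (fun i => e (L.dec i)) N) (he : ∀ x, e x ≤ 1)
    (he0 : ∀ y, ¬ L.S y → e y = 0)
    (h1 : SiteRep w o a L X1 z1) (h2 : SiteRep w o a L X2 z2)
    (h : laneStep w N o a g (pos.map (SiteOp.toLane L)) (neg.map (SiteOp.toLane L)) s c Ev X1 X2
      = some X0) :
    SiteRep w o a L X0 (fun x => (siteMat pos neg *ᵥ z1) x / 2 ^ s + c * e x - z2 x) := by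
  have h3 := laneStep_spec hP hs hRs hc hEv (fun i _ => he _) h1.1 h2.1 h
  refine ⟨h3.congr fun i hi => ?_, fun y hy => ?_⟩
  · have := siteMat_eq hpos hneg z1 (L.dec_mem i hi)
    rw [L.code_dec i hi] at this
    rw [this]
  · show (siteMat pos neg *ᵥ z1) y / 2 ^ s + c * e y - z2 y = 0
    rw [siteMat_off hpos hneg h1.2 hy, he0 y hy, h2.2 y hy]
    simp

/-- The lemmas that are written on demand are cited here once, so that no two downstream files hold
their own copies (RULES.md, rule 6). -/
theorem lanesLayout_eqns_cited : True := by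
  have := @SiteOp.toLane.eq_1; have := @SiteOp.toLane.eq_def; have := @SiteOp.toLane.congr_simp
  have := @SiteOp.mat.eq_1; have := @SiteOp.mat.eq_def; have := @SiteOp.mat.congr_simp
  have := @siteMat.eq_1; have := @siteMat.eq_def; have := @siteMat.congr_simp
  have := @SiteRep.eq_1; have := @SiteRep.eq_def; have := @SiteRep.congr_simp
  trivial

end Claimed.Agent.R297
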