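/-
Row 297 (spin-one Haldane gap), package D1 (thermal error analysis), owner helper204.
The conditioned Poisson polynomial `P(w) = ∑_{j ≤ J} p_j w^j`, `p_j = (t^j/j!) / ∑_{l ≤ J} t^l/l!`
approximates `exp (t (w - 1))` on `[-1, 1]` up to twice the Poisson tail, and the tail is at most
`e^t / 2^(J+1)`.
-/
import Mathlib

namespace Claimed.Agent.R297

open Finset

/-- partial exponential sum `∑_{l ≤ J} t^l / l!`. -/
noncomputable def thA_expSum (t : ℝ) (J : ℕ) : ℝ := ∑ l ∈ range (J + 1), t ^ l / l.factorial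

/-- conditioned Poisson probabilities. -/
noncomputable def thA_pois (t : ℝ) (J : ℕ) (j : ℕ) : ℝ := (t ^ j / j.factorial) / thA_expSum t J

/-- the Poisson tail `P(V > J) = 1 - e^{-t} ∑_{l ≤ J} t^l/l!`. -/
noncomputable def thA_tail (t : ℝ) (J : ℕ) : ℝ := 1 - Real.exp (-t) * thA_expSum t J

theorem thA_exp_eq_tsum (x : ℝ) : Real.exp x = ∑' n : ℕ, x ^ n / n.factorial := by
  rw [Real.exp_eq_exp_ℝ, NormedSpace.exp_eq_tsum_div]

theorem thA_exp_sub_expSum (x : ℝ) (J : ℕ) :
    Real.exp x - thA_expSum x J = ∑' n : ℕ, x ^ (n + (J + 1)) / (n + (J + 1)).factorial := by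
  have h := (Real.summable_pow_div_factorial x).sum_add_tsum_nat_add (J + 1)
  rw [thA_exp_eq_tsum, ← h]
  unfold thA_expSum
  ring

theorem thA_expSum_pos {t : ℝ} (ht : 0 ≤ t) (J : ℕ) : 0 < thA_expSum t J := by
  unfold thA_expSum
  rw [Finset.sum_range_succ']
  have : 0 ≤ ∑ k ∈ range J, t ^ (k + 1) / ((k + 1).factorial : ℝ) :=
    Finset.sum_nonneg fun k _ => by positivity
  simp only [pow_zero, Nat.factorial_zero, Nat.cast_one, div_one]
  linarith

/-- remainder of the exponential series: monotone domination. -/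
theorem thA_abs_exp_sub_expSum_le {x t : ℝ} (hx : |x| ≤ t) (J : ℕ) :
    |Real.exp x - thA_expSum x J| ≤ Real.exp t - thA_expSum t J := by
  rw [thA_exp_sub_expSum, thA_exp_sub_expSum]
  have hs : ∀ y : ℝ, Summable fun n : ℕ => y ^ (n + (J + 1)) / ((n + (J + 1)).factorial : ℝ) :=
    fun y => (summable_nat_add_iff (J + 1)).2 (Real.summable_pow_div_factorial y)
  rw [← Real.norm_eq_abs]
  refine tsum_of_norm_bounded (hs t).hasSum fun n => ?_
  rw [Real.norm_eq_abs, abs_div, abs_pow, abs_of_pos (by positivity : (0:ℝ) < ((n + (J + 1)).factorial : ℝ))]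
  gcongr

theorem thA_expSum_le_exp {t : ℝ} (ht : 0 ≤ t) (J : ℕ) : thA_expSum t J ≤ Real.exp t :=
  Real.sum_le_exp_of_nonneg ht (J + 1)

theorem thA_tail_nonneg {t : ℝ} (ht : 0 ≤ t) (J : ℕ) : 0 ≤ thA_tail t J := by
  unfold thA_tail
  have h1 := thA_expSum_le_exp ht J
  have h2 : Real.exp (-t) * thA_expSum t J ≤ Real.exp (-t) * Real.exp t :=
    mul_le_mul_of_nonneg_left h1 (Real.exp_pos _).le
  rw [← Real.exp_add] at h2
  simp at h2
  linarith

theorem thA_pois_nonneg {t : ℝ} (ht : 0 ≤ t) (J j : ℕ) : 0 ≤ thA_pois t J j := by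
  unfold thA_pois
  have := thA_expSum_pos ht J
  positivity

theorem thA_sum_pois {t : ℝ} (ht : 0 ≤ t) (J : ℕ) : ∑ j ∈ range (J + 1), thA_pois t J j = 1 := by
  unfold thA_pois
  rw [← Finset.sum_div]
  exact div_self (thA_expSum_pos ht J).ne'

/-- **Conditioned Poisson polynomial.** -/
theorem thA_pois_poly_approx {t w : ℝ} (ht : 0 ≤ t) (hw : |w| ≤ 1) (J : ℕ) :
    |∑ j ∈ range (J + 1), thA_pois t J j * w ^ j - Real.exp (t * (w - 1))| ≤ 2 * thA_tail t J := by
  set S := thA_expSum t J with hS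
  have hSpos : 0 < S := thA_expSum_pos ht J
  set e := Real.exp (-t) with he
  have hepos : 0 < e := Real.exp_pos _
  have heS : e * S ≤ 1 := by
    have := thA_tail_nonneg ht J
    unfold thA_tail at this
    linarith
  have h1 : Real.exp (t * (w - 1)) = e * Real.exp (t * w) := by
    rw [he, ← Real.exp_add]; congr 1; ring
  have h2 : ∑ j ∈ range (J + 1), thA_pois t J j * w ^ j = (1 / S) * thA_expSum (t * w) J := by
    have hexp : thA_expSum (t * w) J = ∑ l ∈ range (J + 1), (t * w) ^ l / l.factorial := rfl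
    rw [hexp, Finset.mul_sum]
    refine Finset.sum_congr rfl fun j _ => ?_
    unfold thA_pois
    rw [← hS, mul_pow]
    field_simp
  have h3 : |thA_expSum (t * w) J| ≤ S := by
    unfold thA_expSum at *
    refine (Finset.abs_sum_le_sum_abs _ _).trans (Finset.sum_le_sum fun j _ => ?_)
    rw [abs_div, abs_pow, abs_mul, abs_of_nonneg ht,
      abs_of_pos (by positivity : (0:ℝ) < (j.factorial : ℝ))]
    have : (t * |w|) ^ j ≤ t ^ j := by
      apply pow_le_pow_left₀ (by positivity)
      nlinarith [abs_nonneg w]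
    gcongr
  have h4 : |Real.exp (t * w) - thA_expSum (t * w) J| ≤ Real.exp t - S := by
    apply thA_abs_exp_sub_expSum_le
    rw [abs_mul, abs_of_nonneg ht]
    nlinarith [abs_nonneg w]
  have h5 : e * Real.exp t = 1 := by
    rw [he, ← Real.exp_add]; simp
  rw [h1, h2]
  have h6 : (1 / S) * thA_expSum (t * w) J - e * Real.exp (t * w)
      = (1 / S - e) * thA_expSum (t * w) J - e * (Real.exp (t * w) - thA_expSum (t * w) J) := by
    ring
  have h7 : 0 ≤ 1 / S - e := by
    rw [sub_nonneg, le_div_iff₀ hSpos]; exact heS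
  rw [h6]
  calc |(1 / S - e) * thA_expSum (t * w) J - e * (Real.exp (t * w) - thA_expSum (t * w) J)|
      ≤ |(1 / S - e) * thA_expSum (t * w) J| + |e * (Real.exp (t * w) - thA_expSum (t * w) J)| :=
        abs_sub _ _
    _ = (1 / S - e) * |thA_expSum (t * w) J| + e * |Real.exp (t * w) - thA_expSum (t * w) J| := by
        rw [abs_mul, abs_mul, abs_of_nonneg h7, abs_of_pos hepos]
    _ ≤ (1 / S - e) * S + e * (Real.exp t - S) := by gcongr
    _ = 2 * thA_tail t J := by
        unfold thA_tail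
        rw [← hS, ← he]
        field_simp
        nlinarith [h5]

/-- Chernoff-type bound for the Poisson tail: `P(V > J) ≤ e^t / 2^(J+1)`. -/
theorem thA_tail_le {t : ℝ} (ht : 0 ≤ t) (J : ℕ) :
    thA_tail t J ≤ Real.exp t / 2 ^ (J + 1) := by
  have h1 : Real.exp t - thA_expSum t J ≤ Real.exp (2 * t) / 2 ^ (J + 1) := by
    rw [thA_exp_sub_expSum, le_div_iff₀ (by positivity), ← tsum_mul_right]
    have hs : ∀ y : ℝ, Summable fun n : ℕ => y ^ (n + (J + 1)) / ((n + (J + 1)).factorial : ℝ) :=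
      fun y => (summable_nat_add_iff (J + 1)).2 (Real.summable_pow_div_factorial y)
    have h2 : ∑' n : ℕ, (2 * t) ^ (n + (J + 1)) / ((n + (J + 1)).factorial : ℝ) ≤ Real.exp (2 * t) := by
      rw [← thA_exp_sub_expSum]
      have := thA_expSum_pos (by positivity : (0:ℝ) ≤ 2 * t) J
      linarith
    refine le_trans ?_ h2
    refine Summable.tsum_le_tsum (fun n => ?_) ((hs t).mul_right _) (hs (2 * t))
    rw [mul_pow, div_mul_eq_mul_div]
    have h3 : (2:ℝ) ^ (J + 1) ≤ 2 ^ (n + (J + 1)) :=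
      pow_le_pow_right₀ (by norm_num) (by omega)
    have h4 : 0 ≤ t ^ (n + (J + 1)) := by positivity
    gcongr ?_ / _
    nlinarith
  unfold thA_tail
  have h5 : Real.exp (-t) * Real.exp t = 1 := by rw [← Real.exp_add]; simp
  have h6 : Real.exp (-t) * Real.exp (2 * t) = Real.exp t := by
    rw [← Real.exp_add]; congr 1; ring
  have h7 : Real.exp (-t) * (Real.exp t - thA_expSum t J)
      ≤ Real.exp (-t) * (Real.exp (2 * t) / 2 ^ (J + 1)) :=
    mul_le_mul_of_nonneg_left h1 (Real.exp_pos _).le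
  rw [mul_sub, h5, ← mul_div_assoc, h6] at h7
  exact h7

end Claimed.Agent.R297
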