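/-
Row 297 (spin-one Haldane gap), package D1 (thermal error analysis), owner helper204.
Spectral toolkit: Euclidean norms of complex vectors, unitary diagonalisations, polynomial
functional calculus by hand, Frobenius sums.
-/
import Mathlib
import Claimed.Agent.R297.TransferDefs

namespace Claimed.Agent.R297

open Matrix Finset

variable {ι : Type} [Fintype ι]

/-- squared Euclidean norm of a complex vector. -/
noncomputable def thA_nsq (v : ι → ℂ) : ℝ := ∑ x, ‖v x‖ ^ 2

/-- Euclidean norm of a complex vector. -/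
noncomputable def thA_nrm (v : ι → ℂ) : ℝ := Real.sqrt (thA_nsq v)

theorem thA_nsq_nonneg (v : ι → ℂ) : 0 ≤ thA_nsq v :=
  Finset.sum_nonneg fun _ _ => by positivity

theorem thA_nrm_nonneg (v : ι → ℂ) : 0 ≤ thA_nrm v := Real.sqrt_nonneg _

theorem thA_nrm_sq (v : ι → ℂ) : thA_nrm v ^ 2 = thA_nsq v :=
  Real.sq_sqrt (thA_nsq_nonneg v)

theorem thA_nrm_eq_norm (v : ι → ℂ) :
    thA_nrm v = ‖(WithLp.toLp 2 v : EuclideanSpace ℂ ι)‖ := by
  rw [EuclideanSpace.norm_eq]
  rfl

theorem thA_nrm_zero : thA_nrm (0 : ι → ℂ) = 0 := by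
  simp [thA_nrm, thA_nsq]

theorem thA_nrm_add_le (v w : ι → ℂ) : thA_nrm (v + w) ≤ thA_nrm v + thA_nrm w := by
  simp only [thA_nrm_eq_norm]
  exact norm_add_le (WithLp.toLp 2 v : EuclideanSpace ℂ ι) (WithLp.toLp 2 w)

theorem thA_nrm_sub_le (v w : ι → ℂ) : thA_nrm (v - w) ≤ thA_nrm v + thA_nrm w := by
  simp only [thA_nrm_eq_norm]
  exact norm_sub_le (WithLp.toLp 2 v : EuclideanSpace ℂ ι) (WithLp.toLp 2 w)

theorem thA_abs_nrm_sub_le (v w : ι → ℂ) : |thA_nrm v - thA_nrm w| ≤ thA_nrm (v - w) := by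
  simp only [thA_nrm_eq_norm]
  exact abs_norm_sub_norm_le (WithLp.toLp 2 v : EuclideanSpace ℂ ι) (WithLp.toLp 2 w)

theorem thA_nrm_smul (a : ℂ) (v : ι → ℂ) : thA_nrm (a • v) = ‖a‖ * thA_nrm v := by
  simp only [thA_nrm_eq_norm]
  exact norm_smul a (WithLp.toLp 2 v : EuclideanSpace ℂ ι)

theorem thA_nsq_eq_dot (v : ι → ℂ) : ((thA_nsq v : ℝ) : ℂ) = star v ⬝ᵥ v := by
  simp only [thA_nsq, dotProduct, Pi.star_apply, Complex.ofReal_sum]
  refine Finset.sum_congr rfl fun k _ => ?_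
  rw [Complex.star_def, ← Complex.normSq_eq_conj_mul_self, Complex.normSq_eq_norm_sq]

theorem thA_nrm_le_of_coord_le [DecidableEq ι] (v : ι → ℂ) (c : ℝ) (hc : 0 ≤ c)
    (h : ∀ x, ‖v x‖ ≤ c) : thA_nrm v ≤ Real.sqrt (Fintype.card ι) * c := by
  have h1 : thA_nsq v ≤ (Fintype.card ι : ℝ) * c ^ 2 := by
    calc thA_nsq v ≤ ∑ _x : ι, c ^ 2 :=
          Finset.sum_le_sum fun x _ => pow_le_pow_left₀ (norm_nonneg _) (h x) 2
      _ = (Fintype.card ι : ℝ) * c ^ 2 := by simp
  calc thA_nrm v ≤ Real.sqrt ((Fintype.card ι : ℝ) * c ^ 2) := Real.sqrt_le_sqrt h1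
    _ = Real.sqrt (Fintype.card ι) * c := by
        rw [Real.sqrt_mul (Nat.cast_nonneg _), Real.sqrt_sq hc]

theorem thA_nrm_single [DecidableEq ι] (r : ι) (a : ℂ) :
    thA_nrm (Pi.single r a : ι → ℂ) = ‖a‖ := by
  have : thA_nsq (Pi.single r a : ι → ℂ) = ‖a‖ ^ 2 := by
    unfold thA_nsq
    rw [Finset.sum_eq_single r]
    · simp
    · intro b _ hb
      simp [Pi.single_eq_of_ne hb]
    · simp
  rw [thA_nrm, this, Real.sqrt_sq (norm_nonneg _)]

variable [DecidableEq ι]

/-- `A = U diag(d) U*` with `U` unitary and `d` real. -/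
structure thA_Diag (A U : Matrix ι ι ℂ) (d : ι → ℝ) : Prop where
  unit1 : star U * U = 1
  unit2 : U * star U = 1
  eq : A = U * diagonal (fun k => ((d k : ℝ) : ℂ)) * star U

theorem thA_Diag_of_isHermitian {H : Matrix ι ι ℂ} (hH : H.IsHermitian) :
    thA_Diag H (hH.eigenvectorUnitary : Matrix ι ι ℂ) hH.eigenvalues where
  unit1 := Unitary.coe_star_mul_self hH.eigenvectorUnitary
  unit2 := Unitary.coe_mul_star_self hH.eigenvectorUnitary
  eq := by
    have := hH.spectral_theorem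
    rw [Unitary.conjStarAlgAut_apply] at this
    exact this

namespace thA_Diag

variable {A B U : Matrix ι ι ℂ} {d e : ι → ℝ}

theorem one (h : thA_Diag A U d) : thA_Diag (1 : Matrix ι ι ℂ) U (fun _ => 1) where
  unit1 := h.unit1
  unit2 := h.unit2
  eq := by
    have : (diagonal fun _ : ι => (((1 : ℝ)) : ℂ)) = (1 : Matrix ι ι ℂ) := by
      simp
    rw [this, mul_one, h.unit2]

theorem add (h : thA_Diag A U d) (h' : thA_Diag B U e) :
    thA_Diag (A + B) U (fun k => d k + e k) where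
  unit1 := h.unit1
  unit2 := h.unit2
  eq := by
    have : (diagonal fun k : ι => (((d k + e k : ℝ)) : ℂ))
        = diagonal (fun k => ((d k : ℝ) : ℂ)) + diagonal (fun k => ((e k : ℝ) : ℂ)) := by
      rw [diagonal_add]; congr 1; ext k; push_cast; rfl
    rw [this, mul_add, add_mul, ← h.eq, ← h'.eq]

theorem smul (h : thA_Diag A U d) (a : ℝ) :
    thA_Diag ((a : ℂ) • A) U (fun k => a * d k) where
  unit1 := h.unit1
  unit2 := h.unit2
  eq := by
    have : (diagonal fun k : ι => (((a * d k : ℝ)) : ℂ))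
        = (a : ℂ) • diagonal (fun k => ((d k : ℝ) : ℂ)) := by
      ext i j
      by_cases hij : i = j
      · subst hij; simp
      · simp [hij]
    rw [this, mul_smul_comm, smul_mul_assoc, ← h.eq]

theorem mul (h : thA_Diag A U d) (h' : thA_Diag B U e) :
    thA_Diag (A * B) U (fun k => d k * e k) where
  unit1 := h.unit1
  unit2 := h.unit2
  eq := by
    have : (diagonal fun k : ι => (((d k * e k : ℝ)) : ℂ))
        = diagonal (fun k => ((d k : ℝ) : ℂ)) * diagonal (fun k => ((e k : ℝ) : ℂ)) := by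
      rw [diagonal_mul_diagonal]; congr 1; ext k; push_cast; rfl
    rw [this]
    conv_lhs => rw [h.eq, h'.eq]
    calc U * diagonal (fun k => ((d k : ℝ) : ℂ)) * star U
          * (U * diagonal (fun k => ((e k : ℝ) : ℂ)) * star U)
        = U * diagonal (fun k => ((d k : ℝ) : ℂ)) * (star U * U)
          * diagonal (fun k => ((e k : ℝ) : ℂ)) * star U := by
          simp only [mul_assoc]
      _ = _ := by rw [h.unit1, mul_one]; simp only [mul_assoc]

theorem pow (h : thA_Diag A U d) (j : ℕ) : thA_Diag (A ^ j) U (fun k => d k ^ j) := by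
  induction j with
  | zero => simpa using h.one
  | succ j ih =>
    have := ih.mul h
    simpa [pow_succ] using this

theorem zero (h : thA_Diag A U d) : thA_Diag (0 : Matrix ι ι ℂ) U (fun _ => 0) := by
  have := h.smul 0
  simpa using this

theorem sum {κ : Type} (s : Finset κ) (h0 : thA_Diag A U d) (Af : κ → Matrix ι ι ℂ)
    (df : κ → ι → ℝ) (h : ∀ j ∈ s, thA_Diag (Af j) U (df j)) :
    thA_Diag (∑ j ∈ s, Af j) U (fun k => ∑ j ∈ s, df j k) := by
  classical
  induction s using Finset.induction_on with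
  | empty => simpa using h0.zero
  | insert a s ha ih =>
    have h1 := h a (Finset.mem_insert_self a s)
    have h2 := ih fun j hj => h j (Finset.mem_insert_of_mem hj)
    have := h1.add h2
    simpa [Finset.sum_insert ha] using this

/-- polynomial functional calculus. -/
theorem poly (h : thA_Diag A U d) (p : ℕ → ℝ) (J : ℕ) :
    thA_Diag (∑ j ∈ Finset.range J, ((p j : ℝ) : ℂ) • A ^ j) U
      (fun k => ∑ j ∈ Finset.range J, p j * d k ^ j) :=
  sum (Finset.range J) h _ _ fun j _ => (h.pow j).smul (p j)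

theorem nsq_unitary_mulVec (h : thA_Diag A U d) (y : ι → ℂ) :
    thA_nsq (U *ᵥ y) = thA_nsq y := by
  have : ((thA_nsq (U *ᵥ y) : ℝ) : ℂ) = ((thA_nsq y : ℝ) : ℂ) := by
    rw [thA_nsq_eq_dot, thA_nsq_eq_dot, star_mulVec, ← dotProduct_mulVec, mulVec_mulVec]
    have : Uᴴ * U = 1 := h.unit1
    rw [this, one_mulVec]
  exact_mod_cast this

theorem nsq_star_unitary_mulVec (h : thA_Diag A U d) (y : ι → ℂ) :
    thA_nsq (star U *ᵥ y) = thA_nsq y := by
  have h1 := h.nsq_unitary_mulVec (star U *ᵥ y)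
  rw [mulVec_mulVec, h.unit2, one_mulVec] at h1
  exact h1.symm

theorem nsq_mulVec (h : thA_Diag A U d) (v : ι → ℂ) :
    thA_nsq (A *ᵥ v) = ∑ k, d k ^ 2 * ‖(star U *ᵥ v) k‖ ^ 2 := by
  have h1 : A *ᵥ v = U *ᵥ (diagonal (fun k => ((d k : ℝ) : ℂ)) *ᵥ (star U *ᵥ v)) := by
    conv_lhs => rw [h.eq]
    simp only [mulVec_mulVec, mul_assoc]
  rw [h1, h.nsq_unitary_mulVec]
  unfold thA_nsq
  refine Finset.sum_congr rfl fun k _ => ?_
  rw [mulVec_diagonal, norm_mul, mul_pow, Complex.norm_real, Real.norm_eq_abs, sq_abs]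

/-- contraction. -/
theorem nrm_mulVec_le (h : thA_Diag A U d) (hd : ∀ k, |d k| ≤ 1) (v : ι → ℂ) :
    thA_nrm (A *ᵥ v) ≤ thA_nrm v := by
  apply Real.sqrt_le_sqrt
  rw [h.nsq_mulVec, ← h.nsq_star_unitary_mulVec v]
  unfold thA_nsq
  refine Finset.sum_le_sum fun k _ => ?_
  have : d k ^ 2 ≤ 1 := by
    have := hd k
    rw [← sq_abs]
    exact pow_le_one₀ (abs_nonneg _) this
  have h2 : 0 ≤ ‖(star U *ᵥ v) k‖ ^ 2 := by positivity
  nlinarith

/-- Frobenius sum: the squared column norms add up to the sum of the squared eigenvalues. -/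
theorem sum_nsq_col (h : thA_Diag A U d) :
    ∑ r, thA_nsq (A *ᵥ Pi.single r 1) = ∑ k, d k ^ 2 := by
  simp only [h.nsq_mulVec]
  rw [Finset.sum_comm]
  refine Finset.sum_congr rfl fun k _ => ?_
  rw [← Finset.mul_sum]
  have : ∑ r, ‖(star U *ᵥ Pi.single r 1) k‖ ^ 2 = 1 := by
    have h1 : ∀ r, (star U *ᵥ Pi.single r 1) k = star U k r := by
      intro r; simp
    simp only [h1]
    have h2 : (star U * U) k k = 1 := by rw [h.unit1]; simp
    have h3 : ((∑ r, ‖star U k r‖ ^ 2 : ℝ) : ℂ) = (star U * U) k k := by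
      rw [Matrix.mul_apply]
      push_cast
      refine Finset.sum_congr rfl fun r _ => ?_
      have : U r k = star (star U k r) := by
        simp [Matrix.star_apply]
      rw [this, Complex.star_def, Complex.mul_conj, Complex.normSq_eq_norm_sq]
      push_cast; rfl
    rw [h2] at h3
    exact_mod_cast h3
  rw [this, mul_one]

end thA_Diag

end Claimed.Agent.R297
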