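/-
Row 297 (spin-one Haldane gap), package D1c (Clenshaw-Chebyshev thermal analysis), owner helper46.
Chebyshev polynomials of a diagonalisable contraction, the generalized Clenshaw identity
`b_0 - W b_1 = ∑ T_k(W) a_k`, and the error bound of a rounded Clenshaw run:
rounding errors are NOT amplified (each one is hit by a single `T_k(W)`, of norm `≤ 1`).
-/
import Mathlib
import Claimed.Agent.R297.ThermalAnaSpec

namespace Claimed.Agent.R297

open Matrix Finset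

/-- scalar Chebyshev recursion `t_0 = 1`, `t_1 = x`, `t_{k+2} = 2 x t_{k+1} - t_k`. -/
def thC_t (x : ℝ) : ℕ → ℝ
  | 0 => 1
  | 1 => x
  | k + 2 => 2 * x * thC_t x (k + 1) - thC_t x k

theorem thC_t_zero (x : ℝ) : thC_t x 0 = 1 := rfl

theorem thC_t_one (x : ℝ) : thC_t x 1 = x := rfl

theorem thC_t_add_two (x : ℝ) (k : ℕ) :
    thC_t x (k + 2) = 2 * x * thC_t x (k + 1) - thC_t x k := rfl

theorem thC_t_eq_eval (x : ℝ) (k : ℕ) :
    thC_t x k = (Polynomial.Chebyshev.T ℝ (k : ℤ)).eval x := by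
  induction k using Nat.strong_induction_on with
  | _ k ih =>
    match k with
    | 0 => simp [thC_t]
    | 1 => simp [thC_t]
    | k + 2 =>
      rw [thC_t_add_two, ih (k + 1) (by omega), ih k (by omega)]
      have h := Polynomial.Chebyshev.T_add_two ℝ (k : ℤ)
      have h2 : ((k + 2 : ℕ) : ℤ) = (k : ℤ) + 2 := by push_cast; ring
      have h3 : ((k + 1 : ℕ) : ℤ) = (k : ℤ) + 1 := by push_cast; ring
      rw [h2, h3, h]
      simp

theorem thC_abs_t_le_one {x : ℝ} (hx : |x| ≤ 1) (k : ℕ) : |thC_t x k| ≤ 1 := by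
  rw [thC_t_eq_eval]
  exact Polynomial.Chebyshev.abs_eval_T_real_le_one _ hx

theorem thC_t_at_one (k : ℕ) : thC_t 1 k = 1 := by
  rw [thC_t_eq_eval]; simp

variable {ι : Type} [Fintype ι] [DecidableEq ι]

/-- matrix Chebyshev recursion (multiplication by `W` on the right). -/
def thC_T (W : Matrix ι ι ℂ) : ℕ → Matrix ι ι ℂ
  | 0 => 1
  | 1 => W
  | k + 2 => (2 : ℂ) • (thC_T W (k + 1) * W) - thC_T W k

theorem thC_T_add_two (W : Matrix ι ι ℂ) (k : ℕ) :
    thC_T W (k + 2) = (2 : ℂ) • (thC_T W (k + 1) * W) - thC_T W k := rfl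

theorem thC_T_diag {W U : Matrix ι ι ℂ} {d : ι → ℝ} (h : thA_Diag W U d) (k : ℕ) :
    thA_Diag (thC_T W k) U (fun i => thC_t (d i) k) := by
  induction k using Nat.strong_induction_on with
  | _ k ih =>
    match k with
    | 0 => simpa [thC_T, thC_t] using h.one
    | 1 => simpa [thC_T, thC_t] using h
    | k + 2 =>
      have h1 := ((ih (k + 1) (by omega)).mul h).smul 2
      have h2 := (ih k (by omega)).smul (-1)
      have h3 := h1.add h2
      have e1 : (((2 : ℝ) : ℂ)) • (thC_T W (k + 1) * W) + (((-1 : ℝ)) : ℂ) • thC_T W k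
          = thC_T W (k + 2) := by
        rw [thC_T_add_two]
        push_cast
        rw [neg_one_smul, sub_eq_add_neg]
      have e2 : (fun i => 2 * (thC_t (d i) (k + 1) * d i) + -1 * thC_t (d i) k)
          = fun i => thC_t (d i) (k + 2) := by
        funext i
        rw [thC_t_add_two]; ring
      rw [e1, e2] at h3
      exact h3

/-- `T_k(W)` is a Euclidean contraction when the spectrum of `W` lies in `[-1,1]`. -/
theorem thC_nrm_T_mulVec_le {W U : Matrix ι ι ℂ} {d : ι → ℝ} (h : thA_Diag W U d)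
    (hd : ∀ i, |d i| ≤ 1) (k : ℕ) (v : ι → ℂ) :
    thA_nrm (thC_T W k *ᵥ v) ≤ thA_nrm v :=
  (thC_T_diag h k).nrm_mulVec_le (fun i => thC_abs_t_le_one (hd i) k) v

/-- Chebyshev sum `∑_{k ≤ K} c_k T_k(W)` is diagonalised by the same unitary. -/
theorem thC_sum_diag {W U : Matrix ι ι ℂ} {d : ι → ℝ} (h : thA_Diag W U d) (c : ℕ → ℝ) (K : ℕ) :
    thA_Diag (∑ k ∈ range (K + 1), ((c k : ℝ) : ℂ) • thC_T W k) U
      (fun i => ∑ k ∈ range (K + 1), c k * thC_t (d i) k) :=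
  thA_Diag.sum (range (K + 1)) h _ _ fun k _ => (thC_T_diag h k).smul (c k)

/-- telescoping form of the Clenshaw identity. -/
theorem thC_clenshaw_partial (W : Matrix ι ι ℂ) (b : ℕ → ι → ℂ) (m : ℕ) :
    ∑ k ∈ range (m + 1), thC_T W k *ᵥ (b k - (2 : ℂ) • (W *ᵥ b (k + 1)) + b (k + 2))
      = b 0 - W *ᵥ b 1 - thC_T W (m + 1) *ᵥ b (m + 1) + thC_T W m *ᵥ b (m + 2) := by
  induction m with
  | zero =>
    simp only [zero_add, Finset.sum_range_one, thC_T, one_mulVec]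
    rw [two_smul]
    abel
  | succ m ih =>
    rw [Finset.sum_range_succ, ih, thC_T_add_two]
    simp only [mulVec_add, mulVec_sub, mulVec_smul, sub_mulVec, smul_mulVec, mulVec_mulVec]
    abel

/-- **Generalized Clenshaw identity.**  For arbitrary vectors `a_k`: if `b_{K+1} = b_{K+2} = 0` and
`b_k = a_k + 2 W b_{k+1} - b_{k+2}` for `k ≤ K`, then `b_0 - W b_1 = ∑_{k ≤ K} T_k(W) a_k`. -/
theorem thC_clenshaw (W : Matrix ι ι ℂ) (a b : ℕ → ι → ℂ) (K : ℕ)
    (h1 : b (K + 1) = 0) (h2 : b (K + 2) = 0)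
    (hrec : ∀ k ≤ K, b k = a k + (2 : ℂ) • (W *ᵥ b (k + 1)) - b (k + 2)) :
    b 0 - W *ᵥ b 1 = ∑ k ∈ range (K + 1), thC_T W k *ᵥ a k := by
  have h := thC_clenshaw_partial W b K
  rw [h1, h2, mulVec_zero, mulVec_zero, sub_zero, add_zero] at h
  rw [← h]
  refine Finset.sum_congr rfl fun k hk => ?_
  have hk' : k ≤ K := by have := Finset.mem_range.1 hk; omega
  congr 1
  rw [hrec k hk']
  abel

omit [DecidableEq ι] in
theorem thC_sum_mulVec {κ : Type} (s : Finset κ) (A : κ → Matrix ι ι ℂ) (v : ι → ℂ) :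
    (∑ k ∈ s, A k) *ᵥ v = ∑ k ∈ s, A k *ᵥ v := by
  classical
  induction s using Finset.induction_on with
  | empty => simp
  | insert a s ha ih => rw [Finset.sum_insert ha, Finset.sum_insert ha, add_mulVec, ih]

omit [DecidableEq ι] in
theorem thC_nrm_sum_le {κ : Type} (s : Finset κ) (f : κ → ι → ℂ) :
    thA_nrm (∑ k ∈ s, f k) ≤ ∑ k ∈ s, thA_nrm (f k) := by
  classical
  induction s using Finset.induction_on with
  | empty => simp [thA_nrm_zero]
  | insert a s ha ih =>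
    rw [Finset.sum_insert ha, Finset.sum_insert ha]
    exact (thA_nrm_add_le _ _).trans (by gcongr)

/-- **Rounded Clenshaw run.**  `z_{K+1} = z_{K+2} = 0` and every step
`z_k ≈ q_k e + 2 W z_{k+1} - z_{k+2}` is performed up to an error of Euclidean norm `≤ δ`.  Then the
exactly computable vector `z_0 - z_2 + q_0 e` is `2 ∑_k q_k T_k(W) e` up to `(2K+1) δ`. -/
theorem thC_rounded_clenshaw {W U : Matrix ι ι ℂ} {d : ι → ℝ} (h : thA_Diag W U d)
    (hd : ∀ i, |d i| ≤ 1) (e : ι → ℂ) (q : ℕ → ℂ) (z : ℕ → ι → ℂ) (δ : ℝ) (K : ℕ)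
    (h1 : z (K + 1) = 0) (h2 : z (K + 2) = 0)
    (hstep : ∀ k ≤ K, thA_nrm (z k - (q k • e + (2 : ℂ) • (W *ᵥ z (k + 1)) - z (k + 2))) ≤ δ) :
    thA_nrm (z 0 - z 2 + q 0 • e - (2 : ℂ) • ((∑ k ∈ range (K + 1), q k • thC_T W k) *ᵥ e))
      ≤ (2 * K + 1) * δ := by
  -- the rounding errors
  set ρ : ℕ → ι → ℂ := fun k => z k - (q k • e + (2 : ℂ) • (W *ᵥ z (k + 1)) - z (k + 2)) with hρ
  have hcl := thC_clenshaw W (fun k => q k • e + ρ k) z K h1 h2 (by
    intro k _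
    simp only [hρ]
    abel)
  have hsum : ∑ k ∈ range (K + 1), thC_T W k *ᵥ (q k • e + ρ k)
      = (∑ k ∈ range (K + 1), q k • thC_T W k) *ᵥ e + ∑ k ∈ range (K + 1), thC_T W k *ᵥ ρ k := by
    rw [thC_sum_mulVec, ← Finset.sum_add_distrib]
    refine Finset.sum_congr rfl fun k _ => ?_
    rw [mulVec_add, mulVec_smul, smul_mulVec]
  -- `2 (z_0 - W z_1) = z_0 - z_2 + q_0 e + ρ_0`
  have h0 : (2 : ℂ) • (z 0 - W *ᵥ z 1) = z 0 - z 2 + q 0 • e + ρ 0 := by
    simp only [hρ, zero_add]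
    rw [smul_sub, two_smul]
    abel
  have hkey : z 0 - z 2 + q 0 • e - (2 : ℂ) • ((∑ k ∈ range (K + 1), q k • thC_T W k) *ᵥ e)
      = ρ 0 + (2 : ℂ) • ∑ k ∈ range K, thC_T W (k + 1) *ᵥ ρ (k + 1) := by
    have h3 : z 0 - z 2 + q 0 • e = (2 : ℂ) • (z 0 - W *ᵥ z 1) - ρ 0 := by
      rw [h0]; abel
    rw [h3, hcl, hsum, Finset.sum_range_succ' (fun k => thC_T W k *ᵥ ρ k)]
    simp only [thC_T, one_mulVec, smul_add, two_smul]
    abel
  rw [hkey]
  have hb : ∀ k ≤ K, thA_nrm (ρ k) ≤ δ := hstep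
  have hδ : 0 ≤ δ := (thA_nrm_nonneg _).trans (hb 0 (Nat.zero_le _))
  calc thA_nrm (ρ 0 + (2 : ℂ) • ∑ k ∈ range K, thC_T W (k + 1) *ᵥ ρ (k + 1))
      ≤ thA_nrm (ρ 0) + thA_nrm ((2 : ℂ) • ∑ k ∈ range K, thC_T W (k + 1) *ᵥ ρ (k + 1)) :=
        thA_nrm_add_le _ _
    _ = thA_nrm (ρ 0) + 2 * thA_nrm (∑ k ∈ range K, thC_T W (k + 1) *ᵥ ρ (k + 1)) := by
        rw [thA_nrm_smul]; simp
    _ ≤ δ + 2 * ∑ k ∈ range K, thA_nrm (thC_T W (k + 1) *ᵥ ρ (k + 1)) := by
        gcongr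
        · exact hb 0 (Nat.zero_le _)
        · exact thC_nrm_sum_le _ _
    _ ≤ δ + 2 * ∑ _k ∈ range K, δ := by
        gcongr with k hk
        have hk' : k + 1 ≤ K := by have := Finset.mem_range.1 hk; omega
        exact (thC_nrm_T_mulVec_le h hd (k + 1) _).trans (hb (k + 1) hk')
    _ = (2 * K + 1) * δ := by
        rw [Finset.sum_const, Finset.card_range, nsmul_eq_mul]; ring

end Claimed.Agent.R297
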