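/-
Row 297 (spin-one Haldane gap), package D1c (Clenshaw-Chebyshev thermal analysis), owner helper46.
Verified re-expansion of the conditioned Poisson polynomial in the Chebyshev basis, on lists of
natural numbers (kernel-computable), and the resulting sup-norm bound
`|∑_k (q_k/Q) T_k(w) - exp (t (w-1))| ≤ ε + 2 tail` on `[-1,1]`.
-/
import Mathlib
import Claimed.Agent.R297.ThermalCheb
import Claimed.Agent.R297.ThermalAnaPoisson

namespace Claimed.Agent.R297

open Finset

/-- sum of two coefficient lists (the shorter one is padded with zeros). -/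
def thC_ladd : List ℕ → List ℕ → List ℕ
  | [], l => l
  | a :: l, [] => a :: l
  | a :: l, b :: m => (a + b) :: thC_ladd l m

/-- multiplication by `2 w` in the Chebyshev basis:
`2 w T_0 = 2 T_1`, `2 w T_k = T_{k+1} + T_{k-1}`. -/
def thC_mul2w : List ℕ → List ℕ
  | [] => []
  | c0 :: tl => thC_ladd (0 :: (2 * c0) :: tl) tl

/-- Chebyshev coefficients of `∑_j a_j (2w)^j`. -/
def thC_reexp : List ℕ → List ℕ
  | [] => []
  | a :: l => thC_ladd [a] (thC_mul2w (thC_reexp l))

/-- `∑_i |a_i - b_i|` (padding with zeros). -/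
def thC_l1dist : List ℕ → List ℕ → ℕ
  | [], l => l.sum
  | a :: l, [] => a + l.sum
  | a :: l, b :: m => (a - b) + (b - a) + thC_l1dist l m

/-- `∑_i c_i t_{k+i}(x)`. -/
def thC_evalFrom (x : ℝ) : ℕ → List ℕ → ℝ
  | _, [] => 0
  | k, a :: l => a * thC_t x k + thC_evalFrom x (k + 1) l

/-- `∑_j a_j (2x)^j`. -/
def thC_monoEval (x : ℝ) : List ℕ → ℝ
  | [] => 0
  | a :: l => a + 2 * x * thC_monoEval x l

theorem thC_evalFrom_ladd (x : ℝ) (k : ℕ) (l m : List ℕ) :
    thC_evalFrom x k (thC_ladd l m) = thC_evalFrom x k l + thC_evalFrom x k m := by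
  induction l generalizing k m with
  | nil => simp [thC_ladd, thC_evalFrom]
  | cons a l ih =>
    cases m with
    | nil => simp [thC_ladd, thC_evalFrom]
    | cons b m =>
      simp only [thC_ladd, thC_evalFrom, ih]
      push_cast
      ring

theorem thC_two_mul_evalFrom (x : ℝ) (k : ℕ) (l : List ℕ) :
    2 * x * thC_evalFrom x (k + 1) l = thC_evalFrom x (k + 2) l + thC_evalFrom x k l := by
  induction l generalizing k with
  | nil => simp [thC_evalFrom]
  | cons a l ih =>
    simp only [thC_evalFrom]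
    have := ih (k + 1)
    rw [mul_add, this, thC_t_add_two]
    ring

theorem thC_evalFrom_mul2w (x : ℝ) (l : List ℕ) :
    thC_evalFrom x 0 (thC_mul2w l) = 2 * x * thC_evalFrom x 0 l := by
  cases l with
  | nil => simp [thC_mul2w, thC_evalFrom]
  | cons c0 tl =>
    simp only [thC_mul2w, thC_evalFrom_ladd, thC_evalFrom]
    have := thC_two_mul_evalFrom x 0 tl
    simp only [zero_add] at this ⊢
    rw [mul_add, this, thC_t_zero, thC_t_one]
    push_cast
    ring

theorem thC_evalFrom_reexp (x : ℝ) (l : List ℕ) :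
    thC_evalFrom x 0 (thC_reexp l) = thC_monoEval x l := by
  induction l with
  | nil => simp [thC_reexp, thC_evalFrom, thC_monoEval]
  | cons a l ih =>
    simp only [thC_reexp, thC_evalFrom_ladd, thC_evalFrom_mul2w, ih, thC_monoEval, thC_evalFrom,
      thC_t_zero]
    ring

theorem thC_abs_evalFrom_le {x : ℝ} (hx : |x| ≤ 1) (k : ℕ) (l : List ℕ) :
    |thC_evalFrom x k l| ≤ (l.sum : ℕ) := by
  induction l generalizing k with
  | nil => simp [thC_evalFrom]
  | cons a l ih =>
    simp only [thC_evalFrom, List.sum_cons]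
    rw [Nat.cast_add]
    refine (abs_add_le _ _).trans (add_le_add ?_ (ih (k + 1)))
    rw [abs_mul, Nat.abs_cast]
    have := thC_abs_t_le_one hx k
    nlinarith [Nat.cast_nonneg (α := ℝ) a]

theorem thC_abs_evalFrom_sub_le {x : ℝ} (hx : |x| ≤ 1) (k : ℕ) (l m : List ℕ) :
    |thC_evalFrom x k l - thC_evalFrom x k m| ≤ (thC_l1dist l m : ℕ) := by
  induction l generalizing k m with
  | nil =>
    simp only [thC_evalFrom, thC_l1dist, zero_sub, abs_neg]
    exact thC_abs_evalFrom_le hx k m
  | cons a l ih =>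
    cases m with
    | nil =>
      have := thC_abs_evalFrom_le hx k (a :: l)
      simpa [thC_evalFrom, thC_l1dist] using this
    | cons b m =>
      simp only [thC_evalFrom, thC_l1dist]
      have h1 : (a : ℝ) * thC_t x k + thC_evalFrom x (k + 1) l
          - ((b : ℝ) * thC_t x k + thC_evalFrom x (k + 1) m)
          = ((a : ℝ) - b) * thC_t x k + (thC_evalFrom x (k + 1) l - thC_evalFrom x (k + 1) m) := by
        ring
      rw [h1]
      push_cast
      refine (abs_add_le _ _).trans (add_le_add ?_ (ih (k + 1) m))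
      rw [abs_mul]
      have h2 := thC_abs_t_le_one hx k
      have h3 : |(a : ℝ) - b| = ((a - b : ℕ) : ℝ) + ((b - a : ℕ) : ℝ) := by
        rcases le_total a b with h | h
        · rw [Nat.sub_eq_zero_of_le h, Nat.cast_sub h, Nat.cast_zero, zero_add, abs_sub_comm,
            abs_of_nonneg]
          exact sub_nonneg.2 (by exact_mod_cast h)
        · rw [Nat.sub_eq_zero_of_le h, Nat.cast_sub h, Nat.cast_zero, add_zero, abs_of_nonneg]
          exact sub_nonneg.2 (by exact_mod_cast h)
      rw [h3]
      have h4 : (0 : ℝ) ≤ ((a - b : ℕ) : ℝ) + ((b - a : ℕ) : ℝ) := by positivity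
      nlinarith [abs_nonneg (thC_t x k)]

theorem thC_evalFrom_map_mul (x : ℝ) (k : ℕ) (l : List ℕ) (D : ℕ) :
    thC_evalFrom x k (l.map (· * D)) = thC_evalFrom x k l * D := by
  induction l generalizing k with
  | nil => simp [thC_evalFrom]
  | cons a l ih =>
    simp only [List.map_cons, thC_evalFrom, ih]
    push_cast
    ring

theorem thC_evalFrom_eq_sum (x : ℝ) (k : ℕ) (l : List ℕ) :
    thC_evalFrom x k l = ∑ i ∈ range l.length, (l.getD i 0 : ℝ) * thC_t x (k + i) := by
  induction l generalizing k with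
  | nil => simp [thC_evalFrom]
  | cons a l ih =>
    simp only [thC_evalFrom, List.length_cons]
    rw [Finset.sum_range_succ', ih (k + 1)]
    simp only [List.getD_cons_zero, List.getD_cons_succ, add_zero]
    rw [add_comm]
    congr 1
    refine Finset.sum_congr rfl fun i _ => ?_
    congr 2
    omega

theorem thC_monoEval_eq_sum (x : ℝ) (l : List ℕ) :
    thC_monoEval x l = ∑ j ∈ range l.length, (l.getD j 0 : ℝ) * (2 * x) ^ j := by
  induction l with
  | nil => simp [thC_monoEval]
  | cons a l ih =>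
    simp only [thC_monoEval, List.length_cons]
    rw [Finset.sum_range_succ', ih, Finset.mul_sum]
    simp only [List.getD_cons_zero, List.getD_cons_succ, pow_zero, mul_one]
    rw [add_comm]
    congr 1
    refine Finset.sum_congr rfl fun i _ => ?_
    rw [pow_succ]; ring

/-- integer Poisson weights: `a_j = tn^j td^(J-j) (J!/j!) 2^(J-j)`, so that
`∑_j a_j (2w)^j = td^J J! 2^J ∑_j (t w)^j / j!` for `t = tn/td`. -/
def thC_poisCoef (tn td J j : ℕ) : ℕ :=
  tn ^ j * td ^ (J - j) * J.descFactorial (J - j) * 2 ^ (J - j)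

/-- the list of the integer Poisson weights. -/
def thC_poisList (tn td J : ℕ) : List ℕ := (List.range (J + 1)).map (thC_poisCoef tn td J)

/-- the common denominator `∑_j a_j 2^j = td^J J! 2^J ∑_j t^j/j!`. -/
def thC_poisDen (tn td J : ℕ) : ℕ := ((List.range (J + 1)).map
  fun j => thC_poisCoef tn td J j * 2 ^ j).sum

theorem thC_poisCoef_cast (tn td J j : ℕ) (htd : 0 < td) (hj : j ≤ J) :
    (thC_poisCoef tn td J j : ℝ) * 2 ^ j
      = ((td : ℝ) ^ J * J.factorial * 2 ^ J) * (((tn : ℝ) / td) ^ j / j.factorial) := by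
  have h1 : (J.descFactorial (J - j) : ℝ) * j.factorial = J.factorial := by
    have := Nat.factorial_mul_descFactorial (Nat.sub_le J j)
    rw [Nat.sub_sub_self hj] at this
    rw [mul_comm]
    exact_mod_cast this
  have h2 : (td : ℝ) ^ J = (td : ℝ) ^ (J - j) * (td : ℝ) ^ j := by
    rw [← pow_add]; congr 1; omega
  have h3 : (2 : ℝ) ^ J = (2 : ℝ) ^ (J - j) * (2 : ℝ) ^ j := by
    rw [← pow_add]; congr 1; omega
  have htd' : (td : ℝ) ≠ 0 := by positivity
  have hf : (j.factorial : ℝ) ≠ 0 := by positivity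
  unfold thC_poisCoef
  push_cast
  rw [← h1, h2, h3, div_pow]
  field_simp

theorem thC_list_sum_range (f : ℕ → ℕ) (n : ℕ) :
    ((List.range n).map f).sum = ∑ i ∈ range n, f i := by
  induction n with
  | zero => simp
  | succ n ih =>
    rw [List.range_succ, List.map_append, List.sum_append, Finset.sum_range_succ, ih]
    simp

theorem thC_poisDen_cast (tn td J : ℕ) (htd : 0 < td) :
    (thC_poisDen tn td J : ℝ)
      = ((td : ℝ) ^ J * J.factorial * 2 ^ J) * thA_expSum ((tn : ℝ) / td) J := by
  unfold thC_poisDen thA_expSum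
  rw [Finset.mul_sum, thC_list_sum_range]
  push_cast
  refine Finset.sum_congr rfl fun j hj => ?_
  have hj' : j ≤ J := by have := Finset.mem_range.1 hj; omega
  exact thC_poisCoef_cast tn td J j htd hj'

theorem thC_poisDen_pos (tn td J : ℕ) (htd : 0 < td) : (0 : ℝ) < thC_poisDen tn td J := by
  rw [thC_poisDen_cast tn td J htd]
  have := thA_expSum_pos (t := (tn : ℝ) / td) (by positivity) J
  positivity

/-- the integer list represents the conditioned Poisson polynomial. -/
theorem thC_monoEval_poisList (tn td J : ℕ) (htd : 0 < td) (w : ℝ) :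
    thC_monoEval w (thC_poisList tn td J)
      = thC_poisDen tn td J * ∑ j ∈ range (J + 1), thA_pois ((tn : ℝ) / td) J j * w ^ j := by
  rw [thC_monoEval_eq_sum, thC_poisDen_cast tn td J htd, Finset.mul_sum]
  have hlen : (thC_poisList tn td J).length = J + 1 := by simp [thC_poisList]
  rw [hlen]
  refine Finset.sum_congr rfl fun j hj => ?_
  have hj1 : j < J + 1 := Finset.mem_range.1 hj
  have hj' : j ≤ J := by omega
  have hget : (thC_poisList tn td J).getD j 0 = thC_poisCoef tn td J j := by
    unfold thC_poisList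
    rw [List.getD_eq_getElem _ _ (by simpa using hj1)]
    simp
  rw [hget, mul_pow, ← mul_assoc, thC_poisCoef_cast tn td J j htd hj']
  unfold thA_pois
  have := (thA_expSum_pos (t := (tn : ℝ) / td) (by positivity) J).ne'
  field_simp

/-- **Chebyshev approximation of the Boltzmann factor.**  `q` = list of the integer Chebyshev
coefficients of the run, `Q` = their scale.  The hypothesis is a closed inequality between natural
numbers (kernel-decidable). -/
theorem thC_cheb_approx (tn td J : ℕ) (htd : 0 < td) (q : List ℕ) (Q : ℕ) (hQ : 0 < Q)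
    (εn εd : ℕ) (hεd : 0 < εd)
    (hcheck : thC_l1dist (q.map (· * thC_poisDen tn td J))
        ((thC_reexp (thC_poisList tn td J)).map (· * Q)) * εd ≤ εn * (Q * thC_poisDen tn td J))
    {w : ℝ} (hw : |w| ≤ 1) :
    |thC_evalFrom w 0 q / Q - Real.exp ((tn : ℝ) / td * (w - 1))|
      ≤ (εn : ℝ) / εd + 2 * thA_tail ((tn : ℝ) / td) J := by
  set D := thC_poisDen tn td J with hD
  have hDpos : (0 : ℝ) < D := thC_poisDen_pos tn td J htd
  have hQpos : (0 : ℝ) < Q := by exact_mod_cast hQ
  have hεpos : (0 : ℝ) < εd := by exact_mod_cast hεd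
  set P := ∑ j ∈ range (J + 1), thA_pois ((tn : ℝ) / td) J j * w ^ j with hP
  have h1 := thC_abs_evalFrom_sub_le hw 0 (q.map (· * D))
    ((thC_reexp (thC_poisList tn td J)).map (· * Q))
  rw [thC_evalFrom_map_mul, thC_evalFrom_map_mul, thC_evalFrom_reexp,
    thC_monoEval_poisList tn td J htd w, ← hD, ← hP] at h1
  have h2 : ((thC_l1dist (q.map (· * D)) ((thC_reexp (thC_poisList tn td J)).map (· * Q)) : ℕ) : ℝ)
      * εd ≤ εn * (Q * D) := by exact_mod_cast hcheck
  have h3 : |thC_evalFrom w 0 q / Q - P| ≤ (εn : ℝ) / εd := by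
    have e1 : thC_evalFrom w 0 q / Q - P = (thC_evalFrom w 0 q * D - D * P * Q) / (Q * D) := by
      field_simp
    rw [e1, abs_div, abs_of_pos (by positivity : (0 : ℝ) < Q * D), div_le_div_iff₀ (by positivity)
      hεpos]
    calc |thC_evalFrom w 0 q * D - D * P * Q| * εd
        ≤ ((thC_l1dist (q.map (· * D)) ((thC_reexp (thC_poisList tn td J)).map (· * Q)) : ℕ) : ℝ)
          * εd := by gcongr
      _ ≤ εn * (Q * D) := h2
  have h4 := thA_pois_poly_approx (t := (tn : ℝ) / td) (by positivity) hw J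
  rw [← hP] at h4
  calc |thC_evalFrom w 0 q / Q - Real.exp ((tn : ℝ) / td * (w - 1))|
      = |(thC_evalFrom w 0 q / Q - P) + (P - Real.exp ((tn : ℝ) / td * (w - 1)))| := by
        congr 1; ring
    _ ≤ |thC_evalFrom w 0 q / Q - P| + |P - Real.exp ((tn : ℝ) / td * (w - 1))| := abs_add_le _ _
    _ ≤ (εn : ℝ) / εd + 2 * thA_tail ((tn : ℝ) / td) J := add_le_add h3 h4

end Claimed.Agent.R297
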