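/-
Row 297 (spin-one Haldane gap), package D1 (thermal error analysis), owner helper204.
Exact and rounded Horner recurrences for `P(W) e`, `W` a Euclidean contraction.
-/
import Mathlib
import Claimed.Agent.R297.ThermalAnaSpec

namespace Claimed.Agent.R297

open Matrix Finset

variable {ι : Type} [Fintype ι] [DecidableEq ι]

/-- exact Horner iteration: `y_0 = 0`, `y_{k+1} = W y_k + a_k e`. -/
def thA_horner (W : Matrix ι ι ℂ) (e : ι → ℂ) (a : ℕ → ℂ) : ℕ → (ι → ℂ)
  | 0 => 0
  | k + 1 => W *ᵥ thA_horner W e a k + a k • e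

theorem thA_horner_eq (W : Matrix ι ι ℂ) (e : ι → ℂ) (a : ℕ → ℂ) (m : ℕ) :
    thA_horner W e a m = (∑ k ∈ range m, a k • W ^ (m - 1 - k)) *ᵥ e := by
  induction m with
  | zero => simp [thA_horner]
  | succ m ih =>
    rw [thA_horner, ih, mulVec_mulVec, Finset.sum_range_succ, add_mulVec, Finset.mul_sum]
    congr 1
    · congr 1
      refine Finset.sum_congr rfl fun k hk => ?_
      have hk' : k < m := Finset.mem_range.1 hk
      rw [mul_smul_comm, ← pow_succ']
      congr 2
      omega
    · simp [smul_mulVec]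

/-- Horner with the coefficients fed from the top: after `J+1` steps one has `∑_{l ≤ J} c_l W^l e`. -/
theorem thA_horner_reflect (W : Matrix ι ι ℂ) (e : ι → ℂ) (c : ℕ → ℂ) (J : ℕ) :
    thA_horner W e (fun k => c (J - k)) (J + 1) = (∑ l ∈ range (J + 1), c l • W ^ l) *ᵥ e := by
  rw [thA_horner_eq]
  congr 1
  rw [← Finset.sum_range_reflect]
  refine Finset.sum_congr rfl fun k hk => ?_
  have hk' : k < J + 1 := Finset.mem_range.1 hk
  have h1 : J + 1 - 1 - k = J - k := by omega
  have h2 : J - (J - k) = k := by omega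
  have h3 : J + 1 - 1 - (J - k) = k := by omega
  simp only [h1, h2, h3]

omit [DecidableEq ι] in
/-- **Rounded Horner.**  If `W` is a Euclidean contraction, every step is performed up to an error
of Euclidean norm `≤ δ` and every coefficient is replaced by one at distance `≤ γ`, then after `m`
steps the error is at most `m (δ + γ ‖e‖)`. -/
theorem thA_rounded_horner (W : Matrix ι ι ℂ) (hW : ∀ v, thA_nrm (W *ᵥ v) ≤ thA_nrm v)
    (e : ι → ℂ) (a q : ℕ → ℂ) (z : ℕ → ι → ℂ) (δ γ : ℝ) (m : ℕ) (hz0 : z 0 = 0)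
    (hstep : ∀ k < m, thA_nrm (z (k + 1) - (W *ᵥ z k + q k • e)) ≤ δ)
    (hq : ∀ k < m, ‖q k - a k‖ ≤ γ) :
    thA_nrm (z m - thA_horner W e a m) ≤ m * (δ + γ * thA_nrm e) := by
  induction m with
  | zero => simp [thA_horner, hz0, thA_nrm_zero]
  | succ m ih =>
    have ih' := ih (fun k hk => hstep k (by omega)) (fun k hk => hq k (by omega))
    have h1 : z (m + 1) - thA_horner W e a (m + 1)
        = (z (m + 1) - (W *ᵥ z m + q m • e)) + (W *ᵥ (z m - thA_horner W e a m)
            + (q m - a m) • e) := by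
      rw [thA_horner, mulVec_sub, sub_smul]
      abel
    have h2 : thA_nrm ((q m - a m) • e) ≤ γ * thA_nrm e := by
      rw [thA_nrm_smul]
      exact mul_le_mul_of_nonneg_right (hq m (by omega)) (thA_nrm_nonneg e)
    calc thA_nrm (z (m + 1) - thA_horner W e a (m + 1))
        ≤ thA_nrm (z (m + 1) - (W *ᵥ z m + q m • e))
            + thA_nrm (W *ᵥ (z m - thA_horner W e a m) + (q m - a m) • e) := by
          rw [h1]; exact thA_nrm_add_le _ _
      _ ≤ thA_nrm (z (m + 1) - (W *ᵥ z m + q m • e))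
            + (thA_nrm (W *ᵥ (z m - thA_horner W e a m)) + thA_nrm ((q m - a m) • e)) := by
          gcongr; exact thA_nrm_add_le _ _
      _ ≤ δ + (m * (δ + γ * thA_nrm e) + γ * thA_nrm e) := by
          gcongr
          · exact hstep m (by omega)
          · exact (hW _).trans ih'
      _ = ((m + 1 : ℕ) : ℝ) * (δ + γ * thA_nrm e) := by push_cast; ring

/-- weighted Minkowski inequality for finite families. -/
theorem thA_weighted_minkowski {κ : Type} [Fintype κ] (m a b : κ → ℝ) (hm : ∀ c, 0 ≤ m c) :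
    |Real.sqrt (∑ c, m c * a c ^ 2) - Real.sqrt (∑ c, m c * b c ^ 2)|
      ≤ Real.sqrt (∑ c, m c * (a c - b c) ^ 2) := by
  set A : EuclideanSpace ℝ κ := WithLp.toLp 2 fun c => Real.sqrt (m c) * a c with hA
  set B : EuclideanSpace ℝ κ := WithLp.toLp 2 fun c => Real.sqrt (m c) * b c with hB
  have key : ∀ f : κ → ℝ, ‖(WithLp.toLp 2 fun c => Real.sqrt (m c) * f c : EuclideanSpace ℝ κ)‖
      = Real.sqrt (∑ c, m c * f c ^ 2) := by
    intro f
    rw [EuclideanSpace.norm_eq]
    congr 1
    refine Finset.sum_congr rfl fun c _ => ?_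
    rw [Real.norm_eq_abs, sq_abs, mul_pow, Real.sq_sqrt (hm c)]
  have h1 := abs_norm_sub_norm_le A B
  have h2 : A - B = WithLp.toLp 2 fun c => Real.sqrt (m c) * (a c - b c) := by
    ext c
    simp [hA, hB, mul_sub]
  rw [h2, hA, hB, key, key, key] at h1
  exact h1

end Claimed.Agent.R297
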