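/-
Row 297 (spin-one Haldane gap), package D1 (thermal error analysis), owner helper204.
Abstract thermal certificate: from approximate columns of a polynomial approximant of
`exp (-(b/2) (H + s))` to a two-sided bound on `exp (-(b s)) * gibbsZ H b`.
-/
import Mathlib
import Claimed.Agent.R297.ThermalAnaSpec
import Claimed.Agent.R297.ThermalAnaPoisson
import Claimed.Agent.R297.ThermalAnaHorner

namespace Claimed.Agent.R297

open Matrix Finset

variable {ι : Type} [Fintype ι] [DecidableEq ι]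

omit [DecidableEq ι] in
/-- two real families that are uniformly `τ`-close have `√d τ`-close Euclidean norms. -/
theorem thA_sqrt_sum_sq_close (d g : ι → ℝ) (τ : ℝ) (hτ : 0 ≤ τ) (h : ∀ k, |d k - g k| ≤ τ) :
    |Real.sqrt (∑ k, d k ^ 2) - Real.sqrt (∑ k, g k ^ 2)| ≤ Real.sqrt (Fintype.card ι) * τ := by
  have h1 := thA_weighted_minkowski (fun _ : ι => (1 : ℝ)) d g (fun _ => zero_le_one)
  simp only [one_mul] at h1
  refine h1.trans ?_
  have h2 : ∑ k, (d k - g k) ^ 2 ≤ (Fintype.card ι : ℝ) * τ ^ 2 := by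
    calc ∑ k, (d k - g k) ^ 2 ≤ ∑ _k : ι, τ ^ 2 := Finset.sum_le_sum fun k _ => by
          rw [← sq_abs]; exact pow_le_pow_left₀ (abs_nonneg _) (h k) 2
      _ = _ := by simp
  calc Real.sqrt (∑ k, (d k - g k) ^ 2) ≤ Real.sqrt ((Fintype.card ι : ℝ) * τ ^ 2) :=
        Real.sqrt_le_sqrt h2
    _ = _ := by rw [Real.sqrt_mul (by positivity), Real.sqrt_sq hτ]

omit [DecidableEq ι] in
/-- weighted families of vectors that are close have close weighted norms. -/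
theorem thA_probe_close {κ : Type} [Fintype κ] (m : κ → ℝ) (hm : ∀ c, 0 ≤ m c)
    (y v : κ → ι → ℂ) (η : κ → ℝ) (hy : ∀ c, thA_nrm (y c - v c) ≤ η c) :
    |Real.sqrt (∑ c, m c * thA_nsq (y c)) - Real.sqrt (∑ c, m c * thA_nsq (v c))|
      ≤ Real.sqrt (∑ c, m c * η c ^ 2) := by
  have h1 := thA_weighted_minkowski m (fun c => thA_nrm (y c)) (fun c => thA_nrm (v c)) hm
  simp only [thA_nrm_sq] at h1
  refine h1.trans (Real.sqrt_le_sqrt ?_)
  refine Finset.sum_le_sum fun c _ => mul_le_mul_of_nonneg_left ?_ (hm c)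
  rw [← sq_abs]
  exact pow_le_pow_left₀ (abs_nonneg _) ((thA_abs_nrm_sub_le _ _).trans (hy c)) 2

omit [DecidableEq ι] in
theorem thA_nsq_smul (a : ℂ) (v : ι → ℂ) : thA_nsq (a • v) = ‖a‖ ^ 2 * thA_nsq v := by
  rw [← thA_nrm_sq, thA_nrm_smul, mul_pow, thA_nrm_sq]

/-- **Abstract trace certificate.**  `A = U diag(dA) U*` is the approximant, `g` the exact spectral
function, `u c` the probe vectors with weights `m c` (orbit identity `horbit`), `y c` the computed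
vectors (scale `Q`). -/
theorem thA_trace_certificate {A U : Matrix ι ι ℂ} {dA : ι → ℝ} (hA : thA_Diag A U dA)
    (g : ι → ℝ) (τ : ℝ) (hτ0 : 0 ≤ τ) (hτ : ∀ k, |dA k - g k| ≤ τ)
    {κ : Type} [Fintype κ] (m : κ → ℝ) (hm : ∀ c, 0 ≤ m c) (u y : κ → ι → ℂ)
    (horbit : ∑ c, m c * thA_nsq (A *ᵥ u c) = ∑ r, thA_nsq (A *ᵥ Pi.single r 1))
    (Q : ℝ) (hQ : 0 < Q) (η : κ → ℝ)
    (hy : ∀ c, thA_nrm (y c - (Q : ℂ) • (A *ᵥ u c)) ≤ η c)
    (E : ℝ) (hE0 : 0 ≤ E) (hE : ∑ c, m c * η c ^ 2 ≤ E ^ 2) :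
    |Real.sqrt (∑ c, m c * thA_nsq (y c)) / Q - Real.sqrt (∑ k, g k ^ 2)|
      ≤ E / Q + Real.sqrt (Fintype.card ι) * τ := by
  have h1 := thA_probe_close m hm y (fun c => (Q : ℂ) • (A *ᵥ u c)) η hy
  have h2 : ∑ c, m c * thA_nsq ((Q : ℂ) • (A *ᵥ u c)) = Q ^ 2 * ∑ k, dA k ^ 2 := by
    rw [← hA.sum_nsq_col, ← horbit, Finset.mul_sum]
    refine Finset.sum_congr rfl fun c _ => ?_
    rw [thA_nsq_smul, Complex.norm_real, Real.norm_eq_abs, sq_abs]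
    ring
  rw [h2, Real.sqrt_mul (by positivity), Real.sqrt_sq hQ.le] at h1
  have h3 : Real.sqrt (∑ c, m c * η c ^ 2) ≤ E := by
    calc Real.sqrt (∑ c, m c * η c ^ 2) ≤ Real.sqrt (E ^ 2) := Real.sqrt_le_sqrt hE
      _ = E := Real.sqrt_sq hE0
  have h4 := thA_sqrt_sum_sq_close dA g τ hτ0 hτ
  set T := Real.sqrt (∑ c, m c * thA_nsq (y c)) with hT
  set a := Real.sqrt (∑ k, dA k ^ 2) with ha
  set G := Real.sqrt (∑ k, g k ^ 2) with hG
  have h5 : |T / Q - a| ≤ E / Q := by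
    have : T / Q - a = (T - Q * a) / Q := by field_simp
    rw [this, abs_div, abs_of_pos hQ]
    exact div_le_div_of_nonneg_right (h1.trans h3) hQ.le
  calc |T / Q - G| = |(T / Q - a) + (a - G)| := by ring_nf
    _ ≤ |T / Q - a| + |a - G| := abs_add_le _ _
    _ ≤ _ := add_le_add h5 h4

/-- from closeness of square roots to an interval. -/
theorem thA_interval_of_sqrt_close {T G Q lo hi err : ℝ} (hG : 0 ≤ G) (hQ : 0 < Q)
    (h : |Real.sqrt T / Q - Real.sqrt G| ≤ err)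
    (hlo : (lo * Q) ^ 2 ≤ T) (hhi : T ≤ (hi * Q) ^ 2) (hhi0 : 0 ≤ hi)
    (herr : err ≤ lo) :
    (lo - err) ^ 2 ≤ G ∧ G ≤ (hi + err) ^ 2 := by
  have h1 : lo ≤ Real.sqrt T / Q := by
    rw [le_div_iff₀ hQ]
    exact Real.le_sqrt_of_sq_le hlo
  have h2 : Real.sqrt T / Q ≤ hi := by
    rw [div_le_iff₀ hQ]
    exact Real.sqrt_le_iff.2 ⟨by positivity, hhi⟩
  obtain ⟨h3, h4⟩ := abs_le.1 h
  have h5 : Real.sqrt G ^ 2 = G := Real.sq_sqrt hG
  have h6 : 0 ≤ Real.sqrt G := Real.sqrt_nonneg G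
  constructor
  · rw [← h5]
    exact pow_le_pow_left₀ (by linarith) (by linarith) 2
  · rw [← h5]
    exact pow_le_pow_left₀ h6 (by linarith) 2

theorem thA_Diag.congr {A U : Matrix ι ι ℂ} {d d' : ι → ℝ} (h : thA_Diag A U d)
    (hd : ∀ k, d k = d' k) : thA_Diag A U d' := by
  have : d = d' := funext hd
  exact this ▸ h

/-- the contraction `W = 1 - (H + s)/c`. -/
noncomputable def thA_W (H : Matrix ι ι ℂ) (s c : ℝ) : Matrix ι ι ℂ :=
  1 - ((c⁻¹ : ℝ) : ℂ) • (H + ((s : ℝ) : ℂ) • (1 : Matrix ι ι ℂ))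

/-- the conditioned Poisson polynomial `∑_{j ≤ J} p_j W^j`. -/
noncomputable def thA_PW (W : Matrix ι ι ℂ) (t : ℝ) (J : ℕ) : Matrix ι ι ℂ :=
  ∑ j ∈ range (J + 1), ((thA_pois t J j : ℝ) : ℂ) • W ^ j

theorem thA_W_diag {H : Matrix ι ι ℂ} (hH : H.IsHermitian) (s c : ℝ) :
    thA_Diag (thA_W H s c) (hH.eigenvectorUnitary : Matrix ι ι ℂ)
      (fun k => 1 - (hH.eigenvalues k + s) / c) := by
  have h0 := thA_Diag_of_isHermitian hH
  have h1 := h0.one.add ((h0.add (h0.one.smul s)).smul (-c⁻¹))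
  have h2 : (1 : Matrix ι ι ℂ) + (((-c⁻¹ : ℝ)) : ℂ) • (H + ((s : ℝ) : ℂ) • (1 : Matrix ι ι ℂ))
      = thA_W H s c := by
    unfold thA_W
    rw [Complex.ofReal_neg, neg_smul, sub_eq_add_neg]
  rw [h2] at h1
  refine h1.congr fun k => ?_
  simp only [mul_one]
  rw [div_eq_mul_inv]
  ring

theorem thA_W_abs_le {H : Matrix ι ι ℂ} (hH : H.IsHermitian) (s c : ℝ) (hc : 0 < c)
    (hlo : ∀ k, -s ≤ hH.eigenvalues k) (hhi : ∀ k, hH.eigenvalues k ≤ 2 * c - s) (k : ι) :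
    |1 - (hH.eigenvalues k + s) / c| ≤ 1 := by
  have h1 : 0 ≤ (hH.eigenvalues k + s) / c := div_nonneg (by linarith [hlo k]) hc.le
  have h2 : (hH.eigenvalues k + s) / c ≤ 2 := by
    rw [div_le_iff₀ hc]; linarith [hhi k]
  rw [abs_le]; constructor <;> linarith

/-- `W` is a Euclidean contraction. -/
theorem thA_W_contraction {H : Matrix ι ι ℂ} (hH : H.IsHermitian) (s c : ℝ) (hc : 0 < c)
    (hlo : ∀ k, -s ≤ hH.eigenvalues k) (hhi : ∀ k, hH.eigenvalues k ≤ 2 * c - s) (v : ι → ℂ) :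
    thA_nrm (thA_W H s c *ᵥ v) ≤ thA_nrm v :=
  (thA_W_diag hH s c).nrm_mulVec_le (thA_W_abs_le hH s c hc hlo hhi) v

theorem thA_sum_exp_sq_eq {H : Matrix ι ι ℂ} (hH : H.IsHermitian) (s c b : ℝ) (hc : 0 < c) :
    ∑ k, Real.exp (b * c / 2 * ((1 - (hH.eigenvalues k + s) / c) - 1)) ^ 2
      = Real.exp (-(b * s)) * gibbsZ H b := by
  rw [gibbsZ_eq hH, Finset.mul_sum]
  refine Finset.sum_congr rfl fun k _ => ?_
  rw [← Real.exp_nat_mul, ← Real.exp_add]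
  congr 1
  field_simp
  ring

/-- **Gibbs certificate (any approximant).**  `dA` is the spectral function of the approximant `A`
in the eigenbasis of `H`, uniformly `τ`-close to `exp (-(b/2)(ε+s))`. -/
theorem thA_gibbs_certificate_of_diag {H : Matrix ι ι ℂ} (hH : H.IsHermitian) (s c b : ℝ)
    (hc : 0 < c) {A : Matrix ι ι ℂ} {dA : ι → ℝ}
    (hA : thA_Diag A (hH.eigenvectorUnitary : Matrix ι ι ℂ) dA)
    (τ : ℝ) (hτ0 : 0 ≤ τ)
    (hτ : ∀ k, |dA k - Real.exp (b * c / 2 * ((1 - (hH.eigenvalues k + s) / c) - 1))| ≤ τ)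
    {κ : Type} [Fintype κ] (m : κ → ℝ) (hm : ∀ c, 0 ≤ m c) (u y : κ → ι → ℂ)
    (horbit : ∑ c, m c * thA_nsq (A *ᵥ u c) = ∑ r, thA_nsq (A *ᵥ Pi.single r 1))
    (Q : ℝ) (hQ : 0 < Q) (η : κ → ℝ)
    (hy : ∀ c, thA_nrm (y c - (Q : ℂ) • (A *ᵥ u c)) ≤ η c)
    (E : ℝ) (hE0 : 0 ≤ E) (hE : ∑ c, m c * η c ^ 2 ≤ E ^ 2) :
    |Real.sqrt (∑ c, m c * thA_nsq (y c)) / Q - Real.sqrt (Real.exp (-(b * s)) * gibbsZ H b)|
      ≤ E / Q + Real.sqrt (Fintype.card ι) * τ := by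
  rw [← thA_sum_exp_sq_eq hH s c b hc]
  exact thA_trace_certificate hA _ τ hτ0 hτ m hm u y horbit Q hQ η hy E hE0 hE

theorem thA_PW_diag {H : Matrix ι ι ℂ} (hH : H.IsHermitian) (s c t : ℝ) (J : ℕ) :
    thA_Diag (thA_PW (thA_W H s c) t J) (hH.eigenvectorUnitary : Matrix ι ι ℂ)
      (fun k => ∑ j ∈ range (J + 1), thA_pois t J j * (1 - (hH.eigenvalues k + s) / c) ^ j) :=
  (thA_W_diag hH s c).poly (thA_pois t J) (J + 1)

/-- **Gibbs certificate (conditioned Poisson polynomial).** -/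
theorem thA_gibbs_certificate {H : Matrix ι ι ℂ} (hH : H.IsHermitian) (s c b : ℝ)
    (hc : 0 < c) (hb : 0 ≤ b)
    (hlo : ∀ k, -s ≤ hH.eigenvalues k) (hhi : ∀ k, hH.eigenvalues k ≤ 2 * c - s) (J : ℕ)
    {κ : Type} [Fintype κ] (m : κ → ℝ) (hm : ∀ c, 0 ≤ m c) (u y : κ → ι → ℂ)
    (horbit : ∑ c', m c' * thA_nsq (thA_PW (thA_W H s c) (b * c / 2) J *ᵥ u c')
      = ∑ r, thA_nsq (thA_PW (thA_W H s c) (b * c / 2) J *ᵥ Pi.single r 1))
    (Q : ℝ) (hQ : 0 < Q) (η : κ → ℝ)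
    (hy : ∀ c', thA_nrm (y c' - (Q : ℂ) • (thA_PW (thA_W H s c) (b * c / 2) J *ᵥ u c')) ≤ η c')
    (E : ℝ) (hE0 : 0 ≤ E) (hE : ∑ c, m c * η c ^ 2 ≤ E ^ 2) :
    |Real.sqrt (∑ c, m c * thA_nsq (y c)) / Q - Real.sqrt (Real.exp (-(b * s)) * gibbsZ H b)|
      ≤ E / Q + Real.sqrt (Fintype.card ι) * (2 * thA_tail (b * c / 2) J) := by
  have ht : 0 ≤ b * c / 2 := by positivity
  refine thA_gibbs_certificate_of_diag hH s c b hc (thA_PW_diag hH s c (b * c / 2) J)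
    (2 * thA_tail (b * c / 2) J) (by have := thA_tail_nonneg ht J; positivity) (fun k => ?_)
    m hm u y horbit Q hQ η hy E hE0 hE
  exact thA_pois_poly_approx ht (thA_W_abs_le hH s c hc hlo hhi k) J

theorem thA_gibbsZ_nonneg {H : Matrix ι ι ℂ} (b : ℝ) : 0 ≤ gibbsZ H b := by
  unfold gibbsZ
  split_ifs with h
  · exact Finset.sum_nonneg fun k _ => (Real.exp_pos _).le
  · exact le_rfl

/-- **Interval form.**  `T` is the (integer) weighted sum of squared norms of the computed columns;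
`x = b s - (shift)`; the result is an enclosure of `exp x * (exp (-(b s)) gibbsZ H b)`. -/
theorem thA_gibbs_interval {H : Matrix ι ι ℂ} (s b : ℝ) {T Q lo hi err xl xh x : ℝ} (hQ : 0 < Q)
    (h : |Real.sqrt T / Q - Real.sqrt (Real.exp (-(b * s)) * gibbsZ H b)| ≤ err)
    (hlo : (lo * Q) ^ 2 ≤ T) (hhi : T ≤ (hi * Q) ^ 2) (hhi0 : 0 ≤ hi)
    (herr : err ≤ lo) (hxl : xl ≤ Real.exp x) (hxh : Real.exp x ≤ xh) :
    xl * (lo - err) ^ 2 ≤ Real.exp (x - b * s) * gibbsZ H b ∧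
      Real.exp (x - b * s) * gibbsZ H b ≤ xh * (hi + err) ^ 2 := by
  have hG : 0 ≤ Real.exp (-(b * s)) * gibbsZ H b :=
    mul_nonneg (Real.exp_pos _).le (thA_gibbsZ_nonneg b)
  obtain ⟨h1, h2⟩ := thA_interval_of_sqrt_close hG hQ h hlo hhi hhi0 herr
  have h3 : Real.exp (x - b * s) * gibbsZ H b
      = Real.exp x * (Real.exp (-(b * s)) * gibbsZ H b) := by
    rw [sub_eq_add_neg, Real.exp_add]; ring
  rw [h3]
  constructor
  · exact mul_le_mul hxl h1 (by positivity) (Real.exp_pos _).le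
  · exact mul_le_mul hxh h2 hG ((Real.exp_pos _).le.trans hxh)

end Claimed.Agent.R297
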