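/-
Row 297 (spin-one Haldane gap), package D1 (thermal error analysis), owner helper204.
Integer specifications of the rounded Horner recurrence (over `ℤ` and over `ℤ[ω]`, coded by pairs),
their distance to the exact polynomial, squared norms as integers, skipping of vanishing
coefficients, and packing of several symmetry sectors in one run.
-/
import Mathlib
import Claimed.Agent.R297.ThermalAnaMain

namespace Claimed.Agent.R297

open Matrix Finset

variable {ι : Type} [Fintype ι] [DecidableEq ι]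

/-! ### the recurrence over `ℤ` -/

/-- integer rounded Horner: `z_0 = 0`, `z_{k+1} = ⌊B z_k / D⌋ + q_k e` (coordinatewise floor). -/
def thA_zHorner (B : Matrix ι ι ℤ) (D : ℤ) (e : ι → ℤ) (q : ℕ → ℤ) : ℕ → ι → ℤ
  | 0 => 0
  | k + 1 => fun x => (B *ᵥ thA_zHorner B D e q k) x / D + q k * e x

/-- cast of an integer vector. -/
def thA_cz (z : ι → ℤ) : ι → ℂ := fun x => ((z x : ℤ) : ℂ)

theorem thA_floor_div_err (a D : ℤ) (hD : 0 < D) :
    ‖(((a / D : ℤ)) : ℂ) - (a : ℂ) / (D : ℂ)‖ ≤ 1 := by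
  have h1 : ((((a / D : ℤ)) : ℂ) - (a : ℂ) / (D : ℂ)) = (((((a / D : ℤ)) : ℝ) - (a : ℝ) / (D : ℝ) : ℝ) : ℂ) := by
    push_cast; ring
  rw [h1, Complex.norm_real, Real.norm_eq_abs]
  have hD' : (0 : ℝ) < D := by exact_mod_cast hD
  have h2 : (a : ℝ) = D * ((a / D : ℤ) : ℝ) + ((a % D : ℤ) : ℝ) := by
    exact_mod_cast (Int.mul_ediv_add_emod a D).symm
  have h3 : (0 : ℝ) ≤ ((a % D : ℤ) : ℝ) := by exact_mod_cast Int.emod_nonneg a hD.ne'
  have h4 : ((a % D : ℤ) : ℝ) < D := by exact_mod_cast Int.emod_lt_of_pos a hD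
  have h5 : (a : ℝ) / D = ((a / D : ℤ) : ℝ) + ((a % D : ℤ) : ℝ) / D := by
    rw [h2]; field_simp
  rw [h5, abs_le]
  have h6 : 0 ≤ ((a % D : ℤ) : ℝ) / D := div_nonneg h3 hD'.le
  have h7 : ((a % D : ℤ) : ℝ) / D ≤ 1 := by rw [div_le_one hD']; exact h4.le
  constructor <;> linarith

omit [DecidableEq ι] in
theorem thA_mulVec_cz (W : Matrix ι ι ℂ) (B : Matrix ι ι ℤ) (D : ℤ) (hD : 0 < D)
    (hB : ∀ x y, ((B x y : ℤ) : ℂ) = (D : ℂ) * W x y) (z : ι → ℤ) (x : ι) :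
    (W *ᵥ thA_cz z) x = (((B *ᵥ z) x : ℤ) : ℂ) / (D : ℂ) := by
  have hD' : (D : ℂ) ≠ 0 := by exact_mod_cast hD.ne'
  rw [eq_div_iff hD']
  simp only [mulVec, dotProduct, thA_cz, Int.cast_sum, Int.cast_mul, hB, Finset.sum_mul]
  refine Finset.sum_congr rfl fun y _ => ?_
  ring

/-- one step of the integer recurrence is a rounded step of the complex one. -/
theorem thA_zHorner_step (W : Matrix ι ι ℂ) (B : Matrix ι ι ℤ) (D : ℤ) (hD : 0 < D)
    (hB : ∀ x y, ((B x y : ℤ) : ℂ) = (D : ℂ) * W x y) (e : ι → ℤ) (q : ℕ → ℤ) (k : ℕ) :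
    thA_nrm (thA_cz (thA_zHorner B D e q (k + 1))
        - (W *ᵥ thA_cz (thA_zHorner B D e q k) + ((q k : ℤ) : ℂ) • thA_cz e))
      ≤ Real.sqrt (Fintype.card ι) := by
  have := thA_nrm_le_of_coord_le (thA_cz (thA_zHorner B D e q (k + 1))
        - (W *ᵥ thA_cz (thA_zHorner B D e q k) + ((q k : ℤ) : ℂ) • thA_cz e)) 1 zero_le_one
    (fun x => ?_)
  · simpa using this
  · simp only [Pi.sub_apply, Pi.add_apply, Pi.smul_apply, smul_eq_mul]
    rw [thA_mulVec_cz W B D hD hB]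
    have h := thA_floor_div_err ((B *ᵥ thA_zHorner B D e q k) x) D hD
    have h2 : thA_cz (thA_zHorner B D e q (k + 1)) x
        = ((((B *ᵥ thA_zHorner B D e q k) x / D : ℤ)) : ℂ) + ((q k : ℤ) : ℂ) * thA_cz e x := by
      simp [thA_cz, thA_zHorner]
    rw [h2]
    convert h using 2
    ring

/-- **Integer Horner versus the exact polynomial.**  `q j` is an integer within `1` of `Q p_j`;
the coefficients are fed from the top. -/
theorem thA_zHorner_close (W : Matrix ι ι ℂ) (hW : ∀ v, thA_nrm (W *ᵥ v) ≤ thA_nrm v)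
    (B : Matrix ι ι ℤ) (D : ℤ) (hD : 0 < D)
    (hB : ∀ x y, ((B x y : ℤ) : ℂ) = (D : ℂ) * W x y) (e : ι → ℤ) (q : ℕ → ℤ) (p : ℕ → ℝ)
    (Q : ℝ) (J : ℕ) (hq : ∀ j ≤ J, |(q j : ℝ) - Q * p j| ≤ 1) :
    thA_nrm (thA_cz (thA_zHorner B D e (fun k => q (J - k)) (J + 1))
        - (Q : ℂ) • ((∑ j ∈ range (J + 1), ((p j : ℝ) : ℂ) • W ^ j) *ᵥ thA_cz e))
      ≤ ((J + 1 : ℕ) : ℝ) * (Real.sqrt (Fintype.card ι) + 1 * thA_nrm (thA_cz e)) := by
  have h1 := thA_rounded_horner W hW (thA_cz e) (fun k => ((Q * p (J - k) : ℝ) : ℂ))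
    (fun k => ((q (J - k) : ℤ) : ℂ))
    (fun k => thA_cz (thA_zHorner B D e (fun k => q (J - k)) k))
    (Real.sqrt (Fintype.card ι)) 1 (J + 1) (by ext x; simp [thA_cz, thA_zHorner])
    (fun k _ => thA_zHorner_step W B D hD hB e (fun k => q (J - k)) k)
    (fun k _ => by
      have h := hq (J - k) (Nat.sub_le J k)
      have h2 : (((q (J - k) : ℤ) : ℂ) - ((Q * p (J - k) : ℝ) : ℂ))
          = ((((q (J - k) : ℤ) : ℝ) - Q * p (J - k) : ℝ) : ℂ) := by push_cast; ring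
      rw [h2, Complex.norm_real, Real.norm_eq_abs]
      exact h)
  have h2 := thA_horner_reflect W (thA_cz e) (fun l => ((Q * p l : ℝ) : ℂ)) J
  rw [h2] at h1
  have h3 : (∑ l ∈ range (J + 1), ((Q * p l : ℝ) : ℂ) • W ^ l) *ᵥ thA_cz e
      = (Q : ℂ) • ((∑ j ∈ range (J + 1), ((p j : ℝ) : ℂ) • W ^ j) *ᵥ thA_cz e) := by
    rw [← smul_mulVec, Finset.smul_sum]
    congr 1
    refine Finset.sum_congr rfl fun l _ => ?_
    rw [smul_smul]; push_cast; rfl
  rw [h3] at h1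
  exact h1

omit [DecidableEq ι] in
/-- the squared norm of an integer vector is an integer. -/
theorem thA_nsq_cz (z : ι → ℤ) : thA_nsq (thA_cz z) = ((∑ x, z x ^ 2 : ℤ) : ℝ) := by
  unfold thA_nsq thA_cz
  push_cast
  refine Finset.sum_congr rfl fun x _ => ?_
  rw [Complex.norm_intCast, sq_abs]

omit [DecidableEq ι] in
/-- leading vanishing coefficients may be skipped. -/
theorem thA_zHorner_skip (B : Matrix ι ι ℤ) (D : ℤ) (e : ι → ℤ) (q : ℕ → ℤ) (k0 : ℕ)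
    (h0 : ∀ k < k0, q k = 0) (m : ℕ) :
    thA_zHorner B D e q (k0 + m) = thA_zHorner B D e (fun k => q (k0 + k)) m := by
  induction m with
  | zero =>
    simp only [add_zero, thA_zHorner]
    induction k0 with
    | zero => rfl
    | succ k ih =>
      have ih' := ih (fun j hj => h0 j (by omega))
      funext x
      simp [thA_zHorner, ih', h0 k (by omega)]
  | succ m ih =>
    funext x
    rw [← add_assoc]
    simp only [thA_zHorner, ih]

/-! ### the recurrence over `ℤ[ω]`, coded by pairs `(u, v) ↦ u + v ω` -/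

/-- `om` is a primitive cube root of unity. -/
structure thA_IsOmega (om : ℂ) : Prop where
  re : om.re = -1 / 2
  im : om.im ^ 2 = 3 / 4

theorem thA_IsOmega.sq_eq {om : ℂ} (h : thA_IsOmega om) : om ^ 2 = -1 - om := by
  apply Complex.ext
  · simp only [pow_two, Complex.mul_re, Complex.sub_re, Complex.neg_re, Complex.one_re, h.re]
    have := h.im
    nlinarith
  · simp only [pow_two, Complex.mul_im, Complex.sub_im, Complex.neg_im, Complex.one_im, h.re]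
    ring

theorem thA_IsOmega.norm_sq {om : ℂ} (h : thA_IsOmega om) (u v : ℝ) :
    ‖(u : ℂ) + (v : ℂ) * om‖ ^ 2 = u ^ 2 - u * v + v ^ 2 := by
  rw [← Complex.normSq_eq_norm_sq, Complex.normSq_apply]
  simp only [Complex.add_re, Complex.ofReal_re, Complex.mul_re, Complex.ofReal_im, zero_mul,
    sub_zero, Complex.add_im, Complex.mul_im, zero_add, add_zero, h.re]
  have := h.im
  nlinarith

/-- rounded Horner over `ℤ[ω]`; the matrix is `B0 + ω B1`, the start vector is an integer vector. -/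
def thA_wHorner (B0 B1 : Matrix ι ι ℤ) (D : ℤ) (e : ι → ℤ) (q : ℕ → ℤ) :
    ℕ → (ι → ℤ) × (ι → ℤ)
  | 0 => (0, 0)
  | k + 1 =>
    (fun x => ((B0 *ᵥ (thA_wHorner B0 B1 D e q k).1) x
        - (B1 *ᵥ (thA_wHorner B0 B1 D e q k).2) x) / D + q k * e x,
     fun x => ((B0 *ᵥ (thA_wHorner B0 B1 D e q k).2) x + (B1 *ᵥ (thA_wHorner B0 B1 D e q k).1) x
        - (B1 *ᵥ (thA_wHorner B0 B1 D e q k).2) x) / D)

/-- value of a pair of integer vectors. -/
def thA_cw (om : ℂ) (z : (ι → ℤ) × (ι → ℤ)) : ι → ℂ :=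
  fun x => ((z.1 x : ℤ) : ℂ) + ((z.2 x : ℤ) : ℂ) * om

theorem thA_floor_div_real (a D : ℤ) (hD : 0 < D) :
    ∃ r : ℝ, 0 ≤ r ∧ r ≤ 1 ∧ (((a / D : ℤ)) : ℝ) = (a : ℝ) / (D : ℝ) - r := by
  have hD' : (0 : ℝ) < D := by exact_mod_cast hD
  have h2 : (a : ℝ) = D * ((a / D : ℤ) : ℝ) + ((a % D : ℤ) : ℝ) := by
    exact_mod_cast (Int.mul_ediv_add_emod a D).symm
  have h3 : (0 : ℝ) ≤ ((a % D : ℤ) : ℝ) := by exact_mod_cast Int.emod_nonneg a hD.ne'
  have h4 : ((a % D : ℤ) : ℝ) < D := by exact_mod_cast Int.emod_lt_of_pos a hD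
  refine ⟨((a % D : ℤ) : ℝ) / D, div_nonneg h3 hD'.le, by rw [div_le_one hD']; exact h4.le, ?_⟩
  have h5 : (a : ℝ) / D = ((a / D : ℤ) : ℝ) + ((a % D : ℤ) : ℝ) / D := by
    rw [h2]; field_simp
  rw [h5]; ring

theorem thA_IsOmega.floor_err {om : ℂ} (h : thA_IsOmega om) (a a' D : ℤ) (hD : 0 < D) :
    ‖((((a / D : ℤ)) : ℂ) + (((a' / D : ℤ)) : ℂ) * om)
        - ((a : ℂ) + (a' : ℂ) * om) / (D : ℂ)‖ ≤ 1 := by
  obtain ⟨r, hr0, hr1, hr⟩ := thA_floor_div_real a D hD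
  obtain ⟨r', hr0', hr1', hr'⟩ := thA_floor_div_real a' D hD
  have e1 : (((a / D : ℤ)) : ℂ) = (a : ℂ) / (D : ℂ) - (r : ℂ) := by
    have := congrArg (fun t : ℝ => (t : ℂ)) hr
    simpa using this
  have e2 : (((a' / D : ℤ)) : ℂ) = (a' : ℂ) / (D : ℂ) - (r' : ℂ) := by
    have := congrArg (fun t : ℝ => (t : ℂ)) hr'
    simpa using this
  have e3 : ((((a / D : ℤ)) : ℂ) + (((a' / D : ℤ)) : ℂ) * om)
        - ((a : ℂ) + (a' : ℂ) * om) / (D : ℂ) = -((r : ℂ) + (r' : ℂ) * om) := by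
    rw [e1, e2]; ring
  rw [e3, norm_neg]
  have h1 := h.norm_sq r r'
  have h2 : ‖(r : ℂ) + (r' : ℂ) * om‖ ^ 2 ≤ 1 ^ 2 := by
    rw [h1]
    nlinarith [mul_nonneg hr0 hr0', mul_nonneg (sub_nonneg.2 hr1) (sub_nonneg.2 hr1'),
      mul_nonneg hr0 (sub_nonneg.2 hr1), mul_nonneg hr0' (sub_nonneg.2 hr1'),
      mul_nonneg hr0 (sub_nonneg.2 hr1'), mul_nonneg hr0' (sub_nonneg.2 hr1)]
  exact (pow_le_pow_iff_left₀ (norm_nonneg _) zero_le_one (by norm_num)).1 h2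

omit [DecidableEq ι] in
theorem thA_mulVec_cw {om : ℂ} (h : thA_IsOmega om) (W : Matrix ι ι ℂ) (B0 B1 : Matrix ι ι ℤ)
    (D : ℤ) (hD : 0 < D)
    (hB : ∀ x y, ((B0 x y : ℤ) : ℂ) + ((B1 x y : ℤ) : ℂ) * om = (D : ℂ) * W x y)
    (z : (ι → ℤ) × (ι → ℤ)) (x : ι) :
    (W *ᵥ thA_cw om z) x
      = ((((B0 *ᵥ z.1) x - (B1 *ᵥ z.2) x : ℤ) : ℂ)
          + (((B0 *ᵥ z.2) x + (B1 *ᵥ z.1) x - (B1 *ᵥ z.2) x : ℤ) : ℂ) * om) / (D : ℂ) := by
  have hD' : (D : ℂ) ≠ 0 := by exact_mod_cast hD.ne'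
  rw [eq_div_iff hD']
  simp only [mulVec, dotProduct, thA_cw, Int.cast_sum, Int.cast_mul, Int.cast_sub, Int.cast_add,
    Finset.sum_mul, ← Finset.sum_add_distrib, ← Finset.sum_sub_distrib]
  refine Finset.sum_congr rfl fun y _ => ?_
  have h1 : W x y * (((z.1 y : ℤ) : ℂ) + ((z.2 y : ℤ) : ℂ) * om) * (D : ℂ)
      = ((D : ℂ) * W x y) * (((z.1 y : ℤ) : ℂ) + ((z.2 y : ℤ) : ℂ) * om) := by ring
  rw [h1, ← hB]
  have h2 := h.sq_eq
  linear_combination (((B1 x y : ℤ) : ℂ) * ((z.2 y : ℤ) : ℂ)) * h2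

theorem thA_wHorner_step {om : ℂ} (h : thA_IsOmega om) (W : Matrix ι ι ℂ) (B0 B1 : Matrix ι ι ℤ)
    (D : ℤ) (hD : 0 < D)
    (hB : ∀ x y, ((B0 x y : ℤ) : ℂ) + ((B1 x y : ℤ) : ℂ) * om = (D : ℂ) * W x y)
    (e : ι → ℤ) (q : ℕ → ℤ) (k : ℕ) :
    thA_nrm (thA_cw om (thA_wHorner B0 B1 D e q (k + 1))
        - (W *ᵥ thA_cw om (thA_wHorner B0 B1 D e q k) + ((q k : ℤ) : ℂ) • thA_cz e))
      ≤ Real.sqrt (Fintype.card ι) := by
  have := thA_nrm_le_of_coord_le (thA_cw om (thA_wHorner B0 B1 D e q (k + 1))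
        - (W *ᵥ thA_cw om (thA_wHorner B0 B1 D e q k) + ((q k : ℤ) : ℂ) • thA_cz e)) 1 zero_le_one
    (fun x => ?_)
  · simpa using this
  · simp only [Pi.sub_apply, Pi.add_apply, Pi.smul_apply, smul_eq_mul]
    rw [thA_mulVec_cw h W B0 B1 D hD hB]
    set z := thA_wHorner B0 B1 D e q k with hz
    have h1 := h.floor_err ((B0 *ᵥ z.1) x - (B1 *ᵥ z.2) x)
      ((B0 *ᵥ z.2) x + (B1 *ᵥ z.1) x - (B1 *ᵥ z.2) x) D hD
    have h2 : thA_cw om (thA_wHorner B0 B1 D e q (k + 1)) x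
        = (((((B0 *ᵥ z.1) x - (B1 *ᵥ z.2) x) / D : ℤ)) : ℂ) + ((q k : ℤ) : ℂ) * thA_cz e x
          + (((((B0 *ᵥ z.2) x + (B1 *ᵥ z.1) x - (B1 *ᵥ z.2) x) / D : ℤ)) : ℂ) * om := by
      simp [thA_cw, thA_cz, thA_wHorner, hz]
    rw [h2]
    convert h1 using 2
    ring

/-- **`ℤ[ω]` Horner versus the exact polynomial.** -/
theorem thA_wHorner_close {om : ℂ} (h : thA_IsOmega om) (W : Matrix ι ι ℂ)
    (hW : ∀ v, thA_nrm (W *ᵥ v) ≤ thA_nrm v) (B0 B1 : Matrix ι ι ℤ) (D : ℤ) (hD : 0 < D)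
    (hB : ∀ x y, ((B0 x y : ℤ) : ℂ) + ((B1 x y : ℤ) : ℂ) * om = (D : ℂ) * W x y)
    (e : ι → ℤ) (q : ℕ → ℤ) (p : ℕ → ℝ)
    (Q : ℝ) (J : ℕ) (hq : ∀ j ≤ J, |(q j : ℝ) - Q * p j| ≤ 1) :
    thA_nrm (thA_cw om (thA_wHorner B0 B1 D e (fun k => q (J - k)) (J + 1))
        - (Q : ℂ) • ((∑ j ∈ range (J + 1), ((p j : ℝ) : ℂ) • W ^ j) *ᵥ thA_cz e))
      ≤ ((J + 1 : ℕ) : ℝ) * (Real.sqrt (Fintype.card ι) + 1 * thA_nrm (thA_cz e)) := by
  have h1 := thA_rounded_horner W hW (thA_cz e) (fun k => ((Q * p (J - k) : ℝ) : ℂ))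
    (fun k => ((q (J - k) : ℤ) : ℂ))
    (fun k => thA_cw om (thA_wHorner B0 B1 D e (fun k => q (J - k)) k))
    (Real.sqrt (Fintype.card ι)) 1 (J + 1) (by ext x; simp [thA_cw, thA_wHorner])
    (fun k _ => thA_wHorner_step h W B0 B1 D hD hB e (fun k => q (J - k)) k)
    (fun k _ => by
      have h := hq (J - k) (Nat.sub_le J k)
      have h2 : (((q (J - k) : ℤ) : ℂ) - ((Q * p (J - k) : ℝ) : ℂ))
          = ((((q (J - k) : ℤ) : ℝ) - Q * p (J - k) : ℝ) : ℂ) := by push_cast; ring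
      rw [h2, Complex.norm_real, Real.norm_eq_abs]
      exact h)
  have h2 := thA_horner_reflect W (thA_cz e) (fun l => ((Q * p l : ℝ) : ℂ)) J
  rw [h2] at h1
  have h3 : (∑ l ∈ range (J + 1), ((Q * p l : ℝ) : ℂ) • W ^ l) *ᵥ thA_cz e
      = (Q : ℂ) • ((∑ j ∈ range (J + 1), ((p j : ℝ) : ℂ) • W ^ j) *ᵥ thA_cz e) := by
    rw [← smul_mulVec, Finset.smul_sum]
    congr 1
    refine Finset.sum_congr rfl fun l _ => ?_
    rw [smul_smul]; push_cast; rfl
  rw [h3] at h1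
  exact h1

omit [DecidableEq ι] in
/-- the squared norm of a `ℤ[ω]` vector is an integer. -/
theorem thA_nsq_cw {om : ℂ} (h : thA_IsOmega om) (z : (ι → ℤ) × (ι → ℤ)) :
    thA_nsq (thA_cw om z) = ((∑ x, (z.1 x ^ 2 - z.1 x * z.2 x + z.2 x ^ 2) : ℤ) : ℝ) := by
  unfold thA_nsq thA_cw
  push_cast
  refine Finset.sum_congr rfl fun x _ => ?_
  have := h.norm_sq (z.1 x) (z.2 x)
  simpa using this

omit [DecidableEq ι] in
theorem thA_wHorner_skip (B0 B1 : Matrix ι ι ℤ) (D : ℤ) (e : ι → ℤ) (q : ℕ → ℤ) (k0 : ℕ)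
    (h0 : ∀ k < k0, q k = 0) (m : ℕ) :
    thA_wHorner B0 B1 D e q (k0 + m) = thA_wHorner B0 B1 D e (fun k => q (k0 + k)) m := by
  induction m with
  | zero =>
    simp only [add_zero, thA_wHorner]
    induction k0 with
    | zero => rfl
    | succ k ih =>
      have ih' := ih (fun j hj => h0 j (by omega))
      simp only [thA_wHorner, ih', h0 k (by omega)]
      ext x <;> simp
  | succ m ih =>
    rw [← add_assoc]
    simp only [thA_wHorner, ih]

/-! ### several sectors in one run -/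

section packing

variable {σ : Type} [DecidableEq σ]

/-- restriction of a vector to the sector `M`. -/
def thA_restr (sec : ι → σ) (M : σ) (v : ι → ℂ) : ι → ℂ := fun x => if sec x = M then v x else 0

omit [DecidableEq ι] in
theorem thA_restr_mulVec (sec : ι → σ) (A : Matrix ι ι ℂ)
    (hA : ∀ x y, sec x ≠ sec y → A x y = 0) (M : σ) (v : ι → ℂ) :
    A *ᵥ thA_restr sec M v = thA_restr sec M (A *ᵥ v) := by
  funext x
  simp only [mulVec, dotProduct, thA_restr]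
  split_ifs with hx
  · refine Finset.sum_congr rfl fun y _ => ?_
    split_ifs with hy
    · rfl
    · rw [hA x y (by rw [hx]; exact fun h => hy h.symm)]; simp
  · refine Finset.sum_eq_zero fun y _ => ?_
    split_ifs with hy
    · rw [hA x y (by rw [hy]; exact hx)]; simp
    · simp

omit [DecidableEq ι] in
theorem thA_sum_nsq_restr [Fintype σ] (sec : ι → σ) (w : σ → ℝ) (v : ι → ℂ) :
    ∑ M, w M * thA_nsq (thA_restr sec M v) = ∑ x, w (sec x) * ‖v x‖ ^ 2 := by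
  simp only [thA_nsq, thA_restr, Finset.mul_sum]
  rw [Finset.sum_comm]
  refine Finset.sum_congr rfl fun x _ => ?_
  rw [Finset.sum_eq_single (sec x)]
  · simp
  · intro M _ hM
    rw [if_neg (fun h => hM h.symm)]; simp
  · intro h; exact absurd (Finset.mem_univ _) h

omit [DecidableEq ι] [Fintype ι] in
theorem thA_restr_sub (sec : ι → σ) (M : σ) (v w : ι → ℂ) :
    thA_restr sec M (v - w) = thA_restr sec M v - thA_restr sec M w := by
  funext x
  simp only [thA_restr, Pi.sub_apply]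
  split_ifs <;> simp

omit [DecidableEq ι] [Fintype ι] in
theorem thA_restr_smul (sec : ι → σ) (M : σ) (a : ℂ) (v : ι → ℂ) :
    thA_restr sec M (a • v) = a • thA_restr sec M v := by
  funext x
  simp only [thA_restr, Pi.smul_apply]
  split_ifs <;> simp

omit [DecidableEq ι] in
/-- **Packed runs.**  `A` is block diagonal for `sec`; run `r` starts from `e r` (a sum of start
vectors, one per sector) and produces `z r` with total error `≤ η`.  Then the probes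
`u (r, M) = restr M (e r)`, `y (r, M) = restr M (z r)` satisfy the hypotheses of
`thA_trace_certificate` with `E ^ 2 = mmax * #runs * η ^ 2`. -/
theorem thA_packed_runs [Fintype σ] {ρ : Type} [Fintype ρ] (sec : ι → σ) (A : Matrix ι ι ℂ)
    (hA : ∀ x y, sec x ≠ sec y → A x y = 0) (Q : ℝ) (e z : ρ → ι → ℂ) (η : ℝ)
    (hz : ∀ r, thA_nrm (z r - (Q : ℂ) • (A *ᵥ e r)) ≤ η)
    (m : ρ × σ → ℝ) (mmax : ℝ) (hm : ∀ c, m c ≤ mmax) (hmmax : 0 ≤ mmax) :
    (∀ c : ρ × σ, thA_nrm (thA_restr sec c.2 (z c.1)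
        - (Q : ℂ) • (A *ᵥ thA_restr sec c.2 (e c.1)))
      ≤ thA_nrm (thA_restr sec c.2 (z c.1 - (Q : ℂ) • (A *ᵥ e c.1)))) ∧
    ∑ c : ρ × σ, m c * thA_nrm (thA_restr sec c.2 (z c.1 - (Q : ℂ) • (A *ᵥ e c.1))) ^ 2
      ≤ mmax * Fintype.card ρ * η ^ 2 := by
  constructor
  · intro c
    rw [thA_restr_mulVec sec A hA, thA_restr_sub, thA_restr_smul]
  · rw [Fintype.sum_prod_type]
    calc ∑ r, ∑ M, m (r, M) * thA_nrm (thA_restr sec M (z r - (Q : ℂ) • (A *ᵥ e r))) ^ 2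
        ≤ ∑ r : ρ, mmax * η ^ 2 := by
          refine Finset.sum_le_sum fun r _ => ?_
          calc ∑ M, m (r, M) * thA_nrm (thA_restr sec M (z r - (Q : ℂ) • (A *ᵥ e r))) ^ 2
              ≤ ∑ M, mmax * thA_nsq (thA_restr sec M (z r - (Q : ℂ) • (A *ᵥ e r))) := by
                refine Finset.sum_le_sum fun M _ => ?_
                rw [thA_nrm_sq]
                exact mul_le_mul_of_nonneg_right (hm _) (thA_nsq_nonneg _)
            _ = mmax * thA_nsq (z r - (Q : ℂ) • (A *ᵥ e r)) := by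
                rw [thA_sum_nsq_restr sec (fun _ => mmax), ← Finset.mul_sum]; rfl
            _ ≤ mmax * η ^ 2 := by
                refine mul_le_mul_of_nonneg_left ?_ hmmax
                rw [← thA_nrm_sq]
                exact pow_le_pow_left₀ (thA_nrm_nonneg _) (hz r) 2
      _ = mmax * Fintype.card ρ * η ^ 2 := by
          rw [Finset.sum_const, Finset.card_univ, nsmul_eq_mul]; ring

end packing

end Claimed.Agent.R297
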