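/-
Row 297 (spin-one Haldane gap), package D1c (Clenshaw-Chebyshev thermal analysis), owner helper46.
Integer specifications of the rounded Clenshaw run (over `ℤ` and over `ℤ[ω]`, coded by pairs, same
conventions as `thA_zHorner` / `thA_wHorner`), and their distance to `2 ∑_k q_k T_k(W) e`.
The matrix of the run is `B / D = 2 W`.
-/
import Mathlib
import Claimed.Agent.R297.ThermalCheb
import Claimed.Agent.R297.ThermalAnaInt

namespace Claimed.Agent.R297

open Matrix Finset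

variable {ι : Type} [Fintype ι] [DecidableEq ι]

/-! ### the run over `ℤ` -/

/-- integer rounded Clenshaw run; the state after `i` steps is `(z_{K+1-i}, z_{K+2-i})`; the
coefficients are fed from the top (`q i` multiplies `T_{K-i}`):
`new = ⌊B cur / D⌋ - old + q_i e` (coordinatewise floor). -/
def thC_zClen (B : Matrix ι ι ℤ) (D : ℤ) (e : ι → ℤ) (q : ℕ → ℤ) : ℕ → (ι → ℤ) × (ι → ℤ)
  | 0 => (0, 0)
  | i + 1 =>
    (fun x => (B *ᵥ (thC_zClen B D e q i).1) x / D - (thC_zClen B D e q i).2 x + q i * e x,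
     (thC_zClen B D e q i).1)

/-- output of the run of degree `K` (`K+1` steps): `z_0 - z_2 + q_K e` (`q K` = coefficient of
`T_0` in the feeding order). -/
def thC_zOut (B : Matrix ι ι ℤ) (D : ℤ) (e : ι → ℤ) (q : ℕ → ℤ) (K : ℕ) : ι → ℤ :=
  fun x => (thC_zClen B D e q (K + 1)).1 x - (thC_zClen B D e q K).2 x + q K * e x

omit [DecidableEq ι] in
theorem thC_zClen_snd (B : Matrix ι ι ℤ) (D : ℤ) (e : ι → ℤ) (q : ℕ → ℤ) (i : ℕ) :
    (thC_zClen B D e q i).2 = (thC_zClen B D e q (i - 1)).1 := by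
  cases i with
  | zero => rfl
  | succ i => rfl

/-- **Integer Clenshaw run versus the exact Chebyshev sum.**  `q k` = integer coefficient of `T_k`;
`B / D = 2 W`. -/
theorem thC_zClen_close {W U : Matrix ι ι ℂ} {d : ι → ℝ} (h : thA_Diag W U d)
    (hd : ∀ i, |d i| ≤ 1) (B : Matrix ι ι ℤ) (D : ℤ) (hD : 0 < D)
    (hB : ∀ x y, ((B x y : ℤ) : ℂ) = (D : ℂ) * (2 * W x y)) (e : ι → ℤ) (q : ℕ → ℤ) (K : ℕ) :
    thA_nrm (thA_cz (thC_zOut B D e (fun i => q (K - i)) K)
        - (2 : ℂ) • ((∑ k ∈ range (K + 1), ((q k : ℤ) : ℂ) • thC_T W k) *ᵥ thA_cz e))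
      ≤ (2 * K + 1) * Real.sqrt (Fintype.card ι) := by
  set S := thC_zClen B D e (fun i => q (K - i)) with hS
  set z : ℕ → ι → ℂ := fun k => thA_cz (S (K + 1 - k)).1 with hz
  have hB' : ∀ x y, ((B x y : ℤ) : ℂ) = (D : ℂ) * ((2 : ℂ) • W) x y := by
    intro x y; rw [hB]; simp
  have hmain := thC_rounded_clenshaw h hd (thA_cz e) (fun k => ((q k : ℤ) : ℂ)) z
    (Real.sqrt (Fintype.card ι)) K
    (by simp only [hz, Nat.sub_self]; funext x; simp [hS, thC_zClen, thA_cz])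
    (by
      have : K + 1 - (K + 2) = 0 := by omega
      simp only [hz, this]; funext x; simp [hS, thC_zClen, thA_cz])
    (by
      intro k hk
      have := thA_nrm_le_of_coord_le (z k - (((q k : ℤ) : ℂ) • thA_cz e
        + (2 : ℂ) • (W *ᵥ z (k + 1)) - z (k + 2))) 1 zero_le_one (fun x => ?_)
      · simpa using this
      · have e1 : K + 1 - k = (K - k) + 1 := by omega
        have e2 : K + 1 - (k + 1) = K - k := by omega
        have e3 : K + 1 - (k + 2) = K - k - 1 := by omega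
        have e4 : K - (K - k) = k := by omega
        simp only [hz, e1, e2, e3, Pi.sub_apply, Pi.add_apply, Pi.smul_apply, smul_eq_mul]
        have h2 : (2 : ℂ) * (W *ᵥ thA_cz (S (K - k)).1) x
            = (((B *ᵥ (S (K - k)).1) x : ℤ) : ℂ) / (D : ℂ) := by
          rw [← thA_mulVec_cz ((2 : ℂ) • W) B D hD hB', smul_mulVec]
          simp
        rw [h2]
        have h3 : thA_cz (S (K - k + 1)).1 x
            = ((((B *ᵥ (S (K - k)).1) x / D : ℤ)) : ℂ) - thA_cz (S (K - k - 1)).1 x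
              + ((q k : ℤ) : ℂ) * thA_cz e x := by
          have := thC_zClen_snd B D e (fun i => q (K - i)) (K - k)
          rw [← hS] at this
          simp only [thA_cz, hS, thC_zClen, e4]
          rw [← hS, this]
          push_cast
          ring
        rw [h3]
        have h4 := thA_floor_div_err ((B *ᵥ (S (K - k)).1) x) D hD
        convert h4 using 2
        ring)
  have hout : thA_cz (thC_zOut B D e (fun i => q (K - i)) K)
      = z 0 - z 2 + ((q 0 : ℤ) : ℂ) • thA_cz e := by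
    funext x
    have := thC_zClen_snd B D e (fun i => q (K - i)) K
    rw [← hS] at this
    have e5 : K + 1 - 2 = K - 1 := by omega
    simp only [thC_zOut, thA_cz, hz, ← hS, this, Nat.sub_self, Nat.sub_zero, e5, Pi.sub_apply,
      Pi.add_apply, Pi.smul_apply, smul_eq_mul]
    push_cast
    ring
  rw [hout]
  exact hmain

/-! ### the run over `ℤ[ω]`, coded by pairs `(u, v) ↦ u + v ω` -/

/-- rounded Clenshaw run over `ℤ[ω]`; the matrix is `(B0 + ω B1) / D = 2 W`, the start vector is an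
integer vector. -/
def thC_wClen (B0 B1 : Matrix ι ι ℤ) (D : ℤ) (e : ι → ℤ) (q : ℕ → ℤ) :
    ℕ → ((ι → ℤ) × (ι → ℤ)) × ((ι → ℤ) × (ι → ℤ))
  | 0 => ((0, 0), (0, 0))
  | i + 1 =>
    ((fun x => ((B0 *ᵥ (thC_wClen B0 B1 D e q i).1.1) x
          - (B1 *ᵥ (thC_wClen B0 B1 D e q i).1.2) x) / D
          - (thC_wClen B0 B1 D e q i).2.1 x + q i * e x,
      fun x => ((B0 *ᵥ (thC_wClen B0 B1 D e q i).1.2) x + (B1 *ᵥ (thC_wClen B0 B1 D e q i).1.1) x
          - (B1 *ᵥ (thC_wClen B0 B1 D e q i).1.2) x) / D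
          - (thC_wClen B0 B1 D e q i).2.2 x),
     (thC_wClen B0 B1 D e q i).1)

/-- output of the `ℤ[ω]` run of degree `K`. -/
def thC_wOut (B0 B1 : Matrix ι ι ℤ) (D : ℤ) (e : ι → ℤ) (q : ℕ → ℤ) (K : ℕ) :
    (ι → ℤ) × (ι → ℤ) :=
  (fun x => (thC_wClen B0 B1 D e q (K + 1)).1.1 x - (thC_wClen B0 B1 D e q K).2.1 x + q K * e x,
   fun x => (thC_wClen B0 B1 D e q (K + 1)).1.2 x - (thC_wClen B0 B1 D e q K).2.2 x)

omit [DecidableEq ι] in
theorem thC_wClen_snd (B0 B1 : Matrix ι ι ℤ) (D : ℤ) (e : ι → ℤ) (q : ℕ → ℤ) (i : ℕ) :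
    (thC_wClen B0 B1 D e q i).2 = (thC_wClen B0 B1 D e q (i - 1)).1 := by
  cases i with
  | zero => rfl
  | succ i => rfl

/-- **`ℤ[ω]` Clenshaw run versus the exact Chebyshev sum.** -/
theorem thC_wClen_close {om : ℂ} (ho : thA_IsOmega om) {W U : Matrix ι ι ℂ} {d : ι → ℝ}
    (h : thA_Diag W U d) (hd : ∀ i, |d i| ≤ 1) (B0 B1 : Matrix ι ι ℤ) (D : ℤ) (hD : 0 < D)
    (hB : ∀ x y, ((B0 x y : ℤ) : ℂ) + ((B1 x y : ℤ) : ℂ) * om = (D : ℂ) * (2 * W x y))
    (e : ι → ℤ) (q : ℕ → ℤ) (K : ℕ) :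
    thA_nrm (thA_cw om (thC_wOut B0 B1 D e (fun i => q (K - i)) K)
        - (2 : ℂ) • ((∑ k ∈ range (K + 1), ((q k : ℤ) : ℂ) • thC_T W k) *ᵥ thA_cz e))
      ≤ (2 * K + 1) * Real.sqrt (Fintype.card ι) := by
  set S := thC_wClen B0 B1 D e (fun i => q (K - i)) with hS
  set z : ℕ → ι → ℂ := fun k => thA_cw om (S (K + 1 - k)).1 with hz
  have hB' : ∀ x y, ((B0 x y : ℤ) : ℂ) + ((B1 x y : ℤ) : ℂ) * om
      = (D : ℂ) * ((2 : ℂ) • W) x y := by
    intro x y; rw [hB]; simp
  have hmain := thC_rounded_clenshaw h hd (thA_cz e) (fun k => ((q k : ℤ) : ℂ)) z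
    (Real.sqrt (Fintype.card ι)) K
    (by simp only [hz, Nat.sub_self]; funext x; simp [hS, thC_wClen, thA_cw])
    (by
      have : K + 1 - (K + 2) = 0 := by omega
      simp only [hz, this]; funext x; simp [hS, thC_wClen, thA_cw])
    (by
      intro k hk
      have := thA_nrm_le_of_coord_le (z k - (((q k : ℤ) : ℂ) • thA_cz e
        + (2 : ℂ) • (W *ᵥ z (k + 1)) - z (k + 2))) 1 zero_le_one (fun x => ?_)
      · simpa using this
      · have e1 : K + 1 - k = (K - k) + 1 := by omega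
        have e2 : K + 1 - (k + 1) = K - k := by omega
        have e3 : K + 1 - (k + 2) = K - k - 1 := by omega
        have e4 : K - (K - k) = k := by omega
        simp only [hz, e1, e2, e3, Pi.sub_apply, Pi.add_apply, Pi.smul_apply, smul_eq_mul]
        set c := (S (K - k)).1 with hc
        have h2 : (2 : ℂ) * (W *ᵥ thA_cw om c) x
            = ((((B0 *ᵥ c.1) x - (B1 *ᵥ c.2) x : ℤ) : ℂ)
              + (((B0 *ᵥ c.2) x + (B1 *ᵥ c.1) x - (B1 *ᵥ c.2) x : ℤ) : ℂ) * om) / (D : ℂ) := by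
          rw [← thA_mulVec_cw ho ((2 : ℂ) • W) B0 B1 D hD hB', smul_mulVec]
          simp
        rw [h2]
        have h3 : thA_cw om (S (K - k + 1)).1 x
            = (((((B0 *ᵥ c.1) x - (B1 *ᵥ c.2) x) / D : ℤ)) : ℂ)
              + (((((B0 *ᵥ c.2) x + (B1 *ᵥ c.1) x - (B1 *ᵥ c.2) x) / D : ℤ)) : ℂ) * om
              - thA_cw om (S (K - k - 1)).1 x + ((q k : ℤ) : ℂ) * thA_cz e x := by
          have := thC_wClen_snd B0 B1 D e (fun i => q (K - i)) (K - k)
          rw [← hS] at this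
          simp only [thA_cw, thA_cz, hS, thC_wClen, e4]
          rw [← hS, this, ← hc]
          push_cast
          ring
        rw [h3]
        have h4 := ho.floor_err ((B0 *ᵥ c.1) x - (B1 *ᵥ c.2) x)
          ((B0 *ᵥ c.2) x + (B1 *ᵥ c.1) x - (B1 *ᵥ c.2) x) D hD
        convert h4 using 2
        ring)
  have hout : thA_cw om (thC_wOut B0 B1 D e (fun i => q (K - i)) K)
      = z 0 - z 2 + ((q 0 : ℤ) : ℂ) • thA_cz e := by
    funext x
    have := thC_wClen_snd B0 B1 D e (fun i => q (K - i)) K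
    rw [← hS] at this
    have e5 : K + 1 - 2 = K - 1 := by omega
    simp only [thC_wOut, thA_cw, thA_cz, hz, ← hS, this, Nat.sub_self, Nat.sub_zero, e5,
      Pi.sub_apply, Pi.add_apply, Pi.smul_apply, smul_eq_mul]
    push_cast
    ring
  rw [hout]
  exact hmain

end Claimed.Agent.R297
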