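/-
Row 297 (spin-one Haldane gap), package D1c (Clenshaw-Chebyshev thermal analysis), owner helper46.
One-call certificate: integer Clenshaw runs (`thC_zOut` / `thC_wOut`) + a closed coefficient check
==> enclosure of `exp (-(b s)) * gibbsZ H b`.
-/
import Mathlib
import Claimed.Agent.R297.ThermalChebCoef
import Claimed.Agent.R297.ThermalChebInt

namespace Claimed.Agent.R297

open Matrix Finset

variable {ι : Type} [Fintype ι] [DecidableEq ι]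

/-- the approximant `∑_k (q_k / Q) T_k(W)` attached to an integer coefficient list. -/
noncomputable def thC_A (W : Matrix ι ι ℂ) (q : List ℕ) (Q : ℕ) : Matrix ι ι ℂ :=
  ∑ k ∈ range (q.length - 1 + 1), ((((q.getD k 0 : ℕ) : ℝ) / Q : ℝ) : ℂ) • thC_T W k

theorem thC_A_diag {W U : Matrix ι ι ℂ} {d : ι → ℝ} (h : thA_Diag W U d) (q : List ℕ) (Q : ℕ) :
    thA_Diag (thC_A W q Q) U
      (fun i => ∑ k ∈ range (q.length - 1 + 1), (((q.getD k 0 : ℕ) : ℝ) / Q) * thC_t (d i) k) :=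
  thC_sum_diag h (fun k => ((q.getD k 0 : ℕ) : ℝ) / Q) (q.length - 1)

theorem thC_A_eig (q : List ℕ) (hq : q ≠ []) (Q : ℕ) (w : ℝ) :
    ∑ k ∈ range (q.length - 1 + 1), (((q.getD k 0 : ℕ) : ℝ) / Q) * thC_t w k
      = thC_evalFrom w 0 q / Q := by
  have hlen : q.length - 1 + 1 = q.length := by
    have := List.length_pos_iff.2 hq
    omega
  rw [hlen, thC_evalFrom_eq_sum, Finset.sum_div]
  refine Finset.sum_congr rfl fun k _ => ?_
  rw [zero_add]; ring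

/-- rescaling: `2 ∑ q_k T_k(W) v = (2Q) A v`. -/
theorem thC_two_smul_sum (W : Matrix ι ι ℂ) (q : List ℕ) (Q : ℕ) (hQ : 0 < Q) (v : ι → ℂ) :
    (2 : ℂ) • ((∑ k ∈ range (q.length - 1 + 1),
        ((((q.getD k 0 : ℕ) : ℤ) : ℤ) : ℂ) • thC_T W k) *ᵥ v)
      = (((2 * Q : ℕ) : ℝ) : ℂ) • (thC_A W q Q *ᵥ v) := by
  have hQ' : (Q : ℂ) ≠ 0 := by exact_mod_cast hQ.ne'
  unfold thC_A
  rw [← smul_mulVec, ← smul_mulVec, Finset.smul_sum, Finset.smul_sum]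
  congr 1
  refine Finset.sum_congr rfl fun k _ => ?_
  rw [smul_smul, smul_smul]
  congr 1
  push_cast
  field_simp

/-- the integer run over `ℤ` attached to a coefficient list. -/
def thC_zRun (B : Matrix ι ι ℤ) (D : ℤ) (q : List ℕ) (e : ι → ℤ) : ι → ℤ :=
  thC_zOut B D e (fun i => ((q.getD (q.length - 1 - i) 0 : ℕ) : ℤ)) (q.length - 1)

/-- the integer run over `ℤ[ω]` attached to a coefficient list. -/
def thC_wRun (B0 B1 : Matrix ι ι ℤ) (D : ℤ) (q : List ℕ) (e : ι → ℤ) : (ι → ℤ) × (ι → ℤ) :=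
  thC_wOut B0 B1 D e (fun i => ((q.getD (q.length - 1 - i) 0 : ℕ) : ℤ)) (q.length - 1)

theorem thC_zRun_close {W U : Matrix ι ι ℂ} {d : ι → ℝ} (h : thA_Diag W U d)
    (hd : ∀ i, |d i| ≤ 1) (B : Matrix ι ι ℤ) (D : ℤ) (hD : 0 < D)
    (hB : ∀ x y, ((B x y : ℤ) : ℂ) = (D : ℂ) * (2 * W x y)) (q : List ℕ) (Q : ℕ) (hQ : 0 < Q)
    (e : ι → ℤ) :
    thA_nrm (thA_cz (thC_zRun B D q e) - (((2 * Q : ℕ) : ℝ) : ℂ) • (thC_A W q Q *ᵥ thA_cz e))
      ≤ (2 * (q.length - 1 : ℕ) + 1) * Real.sqrt (Fintype.card ι) := by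
  have := thC_zClen_close h hd B D hD hB e (fun k => ((q.getD k 0 : ℕ) : ℤ)) (q.length - 1)
  rw [thC_two_smul_sum W q Q hQ] at this
  exact this

theorem thC_wRun_close {om : ℂ} (ho : thA_IsOmega om) {W U : Matrix ι ι ℂ} {d : ι → ℝ}
    (h : thA_Diag W U d) (hd : ∀ i, |d i| ≤ 1) (B0 B1 : Matrix ι ι ℤ) (D : ℤ) (hD : 0 < D)
    (hB : ∀ x y, ((B0 x y : ℤ) : ℂ) + ((B1 x y : ℤ) : ℂ) * om = (D : ℂ) * (2 * W x y))
    (q : List ℕ) (Q : ℕ) (hQ : 0 < Q) (e : ι → ℤ) :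
    thA_nrm (thA_cw om (thC_wRun B0 B1 D q e)
        - (((2 * Q : ℕ) : ℝ) : ℂ) • (thC_A W q Q *ᵥ thA_cz e))
      ≤ (2 * (q.length - 1 : ℕ) + 1) * Real.sqrt (Fintype.card ι) := by
  have := thC_wClen_close ho h hd B0 B1 D hD hB e (fun k => ((q.getD k 0 : ℕ) : ℤ)) (q.length - 1)
  rw [thC_two_smul_sum W q Q hQ] at this
  exact this

/-- **Clenshaw-Chebyshev Gibbs certificate.**  `W = 1 - (H+s)/c`, `t = b c / 2 = tn/td`,
`A = ∑ (q_k/Q) T_k(W)`.  Hypotheses: spectral window, the closed coefficient check of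
`thC_cheb_approx`, the orbit identity for `A`, and probes `y c'` within `η c'` of `(2Q) A u c'`
(from `thC_zRun_close` / `thC_wRun_close`, possibly through `thA_packed_runs`). -/
theorem thC_gibbs_certificate {H : Matrix ι ι ℂ} (hH : H.IsHermitian) (s c b : ℝ) (hc : 0 < c)
    (hlo : ∀ k, -s ≤ hH.eigenvalues k) (hhi : ∀ k, hH.eigenvalues k ≤ 2 * c - s)
    (tn td J : ℕ) (htd : 0 < td) (ht : b * c / 2 = (tn : ℝ) / td)
    (q : List ℕ) (hq : q ≠ []) (Q : ℕ) (hQ : 0 < Q) (εn εd : ℕ) (hεd : 0 < εd)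
    (hcheck : thC_l1dist (q.map (· * thC_poisDen tn td J))
        ((thC_reexp (thC_poisList tn td J)).map (· * Q)) * εd ≤ εn * (Q * thC_poisDen tn td J))
    {κ : Type} [Fintype κ] (m : κ → ℝ) (hm : ∀ c', 0 ≤ m c') (u y : κ → ι → ℂ)
    (horbit : ∑ c', m c' * thA_nsq (thC_A (thA_W H s c) q Q *ᵥ u c')
      = ∑ r, thA_nsq (thC_A (thA_W H s c) q Q *ᵥ Pi.single r 1))
    (η : κ → ℝ)
    (hy : ∀ c', thA_nrm (y c' - (((2 * Q : ℕ) : ℝ) : ℂ) • (thC_A (thA_W H s c) q Q *ᵥ u c'))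
      ≤ η c')
    (E : ℝ) (hE0 : 0 ≤ E) (hE : ∑ c', m c' * η c' ^ 2 ≤ E ^ 2) :
    |Real.sqrt (∑ c', m c' * thA_nsq (y c')) / ((2 * Q : ℕ) : ℝ)
        - Real.sqrt (Real.exp (-(b * s)) * gibbsZ H b)|
      ≤ E / ((2 * Q : ℕ) : ℝ)
        + Real.sqrt (Fintype.card ι) * ((εn : ℝ) / εd + 2 * thA_tail ((tn : ℝ) / td) J) := by
  have hdiag := thC_A_diag (thA_W_diag hH s c) q Q
  have htail : 0 ≤ thA_tail ((tn : ℝ) / td) J := thA_tail_nonneg (by positivity) J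
  refine thA_gibbs_certificate_of_diag hH s c b hc hdiag
    ((εn : ℝ) / εd + 2 * thA_tail ((tn : ℝ) / td) J) (by positivity) (fun k => ?_)
    m hm u y horbit ((2 * Q : ℕ) : ℝ) (by exact_mod_cast Nat.mul_pos two_pos hQ) η hy E hE0 hE
  rw [thC_A_eig q hq Q, ht]
  exact thC_cheb_approx tn td J htd q Q hQ εn εd hεd hcheck (thA_W_abs_le hH s c hc hlo hhi k)

end Claimed.Agent.R297
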