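/-
Row 297 (spin-one Haldane gap), package D4e: two copies of a layout in one packed number
(pairs `(u, v)` coding `u + ω v`), for the `ℤ[ω]` runs.  Skeleton by helper81, proofs by helper17.
-/
import Claimed.Agent.R297.LanesLayout
import Claimed.Agent.R297.ThermalChebMain

namespace Claimed.Agent.R297

open Matrix

variable {ι : Type} {N : ℕ}

/-- two copies of a layout: lanes `0..N-1` = first copy, lanes `N..2N-1` = second copy. -/
def dblLayout (L : LaneLayout ι N) : LaneLayout (ι ⊕ ι) (2 * N) where
  code := Sum.elim L.code (fun x => N + L.code x)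
  dec := fun i => if i < N then Sum.inl (L.dec i) else Sum.inr (L.dec (i - N))
  S := Sum.elim L.S L.S
  dec_mem := by
    intro i hi
    by_cases h : i < N
    · rw [if_pos h]; exact L.dec_mem i h
    · rw [if_neg h]; exact L.dec_mem (i - N) (by omega)
  code_dec := by
    intro i hi
    by_cases h : i < N
    · rw [if_pos h]; exact L.code_dec i h
    · rw [if_neg h]
      show N + L.code (L.dec (i - N)) = i
      rw [L.code_dec (i - N) (by omega)]; omega
  dec_code := by
    rintro (x | x) hx
    · show (if L.code x < N then Sum.inl (L.dec (L.code x))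
        else Sum.inr (L.dec (L.code x - N))) = Sum.inl x
      rw [if_pos (L.code_lt x hx), L.dec_code x hx]
    · show (if N + L.code x < N then Sum.inl (L.dec (N + L.code x))
        else Sum.inr (L.dec (N + L.code x - N))) = Sum.inr x
      rw [if_neg (by omega), Nat.add_sub_cancel_left, L.dec_code x hx]
  code_lt := by
    rintro (x | x) hx
    · have := L.code_lt x hx
      show L.code x < 2 * N
      omega
    · have := L.code_lt x hx
      show N + L.code x < 2 * N
      omega

@[simp] theorem dblLayout_code_inl (L : LaneLayout ι N) (x : ι) :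
    (dblLayout L).code (Sum.inl x) = L.code x := rfl

@[simp] theorem dblLayout_code_inr (L : LaneLayout ι N) (x : ι) :
    (dblLayout L).code (Sum.inr x) = N + L.code x := rfl

@[simp] theorem dblLayout_S_inl (L : LaneLayout ι N) (x : ι) :
    (dblLayout L).S (Sum.inl x) = L.S x := rfl

@[simp] theorem dblLayout_S_inr (L : LaneLayout ι N) (x : ι) :
    (dblLayout L).S (Sum.inr x) = L.S x := rfl

theorem dblLayout_dec_lt (L : LaneLayout ι N) {i : ℕ} (h : i < N) :
    (dblLayout L).dec i = Sum.inl (L.dec i) := if_pos h

theorem dblLayout_dec_add (L : LaneLayout ι N) (i : ℕ) :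
    (dblLayout L).dec (N + i) = Sum.inr (L.dec i) := by
  show (if N + i < N then Sum.inl (L.dec (N + i)) else Sum.inr (L.dec (N + i - N))) = _
  rw [if_neg (by omega), Nat.add_sub_cancel_left]

/-- packing a function of the configuration over the doubled layout. -/
theorem dblLayout_pack (w : ℕ) (L : LaneLayout ι N) (g : ι ⊕ ι → ℕ) :
    lanePack w (fun i => g ((dblLayout L).dec i)) (2 * N)
      = lanePack w (fun i => g (Sum.inl (L.dec i))) N
        + lanePack w (fun i => g (Sum.inr (L.dec i))) N <<< (w * N) := by
  have e : ∀ f : ℕ → ℕ, lanePack w f (2 * N) = lanePack w f (N + N) := fun f => by rw [two_mul]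
  rw [e, lanePack_split, Nat.shiftLeft_eq]
  congr 1
  · exact lanePack_congr fun i hi => by rw [dblLayout_dec_lt L hi]
  · congr 1
    exact lanePack_congr fun i _ => by rw [dblLayout_dec_add L i]

theorem lanePack_const_zero (w N : ℕ) : lanePack w (fun _ => 0) N = 0 := by
  simp [lanePack]

/-- the same move in both copies. -/
def SiteOp.dup (w N : ℕ) (op : SiteOp ι) : SiteOp (ι ⊕ ι) where
  D := Sum.elim op.D op.D
  σ := Sum.map op.σ op.σ
  m := op.m + op.m <<< (w * N)
  up := op.up
  sh := op.sh
  coef := op.coef

/-- the move inside the first copy only. -/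
def SiteOp.inLL (op : SiteOp ι) : SiteOp (ι ⊕ ι) where
  D := Sum.elim op.D (fun _ => false)
  σ := Sum.map op.σ op.σ
  m := op.m
  up := op.up
  sh := op.sh
  coef := op.coef

/-- the move inside the second copy only. -/
def SiteOp.inRR (w N : ℕ) (op : SiteOp ι) : SiteOp (ι ⊕ ι) where
  D := Sum.elim (fun _ => false) op.D
  σ := Sum.map op.σ op.σ
  m := op.m <<< (w * N)
  up := op.up
  sh := op.sh
  coef := op.coef

/-- the move from the first copy (source) to the second copy (target). -/
def SiteOp.inLR (N : ℕ) (op : SiteOp ι) : SiteOp (ι ⊕ ι) where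
  D := Sum.elim op.D (fun _ => false)
  σ := Sum.elim (fun y => Sum.inr (op.σ y)) (fun y => Sum.inr (op.σ y))
  m := op.m
  up := true
  sh := bif op.up then N + op.sh else N - op.sh
  coef := op.coef

/-- the move from the second copy (source) to the first copy (target). -/
def SiteOp.inRL (w N : ℕ) (op : SiteOp ι) : SiteOp (ι ⊕ ι) where
  D := Sum.elim (fun _ => false) op.D
  σ := Sum.elim (fun y => Sum.inl (op.σ y)) (fun y => Sum.inl (op.σ y))
  m := op.m <<< (w * N)
  up := false
  sh := bif op.up then N - op.sh else N + op.sh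
  coef := op.coef

theorem SiteOp.dup_valid {w : ℕ} {L : LaneLayout ι N} {op : SiteOp ι} (h : op.Valid w L) :
    (op.dup w N).Valid w (dblLayout L) where
  mask := by
    have := dblLayout_pack w L (fun z => if (op.dup w N).D z then 2 ^ w - 1 else 0)
    refine Eq.trans ?_ this.symm
    show op.m + op.m <<< (w * N) = _
    conv_lhs => rw [h.mask]
    rfl
  mem := by
    rintro (y | y) hy hD
    · exact h.mem y hy hD
    · exact h.mem y hy hD
  mem' := by
    rintro (y | y) hD hy
    · exact h.mem' y hD hy
    · exact h.mem' y hD hy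
  shift := by
    rintro (y | y) hy hD
    · exact h.shift y hy hD
    · have := h.shift y hy hD
      show (if op.up = true then N + L.code (op.σ y) = N + L.code y + op.sh
        else N + L.code (op.σ y) + op.sh = N + L.code y)
      split_ifs at this ⊢ <;> omega

theorem SiteOp.inLL_valid {w : ℕ} {L : LaneLayout ι N} {op : SiteOp ι} (h : op.Valid w L) :
    op.inLL.Valid w (dblLayout L) where
  mask := by
    have := dblLayout_pack w L (fun z => if op.inLL.D z then 2 ^ w - 1 else 0)
    refine Eq.trans ?_ this.symm
    show op.m = _ + lanePack w (fun _ => if false = true then 2 ^ w - 1 else 0) N <<< (w * N)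
    simp only [Bool.false_eq_true, if_false, lanePack_const_zero, Nat.zero_shiftLeft, add_zero]
    exact h.mask
  mem := by
    rintro (y | y) hy hD
    · exact h.mem y hy hD
    · exact absurd hD (by simp [SiteOp.inLL])
  mem' := by
    rintro (y | y) hD hy
    · exact h.mem' y hD hy
    · exact absurd hD (by simp [SiteOp.inLL])
  shift := by
    rintro (y | y) hy hD
    · exact h.shift y hy hD
    · exact absurd hD (by simp [SiteOp.inLL])

theorem SiteOp.inRR_valid {w : ℕ} {L : LaneLayout ι N} {op : SiteOp ι} (h : op.Valid w L) :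
    (op.inRR w N).Valid w (dblLayout L) where
  mask := by
    have := dblLayout_pack w L (fun z => if (op.inRR w N).D z then 2 ^ w - 1 else 0)
    refine Eq.trans ?_ this.symm
    show op.m <<< (w * N) = lanePack w (fun _ => if false = true then 2 ^ w - 1 else 0) N + _
    simp only [Bool.false_eq_true, if_false, lanePack_const_zero, zero_add]
    conv_lhs => rw [h.mask]
    rfl
  mem := by
    rintro (y | y) hy hD
    · exact absurd hD (by simp [SiteOp.inRR])
    · exact h.mem y hy hD
  mem' := by
    rintro (y | y) hD hy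
    · exact absurd hD (by simp [SiteOp.inRR])
    · exact h.mem' y hD hy
  shift := by
    rintro (y | y) hy hD
    · exact absurd hD (by simp [SiteOp.inRR])
    · have := h.shift y hy hD
      show (if op.up = true then N + L.code (op.σ y) = N + L.code y + op.sh
        else N + L.code (op.σ y) + op.sh = N + L.code y)
      split_ifs at this ⊢ <;> omega

theorem SiteOp.inLR_valid {w : ℕ} {L : LaneLayout ι N} {op : SiteOp ι} (h : op.Valid w L) :
    (op.inLR N).Valid w (dblLayout L) where
  mask := by
    have := dblLayout_pack w L (fun z => if (op.inLR N).D z then 2 ^ w - 1 else 0)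
    refine Eq.trans ?_ this.symm
    show op.m = _ + lanePack w (fun _ => if false = true then 2 ^ w - 1 else 0) N <<< (w * N)
    simp only [Bool.false_eq_true, if_false, lanePack_const_zero, Nat.zero_shiftLeft, add_zero]
    exact h.mask
  mem := by
    rintro (y | y) hy hD
    · exact h.mem y hy hD
    · exact absurd hD (by simp [SiteOp.inLR])
  mem' := by
    rintro (y | y) hD hy
    · exact h.mem' y hD hy
    · exact absurd hD (by simp [SiteOp.inLR])
  shift := by
    rintro (y | y) hy hD
    · have h1 := h.shift y hy hD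
      have h2 := L.code_lt y hy
      have h3 := L.code_lt _ (h.mem y hy hD)
      show (if true = true then
        N + L.code (op.σ y) = L.code y + (bif op.up then N + op.sh else N - op.sh)
        else N + L.code (op.σ y) + (bif op.up then N + op.sh else N - op.sh) = L.code y)
      rw [if_pos rfl]
      cases hup : op.up
      · rw [hup] at h1
        simp only [Bool.false_eq_true, if_false] at h1
        simp only [cond_false]
        omega
      · rw [hup] at h1
        simp only [if_true] at h1
        simp only [cond_true]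
        omega
    · exact absurd hD (by simp [SiteOp.inLR])

theorem SiteOp.inRL_valid {w : ℕ} {L : LaneLayout ι N} {op : SiteOp ι} (h : op.Valid w L) :
    (op.inRL w N).Valid w (dblLayout L) where
  mask := by
    have := dblLayout_pack w L (fun z => if (op.inRL w N).D z then 2 ^ w - 1 else 0)
    refine Eq.trans ?_ this.symm
    show op.m <<< (w * N) = lanePack w (fun _ => if false = true then 2 ^ w - 1 else 0) N + _
    simp only [Bool.false_eq_true, if_false, lanePack_const_zero, zero_add]
    conv_lhs => rw [h.mask]
    rfl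
  mem := by
    rintro (y | y) hy hD
    · exact absurd hD (by simp [SiteOp.inRL])
    · exact h.mem y hy hD
  mem' := by
    rintro (y | y) hD hy
    · exact absurd hD (by simp [SiteOp.inRL])
    · exact h.mem' y hD hy
  shift := by
    rintro (y | y) hy hD
    · exact absurd hD (by simp [SiteOp.inRL])
    · have h1 := h.shift y hy hD
      have h2 := L.code_lt y hy
      have h3 := L.code_lt _ (h.mem y hy hD)
      show (if false = true then
        L.code (op.σ y) = N + L.code y + (bif op.up then N - op.sh else N + op.sh)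
        else L.code (op.σ y) + (bif op.up then N - op.sh else N + op.sh) = N + L.code y)
      rw [if_neg (by simp)]
      cases hup : op.up
      · rw [hup] at h1
        simp only [Bool.false_eq_true, if_false] at h1
        simp only [cond_false]
        omega
      · rw [hup] at h1
        simp only [if_true] at h1
        simp only [cond_true]
        omega

variable [DecidableEq ι]

theorem SiteOp.dup_mat (w N : ℕ) (op : SiteOp ι) :
    (op.dup w N).mat = fromBlocks op.mat 0 0 op.mat := by
  ext (x | x) (y | y) <;> simp [SiteOp.mat, SiteOp.dup]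

theorem SiteOp.inLL_mat (op : SiteOp ι) : op.inLL.mat = fromBlocks op.mat 0 0 0 := by
  ext (x | x) (y | y) <;> simp [SiteOp.mat, SiteOp.inLL]

theorem SiteOp.inRR_mat (w N : ℕ) (op : SiteOp ι) :
    (op.inRR w N).mat = fromBlocks 0 0 0 op.mat := by
  ext (x | x) (y | y) <;> simp [SiteOp.mat, SiteOp.inRR]

/-- rows = targets, columns = sources. -/
theorem SiteOp.inLR_mat (N : ℕ) (op : SiteOp ι) :
    (op.inLR N).mat = fromBlocks 0 0 op.mat 0 := by
  ext (x | x) (y | y) <;> simp [SiteOp.mat, SiteOp.inLR]

theorem SiteOp.inRL_mat (w N : ℕ) (op : SiteOp ι) :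
    (op.inRL w N).mat = fromBlocks 0 op.mat 0 0 := by
  ext (x | x) (y | y) <;> simp [SiteOp.mat, SiteOp.inRL]

variable [Fintype ι]

/-- the integer matrix on pairs that multiplies `u + ω v` by `B0 + ω B1` (`ω² = -1 - ω`). -/
def dblMat (B0 B1 : Matrix ι ι ℤ) : Matrix (ι ⊕ ι) (ι ⊕ ι) ℤ := fromBlocks B0 (-B1) B1 (B0 - B1)

omit [DecidableEq ι] in
theorem dblMat_mulVec (B0 B1 : Matrix ι ι ℤ) (u v : ι → ℤ) :
    dblMat B0 B1 *ᵥ Sum.elim u v
      = Sum.elim (B0 *ᵥ u - B1 *ᵥ v) (B0 *ᵥ v + B1 *ᵥ u - B1 *ᵥ v) := by
  rw [dblMat, fromBlocks_mulVec]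
  congr 1
  · simp [neg_mulVec, sub_eq_add_neg]
  · simp [sub_mulVec]; abel

omit [DecidableEq ι] in
/-- the `ℤ[ω]` run is the `ℤ` run of `dblMat` on pairs. -/
theorem thC_zClen_dbl (B0 B1 : Matrix ι ι ℤ) (D : ℤ) (e : ι → ℤ) (q : ℕ → ℤ) (i : ℕ) :
    thC_zClen (dblMat B0 B1) D (Sum.elim e 0) q i
      = (Sum.elim (thC_wClen B0 B1 D e q i).1.1 (thC_wClen B0 B1 D e q i).1.2,
         Sum.elim (thC_wClen B0 B1 D e q i).2.1 (thC_wClen B0 B1 D e q i).2.2) := by
  induction i with
  | zero =>
    simp only [thC_zClen, thC_wClen]
    have : (Sum.elim (0 : ι → ℤ) (0 : ι → ℤ)) = 0 := by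
      funext z; rcases z with z | z <;> rfl
    rw [this]
  | succ i ih =>
    simp only [thC_zClen, thC_wClen]
    rw [ih]
    simp only [dblMat_mulVec]
    congr 1
    funext z
    rcases z with z | z
    · simp
    · simp

omit [DecidableEq ι] in
theorem thC_zOut_dbl (B0 B1 : Matrix ι ι ℤ) (D : ℤ) (e : ι → ℤ) (q : ℕ → ℤ) (K : ℕ) :
    thC_zOut (dblMat B0 B1) D (Sum.elim e 0) q K
      = Sum.elim (thC_wOut B0 B1 D e q K).1 (thC_wOut B0 B1 D e q K).2 := by
  funext z
  simp only [thC_zOut, thC_wOut, thC_zClen_dbl]
  rcases z with z | z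
  · simp
  · simp

omit [DecidableEq ι] in
theorem thC_zRun_dbl (B0 B1 : Matrix ι ι ℤ) (D : ℤ) (q : List ℕ) (e : ι → ℤ) :
    thC_zRun (dblMat B0 B1) D q (Sum.elim e 0)
      = Sum.elim (thC_wRun B0 B1 D q e).1 (thC_wRun B0 B1 D q e).2 :=
  thC_zOut_dbl B0 B1 D e _ _

end Claimed.Agent.R297
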