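/-
Row 297 (spin-one Haldane gap), package D4 (helper81): ternary codes of spin configurations,
the full layout (`3^k` lanes for `k` sites) and the class layout (`3^k` lanes for the
configurations of `k+1` sites whose digit sum is `c` modulo `3`).
-/
import Claimed.Agent.R297.LanesLayout

namespace Claimed.Agent.R297

/-- weighted code of a configuration. -/
def wCode {n : ℕ} (wgt : Fin n → ℕ) (x : Fin n → Fin 3) : ℕ := ∑ j, (x j : ℕ) * wgt j

theorem wCode_update {n : ℕ} (wgt : Fin n → ℕ) (x : Fin n → Fin 3) (p : Fin n) (a : Fin 3) :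
    wCode wgt (Function.update x p a) + (x p : ℕ) * wgt p = wCode wgt x + (a : ℕ) * wgt p := by
  unfold wCode
  rw [← Finset.add_sum_erase _ _ (Finset.mem_univ p),
    ← Finset.add_sum_erase Finset.univ (fun j => (x j : ℕ) * wgt j) (Finset.mem_univ p)]
  have : ∑ j ∈ Finset.univ.erase p, ((Function.update x p a j : Fin 3) : ℕ) * wgt j
      = ∑ j ∈ Finset.univ.erase p, (x j : ℕ) * wgt j := by
    refine Finset.sum_congr rfl fun j hj => ?_
    rw [Function.update_of_ne (Finset.ne_of_mem_erase hj)]
  rw [this, Function.update_self]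
  ring

/-- digit sum of a configuration. -/
def digSum {n : ℕ} (x : Fin n → Fin 3) : ℕ := ∑ j, (x j : ℕ)

theorem digSum_eq_wCode {n : ℕ} (x : Fin n → Fin 3) : digSum x = wCode (fun _ => 1) x := by
  simp [digSum, wCode]

theorem digSum_update {n : ℕ} (x : Fin n → Fin 3) (p : Fin n) (a : Fin 3) :
    digSum (Function.update x p a) + (x p : ℕ) = digSum x + (a : ℕ) := by
  have := wCode_update (fun _ => 1) x p a
  simpa [digSum_eq_wCode] using this

/-- the ternary code `∑ x_j 3^j`. -/
def ternCode {k : ℕ} (x : Fin k → Fin 3) : ℕ := wCode (fun j => 3 ^ (j : ℕ)) x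

/-- the ternary digits of a number. -/
def ternDec (k : ℕ) (i : ℕ) : Fin k → Fin 3 :=
  fun j => ⟨i / 3 ^ (j : ℕ) % 3, Nat.mod_lt _ (by norm_num)⟩

theorem ternCode_eq {k : ℕ} (x : Fin k → Fin 3) :
    ternCode x = (finFunctionFinEquiv x : ℕ) := rfl

theorem ternCode_lt {k : ℕ} (x : Fin k → Fin 3) : ternCode x < 3 ^ k := by
  rw [ternCode_eq]; exact (finFunctionFinEquiv x).is_lt

theorem ternDec_eq {k : ℕ} {i : ℕ} (hi : i < 3 ^ k) :
    ternDec k i = finFunctionFinEquiv.symm ⟨i, hi⟩ := rfl

theorem ternCode_dec {k : ℕ} {i : ℕ} (hi : i < 3 ^ k) : ternCode (ternDec k i) = i := by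
  rw [ternDec_eq hi, ternCode_eq, Equiv.apply_symm_apply]

theorem ternDec_code {k : ℕ} (x : Fin k → Fin 3) : ternDec k (ternCode x) = x := by
  rw [ternDec_eq (ternCode_lt x)]
  have : (⟨ternCode x, ternCode_lt x⟩ : Fin (3 ^ k)) = finFunctionFinEquiv x := rfl
  rw [this, Equiv.symm_apply_apply]

/-- the full layout. -/
def ternLayout (k : ℕ) : LaneLayout (Fin k → Fin 3) (3 ^ k) where
  code := ternCode
  dec := ternDec k
  S := fun _ => True
  dec_mem := fun _ _ => trivial
  code_dec := fun _ hi => ternCode_dec hi
  dec_code := fun x _ => ternDec_code x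
  code_lt := fun x _ => ternCode_lt x

/-- lane weights of the class layout: the last site is not stored. -/
def clsWgt (k : ℕ) : Fin (k + 1) → ℕ := fun j => if (j : ℕ) < k then 3 ^ (j : ℕ) else 0

/-- lane index in the class layout. -/
def clsCode {k : ℕ} (x : Fin (k + 1) → Fin 3) : ℕ := wCode (clsWgt k) x

/-- the configuration stored in lane `i` of the class layout. -/
def clsDec (k c : ℕ) (i : ℕ) : Fin (k + 1) → Fin 3 :=
  Fin.snoc (α := fun _ => Fin 3) (ternDec k i)
    ⟨(c + 2 * digSum (ternDec k i)) % 3, Nat.mod_lt _ (by norm_num)⟩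

theorem clsCode_eq {k : ℕ} (x : Fin (k + 1) → Fin 3) :
    clsCode x = ternCode (fun j : Fin k => x j.castSucc) := by
  unfold clsCode ternCode wCode clsWgt
  rw [Fin.sum_univ_castSucc]
  simp

theorem digSum_castSucc {k : ℕ} (x : Fin (k + 1) → Fin 3) :
    digSum x = digSum (fun j : Fin k => x j.castSucc) + (x (Fin.last k) : ℕ) := by
  unfold digSum
  rw [Fin.sum_univ_castSucc]

theorem clsDec_castSucc (k c i : ℕ) (j : Fin k) : clsDec k c i j.castSucc = ternDec k i j := by
  simp [clsDec]

theorem clsDec_last (k c i : ℕ) :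
    ((clsDec k c i (Fin.last k) : Fin 3) : ℕ) = (c + 2 * digSum (ternDec k i)) % 3 := by
  simp [clsDec]

/-- the class layout. -/
def clsLayout (k c : ℕ) : LaneLayout (Fin (k + 1) → Fin 3) (3 ^ k) where
  code := clsCode
  dec := clsDec k c
  S := fun x => digSum x % 3 = c % 3
  dec_mem := by
    intro i _
    rw [digSum_castSucc, clsDec_last]
    have : (fun j : Fin k => clsDec k c i j.castSucc) = ternDec k i := by
      funext j; exact clsDec_castSucc k c i j
    rw [this]
    omega
  code_dec := by
    intro i hi
    rw [clsCode_eq]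
    have : (fun j : Fin k => clsDec k c i j.castSucc) = ternDec k i := by
      funext j; exact clsDec_castSucc k c i j
    rw [this, ternCode_dec hi]
  dec_code := by
    intro x hx
    rw [clsCode_eq]
    funext j
    refine Fin.lastCases ?_ (fun j => ?_) j
    · apply Fin.ext
      rw [clsDec_last, ternDec_code]
      rw [digSum_castSucc] at hx
      have := (x (Fin.last k)).is_lt
      omega
    · rw [clsDec_castSucc, ternDec_code]
  code_lt := by
    intro x _
    rw [clsCode_eq]
    exact ternCode_lt _

/-- The lemmas that are written on demand are cited here once, so that no two downstream files hold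
their own copies (RULES.md, rule 6). -/
theorem lanesTern_eqns_cited : True := by
  have := @wCode.eq_1; have := @wCode.eq_def; have := @wCode.congr_simp
  have := @digSum.eq_1; have := @digSum.eq_def; have := @digSum.congr_simp
  have := @ternCode.eq_1; have := @ternCode.eq_def; have := @ternCode.congr_simp
  have := @ternDec.eq_1; have := @ternDec.eq_def; have := @ternDec.congr_simp
  have := @ternLayout.eq_1; have := @ternLayout.eq_def; have := @ternLayout.congr_simp
  have := @clsWgt.eq_1; have := @clsWgt.eq_def; have := @clsWgt.congr_simp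
  have := @clsCode.eq_1; have := @clsCode.eq_def; have := @clsCode.congr_simp
  have := @clsDec.eq_1; have := @clsDec.eq_def; have := @clsDec.congr_simp
  have := @clsLayout.eq_1; have := @clsLayout.eq_def; have := @clsLayout.congr_simp
  trivial

end Claimed.Agent.R297
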