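/-
Row 297 (spin-one Haldane gap), package D4 (helper81): verified lane masks
(ternary digit masks, digit-sum class masks, bit planes of a small packed vector).
-/
import Claimed.Agent.R297.LanesTern

namespace Claimed.Agent.R297

/-- `m` is the `0 / all ones` mask of the lanes selected by `μ`. -/
def IsMask (w N m : ℕ) (μ : ℕ → Bool) : Prop :=
  m = lanePack w (fun i => if μ i then 2 ^ w - 1 else 0) N

theorem lane_ind_lt (w : ℕ) (μ : ℕ → Bool) (i : ℕ) : (if μ i then 2 ^ w - 1 else 0) < 2 ^ w := by
  have : 0 < 2 ^ w := by positivity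
  split <;> omega

theorem IsMask.congr {w N m : ℕ} {μ ν : ℕ → Bool} (h : IsMask w N m μ)
    (hμ : ∀ i, i < N → μ i = ν i) : IsMask w N m ν := by
  unfold IsMask at h ⊢
  rw [h]
  exact lanePack_congr fun i hi => by rw [hμ i hi]

theorem IsMask.and {w N m₁ m₂ : ℕ} {μ₁ μ₂ : ℕ → Bool} (hw : 0 < w) (h₁ : IsMask w N m₁ μ₁)
    (h₂ : IsMask w N m₂ μ₂) : IsMask w N (m₁ &&& m₂) (fun i => μ₁ i && μ₂ i) := by
  unfold IsMask at *
  rw [h₁, h₂, lanePack_and hw (fun i _ => lane_ind_lt w μ₁ i) (fun i _ => lane_ind_lt w μ₂ i)]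
  refine lanePack_congr fun i _ => ?_
  dsimp only
  by_cases h1 : μ₁ i = true <;> by_cases h2 : μ₂ i = true <;> simp [h1, h2]

theorem IsMask.add {w N m₁ m₂ : ℕ} {μ₁ μ₂ : ℕ → Bool} (h₁ : IsMask w N m₁ μ₁)
    (h₂ : IsMask w N m₂ μ₂) (hd : ∀ i, i < N → ¬ (μ₁ i = true ∧ μ₂ i = true)) :
    IsMask w N (m₁ + m₂) (fun i => μ₁ i || μ₂ i) := by
  unfold IsMask at *
  rw [h₁, h₂, lanePack_add]
  refine lanePack_congr fun i hi => ?_
  have := hd i hi
  dsimp only
  by_cases h1 : μ₁ i = true <;> by_cases h2 : μ₂ i = true <;> simp [h1, h2]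
  exact absurd ⟨h1, h2⟩ this

theorem lanePack_eq_zero {w N : ℕ} {f : ℕ → ℕ} (h : ∀ i, i < N → f i = 0) :
    lanePack w f N = 0 := by
  unfold lanePack
  exact Finset.sum_eq_zero fun i hi => by rw [h i (Finset.mem_range.1 hi), zero_mul]

theorem lanePack_ones {w : ℕ} (_hw : 0 < w) (N : ℕ) :
    lanePack w (fun _ => 2 ^ w - 1) N = 2 ^ (w * N) - 1 := by
  induction N with
  | zero => simp
  | succ N ih =>
    rw [lanePack_succ, ih]
    have h1 : 0 < 2 ^ (w * N) := by positivity
    have h2 : 0 < 2 ^ w := by positivity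
    have h3 : 2 ^ (w * (N + 1)) = 2 ^ w * 2 ^ (w * N) := by rw [← pow_add]; congr 1; ring
    rw [h3, Nat.sub_mul, one_mul]
    have h4 : 2 ^ (w * N) ≤ 2 ^ w * 2 ^ (w * N) := Nat.le_mul_of_pos_left _ h2
    omega

theorem IsMask.all {w : ℕ} (hw : 0 < w) (N : ℕ) : IsMask w N (2 ^ (w * N) - 1) (fun _ => true) := by
  unfold IsMask
  simp only [if_true]
  exact (lanePack_ones hw N).symm

theorem lanePack_three (w : ℕ) (f : ℕ → ℕ) (L : ℕ) :
    lanePack w f (3 * L) = lanePack w f L + (lanePack w (fun i => f (L + i)) L) <<< (w * L)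
      + (lanePack w (fun i => f (2 * L + i)) L) <<< (2 * (w * L)) := by
  have e : 3 * L = L + (L + L) := by ring
  rw [e, lanePack_split, lanePack_split, Nat.shiftLeft_eq, Nat.shiftLeft_eq]
  have e2 : (fun i => f (L + (L + i))) = fun i => f (2 * L + i) := by
    funext i; congr 1; ring
  rw [e2]
  have e3 : 2 ^ (2 * (w * L)) = 2 ^ (w * L) * 2 ^ (w * L) := by rw [← pow_add]; congr 1; ring
  rw [e3]
  ring

theorem tern_div_low {i t j k : ℕ} (hj : j < k) :
    (i + t * 3 ^ k) / 3 ^ j % 3 = i / 3 ^ j % 3 := by
  obtain ⟨r, rfl⟩ := Nat.exists_eq_add_of_lt hj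
  have e : t * 3 ^ (j + r + 1) = 3 ^ j * (t * 3 ^ r * 3) := by
    rw [pow_succ, pow_add]; ring
  rw [e, Nat.add_mul_div_left _ _ (by positivity), Nat.add_mul_mod_self_right]

theorem tern_div_top {i t k : ℕ} (hi : i < 3 ^ k) : (i + t * 3 ^ k) / 3 ^ k = t := by
  rw [Nat.add_mul_div_right _ _ (by positivity), Nat.div_eq_of_lt hi, zero_add]

/-- mask of the lanes `i < 3^k` whose `j`-th ternary digit is `d`. -/
def digitMask (w j d : ℕ) : ℕ → ℕ
  | 0 => 0
  | k + 1 =>
    if j = k then (2 ^ (w * 3 ^ k) - 1) <<< (d * (w * 3 ^ k))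
    else digitMask w j d k + (digitMask w j d k <<< (w * 3 ^ k))
      + (digitMask w j d k <<< (2 * (w * 3 ^ k)))

theorem digitMask_isMask {w : ℕ} (hw : 0 < w) {j d : ℕ} (hd : d < 3) {k : ℕ} (hj : j < k) :
    IsMask w (3 ^ k) (digitMask w j d k) (fun i => decide (i / 3 ^ j % 3 = d)) := by
  induction k with
  | zero => omega
  | succ k ih =>
    unfold IsMask
    rw [pow_succ, Nat.mul_comm (3 ^ k) 3, lanePack_three]
    unfold digitMask
    by_cases hjk : j = k
    · subst hjk
      rw [if_pos rfl]
      have b0 : lanePack w (fun i => if decide (i / 3 ^ j % 3 = d) then 2 ^ w - 1 else 0) (3 ^ j)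
          = if d = 0 then 2 ^ (w * 3 ^ j) - 1 else 0 := by
        split
        · rename_i h0
          rw [← lanePack_ones hw]
          refine lanePack_congr fun i hi => ?_
          rw [Nat.div_eq_of_lt hi]; simp [h0]
        · rename_i h0
          refine lanePack_eq_zero fun i hi => ?_
          rw [Nat.div_eq_of_lt hi]
          have : ¬ (0 % 3 = d) := by omega
          simp [this]
      have b1 : lanePack w (fun i => if decide ((3 ^ j + i) / 3 ^ j % 3 = d) then 2 ^ w - 1 else 0)
          (3 ^ j) = if d = 1 then 2 ^ (w * 3 ^ j) - 1 else 0 := by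
        have key : ∀ i, i < 3 ^ j → (3 ^ j + i) / 3 ^ j = 1 := by
          intro i hi
          have := tern_div_top (t := 1) hi
          rwa [one_mul, Nat.add_comm] at this
        split
        · rename_i h0
          rw [← lanePack_ones hw]
          refine lanePack_congr fun i hi => ?_
          rw [key i hi]; simp [h0]
        · rename_i h0
          refine lanePack_eq_zero fun i hi => ?_
          rw [key i hi]
          have : ¬ (1 % 3 = d) := by omega
          simp [this]
      have b2 : lanePack w (fun i => if decide ((2 * 3 ^ j + i) / 3 ^ j % 3 = d) then 2 ^ w - 1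
          else 0) (3 ^ j) = if d = 2 then 2 ^ (w * 3 ^ j) - 1 else 0 := by
        have key : ∀ i, i < 3 ^ j → (2 * 3 ^ j + i) / 3 ^ j = 2 := by
          intro i hi
          have := tern_div_top (t := 2) hi
          rwa [Nat.add_comm] at this
        split
        · rename_i h0
          rw [← lanePack_ones hw]
          refine lanePack_congr fun i hi => ?_
          rw [key i hi]; simp [h0]
        · rename_i h0
          refine lanePack_eq_zero fun i hi => ?_
          rw [key i hi]
          have : ¬ (2 % 3 = d) := by omega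
          simp [this]
      rw [b0, b1, b2]
      interval_cases d <;> simp
    · rw [if_neg hjk]
      have hj' : j < k := by omega
      have h0 := ih hj'
      unfold IsMask at h0
      have c1 : lanePack w (fun i => if decide ((3 ^ k + i) / 3 ^ j % 3 = d) then 2 ^ w - 1 else 0)
          (3 ^ k) = digitMask w j d k := by
        rw [h0]
        refine lanePack_congr fun i _ => ?_
        have := tern_div_low (i := i) (t := 1) hj'
        rw [one_mul, Nat.add_comm] at this
        rw [this]
      have c2 : lanePack w (fun i => if decide ((2 * 3 ^ k + i) / 3 ^ j % 3 = d) then 2 ^ w - 1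
          else 0) (3 ^ k) = digitMask w j d k := by
        rw [h0]
        refine lanePack_congr fun i _ => ?_
        have := tern_div_low (i := i) (t := 2) hj'
        rw [Nat.add_comm] at this
        rw [this]
      rw [c1, c2, ← h0]

theorem digSum_ternDec_succ {k i t : ℕ} (hi : i < 3 ^ k) (ht : t < 3) :
    digSum (ternDec (k + 1) (i + t * 3 ^ k)) = digSum (ternDec k i) + t := by
  rw [digSum_castSucc]
  congr 1
  · unfold digSum ternDec
    refine Finset.sum_congr rfl fun j _ => ?_
    simp only [Fin.val_castSucc]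
    exact tern_div_low j.is_lt
  · unfold ternDec
    simp only [Fin.val_last]
    rw [tern_div_top hi, Nat.mod_eq_of_lt ht]

/-- masks of the lanes `i < 3^k` by digit sum modulo `3` (residues `0, 1, 2`). -/
def classMask (w : ℕ) : ℕ → ℕ × ℕ × ℕ
  | 0 => (2 ^ w - 1, 0, 0)
  | k + 1 =>
    ((classMask w k).1 + ((classMask w k).2.2 <<< (w * 3 ^ k))
        + ((classMask w k).2.1 <<< (2 * (w * 3 ^ k))),
     (classMask w k).2.1 + ((classMask w k).1 <<< (w * 3 ^ k))
        + ((classMask w k).2.2 <<< (2 * (w * 3 ^ k))),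
     (classMask w k).2.2 + ((classMask w k).2.1 <<< (w * 3 ^ k))
        + ((classMask w k).1 <<< (2 * (w * 3 ^ k))))

theorem classMask_isMask (w k : ℕ) :
    IsMask w (3 ^ k) (classMask w k).1 (fun i => decide (digSum (ternDec k i) % 3 = 0)) ∧
    IsMask w (3 ^ k) (classMask w k).2.1 (fun i => decide (digSum (ternDec k i) % 3 = 1)) ∧
    IsMask w (3 ^ k) (classMask w k).2.2 (fun i => decide (digSum (ternDec k i) % 3 = 2)) := by
  induction k with
  | zero =>
    refine ⟨?_, ?_, ?_⟩ <;> simp [IsMask, classMask, lanePack, digSum]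
  | succ k ih =>
    obtain ⟨h0, h1, h2⟩ := ih
    unfold IsMask at h0 h1 h2
    have key : ∀ (r r0 r1 r2 : ℕ) (m0 m1 m2 : ℕ),
        m0 = lanePack w (fun i => if decide (digSum (ternDec k i) % 3 = r0) then 2 ^ w - 1 else 0)
          (3 ^ k) →
        m1 = lanePack w (fun i => if decide (digSum (ternDec k i) % 3 = r1) then 2 ^ w - 1 else 0)
          (3 ^ k) →
        m2 = lanePack w (fun i => if decide (digSum (ternDec k i) % 3 = r2) then 2 ^ w - 1 else 0)
          (3 ^ k) →
        (∀ σ : ℕ, (σ % 3 = r0 ↔ σ % 3 = r) ∧ (σ % 3 = r1 ↔ (σ + 1) % 3 = r) ∧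
          (σ % 3 = r2 ↔ (σ + 2) % 3 = r)) →
        IsMask w (3 ^ (k + 1)) (m0 + (m1 <<< (w * 3 ^ k)) + (m2 <<< (2 * (w * 3 ^ k))))
          (fun i => decide (digSum (ternDec (k + 1) i) % 3 = r)) := by
      intro r r0 r1 r2 m0 m1 m2 e0 e1 e2 hr
      unfold IsMask
      rw [pow_succ, Nat.mul_comm (3 ^ k) 3, lanePack_three, e0, e1, e2]
      congr 1
      · congr 1
        · refine lanePack_congr fun i hi => ?_
          have := digSum_ternDec_succ (t := 0) hi (by norm_num)
          rw [zero_mul, add_zero, add_zero] at this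
          refine congrArg (fun b : Bool => if b then 2 ^ w - 1 else 0) ?_
          rw [decide_eq_decide, this]
          exact (hr (digSum (ternDec k i))).1
        · congr 1
          refine lanePack_congr fun i hi => ?_
          have := digSum_ternDec_succ (t := 1) hi (by norm_num)
          rw [one_mul, Nat.add_comm i] at this
          refine congrArg (fun b : Bool => if b then 2 ^ w - 1 else 0) ?_
          rw [decide_eq_decide, this]
          exact (hr (digSum (ternDec k i))).2.1
      · congr 1
        refine lanePack_congr fun i hi => ?_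
        have := digSum_ternDec_succ (t := 2) hi (by norm_num)
        rw [Nat.add_comm i] at this
        refine congrArg (fun b : Bool => if b then 2 ^ w - 1 else 0) ?_
        rw [decide_eq_decide, this]
        exact (hr (digSum (ternDec k i))).2.2
    refine ⟨?_, ?_, ?_⟩
    · exact key 0 0 2 1 _ _ _ h0 h2 h1 fun σ => by omega
    · exact key 1 1 0 2 _ _ _ h1 h0 h2 fun σ => by omega
    · exact key 2 2 1 0 _ _ _ h2 h1 h0 fun σ => by omega

/-- the class mask of residue `r % 3`. -/
def classSel (w k r : ℕ) : ℕ :=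
  if r % 3 = 0 then (classMask w k).1 else if r % 3 = 1 then (classMask w k).2.1
  else (classMask w k).2.2

theorem classSel_isMask (w k r : ℕ) :
    IsMask w (3 ^ k) (classSel w k r) (fun i => decide (digSum (ternDec k i) % 3 = r % 3)) := by
  obtain ⟨h0, h1, h2⟩ := classMask_isMask w k
  unfold classSel
  split
  · rename_i h; rw [h]; exact h0
  · split
    · rename_i h; rw [h]; exact h1
    · have : r % 3 = 2 := by omega
      rw [this]; exact h2

/-- The lemmas that are written on demand are cited here once, so that no two downstream files hold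
their own copies (RULES.md, rule 6). -/
theorem lanesMask_eqns_cited : True := by
  have := @IsMask.eq_1; have := @IsMask.eq_def; have := @IsMask.congr_simp
  have := @digitMask.eq_1; have := @digitMask.eq_2; have := @digitMask.eq_def; have := @digitMask.congr_simp
  have := @classMask.eq_1; have := @classMask.eq_2; have := @classMask.eq_def; have := @classMask.congr_simp
  have := @classSel.eq_1; have := @classSel.eq_def; have := @classSel.congr_simp
  trivial

end Claimed.Agent.R297
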