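/-
Row 297 (spin-one Haldane gap), package M (model layer), owner helper150.

* rings / chains with arbitrary one-site triples and arbitrary coupling matrices (`mdlRingK`),
  behaviour under tensor-power similarity and under a linear change of the triple;
* the Cartesian basis: explicit unitary `mdlCartV` with
  `mdlCartV * cartSpin α * mdlCartVᴴ = spinOne α`  (leaf C5c of package C);
* `ringOf` / `chainOf` for `spinOne` and `cartSpin` are similar, Hermitian, and have equal `gibbsZ`.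
-/
import Claimed.Agent.R297.ModelSite
import Claimed.Agent.R297.ModelHerm
import Claimed.Agent.R297.TrConcreteDefs
import Claimed.Agent.R297.TrExpLimit

set_option linter.unusedSectionVars false

namespace Claimed.Agent.R297

open Matrix Complex

section General

variable {ι κ R : Type*} [Fintype ι] [DecidableEq ι] [Fintype κ] [DecidableEq κ] [CommRing R]

/-- conjugation of a product of two one-site operators by a tensor power. -/
theorem mdlTens_conj_site_mul (V V' : Matrix κ κ R) (hV : V * V' = 1) (j k : ι)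
    (X Y : Matrix κ κ R) :
    mdlTens (fun _ : ι => V) * (mdlSite j X * mdlSite k Y) * mdlTens (fun _ : ι => V')
      = mdlSite j (V * X * V') * mdlSite k (V * Y * V') := by
  have hV' : V' * V = 1 := mul_eq_one_comm.mp hV
  have h1 : mdlTens (fun _ : ι => V') * mdlTens (fun _ : ι => V) = 1 :=
    mdlTens_mul_inv _ _ fun _ => hV'
  rw [← mdlTens_mul_site_mul (fun _ : ι => V) (fun _ : ι => V') (fun _ => hV) j X,
    ← mdlTens_mul_site_mul (fun _ : ι => V) (fun _ : ι => V') (fun _ => hV) k Y]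
  calc mdlTens (fun _ : ι => V) * (mdlSite j X * mdlSite k Y) * mdlTens (fun _ : ι => V')
      = mdlTens (fun _ : ι => V) * mdlSite j X * 1 * mdlSite k Y * mdlTens (fun _ : ι => V') := by
        simp only [mul_one, mul_assoc]
    _ = _ := by rw [← h1]; simp only [mul_assoc]

/-- bilinear change of the one-site family. -/
theorem mdl_bond_change {a : Type*} [Fintype a] [DecidableEq a] (A K : Matrix a a R)
    (S B : a → Matrix κ κ R) (hS : ∀ α, S α = ∑ γ, A α γ • B γ) (j k : ι) :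
    ∑ α, ∑ β, K α β • (mdlSite j (S α) * mdlSite k (S β))
      = ∑ γ, ∑ δ, (Aᵀ * K * A) γ δ • (mdlSite j (B γ) * mdlSite k (B δ)) := by
  have e1 : ∀ α β, K α β • (mdlSite j (S α) * mdlSite k (S β))
      = ∑ γ, ∑ δ, (A α γ * K α β * A β δ) • (mdlSite j (B γ) * mdlSite k (B δ)) := by
    intro α β
    rw [hS α, hS β, mdlSite_sum, mdlSite_sum, Finset.sum_mul, Finset.smul_sum]
    refine Finset.sum_congr rfl fun γ _ => ?_
    rw [Finset.mul_sum, Finset.smul_sum]
    refine Finset.sum_congr rfl fun δ _ => ?_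
    rw [mdlSite_smul, mdlSite_smul, smul_mul_assoc, mul_smul_comm, smul_smul, smul_smul]
    congr 1; ring
  have e2 : ∀ γ δ, (Aᵀ * K * A) γ δ • (mdlSite j (B γ) * mdlSite k (B δ))
      = ∑ α, ∑ β, (A α γ * K α β * A β δ) • (mdlSite j (B γ) * mdlSite k (B δ)) := by
    intro γ δ
    rw [Matrix.mul_apply, Finset.sum_smul, Finset.sum_comm]
    refine Finset.sum_congr rfl fun β _ => ?_
    rw [Matrix.mul_apply, Finset.sum_mul, Finset.sum_smul]
    rfl
  simp only [e1, e2]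
  calc ∑ α, ∑ β, ∑ γ, ∑ δ, (A α γ * K α β * A β δ) • (mdlSite j (B γ) * mdlSite k (B δ))
      = ∑ α, ∑ γ, ∑ β, ∑ δ, (A α γ * K α β * A β δ) • (mdlSite j (B γ) * mdlSite k (B δ)) :=
        Finset.sum_congr rfl fun α _ => Finset.sum_comm
    _ = ∑ γ, ∑ α, ∑ β, ∑ δ, (A α γ * K α β * A β δ) • (mdlSite j (B γ) * mdlSite k (B δ)) :=
        Finset.sum_comm
    _ = ∑ γ, ∑ α, ∑ δ, ∑ β, (A α γ * K α β * A β δ) • (mdlSite j (B γ) * mdlSite k (B δ)) :=
        Finset.sum_congr rfl fun γ _ => Finset.sum_congr rfl fun α _ => Finset.sum_comm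
    _ = ∑ γ, ∑ δ, ∑ α, ∑ β, (A α γ * K α β * A β δ) • (mdlSite j (B γ) * mdlSite k (B δ)) :=
        Finset.sum_congr rfl fun γ _ => Finset.sum_comm

/-- Ring of `n` sites with one-site triple `B`, bulk coupling matrix `K₀`, seam coupling `K₁`. -/
def mdlRingK (B : Fin 3 → Matrix κ κ R) (n : ℕ) (K₀ K₁ : Matrix (Fin 3) (Fin 3) R) :
    Matrix (Fin n → κ) (Fin n → κ) R :=
  ∑ j : Fin n, ∑ α : Fin 3, ∑ β : Fin 3,
    (if (j : ℕ) + 1 = n then K₁ else K₀) α β •
      (mdlSite j (B α) * mdlSite (finRotate n j) (B β))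

theorem mdlRingK_conj (V V' : Matrix κ κ R) (hV : V * V' = 1) (B : Fin 3 → Matrix κ κ R) (n : ℕ)
    (K₀ K₁ : Matrix (Fin 3) (Fin 3) R) :
    mdlTens (fun _ : Fin n => V) * mdlRingK B n K₀ K₁ * mdlTens (fun _ : Fin n => V')
      = mdlRingK (fun α => V * B α * V') n K₀ K₁ := by
  unfold mdlRingK
  simp only [Finset.mul_sum, Finset.sum_mul, mul_smul_comm, smul_mul_assoc,
    mdlTens_conj_site_mul V V' hV]

theorem mdlRingK_change (A : Matrix (Fin 3) (Fin 3) R) (S B : Fin 3 → Matrix κ κ R)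
    (hS : ∀ α, S α = ∑ γ, A α γ • B γ) (n : ℕ) (K₀ K₁ : Matrix (Fin 3) (Fin 3) R) :
    mdlRingK S n K₀ K₁ = mdlRingK B n (Aᵀ * K₀ * A) (Aᵀ * K₁ * A) := by
  unfold mdlRingK
  refine Finset.sum_congr rfl fun j _ => ?_
  rw [mdl_bond_change A _ S B hS]
  split_ifs <;> rfl

theorem mdlRingK_map {R' : Type*} [CommRing R'] (f : R →+* R') (B : Fin 3 → Matrix κ κ R) (n : ℕ)
    (K₀ K₁ : Matrix (Fin 3) (Fin 3) R) :
    (mdlRingK B n K₀ K₁).map f
      = mdlRingK (fun α => (B α).map f) n (K₀.map f) (K₁.map f) := by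
  unfold mdlRingK
  have hsum : ∀ {γ : Type} (s : Finset γ) (g : γ → Matrix (Fin n → κ) (Fin n → κ) R),
      (∑ c ∈ s, g c).map f = ∑ c ∈ s, (g c).map f := by
    intro γ s g
    exact map_sum (f.mapMatrix) g s
  simp only [hsum]
  refine Finset.sum_congr rfl fun j _ => Finset.sum_congr rfl fun α _ =>
    Finset.sum_congr rfl fun β _ => ?_
  rw [Matrix.map_smul' _ _ _ (fun a b => map_mul f a b), Matrix.map_mul, mdlSite_map, mdlSite_map]
  split_ifs <;> rfl

end General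

/-! ### the Cartesian basis -/

/-- `1/√2` as a complex number. -/
noncomputable def mdlS2 : ℂ := ((Real.sqrt 2 : ℝ) : ℂ)⁻¹

theorem mdlS2_mul_self : mdlS2 * mdlS2 = 1 / 2 := by
  unfold mdlS2
  rw [← mul_inv, ← Complex.ofReal_mul, Real.mul_self_sqrt (by norm_num)]
  norm_num

theorem mdlS2_star : (starRingEnd ℂ) mdlS2 = mdlS2 := by
  unfold mdlS2
  rw [map_inv₀, Complex.conj_ofReal]

/-- The unitary from the Cartesian basis to the weight basis. -/
noncomputable def mdlCartV : Matrix (Fin 3) (Fin 3) ℂ :=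
  !![-mdlS2, I * mdlS2, 0; 0, 0, 1; mdlS2, I * mdlS2, 0]

theorem mdlCartV_mul_conjTranspose : mdlCartV * mdlCartVᴴ = 1 := by
  have h := mdlS2_mul_self
  have hs := mdlS2_star
  have hI : I * I = -1 := Complex.I_mul_I
  ext i j
  fin_cases i <;> fin_cases j <;>
    simp [mdlCartV, Matrix.mul_apply, Fin.sum_univ_three, Matrix.conjTranspose_apply, hs] <;>
    grind

theorem mdlCartV_conjTranspose_mul : mdlCartVᴴ * mdlCartV = 1 :=
  mul_eq_one_comm.mp mdlCartV_mul_conjTranspose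

theorem mdl_spinOne_eq (α : Fin 3) : Claims.C0475.spinOne α =
    ![mdlS2 • !![0, 1, 0; 1, 0, 1; 0, 1, 0], mdlS2 • !![0, -I, 0; I, 0, -I; 0, I, 0],
      !![1, 0, 0; 0, 0, 0; 0, 0, -1]] α := rfl

theorem mdl_cartSpin_eq (α : Fin 3) : cartSpin α =
    I • (![!![0, 0, 0; 0, 0, -1; 0, 1, 0], !![0, 0, 1; 0, 0, 0; -1, 0, 0],
      !![0, -1, 0; 1, 0, 0; 0, 0, 0]] : Fin 3 → Matrix (Fin 3) (Fin 3) ℂ) α := rfl

/-- The frozen spin matrices are the Cartesian ones in another orthonormal basis. -/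
theorem mdlCartV_cartSpin (α : Fin 3) :
    mdlCartV * cartSpin α * mdlCartVᴴ = Claims.C0475.spinOne α := by
  have h := mdlS2_mul_self
  have hs := mdlS2_star
  have hI : I * I = -1 := Complex.I_mul_I
  rw [mdl_spinOne_eq, mdl_cartSpin_eq]
  ext i j
  fin_cases α <;> fin_cases i <;> fin_cases j <;>
    simp [mdlCartV, Matrix.mul_apply, Fin.sum_univ_three,
      Matrix.conjTranspose_apply, hs] <;>
    grind

theorem mdlCartV_spinOne (α : Fin 3) :
    mdlCartVᴴ * Claims.C0475.spinOne α * mdlCartV = cartSpin α := by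
  rw [← mdlCartV_cartSpin]
  calc mdlCartVᴴ * (mdlCartV * cartSpin α * mdlCartVᴴ) * mdlCartV
      = (mdlCartVᴴ * mdlCartV) * cartSpin α * (mdlCartVᴴ * mdlCartV) := by
        simp only [mul_assoc]
    _ = cartSpin α := by rw [mdlCartV_conjTranspose_mul, one_mul, mul_one]

theorem mdl_cartSpin_isHermitian (α : Fin 3) : (cartSpin α).IsHermitian := by
  rw [← mdlCartV_spinOne]
  exact Matrix.isHermitian_conjTranspose_mul_mul _ (mdl_spinOne_isHermitian α)

/-- the tensor power of `mdlCartV`. -/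
noncomputable def mdlCartT (ι : Type) [Fintype ι] : Matrix (ι → Fin 3) (ι → Fin 3) ℂ :=
  mdlTens fun _ : ι => mdlCartV

theorem mdlCartT_conjTranspose (ι : Type) [Fintype ι] [DecidableEq ι] :
    (mdlCartT ι)ᴴ = mdlTens fun _ : ι => mdlCartVᴴ := mdlTens_conjTranspose _

theorem mdlCartT_mul_conjTranspose (ι : Type) [Fintype ι] [DecidableEq ι] :
    mdlCartT ι * (mdlCartT ι)ᴴ = 1 := by
  rw [mdlCartT_conjTranspose]
  exact mdlTens_mul_inv _ _ fun _ => mdlCartV_mul_conjTranspose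

theorem mdlCartT_conjTranspose_mul (ι : Type) [Fintype ι] [DecidableEq ι] :
    (mdlCartT ι)ᴴ * mdlCartT ι = 1 :=
  mul_eq_one_comm.mp (mdlCartT_mul_conjTranspose ι)

/-! ### `ringOf`, `chainOf` -/

theorem mdl_ringOf_eq_ringK (S : Fin 3 → Matrix (Fin 3) (Fin 3) ℂ) (n : ℕ)
    (R : Matrix (Fin 3) (Fin 3) ℝ) :
    ringOf S n R = mdlRingK S n 1 (R.map fun x : ℝ => (x : ℂ)) := by
  unfold ringOf mdlRingK
  refine Finset.sum_congr rfl fun j _ => Finset.sum_congr rfl fun α _ =>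
    Finset.sum_congr rfl fun β _ => ?_
  rw [mdlSite_eq_C0475, mdlSite_eq_C0475]
  congr 1
  split_ifs
  · rfl
  · by_cases h : α = β <;> simp [Matrix.one_apply, h]

theorem mdl_ringOf_conj (V V' : Matrix (Fin 3) (Fin 3) ℂ) (hV : V * V' = 1)
    (S : Fin 3 → Matrix (Fin 3) (Fin 3) ℂ) (n : ℕ) (R : Matrix (Fin 3) (Fin 3) ℝ) :
    mdlTens (fun _ : Fin n => V) * ringOf S n R * mdlTens (fun _ : Fin n => V')
      = ringOf (fun α => V * S α * V') n R := by
  rw [mdl_ringOf_eq_ringK, mdl_ringOf_eq_ringK, mdlRingK_conj V V' hV]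

theorem mdl_chainOf_eq (S : Fin 3 → Matrix (Fin 3) (Fin 3) ℂ) (m : ℕ) (hL hR : ℝ) (β : Fin 3) :
    chainOf S m hL hR β =
      (∑ i : Fin m, ∑ α : Fin 3, mdlSite (Fin.castSucc i) (S α) * mdlSite (Fin.succ i) (S α)) -
        (hL : ℂ) • mdlSite (0 : Fin (m + 1)) (S 2) - (hR : ℂ) • mdlSite (Fin.last m) (S β) := rfl

theorem mdl_chainOf_conj (V V' : Matrix (Fin 3) (Fin 3) ℂ) (hV : V * V' = 1)
    (S : Fin 3 → Matrix (Fin 3) (Fin 3) ℂ) (m : ℕ) (hL hR : ℝ) (β : Fin 3) :
    mdlTens (fun _ : Fin (m + 1) => V) * chainOf S m hL hR β * mdlTens (fun _ : Fin (m + 1) => V')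
      = chainOf (fun α => V * S α * V') m hL hR β := by
  rw [mdl_chainOf_eq, mdl_chainOf_eq]
  simp only [mul_sub, sub_mul, Finset.mul_sum, Finset.sum_mul, mul_smul_comm,
    smul_mul_assoc, mdlTens_conj_site_mul V V' hV,
    mdlTens_mul_site_mul (fun _ : Fin (m + 1) => V) (fun _ : Fin (m + 1) => V') (fun _ => hV)]

theorem mdl_ringOf_cart (n : ℕ) (R : Matrix (Fin 3) (Fin 3) ℝ) :
    mdlCartT (Fin n) * ringOf cartSpin n R * (mdlCartT (Fin n))ᴴ = twistRing n R := by
  rw [mdlCartT_conjTranspose, mdlCartT, mdl_ringOf_conj _ _ mdlCartV_mul_conjTranspose,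
    twistRing_eq_ringOf]
  congr 1
  funext α
  exact mdlCartV_cartSpin α

theorem mdl_chainOf_cart (m : ℕ) (hL hR : ℝ) (β : Fin 3) :
    mdlCartT (Fin (m + 1)) * chainOf cartSpin m hL hR β * (mdlCartT (Fin (m + 1)))ᴴ
      = chainOf Claims.C0475.spinOne m hL hR β := by
  rw [mdlCartT_conjTranspose, mdlCartT, mdl_chainOf_conj _ _ mdlCartV_mul_conjTranspose]
  congr 1
  funext α
  exact mdlCartV_cartSpin α

/-- `ringOf` is Hermitian for Hermitian one-site matrices (at least two sites). -/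
theorem mdl_ringOf_isHermitian {S : Fin 3 → Matrix (Fin 3) (Fin 3) ℂ}
    (hS : ∀ α, (S α).IsHermitian) {n : ℕ} (hn : 2 ≤ n) (R : Matrix (Fin 3) (Fin 3) ℝ) :
    (ringOf S n R).IsHermitian := by
  unfold ringOf
  exact mdl_isHermitian_sum _ _ fun j _ => mdl_isHermitian_sum _ _ fun α _ =>
    mdl_isHermitian_sum _ _ fun β _ => mdl_isHermitian_real_smul _
      (mdl_siteOp_mul_isHermitian (mdl_finRotate_ne hn j) (hS α) (hS β))

theorem mdl_chainOf_isHermitian {S : Fin 3 → Matrix (Fin 3) (Fin 3) ℂ}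
    (hS : ∀ α, (S α).IsHermitian) (m : ℕ) (hL hR : ℝ) (β : Fin 3) :
    (chainOf S m hL hR β).IsHermitian := by
  unfold chainOf
  refine Matrix.IsHermitian.sub (Matrix.IsHermitian.sub ?_ ?_) ?_
  · exact mdl_isHermitian_sum _ _ fun j _ => mdl_isHermitian_sum _ _ fun α _ =>
      mdl_siteOp_mul_self_isHermitian _ _ (hS α)
  · exact mdl_isHermitian_real_smul _ (mdl_siteOp_isHermitian _ (hS 2))
  · exact mdl_isHermitian_real_smul _ (mdl_siteOp_isHermitian _ (hS β))

/-- Gibbs sums are invariant under unitary conjugation (no Hermiticity hypothesis: both sides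
are the junk value `0` for a non-Hermitian matrix). -/
theorem mdl_gibbsZ_unitary_conj {ι : Type} [Fintype ι] [DecidableEq ι] (H U : Matrix ι ι ℂ)
    (hU : U * Uᴴ = 1) (b : ℝ) : gibbsZ (U * H * Uᴴ) b = gibbsZ H b := by
  have hU' : Uᴴ * U = 1 := mul_eq_one_comm.mp hU
  by_cases hH : H.IsHermitian
  · exact gibbsZ_conj hH (Matrix.isHermitian_mul_mul_conjTranspose U hH) U Uᴴ hU rfl b
  · have hH' : ¬ (U * H * Uᴴ).IsHermitian := by
      intro h
      apply hH
      have h2 := Matrix.isHermitian_conjTranspose_mul_mul U h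
      have e : Uᴴ * (U * H * Uᴴ) * U = H := by
        calc Uᴴ * (U * H * Uᴴ) * U = (Uᴴ * U) * H * (Uᴴ * U) := by simp only [mul_assoc]
          _ = H := by rw [hU', one_mul, mul_one]
      rwa [e] at h2
    unfold gibbsZ
    rw [dif_neg hH, dif_neg hH']

/-- leaf C5c (needs `2 ≤ n`: false for `n = 1`, `R = rotC`). -/
theorem mdl_ringOf_cart_isHermitian {n : ℕ} (hn : 2 ≤ n) (R : Matrix (Fin 3) (Fin 3) ℝ) :
    (ringOf cartSpin n R).IsHermitian :=
  mdl_ringOf_isHermitian mdl_cartSpin_isHermitian hn R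

/-- leaf C5c. -/
theorem mdl_chainOf_cart_isHermitian (m : ℕ) (hL hR : ℝ) (β : Fin 3) :
    (chainOf cartSpin m hL hR β).IsHermitian :=
  mdl_chainOf_isHermitian mdl_cartSpin_isHermitian m hL hR β

/-- leaf C5c. -/
theorem mdl_gibbsZ_ringOf_cart (n : ℕ) (R : Matrix (Fin 3) (Fin 3) ℝ) (b : ℝ) :
    gibbsZ (ringOf cartSpin n R) b = gibbsZ (twistRing n R) b := by
  rw [← mdl_ringOf_cart, mdl_gibbsZ_unitary_conj _ _ (mdlCartT_mul_conjTranspose _)]

/-- leaf C5c. -/
theorem mdl_gibbsZ_chainOf_cart (m : ℕ) (hL hR : ℝ) (β : Fin 3) (b : ℝ) :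
    gibbsZ (chainOf cartSpin m hL hR β) b = gibbsZ (chainOf Claims.C0475.spinOne m hL hR β) b := by
  rw [← mdl_chainOf_cart, mdl_gibbsZ_unitary_conj _ _ (mdlCartT_mul_conjTranspose _)]

end Claimed.Agent.R297
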