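/-
Row 297 (spin-one Haldane gap), package M (model layer), owner helper150.

The weight basis.  `S·S = Z ⊗ Z + U ⊗ D + D ⊗ U` with the integer matrices
`U = E₀₁ + E₁₂`, `D = Uᵀ`, `Z = diag (1, 0, -1)` (frozen index `0,1,2` = `S^z = +1,0,-1`).

* `mdlPhaseRing n z w` (any commutative ring): the ring of `n` sites whose seam bond
  (from site `n-1` to site `0`) carries the coefficients `z` (on `U ⊗ D`) and `w` (on `D ⊗ U`);
* `twistRing n 1 = mdlPhaseRing n 1 1`, `twistRing n rotP = mdlPhaseRing n (-1) (-1)`;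
* `gibbsZ (twistRing n rotC) b = gibbsZ (mdlPhaseRing n (ω ^ 2) ω) b` for a primitive cube root
  of unity `ω` (explicit Fourier similarity).
-/
import Claimed.Agent.R297.ModelBond

set_option linter.unusedSectionVars false

namespace Claimed.Agent.R297

open Matrix Complex

section Weight

variable {R : Type*} [CommRing R]

/-- raising matrix `E₀₁ + E₁₂` (`S⁺ = √2 U`). -/
def mdlWU : Matrix (Fin 3) (Fin 3) R := !![0, 1, 0; 0, 0, 1; 0, 0, 0]

/-- lowering matrix `E₁₀ + E₂₁` (`S⁻ = √2 D`). -/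
def mdlWD : Matrix (Fin 3) (Fin 3) R := !![0, 0, 0; 1, 0, 0; 0, 1, 0]

/-- `S^z = diag (1, 0, -1)`. -/
def mdlWZ : Matrix (Fin 3) (Fin 3) R := !![1, 0, 0; 0, 0, 0; 0, 0, -1]

/-- the triple `(U, D, Z)`. -/
def mdlUDZ : Fin 3 → Matrix (Fin 3) (Fin 3) R := ![mdlWU, mdlWD, mdlWZ]

/-- coupling matrix `z U ⊗ D + w D ⊗ U + Z ⊗ Z` in the triple `(U, D, Z)`. -/
def mdlKph (z w : R) : Matrix (Fin 3) (Fin 3) R := !![0, z, 0; w, 0, 0; 0, 0, 1]

/-- The weight-basis ring with seam coefficients `z`, `w`. -/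
def mdlPhaseRing (n : ℕ) (z w : R) : Matrix (Fin n → Fin 3) (Fin n → Fin 3) R :=
  ∑ j : Fin n, (mdlSite j mdlWZ * mdlSite (finRotate n j) mdlWZ
    + (if (j : ℕ) + 1 = n then z else 1) • (mdlSite j mdlWU * mdlSite (finRotate n j) mdlWD)
    + (if (j : ℕ) + 1 = n then w else 1) • (mdlSite j mdlWD * mdlSite (finRotate n j) mdlWU))

theorem mdlPhaseRing_eq_ringK (n : ℕ) (z w : R) :
    mdlPhaseRing n z w = mdlRingK mdlUDZ n (mdlKph 1 1) (mdlKph z w) := by
  unfold mdlPhaseRing mdlRingK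
  refine Finset.sum_congr rfl fun j _ => ?_
  split_ifs <;> simp [Fin.sum_univ_three, mdlKph, mdlUDZ] <;> abel

theorem mdlWU_map {R' : Type*} [CommRing R'] (f : R →+* R') :
    (mdlWU : Matrix (Fin 3) (Fin 3) R).map f = mdlWU := by
  ext i j; fin_cases i <;> fin_cases j <;> simp [mdlWU]

theorem mdlWD_map {R' : Type*} [CommRing R'] (f : R →+* R') :
    (mdlWD : Matrix (Fin 3) (Fin 3) R).map f = mdlWD := by
  ext i j; fin_cases i <;> fin_cases j <;> simp [mdlWD]

theorem mdlWZ_map {R' : Type*} [CommRing R'] (f : R →+* R') :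
    (mdlWZ : Matrix (Fin 3) (Fin 3) R).map f = mdlWZ := by
  ext i j; fin_cases i <;> fin_cases j <;> simp [mdlWZ]

theorem mdlKph_map {R' : Type*} [CommRing R'] (f : R →+* R') (z w : R) :
    (mdlKph z w).map f = mdlKph (f z) (f w) := by
  ext i j; fin_cases i <;> fin_cases j <;> simp [mdlKph]

theorem mdlPhaseRing_map {R' : Type*} [CommRing R'] (f : R →+* R') (n : ℕ) (z w : R) :
    (mdlPhaseRing n z w).map f = mdlPhaseRing n (f z) (f w) := by
  rw [mdlPhaseRing_eq_ringK, mdlPhaseRing_eq_ringK, mdlRingK_map, mdlKph_map, mdlKph_map,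
    map_one]
  congr 1
  funext α
  fin_cases α
  · exact mdlWU_map f
  · exact mdlWD_map f
  · exact mdlWZ_map f

end Weight

/-! ### the frozen spin matrices in the triple `(U, D, Z)` -/

/-- coefficients of `S^x, S^y, S^z` in `(U, D, Z)`. -/
noncomputable def mdlAw : Matrix (Fin 3) (Fin 3) ℂ :=
  !![mdlS2, mdlS2, 0; -(I * mdlS2), I * mdlS2, 0; 0, 0, 1]

theorem mdl_spinOne_UDZ (α : Fin 3) :
    Claims.C0475.spinOne α = ∑ γ, mdlAw α γ • (mdlUDZ γ : Matrix (Fin 3) (Fin 3) ℂ) := by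
  rw [mdl_spinOne_eq]
  ext i j
  fin_cases α <;> fin_cases i <;> fin_cases j <;>
    simp [Fin.sum_univ_three, mdlAw, mdlUDZ, mdlWU, mdlWD, mdlWZ] <;> ring

/-- rotation about the `z` axis with cosine `c` and sine `s`. -/
def rotZ (c s : ℝ) : Matrix (Fin 3) (Fin 3) ℝ := !![c, -s, 0; s, c, 0; 0, 0, 1]

theorem mdlAw_one : mdlAwᵀ * 1 * mdlAw = mdlKph 1 1 := by
  have h := mdlS2_mul_self
  have hI : I * I = -1 := Complex.I_mul_I
  ext i j
  fin_cases i <;> fin_cases j <;>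
    simp [mdlAw, mdlKph, Matrix.mul_apply, Fin.sum_univ_three] <;> grind

theorem mdlAw_rotZ (c s : ℝ) :
    mdlAwᵀ * (rotZ c s).map (fun x : ℝ => (x : ℂ)) * mdlAw = mdlKph (c - s * I) (c + s * I) := by
  have h := mdlS2_mul_self
  have hI : I * I = -1 := Complex.I_mul_I
  ext i j
  fin_cases i <;> fin_cases j <;>
    simp [mdlAw, mdlKph, rotZ, Matrix.mul_apply, Fin.sum_univ_three] <;> grind

/-- The ring twisted by a rotation about `z` is a weight-basis ring with seam phases. -/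
theorem mdl_twistRing_rotZ (n : ℕ) (c s : ℝ) :
    twistRing n (rotZ c s) = mdlPhaseRing n ((c : ℂ) - s * I) (c + s * I) := by
  rw [twistRing_eq_ringOf, mdl_ringOf_eq_ringK, mdlRingK_change mdlAw _ _ mdl_spinOne_UDZ,
    mdlAw_one, mdlAw_rotZ, mdlPhaseRing_eq_ringK]

theorem mdl_twistRing_one (n : ℕ) : twistRing n 1 = mdlPhaseRing n (1 : ℂ) 1 := by
  have h : (1 : Matrix (Fin 3) (Fin 3) ℝ) = rotZ 1 0 := by
    ext i j; fin_cases i <;> fin_cases j <;> simp [rotZ]
  rw [h, mdl_twistRing_rotZ]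
  simp

theorem mdl_rotP_eq : rotP = !![-1, 0, 0; 0, -1, 0; 0, 0, 1] := rfl

theorem mdl_rotC_eq : rotC = !![0, 0, 1; 1, 0, 0; 0, 1, 0] := rfl

theorem mdl_twistRing_rotP (n : ℕ) : twistRing n rotP = mdlPhaseRing n (-1 : ℂ) (-1) := by
  have h : rotP = rotZ (-1) 0 := by
    rw [mdl_rotP_eq]
    ext i j; fin_cases i <;> fin_cases j <;> simp [rotZ]
  rw [h, mdl_twistRing_rotZ]
  simp

theorem mdl_heisenbergRing_eq_twistRing (n : ℕ) :
    Claims.C0475.heisenbergRing n = twistRing n 1 := by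
  have key : ∀ (X : Fin 3 → Matrix (Fin n → Fin 3) (Fin n → Fin 3) ℂ) (P : Prop) [Decidable P]
      (α : Fin 3), X α = ∑ β, (((if P then (1 : Matrix (Fin 3) (Fin 3) ℝ) α β
        else (1 : Matrix (Fin 3) (Fin 3) ℝ) α β : ℝ)) : ℂ) • X β := by
    intro X P _ α
    rw [Finset.sum_eq_single α]
    · simp
    · intro β _ hβ
      simp [Ne.symm hβ]
    · simp
  unfold twistRing Claims.C0475.heisenbergRing
  refine Finset.sum_congr rfl fun j _ => Finset.sum_congr rfl fun α _ => ?_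
  exact key (fun β => Claims.C0475.siteOp j (Claims.C0475.spinOne α) *
    Claims.C0475.siteOp (finRotate n j) (Claims.C0475.spinOne β)) _ α

theorem mdl_heisenbergRing_eq (n : ℕ) :
    Claims.C0475.heisenbergRing n = mdlPhaseRing n (1 : ℂ) 1 := by
  rw [mdl_heisenbergRing_eq_twistRing, mdl_twistRing_one]

/-! ### the cyclic twist: Fourier similarity -/

section Fourier

variable (om : ℂ)

/-- Fourier matrix (rows: eigenvectors of the cyclic rotation), not normalised. -/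
def mdlFour : Matrix (Fin 3) (Fin 3) ℂ :=
  !![1, om ^ 2, om; -1, -1, -1; -1, -om, -om ^ 2]

/-- its inverse. -/
noncomputable def mdlFour' : Matrix (Fin 3) (Fin 3) ℂ :=
  (1 / 3 : ℂ) • !![1, -1, -1; om, -1, -om ^ 2; om ^ 2, -1, -om]

/-- coefficients of the conjugated Cartesian spin matrices in `(U, D, Z)`. -/
noncomputable def mdlAf : Matrix (Fin 3) (Fin 3) ℂ :=
  (I * (om ^ 2 - om) / 3) • !![1, 1, 1; om ^ 2, om, 1; om, om ^ 2, 1]

variable {om}

theorem mdlFour_mul (h : om ^ 2 + om + 1 = 0) : mdlFour om * mdlFour' om = 1 := by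
  ext i j
  fin_cases i <;> fin_cases j <;>
    simp [mdlFour, mdlFour', Matrix.mul_apply, Fin.sum_univ_three] <;> grind

theorem mdlFour_cartSpin (h : om ^ 2 + om + 1 = 0) (α : Fin 3) :
    mdlFour om * cartSpin α * mdlFour' om
      = ∑ γ, mdlAf om α γ • (mdlUDZ γ : Matrix (Fin 3) (Fin 3) ℂ) := by
  rw [mdl_cartSpin_eq]
  ext i j
  fin_cases α <;> fin_cases i <;> fin_cases j <;>
    simp [mdlFour, mdlFour', mdlAf, Matrix.mul_apply, Fin.sum_univ_three,
      mdlUDZ, mdlWU, mdlWD, mdlWZ] <;> grind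

theorem mdlAf_one (h : om ^ 2 + om + 1 = 0) : (mdlAf om)ᵀ * 1 * mdlAf om = mdlKph 1 1 := by
  have hI : I * I = -1 := Complex.I_mul_I
  ext i j
  fin_cases i <;> fin_cases j <;>
    simp [mdlAf, mdlKph, Matrix.mul_apply, Fin.sum_univ_three] <;> grind

theorem mdlAf_rotC (h : om ^ 2 + om + 1 = 0) :
    (mdlAf om)ᵀ * rotC.map (fun x : ℝ => (x : ℂ)) * mdlAf om = mdlKph (om ^ 2) om := by
  have hI : I * I = -1 := Complex.I_mul_I
  rw [mdl_rotC_eq]
  ext i j
  fin_cases i <;> fin_cases j <;>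
    simp [mdlAf, mdlKph, Matrix.mul_apply, Fin.sum_univ_three] <;> grind

/-- The Cartesian ring with the cyclic twist is similar to the weight-basis ring with seam
coefficients `ω²`, `ω`. -/
theorem mdl_ringOf_cart_rotC (h : om ^ 2 + om + 1 = 0) (n : ℕ) :
    mdlTens (fun _ : Fin n => mdlFour om) * ringOf cartSpin n rotC
        * mdlTens (fun _ : Fin n => mdlFour' om)
      = mdlPhaseRing n (om ^ 2) om := by
  rw [mdl_ringOf_conj _ _ (mdlFour_mul h), mdl_ringOf_eq_ringK,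
    mdlRingK_change (mdlAf om) _ _ (mdlFour_cartSpin h), mdlAf_one h, mdlAf_rotC h,
    mdlPhaseRing_eq_ringK]

end Fourier

/-! ### Hermiticity and Gibbs sums -/

theorem mdlWU_conjTranspose : (mdlWU : Matrix (Fin 3) (Fin 3) ℂ)ᴴ = mdlWD := by
  ext i j; fin_cases i <;> fin_cases j <;> simp [mdlWU, mdlWD, Matrix.conjTranspose_apply]

theorem mdlWD_conjTranspose : (mdlWD : Matrix (Fin 3) (Fin 3) ℂ)ᴴ = mdlWU := by
  ext i j; fin_cases i <;> fin_cases j <;> simp [mdlWU, mdlWD, Matrix.conjTranspose_apply]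

theorem mdlWZ_conjTranspose : (mdlWZ : Matrix (Fin 3) (Fin 3) ℂ)ᴴ = mdlWZ := by
  ext i j; fin_cases i <;> fin_cases j <;> simp [mdlWZ, Matrix.conjTranspose_apply]

/-- The weight-basis ring with conjugate seam coefficients is Hermitian. -/
theorem mdlPhaseRing_isHermitian {n : ℕ} (hn : 2 ≤ n) (z : ℂ) :
    (mdlPhaseRing n z ((starRingEnd ℂ) z)).IsHermitian := by
  unfold mdlPhaseRing
  refine mdl_isHermitian_sum _ _ fun j _ => ?_
  have hj := mdl_finRotate_ne hn j
  rw [Matrix.IsHermitian, conjTranspose_add, conjTranspose_add, conjTranspose_smul,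
    conjTranspose_smul, conjTranspose_mul, conjTranspose_mul, conjTranspose_mul]
  simp only [mdlSite_conjTranspose, mdlWU_conjTranspose, mdlWD_conjTranspose,
    mdlWZ_conjTranspose]
  rw [mdlSite_comm hj.symm, mdlSite_comm hj.symm, mdlSite_comm hj.symm, add_assoc, add_assoc]
  congr 1
  rw [add_comm]
  split_ifs <;> simp

/-- a primitive cube root of unity. -/
noncomputable def mdlOmega : ℂ := ⟨-1 / 2, Real.sqrt 3 / 2⟩

theorem mdl_omega_eq {om : ℂ} (hre : om.re = -1 / 2) (him : om.im ^ 2 = 3 / 4) :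
    om ^ 2 + om + 1 = 0 := by
  apply Complex.ext
  · simp only [pow_two, Complex.mul_re, Complex.add_re, Complex.one_re, Complex.zero_re, hre]
    nlinarith
  · simp only [pow_two, Complex.mul_im, Complex.add_im, Complex.one_im, Complex.zero_im, hre]
    ring

theorem mdl_omega_star {om : ℂ} (hre : om.re = -1 / 2) (him : om.im ^ 2 = 3 / 4) :
    (starRingEnd ℂ) om = om ^ 2 := by
  apply Complex.ext
  · simp only [pow_two, Complex.mul_re, Complex.conj_re, hre]
    nlinarith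
  · simp only [pow_two, Complex.mul_im, Complex.conj_im, hre]
    ring

theorem mdlOmega_re : mdlOmega.re = -1 / 2 := rfl

theorem mdlOmega_im : mdlOmega.im ^ 2 = 3 / 4 := by
  show (Real.sqrt 3 / 2) ^ 2 = 3 / 4
  rw [div_pow, Real.sq_sqrt (by norm_num)]
  norm_num

/-- **The cyclic twist in the weight basis.**  `om` is any primitive cube root of unity. -/
theorem mdl_gibbsZ_twistRing_rotC {om : ℂ} (hre : om.re = -1 / 2) (him : om.im ^ 2 = 3 / 4)
    {n : ℕ} (hn : 2 ≤ n) (b : ℝ) :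
    gibbsZ (twistRing n rotC) b = gibbsZ (mdlPhaseRing n (om ^ 2) om) b := by
  have h := mdl_omega_eq hre him
  have hs := mdl_omega_star hre him
  have hs2 : (starRingEnd ℂ) (om ^ 2) = om := by
    rw [← hs, Complex.conj_conj]
  have hH' : (mdlPhaseRing n (om ^ 2) om).IsHermitian := by
    have := mdlPhaseRing_isHermitian hn (om ^ 2)
    rwa [hs2] at this
  rw [← mdl_gibbsZ_ringOf_cart]
  exact (gibbsZ_conj (mdl_ringOf_cart_isHermitian hn rotC) hH' _ _
    (mdlTens_mul_inv _ _ fun _ => mdlFour_mul h) (mdl_ringOf_cart_rotC h n).symm b).symm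

theorem mdl_gibbsZ_twistRing_one (n : ℕ) (b : ℝ) :
    gibbsZ (twistRing n 1) b = gibbsZ (mdlPhaseRing n (1 : ℂ) 1) b := by
  rw [mdl_twistRing_one]

theorem mdl_gibbsZ_twistRing_rotP (n : ℕ) (b : ℝ) :
    gibbsZ (twistRing n rotP) b = gibbsZ (mdlPhaseRing n (-1 : ℂ) (-1)) b := by
  rw [mdl_twistRing_rotP]

end Claimed.Agent.R297
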