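/-
Row 297 (spin-one Haldane gap), package D4 (helper81): the masked moves of a spin-one chain
(hops, `S^z S^z` terms, one-site projectors, the identity) for any layout of `Fin n → Fin 3`
whose lane index is a weighted digit sum and whose support depends only on the digit sum.
-/
import Claimed.Agent.R297.LanesMask
import Claimed.Agent.R297.ModelTwist

namespace Claimed.Agent.R297

open Matrix

/-- `sm p d` is the mask of the lanes whose configuration has the digit `d` at the site `p`. -/
def IsSiteMask {n N : ℕ} (w : ℕ) (L : LaneLayout (Fin n → Fin 3) N) (sm : ℕ → ℕ → ℕ) : Prop :=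
  ∀ (p : Fin n) (d : ℕ), d < 3 →
    IsMask w N (sm p d) (fun i => decide (((L.dec i p : Fin 3) : ℕ) = d))

/-- the lane index is the weighted digit sum, the support depends only on the digit sum. -/
structure IsWLayout {n N : ℕ} (L : LaneLayout (Fin n → Fin 3) N) (wgt : Fin n → ℕ) : Prop where
  code : ∀ x, L.code x = wCode wgt x
  supp : ∀ x y, digSum x = digSum y → (L.S x ↔ L.S y)

/-! ### diagonal moves -/

section diag

variable {ι : Type} {N : ℕ}

/-- a diagonal move: multiplication by `coef` on the configurations with `D`. -/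
def diagOp (D : ι → Bool) (m coef : ℕ) : SiteOp ι := ⟨D, id, m, true, 0, coef⟩

theorem diagOp_valid {w : ℕ} {L : LaneLayout ι N} {D : ι → Bool} {m : ℕ} (coef : ℕ)
    (hm : IsMask w N m (fun i => D (L.dec i))) : (diagOp D m coef).Valid w L where
  mask := hm
  mem := fun _ hy _ => hy
  mem' := fun _ _ hy => hy
  shift := fun _ _ _ => by simp [diagOp]

theorem diagOp_mat [DecidableEq ι] (D : ι → Bool) (m coef : ℕ) :
    (diagOp D m coef).mat = Matrix.diagonal fun y => if D y = true then (coef : ℤ) else 0 := by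
  ext x y
  unfold SiteOp.mat diagOp
  simp only [id]
  by_cases hxy : x = y
  · subst hxy
    simp
  · rw [Matrix.diagonal_apply_ne _ hxy, if_neg]
    rintro ⟨-, h⟩
    exact hxy h.symm

/-- the identity times `coef`. -/
def constOp (ι : Type) (w N coef : ℕ) : SiteOp ι := diagOp (fun _ => true) (2 ^ (w * N) - 1) coef

theorem constOp_valid {w : ℕ} (hw : 0 < w) (L : LaneLayout ι N) (coef : ℕ) :
    (constOp ι w N coef).Valid w L :=
  diagOp_valid coef (IsMask.all hw N)

theorem constOp_mat [DecidableEq ι] (w N coef : ℕ) :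
    (constOp ι w N coef).mat = (coef : ℤ) • (1 : Matrix ι ι ℤ) := by
  unfold constOp
  rw [diagOp_mat]
  ext x y
  by_cases hxy : x = y
  · subst hxy; simp
  · simp [Matrix.diagonal_apply_ne _ hxy, Matrix.one_apply_ne hxy]

end diag

variable {n N : ℕ}

/-! ### one-site projectors -/

/-- `coef` times the projector on the digit `d` at the site `p`. -/
def digOp (sm : ℕ → ℕ → ℕ) (coef : ℕ) (p : Fin n) (d : ℕ) : SiteOp (Fin n → Fin 3) :=
  diagOp (fun y => decide (((y p : Fin 3) : ℕ) = d)) (sm p d) coef

theorem digOp_valid {w : ℕ} {L : LaneLayout (Fin n → Fin 3) N} {sm : ℕ → ℕ → ℕ}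
    (hsm : IsSiteMask w L sm) (coef : ℕ) (p : Fin n) {d : ℕ} (hd : d < 3) :
    (digOp sm coef p d).Valid w L :=
  diagOp_valid coef (hsm p d hd)

/-- `S^z` at one site. -/
theorem digOp_mat_sub (sm : ℕ → ℕ → ℕ) (coef : ℕ) (p : Fin n) :
    (digOp sm coef p 0).mat - (digOp sm coef p 2).mat
      = (coef : ℤ) • mdlSite p (mdlWZ : Matrix (Fin 3) (Fin 3) ℤ) := by
  unfold digOp
  rw [diagOp_mat, diagOp_mat]
  ext x y
  rw [Matrix.sub_apply, Matrix.smul_apply, mdlSite_apply]
  by_cases hxy : x = y
  · subst hxy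
    rw [Matrix.diagonal_apply_eq, Matrix.diagonal_apply_eq, if_pos (fun _ _ => rfl)]
    generalize x p = a
    fin_cases a <;> simp [mdlWZ]
  · rw [Matrix.diagonal_apply_ne _ hxy, Matrix.diagonal_apply_ne _ hxy]
    split_ifs with h
    · have hp : x p ≠ y p := by
        intro hp
        apply hxy
        funext k
        by_cases hk : k = p
        · rw [hk]; exact hp
        · exact h k hk
      generalize x p = a at hp
      generalize y p = b at hp
      fin_cases a <;> fin_cases b <;> simp_all [mdlWZ]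
    · simp

/-! ### `S^z S^z` -/

/-- both spins up or both spins down. -/
def parOp (sm : ℕ → ℕ → ℕ) (coef : ℕ) (p q : Fin n) : SiteOp (Fin n → Fin 3) :=
  diagOp (fun y => (decide (((y p : Fin 3) : ℕ) = 0) && decide (((y q : Fin 3) : ℕ) = 0))
      || (decide (((y p : Fin 3) : ℕ) = 2) && decide (((y q : Fin 3) : ℕ) = 2)))
    ((sm p 0 &&& sm q 0) + (sm p 2 &&& sm q 2)) coef

/-- one spin up, the other one down. -/
def antiOp (sm : ℕ → ℕ → ℕ) (coef : ℕ) (p q : Fin n) : SiteOp (Fin n → Fin 3) :=
  diagOp (fun y => (decide (((y p : Fin 3) : ℕ) = 0) && decide (((y q : Fin 3) : ℕ) = 2))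
      || (decide (((y p : Fin 3) : ℕ) = 2) && decide (((y q : Fin 3) : ℕ) = 0)))
    ((sm p 0 &&& sm q 2) + (sm p 2 &&& sm q 0)) coef

theorem parOp_valid {w : ℕ} (hw : 0 < w) {L : LaneLayout (Fin n → Fin 3) N} {sm : ℕ → ℕ → ℕ}
    (hsm : IsSiteMask w L sm) (coef : ℕ) (p q : Fin n) : (parOp sm coef p q).Valid w L := by
  refine diagOp_valid coef ?_
  refine IsMask.add ((hsm p 0 (by norm_num)).and hw (hsm q 0 (by norm_num)))
    ((hsm p 2 (by norm_num)).and hw (hsm q 2 (by norm_num))) ?_
  intro i _
  simp only [Bool.and_eq_true, decide_eq_true_eq]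
  omega

theorem antiOp_valid {w : ℕ} (hw : 0 < w) {L : LaneLayout (Fin n → Fin 3) N} {sm : ℕ → ℕ → ℕ}
    (hsm : IsSiteMask w L sm) (coef : ℕ) (p q : Fin n) : (antiOp sm coef p q).Valid w L := by
  refine diagOp_valid coef ?_
  refine IsMask.add ((hsm p 0 (by norm_num)).and hw (hsm q 2 (by norm_num)))
    ((hsm p 2 (by norm_num)).and hw (hsm q 0 (by norm_num))) ?_
  intro i _
  simp only [Bool.and_eq_true, decide_eq_true_eq]
  omega

theorem parOp_mat_sub (sm : ℕ → ℕ → ℕ) (coef : ℕ) {p q : Fin n} (hpq : p ≠ q) :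
    (parOp sm coef p q).mat - (antiOp sm coef p q).mat
      = (coef : ℤ) • (mdlSite p (mdlWZ : Matrix (Fin 3) (Fin 3) ℤ) * mdlSite q mdlWZ) := by
  unfold parOp antiOp
  rw [diagOp_mat, diagOp_mat]
  ext x y
  rw [Matrix.sub_apply, Matrix.smul_apply, mdlSite_mul_apply_of_ne hpq]
  by_cases hxy : x = y
  · subst hxy
    rw [Matrix.diagonal_apply_eq, Matrix.diagonal_apply_eq, if_pos (fun _ _ _ => rfl)]
    generalize x p = a
    generalize x q = b
    fin_cases a <;> fin_cases b <;> simp [mdlWZ]
  · rw [Matrix.diagonal_apply_ne _ hxy, Matrix.diagonal_apply_ne _ hxy]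
    split_ifs with h
    · have hp : x p ≠ y p ∨ x q ≠ y q := by
        by_contra hcon
        push Not at hcon
        apply hxy
        funext k
        by_cases hk : k = p
        · rw [hk]; exact hcon.1
        · by_cases hk' : k = q
          · rw [hk']; exact hcon.2
          · exact h k hk hk'
      generalize x p = a at hp
      generalize y p = b at hp
      generalize x q = c at hp
      generalize y q = d at hp
      fin_cases a <;> fin_cases b <;> fin_cases c <;> fin_cases d <;> simp_all [mdlWZ]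
    · simp

/-! ### hops -/

def laneInc3 : Fin 3 → Fin 3 := ![1, 2, 2]

def laneDec3 : Fin 3 → Fin 3 := ![0, 0, 1]

/-- the digit at `p` goes up by one, the digit at `q` goes down by one. -/
def hopOp (wgt : Fin n → ℕ) (sm : ℕ → ℕ → ℕ) (coef : ℕ) (p q : Fin n) :
    SiteOp (Fin n → Fin 3) where
  D := fun y => (decide (((y p : Fin 3) : ℕ) = 0) || decide (((y p : Fin 3) : ℕ) = 1))
      && (decide (((y q : Fin 3) : ℕ) = 1) || decide (((y q : Fin 3) : ℕ) = 2))
  σ := fun y => Function.update (Function.update y p (laneInc3 (y p))) q (laneDec3 (y q))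
  m := (sm p 0 + sm p 1) &&& (sm q 1 + sm q 2)
  up := decide (wgt q ≤ wgt p)
  sh := if wgt q ≤ wgt p then wgt p - wgt q else wgt q - wgt p
  coef := coef

theorem laneInc3_val {a : Fin 3} (h : (a : ℕ) = 0 ∨ (a : ℕ) = 1) :
    ((laneInc3 a : Fin 3) : ℕ) = a + 1 := by
  fin_cases a <;> simp_all [laneInc3]

theorem laneDec3_val {a : Fin 3} (h : (a : ℕ) = 1 ∨ (a : ℕ) = 2) :
    ((laneDec3 a : Fin 3) : ℕ) + 1 = a := by
  fin_cases a <;> simp_all [laneDec3]

theorem hop_wCode (wgt : Fin n → ℕ) {p q : Fin n} (hpq : p ≠ q) (y : Fin n → Fin 3)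
    (hp : ((y p : Fin 3) : ℕ) = 0 ∨ ((y p : Fin 3) : ℕ) = 1)
    (hq : ((y q : Fin 3) : ℕ) = 1 ∨ ((y q : Fin 3) : ℕ) = 2) :
    wCode wgt (Function.update (Function.update y p (laneInc3 (y p))) q (laneDec3 (y q))) + wgt q
      = wCode wgt y + wgt p := by
  have h1 := wCode_update wgt y p (laneInc3 (y p))
  have h2 := wCode_update wgt (Function.update y p (laneInc3 (y p))) q (laneDec3 (y q))
  rw [Function.update_of_ne hpq.symm] at h2
  rw [laneInc3_val hp, Nat.add_mul, one_mul] at h1
  have h3 := laneDec3_val hq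
  have h4 : ((y q : Fin 3) : ℕ) * wgt q = ((laneDec3 (y q) : Fin 3) : ℕ) * wgt q + wgt q := by
    rw [← h3]; ring
  omega

theorem hopOp_valid {w : ℕ} (hw : 0 < w) {L : LaneLayout (Fin n → Fin 3) N} {wgt : Fin n → ℕ}
    (hL : IsWLayout L wgt) {sm : ℕ → ℕ → ℕ} (hsm : IsSiteMask w L sm) (coef : ℕ) {p q : Fin n}
    (hpq : p ≠ q) : (hopOp wgt sm coef p q).Valid w L := by
  have hD : ∀ y, (hopOp wgt sm coef p q).D y = true →
      (((y p : Fin 3) : ℕ) = 0 ∨ ((y p : Fin 3) : ℕ) = 1)
        ∧ (((y q : Fin 3) : ℕ) = 1 ∨ ((y q : Fin 3) : ℕ) = 2) := by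
    intro y hy
    simpa [hopOp] using hy
  have hsum : ∀ y, (hopOp wgt sm coef p q).D y = true →
      digSum ((hopOp wgt sm coef p q).σ y) = digSum y := by
    intro y hy
    obtain ⟨hp, hq⟩ := hD y hy
    have := hop_wCode (fun _ => 1) hpq y hp hq
    rw [digSum_eq_wCode, digSum_eq_wCode]
    show wCode (fun _ => 1)
      (Function.update (Function.update y p (laneInc3 (y p))) q (laneDec3 (y q))) = _
    omega
  refine ⟨?_, ?_, ?_, ?_⟩
  · refine IsMask.and hw (IsMask.add (hsm p 0 (by norm_num)) (hsm p 1 (by norm_num)) ?_)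
      (IsMask.add (hsm q 1 (by norm_num)) (hsm q 2 (by norm_num)) ?_)
    · intro i _
      simp only [decide_eq_true_eq]
      omega
    · intro i _
      simp only [decide_eq_true_eq]
      omega
  · intro y hy hd
    exact (hL.supp _ _ (hsum y hd)).2 hy
  · intro y hd hy
    exact (hL.supp _ _ (hsum y hd)).1 hy
  · intro y _ hd
    obtain ⟨hp, hq⟩ := hD y hd
    have := hop_wCode wgt hpq y hp hq
    rw [hL.code, hL.code]
    show (if decide (wgt q ≤ wgt p) = true then
        wCode wgt (Function.update (Function.update y p (laneInc3 (y p))) q (laneDec3 (y q)))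
          = wCode wgt y + (if wgt q ≤ wgt p then wgt p - wgt q else wgt q - wgt p)
      else wCode wgt (Function.update (Function.update y p (laneInc3 (y p))) q (laneDec3 (y q)))
          + (if wgt q ≤ wgt p then wgt p - wgt q else wgt q - wgt p) = wCode wgt y)
    by_cases hle : wgt q ≤ wgt p
    · simp only [hle, decide_true, if_true]
      omega
    · simp only [hle, decide_false, if_false, Bool.false_eq_true]
      omega

theorem hopOp_mat (wgt : Fin n → ℕ) (sm : ℕ → ℕ → ℕ) (coef : ℕ) {p q : Fin n} (hpq : p ≠ q) :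
    (hopOp wgt sm coef p q).mat
      = (coef : ℤ) • (mdlSite p (mdlWD : Matrix (Fin 3) (Fin 3) ℤ) * mdlSite q mdlWU) := by
  ext x y
  rw [Matrix.smul_apply, mdlSite_mul_apply_of_ne hpq]
  unfold SiteOp.mat hopOp
  dsimp only
  by_cases h : ∀ l, l ≠ p → l ≠ q → x l = y l
  · rw [if_pos h]
    have key : Function.update (Function.update y p (laneInc3 (y p))) q (laneDec3 (y q)) = x
        ↔ laneInc3 (y p) = x p ∧ laneDec3 (y q) = x q := by
      constructor
      · intro hx
        rw [← hx]
        simp [Function.update_of_ne hpq]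
      · rintro ⟨h1, h2⟩
        funext l
        by_cases hl : l = q
        · subst hl; simp [h2]
        · by_cases hl' : l = p
          · subst hl'; simp [Function.update_of_ne hl, h1]
          · simp [Function.update_of_ne hl, Function.update_of_ne hl', h l hl' hl]
    rw [if_congr (and_congr_right fun _ => key) rfl rfl]
    generalize x p = a
    generalize y p = b
    generalize x q = c
    generalize y q = d
    fin_cases a <;> fin_cases b <;> fin_cases c <;> fin_cases d <;>
      simp [mdlWD, mdlWU, laneInc3, laneDec3]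
  · rw [if_neg h, if_neg, smul_zero]
    rintro ⟨-, hx⟩
    apply h
    intro l hl hl'
    rw [← hx]
    simp [Function.update_of_ne hl, Function.update_of_ne hl']

/-! ### the two concrete layouts -/

def ternSiteMask (w k p d : ℕ) : ℕ := digitMask w p d k

theorem ternSiteMask_is {w : ℕ} (hw : 0 < w) (k : ℕ) :
    IsSiteMask w (ternLayout k) (ternSiteMask w k) := by
  intro p d hd
  exact digitMask_isMask hw hd p.is_lt

theorem ternLayout_isW (k : ℕ) : IsWLayout (ternLayout k) (fun j => 3 ^ (j : ℕ)) where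
  code := fun _ => rfl
  supp := fun _ _ _ => Iff.rfl

def clsSiteMask (w k c p d : ℕ) : ℕ :=
  if p < k then digitMask w p d k else classSel w k (c + 2 * d)

theorem clsSiteMask_is {w : ℕ} (hw : 0 < w) (k c : ℕ) :
    IsSiteMask w (clsLayout k c) (clsSiteMask w k c) := by
  intro p d hd
  unfold clsSiteMask
  by_cases hp : (p : ℕ) < k
  · rw [if_pos hp]
    refine (digitMask_isMask hw hd hp).congr fun i _ => ?_
    have : p = (⟨p, hp⟩ : Fin k).castSucc := rfl
    show _ = decide (((clsDec k c i p : Fin 3) : ℕ) = d)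
    rw [this, clsDec_castSucc]
    rfl
  · rw [if_neg hp]
    refine (classSel_isMask w k (c + 2 * d)).congr fun i _ => ?_
    have : p = Fin.last k := by
      apply Fin.ext
      have := p.is_lt
      simp only [Fin.val_last]
      omega
    show _ = decide (((clsDec k c i p : Fin 3) : ℕ) = d)
    rw [this, clsDec_last]
    apply decide_eq_decide.2
    omega

theorem clsLayout_isW (k c : ℕ) : IsWLayout (clsLayout k c) (clsWgt k) where
  code := fun _ => rfl
  supp := fun x y h => by
    show digSum x % 3 = c % 3 ↔ digSum y % 3 = c % 3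
    rw [h]

/-- The lemmas that are written on demand are cited here once, so that no two downstream files hold
their own copies (RULES.md, rule 6). -/
theorem lanesOps_eqns_cited : True := by
  have := @IsSiteMask.eq_1; have := @IsSiteMask.eq_def; have := @IsSiteMask.congr_simp
  have := @diagOp.eq_1; have := @diagOp.eq_def; have := @diagOp.congr_simp
  have := @constOp.eq_1; have := @constOp.eq_def; have := @constOp.congr_simp
  have := @digOp.eq_1; have := @digOp.eq_def; have := @digOp.congr_simp
  have := @parOp.eq_1; have := @parOp.eq_def; have := @parOp.congr_simp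
  have := @antiOp.eq_1; have := @antiOp.eq_def; have := @antiOp.congr_simp
  have := @laneInc3.eq_1; have := @laneInc3.eq_def; have := @laneInc3.congr_simp
  have := @laneDec3.eq_1; have := @laneDec3.eq_def; have := @laneDec3.congr_simp
  have := @hopOp.eq_1; have := @hopOp.eq_def; have := @hopOp.congr_simp
  have := @ternSiteMask.eq_1; have := @ternSiteMask.eq_def; have := @ternSiteMask.congr_simp
  have := @clsSiteMask.eq_1; have := @clsSiteMask.eq_def; have := @clsSiteMask.congr_simp
  trivial

end Claimed.Agent.R297
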