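/-
Row 297 (spin-one Haldane gap), package D4 (helper81): the whole packed Clenshaw run is the integer
run `thC_zRun` of helper46.
-/
import Claimed.Agent.R297.LanesLayout
import Claimed.Agent.R297.ThermalChebMain

namespace Claimed.Agent.R297

open Matrix

/-- the packed run; the state is `(current, old)`, the coefficients are fed in list order. -/
def laneRun (w N o a g : ℕ) (pos neg : List LaneOp) (s Ev : ℕ) : List ℕ → ℕ → ℕ → Option (ℕ × ℕ)
  | [], X1, X2 => some (X1, X2)
  | c :: cs, X1, X2 =>
    match laneStep w N o a g pos neg s c Ev X1 X2 with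
    | none => none
    | some X0 => laneRun w N o a g pos neg s Ev cs X0 X1

/-- the complete run attached to the coefficient list `q` (`q[k]` multiplies `T_k`): the packed
vector `z₀ - z₂ + q₀ e`, bias `2^o`. -/
def laneFull (w N o a g : ℕ) (pos neg : List LaneOp) (s Ev : ℕ) (q : List ℕ) : Option ℕ :=
  match q with
  | [] => none
  | q0 :: qs =>
    match laneRun w N o a g pos neg s Ev qs.reverse (laneConst w N (2 ^ o))
        (laneConst w N (2 ^ o)) with
    | none => none
    | some X =>
      match laneStep w N o a g pos neg s q0 Ev X.1 X.2 with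
      | none => none
      | some X0 => some ((X0 + (q0 * Ev + laneConst w N (2 ^ o))) - X.2)

/-- the packed `0/1` vector with ones in the lanes of the list. -/
def laneStart (w : ℕ) (rs : List ℕ) : ℕ := (rs.map fun r => 2 ^ (w * r)).sum

theorem laneStart_eq {w N : ℕ} {rs : List ℕ} (hnd : rs.Nodup) (hlt : ∀ r ∈ rs, r < N) :
    laneStart w rs = lanePack w (fun i => if i ∈ rs then 1 else 0) N := by
  induction rs with
  | nil =>
    simp only [laneStart, List.map_nil, List.sum_nil, List.not_mem_nil, if_false]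
    unfold lanePack
    simp
  | cons r rs ih =>
    have h1 := ih (List.nodup_cons.1 hnd).2 fun x hx => hlt x (List.mem_cons_of_mem _ hx)
    have hr : r ∉ rs := (List.nodup_cons.1 hnd).1
    unfold laneStart at h1 ⊢
    rw [List.map_cons, List.sum_cons, h1]
    have h2 : 2 ^ (w * r) = lanePack w (fun i => if i = r then 1 else 0) N := by
      unfold lanePack
      rw [Finset.sum_eq_single r]
      · simp
      · intro b _ hb; simp [hb]
      · intro h; exact absurd (Finset.mem_range.2 (hlt r List.mem_cons_self)) h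
    rw [h2, lanePack_add]
    refine lanePack_congr fun i _ => ?_
    by_cases hi : i = r
    · subst hi; simp [hr]
    · simp [hi]

/-- the output `z₀ - z₂ + c e`. -/
theorem laneOut_rep {w N o a c Ev X0 X2 : ℕ} {z0 z2 : ℕ → ℤ} {e : ℕ → ℕ} (hw : 0 < w)
    (hao : a + 1 ≤ o) (hc : c ≤ 2 ^ a) (hEv : Ev = lanePack w e N) (he : ∀ i, e i ≤ 1)
    (h0 : LaneRep w N o a X0 z0) (h2 : LaneRep w N o a X2 z2) :
    LaneRep w N o (a + 2) ((X0 + (c * Ev + laneConst w N (2 ^ o))) - X2)
      (fun i => z0 i - z2 i + c * e i) := by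
  obtain ⟨f0, rfl, hf0⟩ := h0
  obtain ⟨f2, rfl, hf2⟩ := h2
  have p1 : (2 : ℤ) ^ (a + 1) ≤ 2 ^ o := pow_le_pow_right₀ (by norm_num) hao
  have p2 : (2 : ℤ) ^ (a + 1) = 2 * 2 ^ a := by ring
  have p3 : (2 : ℤ) ^ (a + 2) = 4 * 2 ^ a := by ring
  have p4 : (0 : ℤ) < 2 ^ a := by positivity
  have hce : ∀ i, (0 : ℤ) ≤ (c : ℤ) * e i ∧ (c : ℤ) * e i ≤ 2 ^ a := by
    intro i
    have hc' : (c : ℤ) ≤ 2 ^ a := by exact_mod_cast hc
    have h1 := he i
    interval_cases h : e i
    · simp [p4.le]
    · simpa using hc'
  have key : ∀ i, i < N → f2 i ≤ f0 i + (c * e i + 2 ^ o) ∧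
      ((f0 i + (c * e i + 2 ^ o) - f2 i : ℕ) : ℤ) = z0 i - z2 i + c * e i + 2 ^ o := by
    intro i hi
    obtain ⟨a1, a2, a3⟩ := hf0 i hi
    obtain ⟨b1, b2, b3⟩ := hf2 i hi
    obtain ⟨c1, c2⟩ := hce i
    apply lane_sub_cast
    · push_cast
      rw [a1, b1]
      ring
    · linarith
  rw [hEv, laneConst_eq hw, lanePack_mul_left, lanePack_add, lanePack_add,
    lanePack_sub fun i hi => (key i hi).1]
  refine ⟨_, rfl, fun i hi => ⟨(key i hi).2, ?_, ?_⟩⟩
  · obtain ⟨a1, a2, a3⟩ := hf0 i hi
    obtain ⟨b1, b2, b3⟩ := hf2 i hi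
    obtain ⟨c1, c2⟩ := hce i
    linarith
  · obtain ⟨a1, a2, a3⟩ := hf0 i hi
    obtain ⟨b1, b2, b3⟩ := hf2 i hi
    obtain ⟨c1, c2⟩ := hce i
    linarith

variable {ι : Type} {N : ℕ}

theorem siteRep_zero {w o a : ℕ} (hw : 0 < w) (L : LaneLayout ι N) :
    SiteRep w o a L (laneConst w N (2 ^ o)) (0 : ι → ℤ) := by
  refine ⟨⟨fun _ => 2 ^ o, laneConst_eq hw _ _, fun i _ => ⟨by simp, ?_, ?_⟩⟩, fun _ _ => rfl⟩
  · simp
  · simp

section run

variable [Fintype ι] [DecidableEq ι] {w o a g : ℕ} {L : LaneLayout ι N}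
  {pos neg : List (SiteOp ι)}

/-- hypotheses shared by all steps of a run. -/
structure SiteParams (w o a g s : ℕ) (L : LaneLayout ι N) (pos neg : List (SiteOp ι)) : Prop where
  hP : LaneParams w N o a g (pos.map (SiteOp.toLane L)) (neg.map (SiteOp.toLane L))
  hpos : ∀ op ∈ pos, op.Valid w L
  hneg : ∀ op ∈ neg, op.Valid w L
  hs : s + 1 ≤ g
  hRs : (laneWeight (pos.map (SiteOp.toLane L)) + laneWeight (neg.map (SiteOp.toLane L)))
      * 2 ^ a + 2 ^ s * (2 ^ a + 1) ≤ 2 ^ (o + s)

theorem siteRun_spec {s Ev : ℕ} (hp : SiteParams w o a g s L pos neg) {e : ι → ℕ}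
    (hEv : Ev = lanePack w (fun i => e (L.dec i)) N) (he : ∀ x, e x ≤ 1)
    (he0 : ∀ y, ¬ L.S y → e y = 0) (q : ℕ → ℤ) (cs : List ℕ) :
    ∀ (i0 X1 X2 : ℕ) (Y : ℕ × ℕ), (∀ c ∈ cs, c ≤ 2 ^ a) →
      (∀ j, j < cs.length → q (i0 + j) = ((cs.getD j 0 : ℕ) : ℤ)) →
      SiteRep w o a L X1 (thC_zClen (siteMat pos neg) (2 ^ s) (fun x => (e x : ℤ)) q i0).1 →
      SiteRep w o a L X2 (thC_zClen (siteMat pos neg) (2 ^ s) (fun x => (e x : ℤ)) q i0).2 →
      laneRun w N o a g (pos.map (SiteOp.toLane L)) (neg.map (SiteOp.toLane L)) s Ev cs X1 X2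
        = some Y →
      SiteRep w o a L Y.1
          (thC_zClen (siteMat pos neg) (2 ^ s) (fun x => (e x : ℤ)) q (i0 + cs.length)).1 ∧
        SiteRep w o a L Y.2
          (thC_zClen (siteMat pos neg) (2 ^ s) (fun x => (e x : ℤ)) q (i0 + cs.length)).2 := by
  induction cs with
  | nil =>
    intro i0 X1 X2 Y _ _ h1 h2 h
    simp only [laneRun, Option.some.injEq] at h
    subst h
    exact ⟨h1, h2⟩
  | cons c cs ih =>
    intro i0 X1 X2 Y hc hq h1 h2 h
    rw [laneRun] at h
    cases hstep : laneStep w N o a g (pos.map (SiteOp.toLane L)) (neg.map (SiteOp.toLane L)) s c Ev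
        X1 X2 with
    | none => rw [hstep] at h; simp at h
    | some X0 =>
      rw [hstep] at h
      simp only at h
      have h0 := siteStep_spec hp.hP hp.hpos hp.hneg hp.hs hp.hRs (hc c List.mem_cons_self) hEv he
        he0 h1 h2 hstep
      have hq0 : q i0 = (c : ℤ) := by
        have := hq 0 (by simp)
        simpa using this
      have h0' : SiteRep w o a L X0
          (thC_zClen (siteMat pos neg) (2 ^ s) (fun x => (e x : ℤ)) q (i0 + 1)).1 := by
        have e1 : (thC_zClen (siteMat pos neg) (2 ^ s) (fun x => (e x : ℤ)) q (i0 + 1)).1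
            = fun x => (siteMat pos neg *ᵥ
                (thC_zClen (siteMat pos neg) (2 ^ s) (fun x => (e x : ℤ)) q i0).1) x / 2 ^ s
              + c * e x - (thC_zClen (siteMat pos neg) (2 ^ s) (fun x => (e x : ℤ)) q i0).2 x := by
          funext x
          simp only [thC_zClen, hq0]
          ring
        rw [e1]
        exact h0
      have := ih (i0 + 1) X0 X1 Y (fun c' hc' => hc c' (List.mem_cons_of_mem _ hc'))
        (fun j hj => by
          have := hq (j + 1) (by simp; omega)
          rw [List.getD_cons_succ] at this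
          rw [← this]
          congr 1
          ring) h0' h1 h
      have e2 : i0 + (c :: cs).length = i0 + 1 + cs.length := by simp; ring
      rw [e2]
      exact this

/-- **The packed run computes `thC_zRun`.** -/
theorem siteFull_spec {s Ev : ℕ} (hp : SiteParams w o a g s L pos neg) {e : ι → ℕ}
    (hEv : Ev = lanePack w (fun i => e (L.dec i)) N) (he : ∀ x, e x ≤ 1)
    (he0 : ∀ y, ¬ L.S y → e y = 0) {q : List ℕ} (hq : ∀ c ∈ q, c ≤ 2 ^ a) {Y : ℕ}
    (h : laneFull w N o a g (pos.map (SiteOp.toLane L)) (neg.map (SiteOp.toLane L)) s Ev q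
      = some Y) :
    SiteRep w o (a + 2) L Y (thC_zRun (siteMat pos neg) (2 ^ s) q (fun x => (e x : ℤ))) := by
  have hw := hp.hP.hw
  cases q with
  | nil => simp [laneFull] at h
  | cons q0 qs =>
    rw [laneFull] at h
    cases hrun : laneRun w N o a g (pos.map (SiteOp.toLane L)) (neg.map (SiteOp.toLane L)) s Ev
        qs.reverse (laneConst w N (2 ^ o)) (laneConst w N (2 ^ o)) with
    | none => rw [hrun] at h; simp at h
    | some X =>
      rw [hrun] at h
      simp only at h
      cases hstep : laneStep w N o a g (pos.map (SiteOp.toLane L)) (neg.map (SiteOp.toLane L)) s q0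
          Ev X.1 X.2 with
      | none => rw [hstep] at h; simp at h
      | some X0 =>
        rw [hstep] at h
        simp only [Option.some.injEq] at h
        subst h
        set q' : ℕ → ℤ := fun i => (((q0 :: qs).getD (qs.length - i) 0 : ℕ) : ℤ) with hq'
        have hK : (q0 :: qs).length - 1 = qs.length := by simp
        have hrs := siteRun_spec hp hEv he he0 q' qs.reverse 0 _ _ X
          (fun c hc => hq c (List.mem_cons_of_mem _ (List.mem_reverse.1 hc)))
          (fun j hj => by
            rw [List.length_reverse] at hj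
            simp only [hq', zero_add]
            congr 1
            obtain ⟨t, ht⟩ : ∃ t, qs.length - j = t + 1 := ⟨qs.length - j - 1, by omega⟩
            rw [ht, List.getD_cons_succ, List.getD_eq_getElem?_getD, List.getD_eq_getElem?_getD,
              List.getElem?_reverse hj]
            congr 2
            omega)
          (siteRep_zero hw L) (siteRep_zero hw L) hrun
        rw [zero_add, List.length_reverse] at hrs
        obtain ⟨h1, h2⟩ := hrs
        have h0 := siteStep_spec hp.hP hp.hpos hp.hneg hp.hs hp.hRs (hq q0 List.mem_cons_self) hEv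
          he he0 h1 h2 hstep
        have hqK : q' qs.length = (q0 : ℤ) := by
          simp [hq']
        have hout := laneOut_rep (e := fun i => e (L.dec i)) hw (by have := hp.hP.hao; omega)
          (hq q0 List.mem_cons_self) hEv (fun i => he _) h0.1 h2.1
        have e1 : thC_zRun (siteMat pos neg) (2 ^ s) (q0 :: qs) (fun x => (e x : ℤ))
            = fun x => ((siteMat pos neg *ᵥ
                (thC_zClen (siteMat pos neg) (2 ^ s) (fun x => (e x : ℤ)) q' qs.length).1) x
                  / 2 ^ s + q0 * e x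
                - (thC_zClen (siteMat pos neg) (2 ^ s) (fun x => (e x : ℤ)) q' qs.length).2 x)
              - (thC_zClen (siteMat pos neg) (2 ^ s) (fun x => (e x : ℤ)) q' qs.length).2 x
              + q0 * e x := by
          funext x
          unfold thC_zRun thC_zOut
          rw [hK, ← hq']
          simp only [thC_zClen]
          rw [hqK]
          ring
        rw [e1]
        refine ⟨hout, fun y hy => ?_⟩
        have t0 := h0.2 y hy
        have t2 := h2.2 y hy
        have t3 := he0 y hy
        dsimp only at t0 ⊢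
        rw [t0, t2, t3]
        simp

end run

/-- The lemmas that are written on demand are cited here once, so that no two downstream files hold
their own copies (RULES.md, rule 6). -/
theorem lanesRun_eqns_cited : True := by
  have := @laneRun.eq_1; have := @laneRun.eq_2; have := @laneRun.eq_def; have := @laneRun.congr_simp
  have := @laneFull.eq_1; have := @laneFull.eq_2; have := @laneFull.eq_def; have := @laneFull.congr_simp
  have := @laneStart.eq_1; have := @laneStart.eq_def; have := @laneStart.congr_simp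
  trivial

end Claimed.Agent.R297
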