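/-
Row 297 (spin-one Haldane gap), package M (model layer), owner helper150.

Entry formulas of the weight-basis operators: every bond term is a diagonal matrix or a partial
permutation matrix ("configurations `y` with `y j ≠ 0`, `y k ≠ 2` are sent to `mdlHop j k y`").
-/
import Claimed.Agent.R297.ModelTwist

set_option linter.unusedSectionVars false

namespace Claimed.Agent.R297

open Matrix

section Entries

variable {ι R : Type*} [Fintype ι] [DecidableEq ι] [CommRing R]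

/-- `S^z` of the frozen basis index: `0 ↦ 1`, `1 ↦ 0`, `2 ↦ -1`. -/
def mdlSz (a : Fin 3) : ℤ := 1 - (a : ℕ)

/-- index at `j` lowered by one (`S^z_j` raised), index at `k` raised by one (`S^z_k` lowered). -/
def mdlHop (j k : ι) (y : ι → Fin 3) : ι → Fin 3 :=
  Function.update (Function.update y j (y j - 1)) k (y k + 1)

theorem mdlWU_apply (a b : Fin 3) :
    (mdlWU a b : R) = if b ≠ 0 ∧ a = b - 1 then 1 else 0 := by
  fin_cases a <;> fin_cases b <;> simp [mdlWU]

theorem mdlWD_apply (a b : Fin 3) :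
    (mdlWD a b : R) = if b ≠ 2 ∧ a = b + 1 then 1 else 0 := by
  fin_cases a <;> fin_cases b <;> simp [mdlWD]

theorem mdlWZ_apply (a b : Fin 3) :
    (mdlWZ a b : R) = if a = b then ((mdlSz b : ℤ) : R) else 0 := by
  fin_cases a <;> fin_cases b <;> simp [mdlWZ, mdlSz]

theorem mdlHop_eq_iff {j k : ι} (hjk : j ≠ k) (x y : ι → Fin 3) :
    mdlHop j k y = x ↔
      (∀ l, l ≠ j → l ≠ k → x l = y l) ∧ x j = y j - 1 ∧ x k = y k + 1 := by
  unfold mdlHop
  constructor
  · rintro rfl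
    refine ⟨fun l h1 h2 => ?_, ?_, ?_⟩
    · rw [Function.update_of_ne h2, Function.update_of_ne h1]
    · rw [Function.update_of_ne hjk, Function.update_self]
    · rw [Function.update_self]
  · rintro ⟨h1, h2, h3⟩
    funext l
    by_cases hk : l = k
    · subst hk; rw [Function.update_self, h3]
    · rw [Function.update_of_ne hk]
      by_cases hj : l = j
      · subst hj; rw [Function.update_self, h2]
      · rw [Function.update_of_ne hj, h1 l hj hk]

/-- `U_j D_k` is a partial permutation matrix. -/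
theorem mdl_UD_apply {j k : ι} (hjk : j ≠ k) (x y : ι → Fin 3) :
    (mdlSite j mdlWU * mdlSite k mdlWD : Matrix (ι → Fin 3) (ι → Fin 3) R) x y
      = if (y j ≠ 0 ∧ y k ≠ 2) ∧ mdlHop j k y = x then 1 else 0 := by
  rw [mdlSite_mul_apply_of_ne hjk, mdlWU_apply, mdlWD_apply]
  have hiff := mdlHop_eq_iff hjk x y
  by_cases h1 : ∀ l, l ≠ j → l ≠ k → x l = y l
  · by_cases h2 : y j ≠ 0 ∧ x j = y j - 1
    · by_cases h3 : y k ≠ 2 ∧ x k = y k + 1
      · rw [if_pos h1, if_pos h2, if_pos h3,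
          if_pos ⟨⟨h2.1, h3.1⟩, hiff.mpr ⟨h1, h2.2, h3.2⟩⟩, mul_one]
      · rw [if_pos h1, if_neg h3, mul_zero, if_neg fun h => h3 ⟨h.1.2, (hiff.mp h.2).2.2⟩]
    · rw [if_pos h1, if_neg h2, zero_mul, if_neg fun h => h2 ⟨h.1.1, (hiff.mp h.2).2.1⟩]
  · rw [if_neg h1, if_neg fun h => h1 (hiff.mp h.2).1]

/-- `D_j U_k` is a partial permutation matrix. -/
theorem mdl_DU_apply {j k : ι} (hjk : j ≠ k) (x y : ι → Fin 3) :
    (mdlSite j mdlWD * mdlSite k mdlWU : Matrix (ι → Fin 3) (ι → Fin 3) R) x y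
      = if (y k ≠ 0 ∧ y j ≠ 2) ∧ mdlHop k j y = x then 1 else 0 := by
  rw [mdlSite_comm hjk, mdl_UD_apply hjk.symm]

/-- `Z_j Z_k` is diagonal. -/
theorem mdl_ZZ_apply {j k : ι} (hjk : j ≠ k) (x y : ι → Fin 3) :
    (mdlSite j mdlWZ * mdlSite k mdlWZ : Matrix (ι → Fin 3) (ι → Fin 3) R) x y
      = if x = y then ((mdlSz (y j) * mdlSz (y k) : ℤ) : R) else 0 := by
  rw [mdlSite_mul_apply_of_ne hjk, mdlWZ_apply, mdlWZ_apply]
  by_cases h : x = y
  · subst h
    simp
  · rw [if_neg h]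
    by_cases h1 : ∀ l, l ≠ j → l ≠ k → x l = y l
    · rw [if_pos h1]
      by_cases h2 : x j = y j
      · by_cases h3 : x k = y k
        · exfalso
          apply h
          funext l
          by_cases hj : l = j
          · subst hj; exact h2
          · by_cases hk : l = k
            · subst hk; exact h3
            · exact h1 l hj hk
        · rw [if_neg h3, mul_zero]
      · rw [if_neg h2, zero_mul]
    · rw [if_neg h1]

/-- `Z_j` is diagonal. -/
theorem mdl_Z_apply (j : ι) (x y : ι → Fin 3) :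
    (mdlSite j mdlWZ : Matrix (ι → Fin 3) (ι → Fin 3) R) x y
      = if x = y then ((mdlSz (y j) : ℤ) : R) else 0 := by
  rw [mdlSite_apply, mdlWZ_apply]
  by_cases h : x = y
  · subst h
    simp
  · rw [if_neg h]
    by_cases h1 : ∀ l, l ≠ j → x l = y l
    · rw [if_pos h1, if_neg]
      intro h2
      apply h
      funext l
      by_cases hj : l = j
      · subst hj; exact h2
      · exact h1 l hj
    · rw [if_neg h1]

/-- a hop preserves the sum of the indices (total `S^z`). -/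
theorem mdlHop_sum {j k : ι} (hjk : j ≠ k) (y : ι → Fin 3) (hj : y j ≠ 0) (hk : y k ≠ 2) :
    ∑ l, ((mdlHop j k y l : Fin 3) : ℕ) = ∑ l, ((y l : Fin 3) : ℕ) := by
  have e : ∀ f : ι → Fin 3, ∑ l, ((f l : Fin 3) : ℕ)
      = (f j : ℕ) + (f k : ℕ) + ∑ l ∈ (Finset.univ.erase j).erase k, ((f l : Fin 3) : ℕ) := by
    intro f
    rw [← Finset.add_sum_erase _ _ (Finset.mem_univ j),
      ← Finset.add_sum_erase _ _ (Finset.mem_erase.mpr ⟨hjk.symm, Finset.mem_univ k⟩), add_assoc]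
  rw [e, e y]
  have h1 : mdlHop j k y j = y j - 1 := ((mdlHop_eq_iff hjk _ y).mp rfl).2.1
  have h2 : mdlHop j k y k = y k + 1 := ((mdlHop_eq_iff hjk _ y).mp rfl).2.2
  have h3 : ∑ l ∈ (Finset.univ.erase j).erase k, ((mdlHop j k y l : Fin 3) : ℕ)
      = ∑ l ∈ (Finset.univ.erase j).erase k, ((y l : Fin 3) : ℕ) := by
    refine Finset.sum_congr rfl fun l hl => ?_
    rw [Finset.mem_erase, Finset.mem_erase] at hl
    rw [((mdlHop_eq_iff hjk _ y).mp rfl).1 l hl.2.1 hl.1]
  rw [h1, h2, h3]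
  congr 1
  generalize y j = a at hj
  generalize y k = b at hk
  revert a b
  decide

end Entries

section Ring

variable {R : Type*} [CommRing R]

/-- **Entry formula of the weight-basis ring.** -/
theorem mdlPhaseRing_apply {n : ℕ} (hn : 2 ≤ n) (z w : R) (x y : Fin n → Fin 3) :
    mdlPhaseRing n z w x y = ∑ j : Fin n,
      ((if x = y then ((mdlSz (y j) * mdlSz (y (finRotate n j)) : ℤ) : R) else 0)
        + (if (j : ℕ) + 1 = n then z else 1) *
          (if (y j ≠ 0 ∧ y (finRotate n j) ≠ 2) ∧ mdlHop j (finRotate n j) y = x then 1 else 0)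
        + (if (j : ℕ) + 1 = n then w else 1) *
          (if (y (finRotate n j) ≠ 0 ∧ y j ≠ 2) ∧ mdlHop (finRotate n j) j y = x
            then 1 else 0)) := by
  unfold mdlPhaseRing
  rw [Matrix.sum_apply]
  refine Finset.sum_congr rfl fun j _ => ?_
  have hj := mdl_finRotate_ne hn j
  rw [Matrix.add_apply, Matrix.add_apply, Matrix.smul_apply, Matrix.smul_apply,
    mdl_ZZ_apply hj, mdl_UD_apply hj, mdl_DU_apply hj, smul_eq_mul, smul_eq_mul]

/-- The weight-basis ring preserves the total `S^z` (sum of the indices). -/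
theorem mdlPhaseRing_sector {n : ℕ} (hn : 2 ≤ n) (z w : R) (x y : Fin n → Fin 3)
    (h : ∑ l, ((x l : Fin 3) : ℕ) ≠ ∑ l, ((y l : Fin 3) : ℕ)) : mdlPhaseRing n z w x y = 0 := by
  rw [mdlPhaseRing_apply hn]
  refine Finset.sum_eq_zero fun j _ => ?_
  have hj := mdl_finRotate_ne hn j
  have h1 : x ≠ y := fun e => h (by rw [e])
  have h2 : ¬ ((y j ≠ 0 ∧ y (finRotate n j) ≠ 2) ∧ mdlHop j (finRotate n j) y = x) := by
    rintro ⟨⟨a, b⟩, e⟩
    exact h (by rw [← e]; exact mdlHop_sum hj y a b)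
  have h3 : ¬ ((y (finRotate n j) ≠ 0 ∧ y j ≠ 2) ∧ mdlHop (finRotate n j) j y = x) := by
    rintro ⟨⟨a, b⟩, e⟩
    exact h (by rw [← e]; exact mdlHop_sum hj.symm y a b)
  rw [if_neg h1, if_neg h2, if_neg h3, mul_zero, mul_zero, add_zero, add_zero]

/-- the seam term `U_{n-1} D_0`. -/
def mdlSeamUD (n : ℕ) : Matrix (Fin n → Fin 3) (Fin n → Fin 3) R :=
  ∑ j : Fin n, if (j : ℕ) + 1 = n then mdlSite j mdlWU * mdlSite (finRotate n j) mdlWD else 0

/-- the seam term `D_{n-1} U_0`. -/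
def mdlSeamDU (n : ℕ) : Matrix (Fin n → Fin 3) (Fin n → Fin 3) R :=
  ∑ j : Fin n, if (j : ℕ) + 1 = n then mdlSite j mdlWD * mdlSite (finRotate n j) mdlWU else 0

/-- the ring is affine in the seam coefficients. -/
theorem mdlPhaseRing_affine (n : ℕ) (z w : R) :
    mdlPhaseRing n z w = mdlPhaseRing n 0 0 + z • mdlSeamUD n + w • mdlSeamDU n := by
  unfold mdlPhaseRing mdlSeamUD mdlSeamDU
  rw [Finset.smul_sum, Finset.smul_sum, ← Finset.sum_add_distrib, ← Finset.sum_add_distrib]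
  refine Finset.sum_congr rfl fun j _ => ?_
  split_ifs
  · simp only [zero_smul, add_zero]
  · simp only [smul_zero, add_zero]

theorem mdlSeamUD_map {R' : Type*} [CommRing R'] (f : R →+* R') (n : ℕ) :
    (mdlSeamUD n : Matrix _ _ R).map f = mdlSeamUD n := by
  unfold mdlSeamUD
  have hsum : ∀ (s : Finset (Fin n)) (g : Fin n → Matrix (Fin n → Fin 3) (Fin n → Fin 3) R),
      (∑ c ∈ s, g c).map f = ∑ c ∈ s, (g c).map f := fun s g => map_sum (f.mapMatrix) g s
  rw [hsum]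
  refine Finset.sum_congr rfl fun j _ => ?_
  split_ifs
  · rw [Matrix.map_mul, mdlSite_map, mdlSite_map, mdlWU_map, mdlWD_map]
  · exact Matrix.map_zero _ (map_zero f)

theorem mdlSeamDU_map {R' : Type*} [CommRing R'] (f : R →+* R') (n : ℕ) :
    (mdlSeamDU n : Matrix _ _ R).map f = mdlSeamDU n := by
  unfold mdlSeamDU
  have hsum : ∀ (s : Finset (Fin n)) (g : Fin n → Matrix (Fin n → Fin 3) (Fin n → Fin 3) R),
      (∑ c ∈ s, g c).map f = ∑ c ∈ s, (g c).map f := fun s g => map_sum (f.mapMatrix) g s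
  rw [hsum]
  refine Finset.sum_congr rfl fun j _ => ?_
  split_ifs
  · rw [Matrix.map_mul, mdlSite_map, mdlSite_map, mdlWU_map, mdlWD_map]
  · exact Matrix.map_zero _ (map_zero f)

theorem mdlSeamUD_apply {n : ℕ} (hn : 2 ≤ n) (x y : Fin n → Fin 3) :
    (mdlSeamUD n : Matrix _ _ R) x y = ∑ j : Fin n, if (j : ℕ) + 1 = n then
      (if (y j ≠ 0 ∧ y (finRotate n j) ≠ 2) ∧ mdlHop j (finRotate n j) y = x then 1 else 0)
      else 0 := by
  unfold mdlSeamUD
  rw [Matrix.sum_apply]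
  refine Finset.sum_congr rfl fun j _ => ?_
  by_cases h1 : (j : ℕ) + 1 = n
  · rw [if_pos h1, if_pos h1, mdl_UD_apply (mdl_finRotate_ne hn j)]
  · rw [if_neg h1, if_neg h1, Matrix.zero_apply]

theorem mdlSeamDU_apply {n : ℕ} (hn : 2 ≤ n) (x y : Fin n → Fin 3) :
    (mdlSeamDU n : Matrix _ _ R) x y = ∑ j : Fin n, if (j : ℕ) + 1 = n then
      (if (y (finRotate n j) ≠ 0 ∧ y j ≠ 2) ∧ mdlHop (finRotate n j) j y = x then 1 else 0)
      else 0 := by
  unfold mdlSeamDU
  rw [Matrix.sum_apply]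
  refine Finset.sum_congr rfl fun j _ => ?_
  by_cases h1 : (j : ℕ) + 1 = n
  · rw [if_pos h1, if_pos h1, mdl_DU_apply (mdl_finRotate_ne hn j)]
  · rw [if_neg h1, if_neg h1, Matrix.zero_apply]

end Ring

/-! ### integer forms -/

/-- the complex ring with integer seam coefficients is the cast of the integer ring. -/
theorem mdlPhaseRing_intCast (n : ℕ) (z w : ℤ) (x y : Fin n → Fin 3) :
    mdlPhaseRing n (z : ℂ) (w : ℂ) x y = ((mdlPhaseRing n z w x y : ℤ) : ℂ) := by
  have := mdlPhaseRing_map (Int.castRingHom ℂ) n z w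
  rw [← Matrix.ext_iff] at this
  exact (this x y).symm

/-- `ℤ[ω]` form of the cyclic twist: `mdlPhaseRing n (ω²) ω = B₀ + ω B₁` with the integer matrices
`B₀ = mdlPhaseRing n (-1) 0`, `B₁ = mdlSeamDU n - mdlSeamUD n`. -/
theorem mdlPhaseRing_omega {om : ℂ} (h : om ^ 2 = -1 - om) (n : ℕ) (x y : Fin n → Fin 3) :
    mdlPhaseRing n (om ^ 2) om x y
      = ((mdlPhaseRing n (-1 : ℤ) 0 x y : ℤ) : ℂ)
        + (((mdlSeamDU n - mdlSeamUD n : Matrix _ _ ℤ) x y : ℤ) : ℂ) * om := by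
  have e1 : ∀ x y, ((mdlSeamUD n : Matrix _ _ ℤ) x y : ℂ) = (mdlSeamUD n : Matrix _ _ ℂ) x y := by
    intro x y
    have := mdlSeamUD_map (Int.castRingHom ℂ) n
    rw [← Matrix.ext_iff] at this
    exact this x y
  have e2 : ∀ x y, ((mdlSeamDU n : Matrix _ _ ℤ) x y : ℂ) = (mdlSeamDU n : Matrix _ _ ℂ) x y := by
    intro x y
    have := mdlSeamDU_map (Int.castRingHom ℂ) n
    rw [← Matrix.ext_iff] at this
    exact this x y
  have e3 := mdlPhaseRing_intCast n (-1) 0 x y
  rw [← e3, Matrix.sub_apply, Int.cast_sub, e1, e2, mdlPhaseRing_affine n (om ^ 2) om,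
    mdlPhaseRing_affine n (((-1 : ℤ) : ℂ)) (((0 : ℤ) : ℂ)), h]
  simp only [Matrix.add_apply, Matrix.smul_apply, smul_eq_mul]
  push_cast
  ring

end Claimed.Agent.R297
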