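/-
Row 297 (spin-one Haldane gap), package D3 (symmetry reduction of the thermal column sums),
owner helper199.  Part S1: abstract monomial (anti)symmetries of a complex matrix.

If `W (π x) (π y) = φ x * conj (φ y) * W x y` (or the same with `conj (W x y)`), with unit phases
`φ`, then the same relation holds for every real polynomial in `W`, and so the squared column norms
of such a polynomial are invariant under `π`.
-/
import Mathlib

namespace Claimed.Agent.R297

open Matrix

variable {σ : Type*}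

/-- identity or complex conjugation, as a ring homomorphism. -/
noncomputable def tsym_cj (c : Bool) : ℂ →+* ℂ := if c then starRingEnd ℂ else RingHom.id ℂ

@[simp] theorem tsym_cj_true (z : ℂ) : tsym_cj true z = starRingEnd ℂ z := rfl

@[simp] theorem tsym_cj_false (z : ℂ) : tsym_cj false z = z := rfl

theorem tsym_cj_ofReal (c : Bool) (r : ℝ) : tsym_cj c (r : ℂ) = r := by
  cases c <;> simp

theorem tsym_normSq_cj (c : Bool) (z : ℂ) : Complex.normSq (tsym_cj c z) = Complex.normSq z := by
  cases c <;> simp [Complex.normSq_conj]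

/-- `A` is covariant under the monomial transformation `(π, φ)`, conjugating if `c`. -/
def tsym_Rel (π : Equiv.Perm σ) (φ : σ → ℂ) (c : Bool) (A : Matrix σ σ ℂ) : Prop :=
  ∀ x y, A (π x) (π y) = φ x * starRingEnd ℂ (φ y) * tsym_cj c (A x y)

/-- squared Euclidean norm of the column `r`. -/
noncomputable def tsym_colNormSq [Fintype σ] (A : Matrix σ σ ℂ) (r : σ) : ℝ :=
  ∑ x, Complex.normSq (A x r)

section
variable {π : Equiv.Perm σ} {φ : σ → ℂ} {c : Bool}

theorem tsym_Rel.zero : tsym_Rel π φ c (0 : Matrix σ σ ℂ) := by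
  intro x y; simp

theorem tsym_Rel.add {A B : Matrix σ σ ℂ} (hA : tsym_Rel π φ c A) (hB : tsym_Rel π φ c B) :
    tsym_Rel π φ c (A + B) := by
  intro x y
  simp only [Matrix.add_apply, hA x y, hB x y, map_add]
  ring

theorem tsym_Rel.neg {A : Matrix σ σ ℂ} (hA : tsym_Rel π φ c A) : tsym_Rel π φ c (-A) := by
  intro x y
  simp only [Matrix.neg_apply, hA x y, map_neg]
  ring

theorem tsym_Rel.sub {A B : Matrix σ σ ℂ} (hA : tsym_Rel π φ c A) (hB : tsym_Rel π φ c B) :
    tsym_Rel π φ c (A - B) := by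
  intro x y
  simp only [Matrix.sub_apply, hA x y, hB x y, map_sub]
  ring

theorem tsym_Rel.smul_real {A : Matrix σ σ ℂ} (hA : tsym_Rel π φ c A) (r : ℝ) :
    tsym_Rel π φ c ((r : ℂ) • A) := by
  intro x y
  simp only [Matrix.smul_apply, smul_eq_mul, hA x y, map_mul, tsym_cj_ofReal]
  ring

theorem tsym_Rel.smul_real' {A : Matrix σ σ ℂ} (hA : tsym_Rel π φ c A) (r : ℝ) :
    tsym_Rel π φ c (r • A) := by
  have h : r • A = (r : ℂ) • A := by
    ext x y
    simp
  rw [h]
  exact hA.smul_real r

theorem tsym_Rel.sum {ι : Type*} (s : Finset ι) {A : ι → Matrix σ σ ℂ}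
    (hA : ∀ i ∈ s, tsym_Rel π φ c (A i)) : tsym_Rel π φ c (∑ i ∈ s, A i) := by
  classical
  induction s using Finset.induction_on with
  | empty => simpa using tsym_Rel.zero
  | insert a s ha ih =>
    rw [Finset.sum_insert ha]
    exact (hA a (Finset.mem_insert_self a s)).add
      (ih fun i hi => hA i (Finset.mem_insert_of_mem hi))

theorem tsym_Rel.one [DecidableEq σ] (hφ : ∀ x, Complex.normSq (φ x) = 1) :
    tsym_Rel π φ c (1 : Matrix σ σ ℂ) := by
  intro x y
  by_cases h : x = y
  · subst h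
    simp only [Matrix.one_apply_eq, map_one, mul_one]
    rw [Complex.mul_conj, hφ x]
    simp
  · have h' : π x ≠ π y := fun e => h (π.injective e)
    simp [Matrix.one_apply_ne h, Matrix.one_apply_ne h']

theorem tsym_Rel.mul [Fintype σ] (hφ : ∀ x, Complex.normSq (φ x) = 1) {A B : Matrix σ σ ℂ}
    (hA : tsym_Rel π φ c A) (hB : tsym_Rel π φ c B) : tsym_Rel π φ c (A * B) := by
  intro x y
  simp only [Matrix.mul_apply, map_sum, map_mul, Finset.mul_sum]
  rw [← Equiv.sum_comp π]
  refine Finset.sum_congr rfl fun z _ => ?_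
  rw [hA x z, hB z y]
  have hz : starRingEnd ℂ (φ z) * φ z = 1 := by
    rw [mul_comm, Complex.mul_conj, hφ z]; simp
  calc φ x * starRingEnd ℂ (φ z) * tsym_cj c (A x z) * (φ z * starRingEnd ℂ (φ y) * tsym_cj c (B z y))
      = (starRingEnd ℂ (φ z) * φ z) *
          (φ x * starRingEnd ℂ (φ y) * (tsym_cj c (A x z) * tsym_cj c (B z y))) := by ring
    _ = _ := by rw [hz, one_mul]

theorem tsym_Rel.pow [Fintype σ] [DecidableEq σ] (hφ : ∀ x, Complex.normSq (φ x) = 1)
    {A : Matrix σ σ ℂ} (hA : tsym_Rel π φ c A) (k : ℕ) : tsym_Rel π φ c (A ^ k) := by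
  induction k with
  | zero => simpa using tsym_Rel.one hφ
  | succ k ih => rw [pow_succ]; exact ih.mul hφ hA

/-- every real polynomial in a covariant matrix is covariant. -/
theorem tsym_Rel.aeval [Fintype σ] [DecidableEq σ] (hφ : ∀ x, Complex.normSq (φ x) = 1)
    {A : Matrix σ σ ℂ} (hA : tsym_Rel π φ c A) (p : Polynomial ℝ) :
    tsym_Rel π φ c (Polynomial.aeval A p) := by
  rw [Polynomial.aeval_eq_sum_range]
  exact tsym_Rel.sum _ fun i _ => (hA.pow hφ i).smul_real' _

/-- the squared column norms of a covariant matrix are invariant. -/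
theorem tsym_Rel.colNormSq [Fintype σ] (hφ : ∀ x, Complex.normSq (φ x) = 1)
    {A : Matrix σ σ ℂ} (hA : tsym_Rel π φ c A) (r : σ) :
    tsym_colNormSq A (π r) = tsym_colNormSq A r := by
  unfold tsym_colNormSq
  rw [← Equiv.sum_comp π]
  refine Finset.sum_congr rfl fun x _ => ?_
  rw [hA x r, map_mul, map_mul, Complex.normSq_conj, hφ x, hφ r, tsym_normSq_cj]
  ring

end

/-- `x` and `y` index columns of equal norm in every real polynomial of `W`. -/
def tsym_ColEq [Fintype σ] [DecidableEq σ] (W : Matrix σ σ ℂ) (x y : σ) : Prop :=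
  ∀ p : Polynomial ℝ, tsym_colNormSq (Polynomial.aeval W p) x
    = tsym_colNormSq (Polynomial.aeval W p) y

theorem tsym_ColEq.refl [Fintype σ] [DecidableEq σ] (W : Matrix σ σ ℂ) (x : σ) :
    tsym_ColEq W x x := fun _ => rfl

theorem tsym_ColEq.symm [Fintype σ] [DecidableEq σ] {W : Matrix σ σ ℂ} {x y : σ}
    (h : tsym_ColEq W x y) : tsym_ColEq W y x := fun p => (h p).symm

theorem tsym_ColEq.trans [Fintype σ] [DecidableEq σ] {W : Matrix σ σ ℂ} {x y z : σ}
    (h : tsym_ColEq W x y) (h' : tsym_ColEq W y z) : tsym_ColEq W x z :=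
  fun p => (h p).trans (h' p)

theorem tsym_Rel.colEq [Fintype σ] [DecidableEq σ] {π : Equiv.Perm σ} {φ : σ → ℂ} {c : Bool}
    (hφ : ∀ x, Complex.normSq (φ x) = 1) {W : Matrix σ σ ℂ} (hW : tsym_Rel π φ c W) (r : σ) :
    tsym_ColEq W (π r) r := fun p => (hW.aeval hφ p).colNormSq hφ r

end Claimed.Agent.R297
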