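/-
Row 297, package D3 (symmetry reduction of the thermal column sums), owner helper199.
Part S2: the spin-one ring in the weight basis, at the level of matrix entries, with a phase on every
bond; gauge transformations, rotation, reversal and negation as monomial (anti)symmetries.
-/
import Claimed.Agent.R297.ThermSymAbs

namespace Claimed.Agent.R297

/-- `S^z` value of the frozen basis index: `0 ↦ 1`, `1 ↦ 0`, `2 ↦ -1`. -/
def tsym_sz (a : Fin 3) : ℤ := 1 - (a : ℕ)

/-- entries of the bond operator `∑_α S^α ⊗ S^α` in the weight basis, row `(a,b)`, column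
`(a',b')`. -/
def tsym_bond (a b a' b' : Fin 3) : ℤ :=
  if a = a' ∧ b = b' then tsym_sz a * tsym_sz b
  else if (tsym_sz a - tsym_sz a' = 1 ∧ tsym_sz b - tsym_sz b' = -1) ∨
      (tsym_sz a - tsym_sz a' = -1 ∧ tsym_sz b - tsym_sz b' = 1) then 1 else 0

theorem tsym_bond_comm : ∀ a b a' b' : Fin 3, tsym_bond b a b' a' = tsym_bond a b a' b' := by
  decide

theorem tsym_bond_neg : ∀ a b a' b' : Fin 3,
    tsym_bond (Fin.rev a) (Fin.rev b) (Fin.rev a') (Fin.rev b') = tsym_bond a b a' b' := by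
  decide

theorem tsym_bond_cons : ∀ a b a' b' : Fin 3, tsym_bond a b a' b' ≠ 0 →
    tsym_sz a' - tsym_sz a = -(tsym_sz b' - tsym_sz b) := by
  decide

theorem tsym_sz_rev : ∀ a : Fin 3, tsym_sz (Fin.rev a) = -tsym_sz a := by
  decide

/-- one bond term of the ring matrix. -/
noncomputable def tsym_term {n : ℕ} (j j' : Fin n) (ζ : Circle) (x y : Fin n → Fin 3) : ℂ :=
  if ∀ k, k ≠ j → k ≠ j' → x k = y k then
    (tsym_bond (x j) (x j') (y j) (y j') : ℂ) * ((ζ ^ (tsym_sz (y j') - tsym_sz (x j')) : Circle) : ℂ)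
  else 0

/-- the ring matrix in the weight basis, with the phase `ζ j` on the bond `(j, j+1)`. -/
noncomputable def tsym_ring (n : ℕ) (ζ : Fin n → Circle) :
    Matrix (Fin n → Fin 3) (Fin n → Fin 3) ℂ :=
  Matrix.of fun x y => ∑ j : Fin n, tsym_term j (finRotate n j) (ζ j) x y

theorem tsym_ring_apply (n : ℕ) (ζ : Fin n → Circle) (x y : Fin n → Fin 3) :
    tsym_ring n ζ x y = ∑ j : Fin n, tsym_term j (finRotate n j) (ζ j) x y := rfl

/-- relabelling of the sites. -/
def tsym_site {n : ℕ} (τ : Equiv.Perm (Fin n)) : Equiv.Perm (Fin n → Fin 3) :=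
  Equiv.arrowCongr τ (Equiv.refl _)

@[simp] theorem tsym_site_apply {n : ℕ} (τ : Equiv.Perm (Fin n)) (x : Fin n → Fin 3) (k : Fin n) :
    tsym_site τ x k = x (τ.symm k) := rfl

/-- negation of every letter. -/
def tsym_neg {n : ℕ} : Equiv.Perm (Fin n → Fin 3) :=
  Equiv.arrowCongr (Equiv.refl _) Fin.revPerm

@[simp] theorem tsym_neg_apply {n : ℕ} (x : Fin n → Fin 3) (k : Fin n) :
    tsym_neg x k = Fin.rev (x k) := rfl

theorem tsym_term_site {n : ℕ} (τ : Equiv.Perm (Fin n)) (j j' : Fin n) (ζ : Circle)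
    (x y : Fin n → Fin 3) :
    tsym_term (τ j) (τ j') ζ (tsym_site τ x) (tsym_site τ y) = tsym_term j j' ζ x y := by
  unfold tsym_term
  have hc : (∀ k, k ≠ τ j → k ≠ τ j' → tsym_site τ x k = tsym_site τ y k) ↔
      (∀ k, k ≠ j → k ≠ j' → x k = y k) := by
    constructor
    · intro h k h1 h2
      have := h (τ k) (fun e => h1 (τ.injective e)) (fun e => h2 (τ.injective e))
      simpa using this
    · intro h k h1 h2
      exact h (τ.symm k) (fun e => h1 (by rw [← e]; simp)) (fun e => h2 (by rw [← e]; simp))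
  rw [if_congr hc rfl rfl]
  simp only [tsym_site_apply, Equiv.symm_apply_apply]

theorem tsym_coe_zpow_neg (ζ : Circle) (d : ℤ) :
    ((ζ ^ (-d) : Circle) : ℂ) = starRingEnd ℂ ((ζ ^ d : Circle) : ℂ) := by
  rw [zpow_neg, Circle.coe_inv_eq_conj]

theorem tsym_term_swap {n : ℕ} (j j' : Fin n) (ζ : Circle) (x y : Fin n → Fin 3) :
    tsym_term j' j ζ x y = starRingEnd ℂ (tsym_term j j' ζ x y) := by
  unfold tsym_term
  have hc : (∀ k, k ≠ j' → k ≠ j → x k = y k) ↔ (∀ k, k ≠ j → k ≠ j' → x k = y k) :=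
    ⟨fun h k h1 h2 => h k h2 h1, fun h k h1 h2 => h k h2 h1⟩
  rw [if_congr hc rfl rfl]
  split_ifs with h
  · rw [tsym_bond_comm]
    by_cases hb : tsym_bond (x j) (x j') (y j) (y j') = 0
    · simp [hb]
    · rw [tsym_bond_cons _ _ _ _ hb, tsym_coe_zpow_neg, map_mul]
      simp
  · simp

theorem tsym_term_neg {n : ℕ} (j j' : Fin n) (ζ : Circle) (x y : Fin n → Fin 3) :
    tsym_term j j' ζ (tsym_neg x) (tsym_neg y) = starRingEnd ℂ (tsym_term j j' ζ x y) := by
  unfold tsym_term
  have hc : (∀ k, k ≠ j → k ≠ j' → tsym_neg x k = tsym_neg y k) ↔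
      (∀ k, k ≠ j → k ≠ j' → x k = y k) := by
    constructor
    · intro h k h1 h2
      exact Fin.rev_injective (h k h1 h2)
    · intro h k h1 h2
      simp [h k h1 h2]
  rw [if_congr hc rfl rfl]
  simp only [tsym_neg_apply, tsym_bond_neg, tsym_sz_rev]
  split_ifs with h
  · have : -tsym_sz (y j') - -tsym_sz (x j') = -(tsym_sz (y j') - tsym_sz (x j')) := by ring
    rw [this, tsym_coe_zpow_neg, map_mul]
    simp
  · simp

/-- the gauge phase `∏_k η_k ^ (S^z of x k)`. -/
noncomputable def tsym_gauge {n : ℕ} (η : Fin n → Circle) (x : Fin n → Fin 3) : Circle :=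
  ∏ k, η k ^ tsym_sz (x k)

theorem tsym_term_gauge {n : ℕ} (η : Fin n → Circle) (j j' : Fin n) (hj : j ≠ j') (ζ : Circle)
    (x y : Fin n → Fin 3) :
    ((tsym_gauge η x : Circle) : ℂ) * starRingEnd ℂ ((tsym_gauge η y : Circle) : ℂ) *
      tsym_term j j' ζ x y = tsym_term j j' (ζ * η j / η j') x y := by
  unfold tsym_term
  split_ifs with h
  · by_cases hb : tsym_bond (x j) (x j') (y j) (y j') = 0
    · simp [hb]
    · have hcons := tsym_bond_cons _ _ _ _ hb
      have hg : tsym_gauge η x * (tsym_gauge η y)⁻¹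
          = (η j / η j') ^ (tsym_sz (y j') - tsym_sz (x j')) := by
        unfold tsym_gauge
        rw [← Finset.prod_inv_distrib, ← Finset.prod_mul_distrib]
        rw [Finset.prod_eq_mul j j' hj]
        · have h1 : tsym_sz (x j) = tsym_sz (y j) + (tsym_sz (y j') - tsym_sz (x j')) := by
            linarith
          rw [h1, div_zpow, zpow_add, zpow_sub, zpow_sub]
          simp only [div_eq_mul_inv, mul_inv_rev, inv_inv]
          rw [mul_comm ((η j') ^ tsym_sz (x j')) _]
          have : ∀ a b c d e : Circle, a * (b * c⁻¹) * a⁻¹ * (d⁻¹ * e) = b * c⁻¹ * (e * d⁻¹) := by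
            intro a b c d e
            rw [mul_comm a, mul_assoc (b * c⁻¹), mul_inv_cancel, mul_one, mul_comm d⁻¹]
          rw [this]
          congr 1
          exact mul_comm _ _
        · intro k _ hk
          rw [h k hk.1 hk.2, mul_inv_cancel]
        · intro hh; exact absurd (Finset.mem_univ _) hh
        · intro hh; exact absurd (Finset.mem_univ _) hh
      have hg' : ((tsym_gauge η x : Circle) : ℂ) * starRingEnd ℂ ((tsym_gauge η y : Circle) : ℂ)
          = (((η j / η j') ^ (tsym_sz (y j') - tsym_sz (x j')) : Circle) : ℂ) := by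
        rw [← hg, Circle.coe_mul, Circle.coe_inv_eq_conj]
      rw [hg', mul_div_assoc, mul_zpow ζ, Circle.coe_mul]
      ring
  · simp

theorem tsym_normSq_circle (z : Circle) : Complex.normSq (z : ℂ) = 1 := Circle.normSq_coe z

/-! ### the ring matrix -/

theorem tsym_ring_rot (n : ℕ) (ζ : Fin n → Circle) (x y : Fin n → Fin 3) :
    tsym_ring n ζ (tsym_site (finRotate n) x) (tsym_site (finRotate n) y)
      = tsym_ring n (fun j => ζ (finRotate n j)) x y := by
  rw [tsym_ring_apply, tsym_ring_apply, ← Equiv.sum_comp (finRotate n)]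
  exact Finset.sum_congr rfl fun i _ => tsym_term_site _ _ _ _ _ _

theorem tsym_ring_gauge (n : ℕ) (hn : ∀ j : Fin n, j ≠ finRotate n j) (η ζ : Fin n → Circle)
    (x y : Fin n → Fin 3) :
    ((tsym_gauge η x : Circle) : ℂ) * starRingEnd ℂ ((tsym_gauge η y : Circle) : ℂ) *
      tsym_ring n ζ x y = tsym_ring n (fun j => ζ j * η j / η (finRotate n j)) x y := by
  rw [tsym_ring_apply, tsym_ring_apply, Finset.mul_sum]
  exact Finset.sum_congr rfl fun i _ => tsym_term_gauge η _ _ (hn i) _ _ _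

theorem tsym_ring_neg (n : ℕ) (ζ : Fin n → Circle) (x y : Fin n → Fin 3) :
    tsym_ring n ζ (tsym_neg x) (tsym_neg y) = starRingEnd ℂ (tsym_ring n ζ x y) := by
  rw [tsym_ring_apply, tsym_ring_apply, map_sum]
  exact Finset.sum_congr rfl fun i _ => tsym_term_neg _ _ _ _ _

theorem tsym_rot_rev_rot (n : ℕ) (i : Fin n) :
    finRotate n (Fin.revPerm (finRotate n i)) = Fin.revPerm i := by
  obtain _ | n := n
  · exact i.elim0
  · apply Fin.ext
    rw [coe_finRotate]
    simp only [Fin.revPerm_apply, Fin.val_rev, coe_finRotate, Fin.ext_iff, Fin.val_last]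
    have := i.isLt
    split_ifs <;> omega

theorem tsym_ring_rev (n : ℕ) (ζ : Fin n → Circle) (x y : Fin n → Fin 3) :
    tsym_ring n ζ (tsym_site Fin.revPerm x) (tsym_site Fin.revPerm y)
      = starRingEnd ℂ (tsym_ring n (fun j => ζ (Fin.revPerm (finRotate n j))) x y) := by
  rw [tsym_ring_apply, tsym_ring_apply, map_sum,
    ← Equiv.sum_comp ((finRotate n).trans Fin.revPerm)]
  refine Finset.sum_congr rfl fun i _ => ?_
  simp only [Equiv.trans_apply]
  rw [tsym_rot_rev_rot, tsym_term_site, tsym_term_swap]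

/-- the phases of a ring twisted only on the seam bond `(n-1, 0)`. -/
noncomputable def tsym_seam (n : ℕ) (ζ : Circle) : Fin n → Circle := fun j => if (j : ℕ) + 1 = n then ζ else 1

/-- the gauge that moves the seam back after a rotation. -/
noncomputable def tsym_seamGauge (n : ℕ) (ζ : Circle) : Fin n → Circle :=
  fun j => if (j : ℕ) + 1 = n then ζ⁻¹ else 1

theorem tsym_ne_rot (n : ℕ) (hn : 2 ≤ n) (j : Fin n) : j ≠ finRotate n j := by
  obtain _ | n := n
  · exact j.elim0
  · intro h
    have h' := congrArg Fin.val h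
    rw [coe_finRotate] at h'
    have := j.isLt
    simp only [Fin.ext_iff, Fin.val_last] at h'
    split_ifs at h' <;> omega

theorem tsym_seam_rot (n : ℕ) (hn : 2 ≤ n) (ζ : Circle) (j : Fin n) :
    tsym_seam n ζ (finRotate n j)
      = tsym_seam n ζ j * tsym_seamGauge n ζ j / tsym_seamGauge n ζ (finRotate n j) := by
  obtain _ | n := n
  · exact j.elim0
  · unfold tsym_seam tsym_seamGauge
    rw [coe_finRotate]
    have := j.isLt
    simp only [Fin.ext_iff, Fin.val_last]
    split_ifs <;> first | omega | simp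

theorem tsym_seam_rev (n : ℕ) (ζ : Circle) (j : Fin n) :
    tsym_seam n ζ (Fin.revPerm (finRotate n j)) = tsym_seam n ζ j := by
  obtain _ | n := n
  · exact j.elim0
  · unfold tsym_seam
    simp only [Fin.revPerm_apply, Fin.val_rev, coe_finRotate, Fin.ext_iff, Fin.val_last]
    have := j.isLt
    split_ifs <;> first | omega | rfl

/-- rotation of the seam-twisted ring. -/
theorem tsym_rel_rot (n : ℕ) (hn : 2 ≤ n) (ζ : Circle) :
    tsym_Rel (tsym_site (finRotate n)) (fun x => ((tsym_gauge (tsym_seamGauge n ζ) x : Circle) : ℂ))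
      false (tsym_ring n (tsym_seam n ζ)) := by
  intro x y
  rw [tsym_ring_rot, tsym_cj_false, tsym_ring_gauge n (tsym_ne_rot n hn)]
  congr 1
  funext j
  exact tsym_seam_rot n hn ζ j

/-- reversal of the seam-twisted ring. -/
theorem tsym_rel_rev (n : ℕ) (ζ : Circle) :
    tsym_Rel (tsym_site Fin.revPerm) (fun _ => 1) true (tsym_ring n (tsym_seam n ζ)) := by
  intro x y
  rw [tsym_ring_rev, tsym_cj_true]
  have : (fun j => tsym_seam n ζ (Fin.revPerm (finRotate n j))) = tsym_seam n ζ := by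
    funext j
    exact tsym_seam_rev n ζ j
  rw [this]
  simp

/-- negation of all letters of a ring with bond phases. -/
theorem tsym_rel_neg (n : ℕ) (ζ : Fin n → Circle) :
    tsym_Rel tsym_neg (fun _ => 1) true (tsym_ring n ζ) := by
  intro x y
  rw [tsym_ring_neg, tsym_cj_true]
  simp

/-- **Column norms.**  For `W = α + β • ring` (real `α β`) the columns of every real polynomial in
`W` indexed by `x`, its rotation, its reversal and its negation have the same norm. -/
theorem tsym_colEq_ring (n : ℕ) (hn : 2 ≤ n) (ζ : Circle) (α β : ℝ) (x : Fin n → Fin 3) :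
    tsym_ColEq ((α : ℂ) • (1 : Matrix _ _ ℂ) + (β : ℂ) • tsym_ring n (tsym_seam n ζ))
        (tsym_site (finRotate n) x) x ∧
    tsym_ColEq ((α : ℂ) • (1 : Matrix _ _ ℂ) + (β : ℂ) • tsym_ring n (tsym_seam n ζ))
        (tsym_site Fin.revPerm x) x ∧
    tsym_ColEq ((α : ℂ) • (1 : Matrix _ _ ℂ) + (β : ℂ) • tsym_ring n (tsym_seam n ζ))
        (tsym_neg x) x := by
  refine ⟨?_, ?_, ?_⟩
  · have hφ : ∀ x : Fin n → Fin 3,
        Complex.normSq ((tsym_gauge (tsym_seamGauge n ζ) x : Circle) : ℂ) = 1 :=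
      fun x => tsym_normSq_circle _
    exact tsym_Rel.colEq hφ
      (((tsym_Rel.one hφ).smul_real α).add ((tsym_rel_rot n hn ζ).smul_real β)) x
  · have hφ : ∀ _ : Fin n → Fin 3, Complex.normSq (1 : ℂ) = 1 := fun _ => by simp
    exact tsym_Rel.colEq hφ
      (((tsym_Rel.one hφ).smul_real α).add ((tsym_rel_rev n ζ).smul_real β)) x
  · have hφ : ∀ _ : Fin n → Fin 3, Complex.normSq (1 : ℂ) = 1 := fun _ => by simp
    exact tsym_Rel.colEq hφ
      (((tsym_Rel.one hφ).smul_real α).add ((tsym_rel_neg n _).smul_real β)) x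

end Claimed.Agent.R297
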