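/-
Row 297, package D3 (symmetry reduction of the thermal column sums), owner helper199.
Part S4a: words `Fin n → Fin 3` and their base-3 codes (`code x = ∑ x_k 3^k`, the lane index of the
packed engine); rotation, reversal and negation on codes.
-/
import Claimed.Agent.R297.ThermSymRing

namespace Claimed.Agent.R297

/-- base-3 code of a word. -/
def tsym_code {n : ℕ} (x : Fin n → Fin 3) : ℕ := ∑ k, (x k : ℕ) * 3 ^ (k : ℕ)

/-- the word with a given code. -/
def tsym_word (n : ℕ) (c : ℕ) : Fin n → Fin 3 :=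
  fun k => ⟨c / 3 ^ (k : ℕ) % 3, Nat.mod_lt _ (by norm_num)⟩

theorem tsym_code_lt {n : ℕ} (x : Fin n → Fin 3) : tsym_code x < 3 ^ n :=
  (finFunctionFinEquiv x).isLt

theorem tsym_word_code {n : ℕ} (x : Fin n → Fin 3) : tsym_word n (tsym_code x) = x :=
  finFunctionFinEquiv.symm_apply_apply x

theorem tsym_code_word {n : ℕ} {c : ℕ} (hc : c < 3 ^ n) : tsym_code (tsym_word n c) = c :=
  congrArg Fin.val (finFunctionFinEquiv.apply_symm_apply (⟨c, hc⟩ : Fin (3 ^ n)))

theorem tsym_code_injective {n : ℕ} : Function.Injective (tsym_code (n := n)) := by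
  intro x y h
  rw [← tsym_word_code x, h, tsym_word_code]

/-- sums over words are sums over codes. -/
theorem tsym_sum_word {n : ℕ} {M : Type*} [AddCommMonoid M] (f : (Fin n → Fin 3) → M) :
    ∑ x, f x = ∑ c ∈ Finset.range (3 ^ n), f (tsym_word n c) := by
  rw [Finset.sum_range, ← Equiv.sum_comp (finFunctionFinEquiv (m := 3) (n := n)).symm]
  rfl

theorem tsym_code_succ {n : ℕ} (x : Fin (n + 1) → Fin 3) :
    tsym_code x = (x 0 : ℕ) + 3 * tsym_code (fun k : Fin n => x k.succ) := by
  unfold tsym_code
  rw [Fin.sum_univ_succ, Finset.mul_sum]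
  simp only [Fin.val_zero, pow_zero, mul_one, Fin.val_succ, pow_succ]
  congr 1
  refine Finset.sum_congr rfl fun k _ => ?_
  ring

theorem tsym_code_castSucc {n : ℕ} (x : Fin (n + 1) → Fin 3) :
    tsym_code x = tsym_code (fun k : Fin n => x k.castSucc) + (x (Fin.last n) : ℕ) * 3 ^ n := by
  unfold tsym_code
  rw [Fin.sum_univ_castSucc]
  simp

/-- rotation on codes: the top digit becomes the lowest one. -/
def tsym_rotCode (n c : ℕ) : ℕ := c % 3 ^ (n - 1) * 3 + c / 3 ^ (n - 1)

/-- negation on codes: every digit `d` becomes `2 - d`. -/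
def tsym_negCode (n c : ℕ) : ℕ := 3 ^ n - 1 - c

/-- reversal of the `n` digits. -/
def tsym_revCode : ℕ → ℕ → ℕ
  | 0, _ => 0
  | n + 1, c => c % 3 * 3 ^ n + tsym_revCode n (c / 3)

theorem tsym_code_rot {n : ℕ} (x : Fin n → Fin 3) :
    tsym_code (tsym_site (finRotate n) x) = tsym_rotCode n (tsym_code x) := by
  obtain _ | n := n
  · simp [tsym_code, tsym_rotCode]
  · rw [tsym_code_succ, tsym_code_castSucc x, tsym_rotCode]
    have h0 : (finRotate (n + 1)).symm 0 = Fin.last n := by
      rw [Equiv.symm_apply_eq, finRotate_last]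
    have hs : ∀ k : Fin n, (finRotate (n + 1)).symm k.succ = k.castSucc := by
      intro k
      rw [Equiv.symm_apply_eq, finRotate_apply]
      simp
    simp only [tsym_site_apply, h0, hs, Nat.add_sub_cancel]
    have hlt := tsym_code_lt (fun k : Fin n => x k.castSucc)
    have hpos : 0 < 3 ^ n := by positivity
    rw [Nat.add_mul_mod_self_right, Nat.mod_eq_of_lt hlt, Nat.add_mul_div_right _ _ hpos,
      Nat.div_eq_of_lt hlt]
    ring

theorem tsym_code_neg {n : ℕ} (x : Fin n → Fin 3) :
    tsym_code (tsym_neg x) = tsym_negCode n (tsym_code x) := by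
  have h : tsym_code (tsym_neg x) + tsym_code x + 1 = 3 ^ n := by
    induction n with
    | zero => simp [tsym_code]
    | succ n ih =>
      rw [tsym_code_succ, tsym_code_succ x]
      have := ih (fun k : Fin n => x k.succ)
      have h2 : (fun k : Fin n => tsym_neg x k.succ) = tsym_neg (fun k : Fin n => x k.succ) := rfl
      rw [h2]
      have h3 : ((tsym_neg x 0 : Fin 3) : ℕ) + (x 0 : ℕ) = 2 := by
        rw [tsym_neg_apply, Fin.val_rev]
        have := (x 0).isLt
        omega
      rw [pow_succ]
      omega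
  unfold tsym_negCode
  omega

theorem tsym_code_rev {n : ℕ} (x : Fin n → Fin 3) :
    tsym_code (tsym_site Fin.revPerm x) = tsym_revCode n (tsym_code x) := by
  induction n with
  | zero => simp [tsym_code, tsym_revCode]
  | succ n ih =>
    rw [tsym_code_castSucc, tsym_revCode, tsym_code_succ x]
    have h1 : ((x 0 : ℕ) + 3 * tsym_code fun k : Fin n => x k.succ) % 3 = (x 0 : ℕ) := by
      rw [Nat.add_mul_mod_self_left, Nat.mod_eq_of_lt (x 0).isLt]
    have h2 : ((x 0 : ℕ) + 3 * tsym_code fun k : Fin n => x k.succ) / 3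
        = tsym_code fun k : Fin n => x k.succ := by
      rw [Nat.add_mul_div_left _ _ (by norm_num), Nat.div_eq_of_lt (x 0).isLt, zero_add]
    rw [h1, h2, ← ih]
    have h3 : (fun k : Fin n => tsym_site Fin.revPerm x k.castSucc)
        = tsym_site Fin.revPerm (fun k : Fin n => x k.succ) := by
      funext k
      simp [Fin.rev_castSucc]
    have h4 : tsym_site Fin.revPerm x (Fin.last n) = x 0 := by
      simp
    rw [h3, h4]
    ring

end Claimed.Agent.R297
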