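/-
Row 297, package D3 (symmetry reduction of the thermal column sums), owner helper199.
Part S3/S4b: a kernel-checkable certificate that a list of codes is a transversal of the orbits of
rotation, reversal and negation, and the resulting reduction of sums of invariant functions.

No group theory is used: `tsym_cert n reps = true` says that the orbit lists of the representatives
(sublists of their images) are pairwise disjoint and repetition free (checked with bitmaps), lie
below `3 ^ n` and have total length `3 ^ n`; hence they partition all the codes.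

The functions evaluated by the kernel are written with the raw `Nat.add`, `Nat.mul`, ... and with
explicit recursors (no type-class unfolding, no matchers, no `brecOn`): in `decide +kernel` this is
about fifty times faster and much lighter in memory than the idiomatic versions.
-/
import Claimed.Agent.R297.ThermSymCode

namespace Claimed.Agent.R297

/-- raw form of `tsym_rotCode`, with `p = 3 ^ (n - 1)`. -/
def tsym_rotF (p c : ℕ) : ℕ := Nat.add (Nat.mul (Nat.mod c p) 3) (Nat.div c p)

theorem tsym_rotF_eq (n c : ℕ) : tsym_rotF (Nat.pow 3 (Nat.sub n 1)) c = tsym_rotCode n c := rfl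

/-- raw form of `tsym_revCode`. -/
def tsym_revF (n : ℕ) : ℕ → ℕ :=
  Nat.rec (motive := fun _ => ℕ → ℕ) (fun _ => 0)
    (fun k ih c => Nat.add (Nat.mul (Nat.mod c 3) (Nat.pow 3 k)) (ih (Nat.div c 3))) n

theorem tsym_revF_eq (n c : ℕ) : tsym_revF n c = tsym_revCode n c := by
  induction n generalizing c with
  | zero => rfl
  | succ n ih =>
    have h : tsym_revF (n + 1) c = c % 3 * 3 ^ n + tsym_revF n (c / 3) := rfl
    rw [h, tsym_revCode, ih]

/-- `cur, rot cur, rot² cur, …` (at most `k` terms, stopping before the return to `d`), pushed on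
`acc`. -/
def tsym_cyc (p d k : ℕ) : ℕ → List ℕ → List ℕ :=
  Nat.rec (motive := fun _ => ℕ → List ℕ → List ℕ) (fun _ acc => acc)
    (fun _ ih cur acc =>
      Bool.rec (motive := fun _ => List ℕ) (ih (tsym_rotF p cur) (List.cons cur acc))
        (List.cons cur acc) (Nat.beq (tsym_rotF p cur) d)) k

theorem tsym_cyc_succ (p d k cur : ℕ) (acc : List ℕ) :
    tsym_cyc p d (k + 1) cur acc =
      Bool.rec (motive := fun _ => List ℕ) (tsym_cyc p d k (tsym_rotF p cur) (cur :: acc))
        (cur :: acc) (Nat.beq (tsym_rotF p cur) d) := rfl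

/-- raw membership test. -/
def tsym_memF (a : ℕ) (l : List ℕ) : Bool :=
  List.rec (motive := fun _ => Bool) false
    (fun b _ ih => Bool.rec (motive := fun _ => Bool) ih true (Nat.beq a b)) l

/-- add the rotation class of `d` unless `d` is already listed. -/
def tsym_addCyc (p n d : ℕ) (acc : List ℕ) : List ℕ :=
  Bool.rec (motive := fun _ => List ℕ) (tsym_cyc p d n d acc) acc (tsym_memF d acc)

/-- the orbit, with `p = 3 ^ (n - 1)` and `m = 3 ^ n - 1`. -/
def tsym_orbitF (p m n c : ℕ) : List ℕ :=
  tsym_addCyc p n (Nat.sub m (tsym_revF n c)) (tsym_addCyc p n (Nat.sub m c)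
    (tsym_addCyc p n (tsym_revF n c) (tsym_cyc p c n c [])))

/-- the orbit of a code under rotation, reversal and negation, as a list. -/
def tsym_orbit (n c : ℕ) : List ℕ :=
  tsym_orbitF (Nat.pow 3 (Nat.sub n 1)) (Nat.sub (Nat.pow 3 n) 1) n c

/-- raw length. -/
def tsym_len (l : List ℕ) : ℕ := List.rec (motive := fun _ => ℕ) 0 (fun _ _ ih => Nat.succ ih) l

theorem tsym_len_eq (l : List ℕ) : tsym_len l = l.length := by
  induction l with
  | nil => rfl
  | cons a l ih =>
    have h : tsym_len (a :: l) = Nat.succ (tsym_len l) := rfl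
    rw [h, ih, List.length_cons]

/-- the multiplicity of a representative: the length of its orbit. -/
def tsym_mult (n c : ℕ) : ℕ := tsym_len (tsym_orbit n c)

theorem tsym_cyc_all (P : ℕ → Prop) (p d : ℕ) (hP : ∀ c, P c → P (tsym_rotF p c)) (k cur : ℕ)
    (acc : List ℕ) (hcur : P cur) (hacc : ∀ y ∈ acc, P y) : ∀ y ∈ tsym_cyc p d k cur acc, P y := by
  induction k generalizing cur acc with
  | zero => exact hacc
  | succ k ih =>
    have hcons : ∀ y ∈ cur :: acc, P y := by
      intro y hy
      rcases List.mem_cons.1 hy with hy | hy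
      · rw [hy]; exact hcur
      · exact hacc y hy
    rw [tsym_cyc_succ]
    cases Nat.beq (tsym_rotF p cur) d
    · exact ih _ _ (hP _ hcur) hcons
    · exact hcons

theorem tsym_addCyc_all (P : ℕ → Prop) (p n d : ℕ) (hP : ∀ c, P c → P (tsym_rotF p c))
    (acc : List ℕ) (hd : P d) (hacc : ∀ y ∈ acc, P y) : ∀ y ∈ tsym_addCyc p n d acc, P y := by
  unfold tsym_addCyc
  cases tsym_memF d acc
  · exact tsym_cyc_all P p d hP n d acc hd hacc
  · exact hacc

theorem tsym_orbit_all (P : ℕ → Prop) (n : ℕ) (hrot : ∀ c, P c → P (tsym_rotCode n c))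
    (hrev : ∀ c, P c → P (tsym_revCode n c)) (hneg : ∀ c, P c → P (tsym_negCode n c)) (c : ℕ)
    (hc : P c) : ∀ y ∈ tsym_orbit n c, P y := by
  unfold tsym_orbit tsym_orbitF
  have hrot' : ∀ c, P c → P (tsym_rotF (Nat.pow 3 (Nat.sub n 1)) c) := hrot
  have hneg' : ∀ c, P c → P (Nat.sub (Nat.sub (Nat.pow 3 n) 1) c) := hneg
  rw [tsym_revF_eq]
  refine tsym_addCyc_all P _ n _ hrot' _ (hneg' _ (hrev _ hc)) ?_
  refine tsym_addCyc_all P _ n _ hrot' _ (hneg' _ hc) ?_
  refine tsym_addCyc_all P _ n _ hrot' _ (hrev _ hc) ?_
  exact tsym_cyc_all P _ c hrot' n c [] hc (by simp)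

/-- identity; a call through this constant makes the kernel return to its outer (iterative)
reduction loop, so that long recursor loops do not exhaust the stack. -/
def tsym_tr (b : Bool) : Bool := b

/-- one bitmap pass: the entries `y` with `y / P = t` have pairwise distinct `y % P`, none of them
in the bitmap `B`. -/
def tsym_pass (P t : ℕ) (l : List ℕ) : ℕ → Bool :=
  List.rec (motive := fun _ => ℕ → Bool) (fun _ => true)
    (fun y _ ih B =>
      Bool.rec (motive := fun _ => Bool) (tsym_tr (ih B))
        (Bool.rec (motive := fun _ => Bool) false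
          (tsym_tr (ih (Nat.lor B (Nat.pow 2 (Nat.mod y P)))))
          (Nat.beq (Nat.land B (Nat.pow 2 (Nat.mod y P))) 0))
        (Nat.beq (Nat.div y P) t)) l

theorem tsym_pass_cons (P t y : ℕ) (ys : List ℕ) (B : ℕ) :
    tsym_pass P t (y :: ys) B =
      Bool.rec (motive := fun _ => Bool) (tsym_pass P t ys B)
        (Bool.rec (motive := fun _ => Bool) false (tsym_pass P t ys (B ||| 2 ^ (y % P)))
          (Nat.beq (B &&& 2 ^ (y % P)) 0))
        (Nat.beq (y / P) t) := rfl

theorem tsym_pass_spec (P t : ℕ) (l : List ℕ) (B : ℕ) (h : tsym_pass P t l B = true) :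
    (l.filter fun y => y / P = t).Nodup ∧
      ∀ y ∈ l, y / P = t → B.testBit (y % P) = false := by
  induction l generalizing B with
  | nil => simp
  | cons y ys ih =>
    rw [tsym_pass_cons] at h
    cases h1 : Nat.beq (y / P) t
    · rw [h1] at h
      have hne : ¬ y / P = t := Nat.ne_of_beq_eq_false h1
      obtain ⟨hn, hall⟩ := ih B h
      refine ⟨by rw [List.filter_cons_of_neg (by simpa using hne)]; exact hn, ?_⟩
      intro z hz hzt
      rcases List.mem_cons.1 hz with hz | hz
      · rw [hz] at hzt; exact absurd hzt hne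
      · exact hall z hz hzt
    · rw [h1] at h
      have heq : y / P = t := Nat.eq_of_beq_eq_true h1
      cases h2 : Nat.beq (B &&& 2 ^ (y % P)) 0
      · rw [h2] at h; exact absurd h (by simp)
      · rw [h2] at h
        have h2' : B &&& 2 ^ (y % P) = 0 := Nat.eq_of_beq_eq_true h2
        have hbit : B.testBit (y % P) = false := by
          rw [Nat.and_two_pow] at h2'
          cases hb : B.testBit (y % P)
          · rfl
          · rw [hb] at h2'
            simp at h2'
        obtain ⟨hn, hall⟩ := ih _ h
        have hsplit : ∀ z ∈ ys, z / P = t → B.testBit (z % P) = false ∧ y % P ≠ z % P := by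
          intro z hz hzt
          have hz2 := hall z hz hzt
          rw [Nat.testBit_or, Nat.testBit_two_pow, Bool.or_eq_false_iff,
            decide_eq_false_iff_not] at hz2
          exact hz2
        refine ⟨?_, ?_⟩
        · rw [List.filter_cons_of_pos (by simpa using heq)]
          refine List.nodup_cons.2 ⟨fun hy => ?_, hn⟩
          obtain ⟨hy1, hy2⟩ := List.mem_filter.1 hy
          exact (hsplit y hy1 (by simpa using hy2)).2 rfl
        · intro z hz hzt
          rcases List.mem_cons.1 hz with hz | hz
          · rw [hz]; exact hbit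
          · exact (hsplit z hz hzt).1

/-- the passes `t = 0, …, T - 1`. -/
def tsym_passes (P : ℕ) (l : List ℕ) (T : ℕ) : Bool :=
  Nat.rec (motive := fun _ => Bool) true
    (fun t ih => Bool.rec (motive := fun _ => Bool) false ih (tsym_pass P t l 0)) T

theorem tsym_passes_spec (P : ℕ) (l : List ℕ) (T : ℕ) (h : tsym_passes P l T = true) :
    ∀ t < T, (l.filter fun y => y / P = t).Nodup := by
  induction T with
  | zero => intro t ht; exact absurd ht (Nat.not_lt_zero t)
  | succ T ih =>
    have h' : Bool.rec (motive := fun _ => Bool) false (tsym_passes P l T) (tsym_pass P T l 0)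
        = true := h
    cases h1 : tsym_pass P T l 0
    · rw [h1] at h'; exact absurd h' (by simp)
    · rw [h1] at h'
      intro t ht
      rcases Nat.lt_succ_iff_lt_or_eq.1 ht with ht | ht
      · exact ih h' t ht
      · rw [ht]; exact (tsym_pass_spec P T l 0 h1).1

theorem tsym_nodup_of_passes (P T : ℕ) (l : List ℕ) (h : tsym_passes P l T = true)
    (hl : ∀ y ∈ l, y / P < T) : l.Nodup := by
  rw [List.nodup_iff_count_le_one]
  intro a
  by_cases ha : a ∈ l
  · have h1 := tsym_passes_spec P l T h (a / P) (hl a ha)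
    have h2 := List.nodup_iff_count_le_one.1 h1 a
    rw [List.count_filter (by simp)] at h2
    exact h2
  · rw [List.count_eq_zero_of_not_mem ha]
    exact Nat.zero_le 1

/-- raw test that all entries are below `M`. -/
def tsym_allLt (M : ℕ) (l : List ℕ) : Bool :=
  List.rec (motive := fun _ => Bool) true
    (fun y _ ih => Bool.rec (motive := fun _ => Bool) false (tsym_tr ih) (Nat.ble (Nat.succ y) M)) l

theorem tsym_allLt_spec (M : ℕ) (l : List ℕ) (h : tsym_allLt M l = true) : ∀ y ∈ l, y < M := by
  induction l with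
  | nil => simp
  | cons y ys ih =>
    have h' : Bool.rec (motive := fun _ => Bool) false (tsym_allLt M ys) (Nat.ble (Nat.succ y) M)
        = true := h
    cases h1 : Nat.ble (Nat.succ y) M
    · rw [h1] at h'; exact absurd h' (by simp)
    · rw [h1] at h'
      intro z hz
      rcases List.mem_cons.1 hz with hz | hz
      · rw [hz]; exact Nat.le_of_ble_eq_true h1
      · exact ih h' z hz

/-- raw append. -/
def tsym_app (l l' : List ℕ) : List ℕ :=
  List.rec (motive := fun _ => List ℕ) l' (fun a _ ih => List.cons a ih) l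

theorem tsym_app_eq (l l' : List ℕ) : tsym_app l l' = l ++ l' := by
  induction l with
  | nil => rfl
  | cons a l ih =>
    have h : tsym_app (a :: l) l' = a :: tsym_app l l' := rfl
    rw [h, ih, List.cons_append]

/-- the concatenated orbit lists. -/
def tsym_flat (n : ℕ) (reps : List ℕ) : List ℕ :=
  List.rec (motive := fun _ => List ℕ) [] (fun r _ ih => tsym_app (tsym_orbit n r) ih) reps

theorem tsym_flat_eq (n : ℕ) (reps : List ℕ) : tsym_flat n reps = reps.flatMap (tsym_orbit n) := by
  induction reps with
  | nil => rfl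
  | cons r reps ih =>
    have h : tsym_flat n (r :: reps) = tsym_app (tsym_orbit n r) (tsym_flat n reps) := rfl
    rw [h, ih, tsym_app_eq, List.flatMap_cons]

/-- identity on `ℕ` (see `tsym_tr`). -/
def tsym_trN (a : ℕ) : ℕ := a

/-- the sum of the multiplicities, added to `acc` (the accumulator is forced at every step). -/
def tsym_totalAux (n : ℕ) (reps : List ℕ) : ℕ → ℕ :=
  List.rec (motive := fun _ => ℕ → ℕ) (fun acc => acc)
    (fun r _ ih acc =>
      Bool.rec (motive := fun _ => ℕ) (tsym_trN (ih (Nat.add acc (tsym_mult n r))))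
        (tsym_trN (ih (Nat.add acc (tsym_mult n r)))) (Nat.beq (Nat.add acc (tsym_mult n r)) 0)) reps

theorem tsym_totalAux_eq (n : ℕ) (reps : List ℕ) (acc : ℕ) :
    tsym_totalAux n reps acc = acc + (reps.flatMap (tsym_orbit n)).length := by
  induction reps generalizing acc with
  | nil => rfl
  | cons r reps ih =>
    have h : tsym_totalAux n (r :: reps) acc =
        Bool.rec (motive := fun _ => ℕ) (tsym_totalAux n reps (acc + tsym_mult n r))
          (tsym_totalAux n reps (acc + tsym_mult n r)) (Nat.beq (acc + tsym_mult n r) 0) := rfl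
    have h' : tsym_totalAux n (r :: reps) acc = tsym_totalAux n reps (acc + tsym_mult n r) := by
      rw [h]
      cases Nat.beq (acc + tsym_mult n r) 0 <;> rfl
    rw [h', ih, List.flatMap_cons, List.length_append, tsym_mult, tsym_len_eq, add_assoc]

/-- the sum of the multiplicities. -/
def tsym_total (n : ℕ) (reps : List ℕ) : ℕ := tsym_totalAux n reps 0

theorem tsym_total_eq (n : ℕ) (reps : List ℕ) :
    tsym_total n reps = (reps.flatMap (tsym_orbit n)).length := by
  rw [tsym_total, tsym_totalAux_eq, zero_add]

/-- the certificate (three bitmap passes of `3 ^ (n - 1)` bits). -/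
def tsym_cert (n : ℕ) (reps : List ℕ) : Bool :=
  Bool.rec (motive := fun _ => Bool) false
    (Bool.rec (motive := fun _ => Bool) false
      (Bool.rec (motive := fun _ => Bool) false
        (Nat.beq (tsym_total n reps) (Nat.pow 3 n))
        (tsym_passes (Nat.pow 3 (Nat.sub n 1)) (tsym_flat n reps) 3))
      (tsym_allLt (Nat.pow 3 n) reps))
    (Nat.ble 1 n)

theorem tsym_cert_spec (n : ℕ) (reps : List ℕ) (h : tsym_cert n reps = true) :
    1 ≤ n ∧ (∀ r ∈ reps, r < 3 ^ n) ∧
      tsym_passes (3 ^ (n - 1)) (reps.flatMap (tsym_orbit n)) 3 = true ∧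
      (reps.flatMap (tsym_orbit n)).length = 3 ^ n := by
  unfold tsym_cert at h
  cases h0 : Nat.ble 1 n
  · rw [h0] at h; exact absurd h (by simp)
  · rw [h0] at h
    cases h1 : tsym_allLt (Nat.pow 3 n) reps
    · rw [h1] at h; exact absurd h (by simp)
    · rw [h1] at h
      cases h2 : tsym_passes (Nat.pow 3 (Nat.sub n 1)) (tsym_flat n reps) 3
      · rw [h2] at h; exact absurd h (by simp)
      · rw [h2] at h
        have h3 := Nat.eq_of_beq_eq_true h
        rw [tsym_total_eq] at h3
        rw [tsym_flat_eq] at h2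
        exact ⟨Nat.le_of_ble_eq_true h0, tsym_allLt_spec _ _ h1, h2, h3⟩

theorem tsym_sum_of_nodup {M : ℕ} {l : List ℕ} (hn : l.Nodup) (hlt : ∀ y ∈ l, y < M)
    (hlen : l.length = M) (f : ℕ → ℝ) : ∑ c ∈ Finset.range M, f c = (l.map f).sum := by
  have h : l.toFinset = Finset.range M := by
    apply Finset.eq_of_subset_of_card_le
    · intro y hy
      exact Finset.mem_range.2 (hlt y (List.mem_toFinset.1 hy))
    · rw [Finset.card_range, List.toFinset_card_of_nodup hn, hlen]
  rw [← h, List.sum_toFinset f hn]

theorem tsym_sum_flatMap (reps : List ℕ) (D : ℕ → List ℕ) (f : ℕ → ℝ)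
    (h : ∀ r ∈ reps, ∀ y ∈ D r, f y = f r) :
    ((reps.flatMap D).map f).sum = (reps.map fun r => ((D r).length : ℝ) * f r).sum := by
  induction reps with
  | nil => simp
  | cons r reps ih =>
    rw [List.flatMap_cons, List.map_append, List.sum_append, List.map_cons, List.sum_cons,
      ih fun r' hr' => h r' (List.mem_cons_of_mem _ hr')]
    congr 1
    have h1 : (D r).map f = (D r).map fun _ => f r :=
      List.map_congr_left fun y hy => h r List.mem_cons_self y hy
    rw [h1, List.map_const', List.sum_replicate, nsmul_eq_mul]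

/-- every member of the orbit list of `r < 3 ^ n` is below `3 ^ n` and has the same value of every
function invariant under rotation, reversal and negation of words. -/
theorem tsym_orbit_inv (n : ℕ) {α : Type*} (N : (Fin n → Fin 3) → α)
    (hrot : ∀ x, N (tsym_site (finRotate n) x) = N x)
    (hrev : ∀ x, N (tsym_site Fin.revPerm x) = N x)
    (hneg : ∀ x, N (tsym_neg x) = N x) (r : ℕ) (hr : r < 3 ^ n) (y : ℕ)
    (hy : y ∈ tsym_orbit n r) : y < 3 ^ n ∧ N (tsym_word n y) = N (tsym_word n r) := by
  refine tsym_orbit_all (fun c => c < 3 ^ n ∧ N (tsym_word n c) = N (tsym_word n r)) n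
    ?_ ?_ ?_ r ⟨hr, rfl⟩ y hy
  · rintro c ⟨hc, hN⟩
    have h := tsym_code_rot (tsym_word n c)
    rw [tsym_code_word hc] at h
    rw [← h]
    exact ⟨tsym_code_lt _, by rw [tsym_word_code, hrot, hN]⟩
  · rintro c ⟨hc, hN⟩
    have h := tsym_code_rev (tsym_word n c)
    rw [tsym_code_word hc] at h
    rw [← h]
    exact ⟨tsym_code_lt _, by rw [tsym_word_code, hrev, hN]⟩
  · rintro c ⟨hc, hN⟩
    have h := tsym_code_neg (tsym_word n c)
    rw [tsym_code_word hc] at h
    rw [← h]
    exact ⟨tsym_code_lt _, by rw [tsym_word_code, hneg, hN]⟩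

/-- **Reduction to representatives.**  If `N` is invariant under rotation, reversal and negation of
words, and `reps` passes the certificate, then the sum of `N` over all words is the sum over the
representatives with multiplicities. -/
theorem tsym_sum_reps (n : ℕ) (reps : List ℕ) (hcert : tsym_cert n reps = true)
    (N : (Fin n → Fin 3) → ℝ)
    (hrot : ∀ x, N (tsym_site (finRotate n) x) = N x)
    (hrev : ∀ x, N (tsym_site Fin.revPerm x) = N x)
    (hneg : ∀ x, N (tsym_neg x) = N x) :
    ∑ x, N x = (reps.map fun r => (tsym_mult n r : ℝ) * N (tsym_word n r)).sum := by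
  obtain ⟨hn1, h3, h1, h2⟩ := tsym_cert_spec n reps hcert
  have hlt : ∀ y ∈ reps.flatMap (tsym_orbit n), y < 3 ^ n := by
    intro y hy
    obtain ⟨r, hr, hy⟩ := List.mem_flatMap.1 hy
    exact (tsym_orbit_inv n N hrot hrev hneg r (h3 r hr) y hy).1
  have hnd : (reps.flatMap (tsym_orbit n)).Nodup := by
    refine tsym_nodup_of_passes _ 3 _ h1 fun y hy => ?_
    rw [Nat.div_lt_iff_lt_mul (by positivity)]
    have : 3 ^ n = 3 * 3 ^ (n - 1) := by
      rw [← pow_succ']
      congr 1
      omega
    rw [← this]
    exact hlt y hy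
  rw [tsym_sum_word, tsym_sum_of_nodup hnd hlt h2]
  simp only [tsym_mult, tsym_len_eq]
  exact tsym_sum_flatMap reps (tsym_orbit n) _ fun r hr y hy =>
    (tsym_orbit_inv n N hrot hrev hneg r (h3 r hr) y hy).2

/-- the multiplicities add up to the number of words. -/
theorem tsym_sum_mult (n : ℕ) (reps : List ℕ) (hcert : tsym_cert n reps = true) :
    (reps.map (tsym_mult n)).sum = 3 ^ n := by
  obtain ⟨_, _, _, h2⟩ := tsym_cert_spec n reps hcert
  rw [← h2, List.length_flatMap]
  congr 1
  refine List.map_congr_left fun r _ => ?_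
  rw [tsym_mult, tsym_len_eq]

end Claimed.Agent.R297
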