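/-
Row 297, package D3 (symmetry reduction of the thermal column sums), owner helper199.
Part S5: the orbit identity (`horbit`) of the thermal certificates `thA_gibbs_certificate`,
`thC_gibbs_certificate`, in the shape needed for packed runs (one start column per sector).

* `tsym_Gen W A`: `A` is generated from `W` by `1`, `+`, real multiples and products
  (`thA_W`, `thA_PW`, `thC_T`, `thC_A` are instances); such an `A` inherits every monomial
  (anti)symmetry and every block structure of `W`;
* `tsym_nsq_reps`: the sum of all squared column norms is the weighted sum over representatives;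
* `tsym_horbit`: the same for runs, with sector restrictions of the start vectors.
-/
import Claimed.Agent.R297.ThermSymCert
import Claimed.Agent.R297.ThermalChebMain

namespace Claimed.Agent.R297

open Matrix

/-- matrices generated from `W` by `1`, sums, real multiples and products. -/
inductive tsym_Gen {σ : Type} [Fintype σ] [DecidableEq σ] (W : Matrix σ σ ℂ) :
    Matrix σ σ ℂ → Prop
  | self : tsym_Gen W W
  | one : tsym_Gen W 1
  | add {A B : Matrix σ σ ℂ} : tsym_Gen W A → tsym_Gen W B → tsym_Gen W (A + B)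
  | smul (r : ℝ) {A : Matrix σ σ ℂ} : tsym_Gen W A → tsym_Gen W ((r : ℂ) • A)
  | mul {A B : Matrix σ σ ℂ} : tsym_Gen W A → tsym_Gen W B → tsym_Gen W (A * B)

section gen

variable {σ : Type} [Fintype σ] [DecidableEq σ] {W A B : Matrix σ σ ℂ}

theorem tsym_Gen.zero : tsym_Gen W (0 : Matrix σ σ ℂ) := by
  have h := tsym_Gen.smul (W := W) 0 tsym_Gen.one
  simpa using h

theorem tsym_Gen.sub (hA : tsym_Gen W A) (hB : tsym_Gen W B) : tsym_Gen W (A - B) := by
  have h := hA.add (hB.smul (-1))
  have e : A + (((-1 : ℝ) : ℂ)) • B = A - B := by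
    push_cast
    rw [neg_one_smul, sub_eq_add_neg]
  rwa [e] at h

theorem tsym_Gen.pow (hA : tsym_Gen W A) (k : ℕ) : tsym_Gen W (A ^ k) := by
  induction k with
  | zero => simpa using tsym_Gen.one
  | succ k ih => rw [pow_succ]; exact ih.mul hA

theorem tsym_Gen.sum {κ : Type*} (s : Finset κ) (F : κ → Matrix σ σ ℂ)
    (h : ∀ i ∈ s, tsym_Gen W (F i)) : tsym_Gen W (∑ i ∈ s, F i) := by
  classical
  induction s using Finset.induction_on with
  | empty => simpa using tsym_Gen.zero
  | insert a s ha ih =>
    rw [Finset.sum_insert ha]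
    exact (h a (Finset.mem_insert_self a s)).add (ih fun i hi => h i (Finset.mem_insert_of_mem hi))

theorem tsym_Gen.trans {H : Matrix σ σ ℂ} (hW : tsym_Gen H W) (hA : tsym_Gen W A) :
    tsym_Gen H A := by
  induction hA with
  | self => exact hW
  | one => exact tsym_Gen.one
  | add _ _ ih1 ih2 => exact ih1.add ih2
  | smul r _ ih => exact ih.smul r
  | mul _ _ ih1 ih2 => exact ih1.mul ih2

/-- generated matrices inherit the monomial (anti)symmetries. -/
theorem tsym_Gen.rel (hA : tsym_Gen W A) {π : Equiv.Perm σ} {φ : σ → ℂ} {c : Bool}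
    (hφ : ∀ x, Complex.normSq (φ x) = 1) (hW : tsym_Rel π φ c W) : tsym_Rel π φ c A := by
  induction hA with
  | self => exact hW
  | one => exact tsym_Rel.one hφ
  | add _ _ ih1 ih2 => exact ih1.add ih2
  | smul r _ ih => exact ih.smul_real r
  | mul _ _ ih1 ih2 => exact ih1.mul hφ ih2

/-- generated matrices inherit the block structure. -/
theorem tsym_Gen.blk (hA : tsym_Gen W A) {τ : Type*} (sec : σ → τ)
    (hW : ∀ x y, sec x ≠ sec y → W x y = 0) : ∀ x y, sec x ≠ sec y → A x y = 0 := by
  induction hA with
  | self => exact hW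
  | one =>
    intro x y h
    exact Matrix.one_apply_ne fun e => h (by rw [e])
  | add _ _ ih1 ih2 =>
    intro x y h
    rw [Matrix.add_apply, ih1 x y h, ih2 x y h, add_zero]
  | smul r _ ih =>
    intro x y h
    rw [Matrix.smul_apply, ih x y h, smul_zero]
  | mul _ _ ih1 ih2 =>
    intro x y h
    rw [Matrix.mul_apply]
    refine Finset.sum_eq_zero fun z _ => ?_
    by_cases hz : sec x = sec z
    · rw [ih2 z y (by rw [← hz]; exact h), mul_zero]
    · rw [ih1 x z hz, zero_mul]

theorem tsym_gen_thA_W (H : Matrix σ σ ℂ) (s c : ℝ) : tsym_Gen H (thA_W H s c) := by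
  unfold thA_W
  exact tsym_Gen.one.sub ((tsym_Gen.self.add (tsym_Gen.one.smul s)).smul c⁻¹)

theorem tsym_gen_thA_PW (W : Matrix σ σ ℂ) (t : ℝ) (J : ℕ) : tsym_Gen W (thA_PW W t J) := by
  unfold thA_PW
  exact tsym_Gen.sum _ _ fun j _ => (tsym_Gen.self.pow j).smul _

theorem tsym_gen_thC_T (W : Matrix σ σ ℂ) (k : ℕ) : tsym_Gen W (thC_T W k) := by
  induction k using Nat.strong_induction_on with
  | _ k ih =>
    match k with
    | 0 => exact tsym_Gen.one
    | 1 => exact tsym_Gen.self
    | k + 2 =>
      rw [thC_T_add_two]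
      have h := (((ih (k + 1) (by omega)).mul tsym_Gen.self).smul 2).sub (ih k (by omega))
      have e : (((2 : ℝ) : ℂ)) = 2 := by norm_num
      rwa [e] at h

theorem tsym_gen_thC_A (W : Matrix σ σ ℂ) (q : List ℕ) (Q : ℕ) : tsym_Gen W (thC_A W q Q) := by
  unfold thC_A
  exact tsym_Gen.sum _ _ fun k _ => (tsym_gen_thC_T W k).smul _

theorem tsym_nsq_col (A : Matrix σ σ ℂ) (x : σ) :
    thA_nsq (A *ᵥ Pi.single x 1) = tsym_colNormSq A x := by
  rw [Matrix.mulVec_single_one]
  unfold thA_nsq tsym_colNormSq
  refine Finset.sum_congr rfl fun y _ => ?_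
  rw [Complex.normSq_eq_norm_sq]
  rfl

end gen

/-! ### the ring -/

/-- **Representatives.**  For every matrix generated from the seam-twisted ring, the sum of all
squared column norms is the weighted sum over a certified list of representatives. -/
theorem tsym_nsq_reps (n : ℕ) (hn : 2 ≤ n) (ζ : Circle)
    {A : Matrix (Fin n → Fin 3) (Fin n → Fin 3) ℂ}
    (hA : tsym_Gen (tsym_ring n (tsym_seam n ζ)) A)
    (reps : List ℕ) (hcert : tsym_cert n reps = true) :
    ∑ x, thA_nsq (A *ᵥ Pi.single x 1)
      = (reps.map fun r => (tsym_mult n r : ℝ) * thA_nsq (A *ᵥ Pi.single (tsym_word n r) 1)).sum := by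
  refine tsym_sum_reps n reps hcert (fun x => thA_nsq (A *ᵥ Pi.single x 1)) ?_ ?_ ?_
  · intro x
    have hφ : ∀ x : Fin n → Fin 3,
        Complex.normSq ((tsym_gauge (tsym_seamGauge n ζ) x : Circle) : ℂ) = 1 :=
      fun x => tsym_normSq_circle _
    simp only [tsym_nsq_col]
    exact (hA.rel hφ (tsym_rel_rot n hn ζ)).colNormSq hφ x
  · intro x
    have hφ : ∀ _ : Fin n → Fin 3, Complex.normSq (1 : ℂ) = 1 := fun _ => by simp
    simp only [tsym_nsq_col]
    exact (hA.rel hφ (tsym_rel_rev n ζ)).colNormSq hφ x
  · intro x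
    have hφ : ∀ _ : Fin n → Fin 3, Complex.normSq (1 : ℂ) = 1 := fun _ => by simp
    simp only [tsym_nsq_col]
    exact (hA.rel hφ (tsym_rel_neg n _)).colNormSq hφ x

/-! ### packed runs -/

/-- the start vector of a run: `1` on the words whose code is listed. -/
def tsym_start (n : ℕ) (run : List ℕ) : (Fin n → Fin 3) → ℤ :=
  fun x => if tsym_code x ∈ run then 1 else 0

/-- the weight of the sector `M` in a run: the multiplicity of its representative in that sector
(`0` if there is none). -/
def tsym_weight {τ : Type} [DecidableEq τ] (n : ℕ) (sec : (Fin n → Fin 3) → τ) (run : List ℕ)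
    (M : τ) : ℕ :=
  ((run.filter fun c => sec (tsym_word n c) = M).map (tsym_mult n)).sum

theorem tsym_sum_filter_fiber {τ : Type} [Fintype τ] [DecidableEq τ] (f : ℕ → τ) (g : ℕ → ℝ)
    (l : List ℕ) : ∑ M, ((l.filter fun c => f c = M).map g).sum = (l.map g).sum := by
  induction l with
  | nil => simp
  | cons c l ih =>
    rw [List.map_cons, List.sum_cons, ← ih]
    have h : ∀ M, (((c :: l).filter fun c => f c = M).map g).sum
        = (if f c = M then g c else 0) + ((l.filter fun c => f c = M).map g).sum := by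
      intro M
      by_cases hM : f c = M
      · rw [List.filter_cons_of_pos (by simpa using hM), if_pos hM, List.map_cons, List.sum_cons]
      · rw [List.filter_cons_of_neg (by simpa using hM), if_neg hM, zero_add]
    simp only [h]
    rw [Finset.sum_add_distrib, Finset.sum_ite_eq]
    simp

theorem tsym_run_sum {τ : Type} [Fintype τ] [DecidableEq τ] (n : ℕ)
    (sec : (Fin n → Fin 3) → τ) (A : Matrix (Fin n → Fin 3) (Fin n → Fin 3) ℂ) (run : List ℕ)
    (hlt : ∀ c ∈ run, c < 3 ^ n) (hsec : (run.map fun c => sec (tsym_word n c)).Nodup) :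
    ∑ M, (tsym_weight n sec run M : ℝ)
        * thA_nsq (A *ᵥ thA_restr sec M (thA_cz (tsym_start n run)))
      = (run.map fun c => (tsym_mult n c : ℝ) * thA_nsq (A *ᵥ Pi.single (tsym_word n c) 1)).sum := by
  rw [← tsym_sum_filter_fiber (fun c => sec (tsym_word n c))]
  refine Finset.sum_congr rfl fun M _ => ?_
  unfold tsym_weight
  have hsub : ((run.filter fun c => sec (tsym_word n c) = M).map
      fun c => sec (tsym_word n c)).Nodup :=
    hsec.sublist (List.filter_sublist.map _)
  have hmem : ∀ c, c ∈ (run.filter fun c => sec (tsym_word n c) = M) ↔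
      c ∈ run ∧ sec (tsym_word n c) = M := by
    intro c
    rw [List.mem_filter]
    simp
  generalize hF : (run.filter fun c => sec (tsym_word n c) = M) = F at hsub hmem
  match F, hsub, hmem with
  | [], _, _ => simp
  | [c], _, hmem =>
    have hc := (hmem c).1 List.mem_cons_self
    have hv : thA_restr sec M (thA_cz (tsym_start n run)) = Pi.single (tsym_word n c) 1 := by
      funext x
      unfold thA_restr thA_cz tsym_start
      by_cases hx : x = tsym_word n c
      · rw [hx, Pi.single_eq_same, if_pos hc.2, tsym_code_word (hlt c hc.1), if_pos hc.1]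
        simp
      · rw [Pi.single_eq_of_ne hx]
        split_ifs with h1 h2
        · exfalso
          have h3 : tsym_code x ∈ [c] := (hmem _).2 ⟨h2, by rw [tsym_word_code]; exact h1⟩
          rw [List.mem_singleton] at h3
          exact hx (by rw [← h3, tsym_word_code])
        · simp
        · rfl
    rw [hv]
    simp
  | c :: c' :: F', hsub, hmem =>
    exfalso
    have hc := (hmem c).1 List.mem_cons_self
    have hc' := (hmem c').1 (List.mem_cons_of_mem _ List.mem_cons_self)
    rw [List.map_cons, List.map_cons, hc.2, hc'.2] at hsub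
    exact (List.nodup_cons.1 hsub).1 List.mem_cons_self

/-- **The orbit identity for packed runs**, in the shape of the hypothesis `horbit` of
`thA_trace_certificate`, `thA_gibbs_certificate`, `thC_gibbs_certificate` (with `κ = ρ × τ`,
`ρ = Fin runs.length`, as in `thA_packed_runs`). -/
theorem tsym_horbit {τ : Type} [Fintype τ] [DecidableEq τ] (n : ℕ) (hn : 2 ≤ n) (ζ : Circle)
    {A : Matrix (Fin n → Fin 3) (Fin n → Fin 3) ℂ}
    (hA : tsym_Gen (tsym_ring n (tsym_seam n ζ)) A)
    (sec : (Fin n → Fin 3) → τ) (runs : List (List ℕ))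
    (hcert : tsym_cert n runs.flatten = true)
    (hsec : ∀ run ∈ runs, (run.map fun c => sec (tsym_word n c)).Nodup) :
    ∑ c : Fin runs.length × τ, (tsym_weight n sec (runs.get c.1) c.2 : ℝ)
        * thA_nsq (A *ᵥ thA_restr sec c.2 (thA_cz (tsym_start n (runs.get c.1))))
      = ∑ r, thA_nsq (A *ᵥ Pi.single r 1) := by
  rw [tsym_nsq_reps n hn ζ hA runs.flatten hcert, Fintype.sum_prod_type, List.map_flatten,
    List.sum_flatten, List.map_map]
  have hlt := (tsym_cert_spec n _ hcert).2.1
  have h1 : ∀ i : Fin runs.length, ∑ M, (tsym_weight n sec (runs.get i) M : ℝ)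
        * thA_nsq (A *ᵥ thA_restr sec M (thA_cz (tsym_start n (runs.get i))))
      = (fun run : List ℕ => (run.map fun c => (tsym_mult n c : ℝ)
          * thA_nsq (A *ᵥ Pi.single (tsym_word n c) 1)).sum) (runs[(i : ℕ)]) := by
    intro i
    have hi : runs.get i ∈ runs := List.get_mem runs i
    exact tsym_run_sum n sec A (runs.get i)
      (fun c hc => hlt c (List.mem_flatten.2 ⟨_, hi, hc⟩)) (hsec _ hi)
  rw [Finset.sum_congr rfl fun i _ => h1 i]
  exact Fin.sum_univ_fun_getElem runs (fun run : List ℕ => (run.map fun c => (tsym_mult n c : ℝ)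
          * thA_nsq (A *ᵥ Pi.single (tsym_word n c) 1)).sum)

end Claimed.Agent.R297
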