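/-
Row 297, package D3 (symmetry reduction of the thermal column sums), owner helper199.
Part S5b: the digit-sum sectors (`S^z` sectors): block structure of the ring, kernel-checkable form
of the side condition of `tsym_horbit` (one representative per sector in every run) and of the
sector weights.
-/
import Claimed.Agent.R297.ThermSymOrbit

namespace Claimed.Agent.R297

open Matrix

/-- the digit sum of a word is at most `2 n`. -/
theorem tsym_digitSum_lt {n : ℕ} (x : Fin n → Fin 3) : ∑ k, (x k : ℕ) < 2 * n + 1 := by
  have h : ∑ k, (x k : ℕ) ≤ ∑ _k : Fin n, 2 :=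
    Finset.sum_le_sum fun k _ => Nat.le_of_lt_succ (x k).isLt
  simp only [Finset.sum_const, Finset.card_univ, Fintype.card_fin, smul_eq_mul] at h
  omega

/-- the sector of a word: its digit sum (`n - S^z`). -/
def tsym_sec (n : ℕ) (x : Fin n → Fin 3) : Fin (2 * n + 1) := ⟨∑ k, (x k : ℕ), tsym_digitSum_lt x⟩

@[simp] theorem tsym_sec_val (n : ℕ) (x : Fin n → Fin 3) :
    (tsym_sec n x : ℕ) = ∑ k, (x k : ℕ) := rfl

theorem tsym_term_blk {n : ℕ} (j j' : Fin n) (hj : j ≠ j') (ζ : Circle) (x y : Fin n → Fin 3)
    (h : tsym_sec n x ≠ tsym_sec n y) : tsym_term j j' ζ x y = 0 := by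
  unfold tsym_term
  split_ifs with hc
  · by_cases hb : tsym_bond (x j) (x j') (y j) (y j') = 0
    · simp [hb]
    · exfalso
      apply h
      apply Fin.ext
      have hcons := tsym_bond_cons _ _ _ _ hb
      have hsum : ∑ k, (((x k : ℕ) : ℤ) - ((y k : ℕ) : ℤ)) = 0 := by
        rw [Finset.sum_eq_add j j' hj]
        · unfold tsym_sz at hcons
          linarith
        · intro k _ hk
          rw [hc k hk.1 hk.2, sub_self]
        · intro hh; exact absurd (Finset.mem_univ _) hh
        · intro hh; exact absurd (Finset.mem_univ _) hh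
      rw [Finset.sum_sub_distrib, sub_eq_zero] at hsum
      simp only [tsym_sec_val]
      exact_mod_cast hsum
  · rfl

/-- the ring conserves the digit sum. -/
theorem tsym_ring_blk (n : ℕ) (hn : 2 ≤ n) (ζ : Fin n → Circle) (x y : Fin n → Fin 3)
    (h : tsym_sec n x ≠ tsym_sec n y) : tsym_ring n ζ x y = 0 := by
  rw [tsym_ring_apply]
  exact Finset.sum_eq_zero fun j _ => tsym_term_blk j _ (tsym_ne_rot n hn j) _ x y h

/-- every matrix generated from the ring is block diagonal for the digit sum (hypothesis `hA` of
`thA_packed_runs`). -/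
theorem tsym_gen_blk (n : ℕ) (hn : 2 ≤ n) (ζ : Fin n → Circle)
    {A : Matrix (Fin n → Fin 3) (Fin n → Fin 3) ℂ} (hA : tsym_Gen (tsym_ring n ζ) A) :
    ∀ x y, tsym_sec n x ≠ tsym_sec n y → A x y = 0 :=
  hA.blk (tsym_sec n) (tsym_ring_blk n hn ζ)

/-! ### digit sums of codes -/

/-- raw digit sum of the `n` lowest base-3 digits. -/
def tsym_dsumF (n : ℕ) : ℕ → ℕ :=
  Nat.rec (motive := fun _ => ℕ → ℕ) (fun _ => 0)
    (fun _ ih c => Nat.add (Nat.mod c 3) (ih (Nat.div c 3))) n

theorem tsym_dsumF_succ (n c : ℕ) : tsym_dsumF (n + 1) c = c % 3 + tsym_dsumF n (c / 3) := rfl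

theorem tsym_dsumF_code {n : ℕ} (x : Fin n → Fin 3) :
    tsym_dsumF n (tsym_code x) = ∑ k, (x k : ℕ) := by
  induction n with
  | zero => simp [tsym_dsumF]
  | succ n ih =>
    rw [tsym_dsumF_succ, tsym_code_succ, Fin.sum_univ_succ, Nat.add_mul_mod_self_left,
      Nat.mod_eq_of_lt (x 0).isLt, Nat.add_mul_div_left _ _ (by norm_num),
      Nat.div_eq_of_lt (x 0).isLt, zero_add, ih]

theorem tsym_sec_word {n c : ℕ} (hc : c < 3 ^ n) :
    (tsym_sec n (tsym_word n c) : ℕ) = tsym_dsumF n c := by
  rw [tsym_sec_val, ← tsym_dsumF_code, tsym_code_word hc]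

/-- raw test: the digit sums of the entries are pairwise distinct. -/
def tsym_secNodup (n : ℕ) (run : List ℕ) : Bool :=
  List.rec (motive := fun _ => Bool) true
    (fun c cs ih =>
      Bool.rec (motive := fun _ => Bool) ih false
        (tsym_memF (tsym_dsumF n c)
          (List.rec (motive := fun _ => List ℕ) [] (fun d _ ih' => List.cons (tsym_dsumF n d) ih')
            cs))) run

theorem tsym_memF_eq (a : ℕ) (l : List ℕ) : tsym_memF a l = true ↔ a ∈ l := by
  induction l with
  | nil => simp [tsym_memF]
  | cons b l ih =>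
    have h : tsym_memF a (b :: l)
        = Bool.rec (motive := fun _ => Bool) (tsym_memF a l) true (Nat.beq a b) := rfl
    rw [h, List.mem_cons]
    cases hb : Nat.beq a b
    · have : a ≠ b := Nat.ne_of_beq_eq_false hb
      simp [this, ih]
    · have : a = b := Nat.eq_of_beq_eq_true hb
      simp [this]

theorem tsym_secNodup_spec (n : ℕ) (run : List ℕ) (h : tsym_secNodup n run = true) :
    (run.map (tsym_dsumF n)).Nodup := by
  induction run with
  | nil => simp
  | cons c cs ih =>
    have hmap : ∀ l : List ℕ, List.rec (motive := fun _ => List ℕ) []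
        (fun d _ ih' => List.cons (tsym_dsumF n d) ih') l = l.map (tsym_dsumF n) := by
      intro l
      induction l with
      | nil => rfl
      | cons d l ihl =>
        rw [List.map_cons, ← ihl]
    have h' : Bool.rec (motive := fun _ => Bool) (tsym_secNodup n cs) false
        (tsym_memF (tsym_dsumF n c) (List.rec (motive := fun _ => List ℕ) []
          (fun d _ ih' => List.cons (tsym_dsumF n d) ih') cs)) = true := h
    rw [hmap] at h'
    cases hm : tsym_memF (tsym_dsumF n c) (cs.map (tsym_dsumF n))
    · rw [hm] at h'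
      rw [List.map_cons, List.nodup_cons]
      refine ⟨fun hc => ?_, ih h'⟩
      rw [← tsym_memF_eq, hm] at hc
      exact absurd hc (by simp)
    · rw [hm] at h'
      exact absurd h' (by simp)

/-- raw test: every run has at most one entry per sector. -/
def tsym_secOK (n : ℕ) (runs : List (List ℕ)) : Bool :=
  List.rec (motive := fun _ => Bool) true
    (fun run _ ih => Bool.rec (motive := fun _ => Bool) false (tsym_tr ih) (tsym_secNodup n run))
    runs

theorem tsym_secOK_spec (n : ℕ) (runs : List (List ℕ)) (h : tsym_secOK n runs = true) :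
    ∀ run ∈ runs, (run.map (tsym_dsumF n)).Nodup := by
  induction runs with
  | nil => simp
  | cons r rs ih =>
    have h' : Bool.rec (motive := fun _ => Bool) false (tsym_secOK n rs) (tsym_secNodup n r)
        = true := h
    cases hr : tsym_secNodup n r
    · rw [hr] at h'; exact absurd h' (by simp)
    · rw [hr] at h'
      intro run hrun
      rcases List.mem_cons.1 hrun with e | e
      · rw [e]; exact tsym_secNodup_spec n r hr
      · exact ih h' run e

/-- the side condition `hsec` of `tsym_horbit` for the digit-sum sectors, from two kernel checks. -/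
theorem tsym_hsec (n : ℕ) (runs : List (List ℕ)) (hcert : tsym_cert n runs.flatten = true)
    (hok : tsym_secOK n runs = true) :
    ∀ run ∈ runs, (run.map fun c => tsym_sec n (tsym_word n c)).Nodup := by
  intro run hrun
  have hlt := (tsym_cert_spec n _ hcert).2.1
  have h1 := tsym_secOK_spec n runs hok run hrun
  have h2 : run.map (tsym_dsumF n)
      = (run.map fun c => tsym_sec n (tsym_word n c)).map Fin.val := by
    rw [List.map_map]
    refine List.map_congr_left fun c hc => ?_
    exact (tsym_sec_word (hlt c (List.mem_flatten.2 ⟨run, hrun, hc⟩))).symm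
  rw [h2] at h1
  exact List.Nodup.of_map _ h1

/-- raw sector weight: the sum of the multiplicities of the entries of digit sum `M`. -/
def tsym_wtF (n : ℕ) (run : List ℕ) (M : ℕ) : ℕ :=
  List.rec (motive := fun _ => ℕ) 0
    (fun c _ ih => Bool.rec (motive := fun _ => ℕ) ih (Nat.add (tsym_mult n c) ih)
      (Nat.beq (tsym_dsumF n c) M)) run

theorem tsym_weight_eq (n : ℕ) (run : List ℕ) (hlt : ∀ c ∈ run, c < 3 ^ n) (M : Fin (2 * n + 1)) :
    tsym_weight n (tsym_sec n) run M = tsym_wtF n run M := by
  unfold tsym_weight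
  induction run with
  | nil => rfl
  | cons c cs ih =>
    have h : tsym_wtF n (c :: cs) M = Bool.rec (motive := fun _ => ℕ) (tsym_wtF n cs M)
        (tsym_mult n c + tsym_wtF n cs M) (Nat.beq (tsym_dsumF n c) M) := rfl
    have ih' := ih fun d hd => hlt d (List.mem_cons_of_mem _ hd)
    have hc := tsym_sec_word (hlt c List.mem_cons_self)
    rw [h]
    cases hb : Nat.beq (tsym_dsumF n c) M
    · have hne : ¬ tsym_sec n (tsym_word n c) = M := by
        intro e
        have : tsym_dsumF n c = M := by rw [← hc, e]
        exact Nat.ne_of_beq_eq_false hb this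
      rw [List.filter_cons_of_neg (by simpa using hne)]
      exact ih'
    · have heq : tsym_sec n (tsym_word n c) = M := by
        apply Fin.ext
        rw [hc]
        exact Nat.eq_of_beq_eq_true hb
      rw [List.filter_cons_of_pos (by simpa using heq), List.map_cons, List.sum_cons, ih']

/-- **The orbit identity for packed runs, digit-sum sectors, kernel-checkable hypotheses.** -/
theorem tsym_horbit_dsum (n : ℕ) (hn : 2 ≤ n) (ζ : Circle)
    {A : Matrix (Fin n → Fin 3) (Fin n → Fin 3) ℂ}
    (hA : tsym_Gen (tsym_ring n (tsym_seam n ζ)) A) (runs : List (List ℕ))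
    (hcert : tsym_cert n runs.flatten = true) (hok : tsym_secOK n runs = true) :
    ∑ c : Fin runs.length × Fin (2 * n + 1), (tsym_wtF n (runs.get c.1) c.2 : ℝ)
        * thA_nsq (A *ᵥ thA_restr (tsym_sec n) c.2 (thA_cz (tsym_start n (runs.get c.1))))
      = ∑ r, thA_nsq (A *ᵥ Pi.single r 1) := by
  rw [← tsym_horbit n hn ζ hA (tsym_sec n) runs hcert (tsym_hsec n runs hcert hok)]
  refine Finset.sum_congr rfl fun c _ => ?_
  have hlt := (tsym_cert_spec n _ hcert).2.1
  rw [tsym_weight_eq n (runs.get c.1) fun d hd =>
    hlt d (List.mem_flatten.2 ⟨_, List.get_mem runs c.1, hd⟩)]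

end Claimed.Agent.R297
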