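/-
Row 297 (spin-one Haldane gap), package D (thermal ring table), owner helper134.
HUB DEFINITIONS shared by all leaves of package D.  The hub objects are
* `mdlPhaseRing n z w`, `mdlSeamUD`, `mdlSeamDU` (helper150, ModelTwist / ModelWeight): the ring in
  the weight basis over any commutative ring, seam coefficients `z` (on `U_{n-1} D_0`) and `w`
  (on `D_{n-1} U_0`);
* `tsym_code`, `tsym_word`, `tsym_sec`, `tsym_start`, `tsym_wtF`, `tsym_cert`, `tsym_secOK`
  (helper199, ThermSym*): codes, digit-sum sectors, start vector and sector weights of a run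
  (a run = list of start codes, at most one per digit sum), kernel checks of a schedule;
* `thC_zRun`, `thC_wRun`, `thC_A` (helper46, ThermalCheb*);
and, defined here,
* `thM_B`, `thM_B0`, `thM_B1` : the integer matrices fed to the Clenshaw runs;
* `thM_runSq`, `thM_runSqW`, `thM_total`, `thM_totalW` : the SPEC-level results of runs/schedules.
-/
import Claimed.Agent.R297.ModelWeight
import Claimed.Agent.R297.ThermSymSector
import Claimed.Agent.R297.ThermalChebMain

namespace Claimed.Agent.R297

open Matrix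

/-- configurations of `n` spins; index `0,1,2` = `S^z = +1,0,-1` (as in the frozen `spinOne`). -/
abbrev thM_Cfg (n : ℕ) : Type := Fin n → Fin 3

/-- integer matrix `α - β H` for a real seam sign `z = ±1`. -/
def thM_B (n : ℕ) (z α β : ℤ) : Matrix (thM_Cfg n) (thM_Cfg n) ℤ :=
  α • (1 : Matrix (thM_Cfg n) (thM_Cfg n) ℤ) - β • mdlPhaseRing n z z

/-- `α - β H(ω², ω) = B0 + ω B1` with `ω² = -1 - ω`: the part without `ω`. -/
def thM_B0 (n : ℕ) (α β : ℤ) : Matrix (thM_Cfg n) (thM_Cfg n) ℤ :=
  α • (1 : Matrix (thM_Cfg n) (thM_Cfg n) ℤ) - β • mdlPhaseRing n (-1) 0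

/-- the coefficient of `ω`. -/
def thM_B1 (n : ℕ) (β : ℤ) : Matrix (thM_Cfg n) (thM_Cfg n) ℤ :=
  -(β • (mdlSeamDU n - mdlSeamUD n))

/-- SPEC-level result of a real run: weighted sum of squares of the Clenshaw output. -/
def thM_runSq (n : ℕ) (B : Matrix (thM_Cfg n) (thM_Cfg n) ℤ) (D : ℤ) (q : List ℕ)
    (run : List ℕ) : ℤ :=
  ∑ x, (tsym_wtF n run (tsym_sec n x) : ℤ) * thC_zRun B D q (tsym_start n run) x ^ 2

/-- SPEC-level result of a `ℤ[ω]` run: weighted sum of the norms `u² - u v + v²`. -/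
def thM_runSqW (n : ℕ) (B0 B1 : Matrix (thM_Cfg n) (thM_Cfg n) ℤ) (D : ℤ) (q : List ℕ)
    (run : List ℕ) : ℤ :=
  ∑ x, (tsym_wtF n run (tsym_sec n x) : ℤ) *
    ((thC_wRun B0 B1 D q (tsym_start n run)).1 x ^ 2
      - (thC_wRun B0 B1 D q (tsym_start n run)).1 x * (thC_wRun B0 B1 D q (tsym_start n run)).2 x
      + (thC_wRun B0 B1 D q (tsym_start n run)).2 x ^ 2)

/-- SPEC-level total of a schedule. -/
def thM_total (n : ℕ) (B : Matrix (thM_Cfg n) (thM_Cfg n) ℤ) (D : ℤ) (q : List ℕ)
    (runs : List (List ℕ)) : ℤ := (runs.map (thM_runSq n B D q)).sum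

/-- SPEC-level total of a schedule, `ℤ[ω]` version. -/
def thM_totalW (n : ℕ) (B0 B1 : Matrix (thM_Cfg n) (thM_Cfg n) ℤ) (D : ℤ) (q : List ℕ)
    (runs : List (List ℕ)) : ℤ := (runs.map (thM_runSqW n B0 B1 D q)).sum

/-- The lemmas that are written on demand are cited here once, so that no two downstream files hold
their own copies (RULES.md, rule 6). -/
theorem thermalTableDefs_eqns_cited : True := by
  have := @thM_B.eq_1; have := @thM_B0.eq_1; have := @thM_B1.eq_1
  have := @thM_runSq.eq_1; have := @thM_runSqW.eq_1; have := @thM_total.eq_1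
  have := @thM_totalW.eq_1
  trivial

end Claimed.Agent.R297
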