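/-
Row 297 (spin-one Haldane gap), package D4 (helper81): the programs of the ring
`α - β H_n(z)`, `z = 1, -1, 0` (seam coefficient), for any weighted layout of `Fin (k+1) → Fin 3`.
-/
import Claimed.Agent.R297.LanesOps
import Claimed.Agent.R297.LanesRun
import Claimed.Agent.R297.ThermalTableDefs

namespace Claimed.Agent.R297

open Matrix

theorem lane_sum_map_flatMap {α β M : Type*} [AddMonoid M] (l : List α) (f : α → List β)
    (g : β → M) : ((l.flatMap f).map g).sum = (l.map fun a => ((f a).map g).sum).sum := by
  induction l with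
  | nil => simp
  | cons a l ih => simp [List.flatMap_cons, ih]

/-- the identity times `c`, nothing if `c = 0`. -/
def constOps (ι : Type) (w N c : ℕ) : List (SiteOp ι) := if c = 0 then [] else [constOp ι w N c]

theorem constOps_sum {ι : Type} [DecidableEq ι] (w N c : ℕ) :
    ((constOps ι w N c).map SiteOp.mat).sum = (c : ℤ) • (1 : Matrix ι ι ℤ) := by
  unfold constOps
  split_ifs with h
  · simp [h]
  · simp [constOp_mat]

theorem constOps_valid {ι : Type} {w N : ℕ} (hw : 0 < w) (L : LaneLayout ι N) (c : ℕ) :
    ∀ op ∈ constOps ι w N c, op.Valid w L := by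
  intro op hop
  unfold constOps at hop
  split_ifs at hop with h
  · simp at hop
  · rw [List.mem_singleton] at hop
    rw [hop]
    exact constOp_valid hw L c

section ring

variable {k : ℕ} (wgt : Fin (k + 1) → ℕ) (sm : ℕ → ℕ → ℕ) (w N : ℕ)

/-- the seam coefficient of a mode: `0 ↦ 1`, `1 ↦ -1`, otherwise `0`. -/
def ringZ (mode : ℕ) : ℤ := if mode = 0 then 1 else if mode = 1 then -1 else 0

/-- the two hops of the bond `(j, j+1)`: `U_j D_{j+1}` and `D_j U_{j+1}`. -/
def ringHops (β : ℕ) (j : Fin (k + 1)) : List (SiteOp (Fin (k + 1) → Fin 3)) :=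
  [hopOp wgt sm β (j + 1) j, hopOp wgt sm β j (j + 1)]

def ringPosB (β mode : ℕ) (j : Fin (k + 1)) : List (SiteOp (Fin (k + 1) → Fin 3)) :=
  antiOp sm β j (j + 1) :: (if (j : ℕ) = k ∧ mode = 1 then ringHops wgt sm β j else [])

def ringNegB (β mode : ℕ) (j : Fin (k + 1)) : List (SiteOp (Fin (k + 1) → Fin 3)) :=
  parOp sm β j (j + 1) :: (if (j : ℕ) = k → mode = 0 then ringHops wgt sm β j else [])

/-- the moves of `α - β H` with a plus sign. -/
def ringPos (αp β mode : ℕ) : List (SiteOp (Fin (k + 1) → Fin 3)) :=
  constOps _ w N αp ++ (List.finRange (k + 1)).flatMap (ringPosB wgt sm β mode)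

/-- the moves of `α - β H` with a minus sign. -/
def ringNeg (αn β mode : ℕ) : List (SiteOp (Fin (k + 1) → Fin 3)) :=
  constOps _ w N αn ++ (List.finRange (k + 1)).flatMap (ringNegB wgt sm β mode)

theorem ring_ne (hk : 1 ≤ k) (j : Fin (k + 1)) : j ≠ j + 1 := by
  intro h
  have h1 : (1 : Fin (k + 1)) = 0 := by
    have : j + 1 = j + 0 := by rw [add_zero]; exact h.symm
    exact add_left_cancel this
  have h2 := congrArg Fin.val h1
  rw [Fin.val_one', Fin.val_zero, Nat.mod_eq_of_lt (by omega)] at h2
  omega

theorem ringHops_sum (hk : 1 ≤ k) (β : ℕ) (j : Fin (k + 1)) :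
    ((ringHops wgt sm β j).map SiteOp.mat).sum
      = (β : ℤ) • (mdlSite j (mdlWU : Matrix (Fin 3) (Fin 3) ℤ) * mdlSite (j + 1) mdlWD
        + mdlSite j mdlWD * mdlSite (j + 1) mdlWU) := by
  unfold ringHops
  simp only [List.map_cons, List.map_nil, List.sum_cons, List.sum_nil, add_zero]
  rw [hopOp_mat wgt sm β (ring_ne hk j).symm, hopOp_mat wgt sm β (ring_ne hk j),
    mdlSite_comm (ring_ne hk j).symm, smul_add]

theorem ringB_sum (hk : 1 ≤ k) (β mode : ℕ) (j : Fin (k + 1)) :
    ((ringNegB wgt sm β mode j).map SiteOp.mat).sum - ((ringPosB wgt sm β mode j).map SiteOp.mat).sum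
      = (β : ℤ) • (mdlSite j (mdlWZ : Matrix (Fin 3) (Fin 3) ℤ) * mdlSite (finRotate (k + 1) j) mdlWZ
        + (if (j : ℕ) + 1 = k + 1 then ringZ mode else 1)
            • (mdlSite j mdlWU * mdlSite (finRotate (k + 1) j) mdlWD)
        + (if (j : ℕ) + 1 = k + 1 then ringZ mode else 1)
            • (mdlSite j mdlWD * mdlSite (finRotate (k + 1) j) mdlWU)) := by
  rw [finRotate_apply]
  unfold ringNegB ringPosB
  rw [List.map_cons, List.sum_cons, List.map_cons, List.sum_cons]
  have hpa := parOp_mat_sub sm β (ring_ne hk j)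
  have hh := ringHops_sum wgt sm hk β j
  have e1 : ∀ A B : Matrix (Fin (k + 1) → Fin 3) (Fin (k + 1) → Fin 3) ℤ,
      (parOp sm β j (j + 1)).mat + A - ((antiOp sm β j (j + 1)).mat + B)
        = ((parOp sm β j (j + 1)).mat - (antiOp sm β j (j + 1)).mat) + (A - B) := by
    intro A B; abel
  rw [e1, hpa]
  by_cases hj : (j : ℕ) = k
  · have hj' : (j : ℕ) + 1 = k + 1 := by omega
    simp only [hj, hj', true_and, if_true, forall_const]
    by_cases h0 : mode = 0
    · subst h0
      simp only [ringZ, if_true, one_ne_zero, zero_ne_one, if_false, List.map_nil, List.sum_nil,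
        sub_zero, hh, one_smul]
      rw [smul_add, smul_add, smul_add, add_assoc]
    · by_cases h1 : mode = 1
      · subst h1
        simp only [ringZ, if_true, one_ne_zero, if_false, List.map_nil, List.sum_nil,
          zero_sub, hh, neg_smul, one_smul]
        rw [smul_add, smul_add, smul_add, smul_neg, smul_neg]
        abel
      · simp only [ringZ, h0, h1, if_false, List.map_nil, List.sum_nil, sub_zero, zero_smul,
          add_zero]
  · have hj' : ¬ (j : ℕ) + 1 = k + 1 := by omega
    simp only [hj, hj', false_and, if_false, false_imp_iff, if_true, List.map_nil, List.sum_nil,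
      sub_zero, hh, one_smul]
    rw [smul_add, smul_add, smul_add, add_assoc]

/-- **The matrix of the ring programs.** -/
theorem ring_siteMat (hk : 1 ≤ k) (αp αn β mode : ℕ) :
    siteMat (ringPos wgt sm w N αp β mode) (ringNeg wgt sm w N αn β mode)
      = thM_B (k + 1) (ringZ mode) ((αp : ℤ) - αn) β := by
  unfold siteMat ringPos ringNeg thM_B mdlPhaseRing
  rw [List.map_append, List.sum_append, List.map_append, List.sum_append, constOps_sum,
    constOps_sum, lane_sum_map_flatMap, lane_sum_map_flatMap, ← Fin.sum_univ_def,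
    ← Fin.sum_univ_def, Finset.smul_sum]
  have := fun j => ringB_sum wgt sm hk β mode j
  simp only [← this]
  rw [Finset.sum_sub_distrib, sub_smul]
  abel

theorem ringPos_valid (hw : 0 < w) (hk : 1 ≤ k) {L : LaneLayout (Fin (k + 1) → Fin 3) N}
    (hL : IsWLayout L wgt) (hsm : IsSiteMask w L sm) (αp β mode : ℕ) :
    ∀ op ∈ ringPos wgt sm w N αp β mode, op.Valid w L := by
  intro op hop
  unfold ringPos at hop
  rcases List.mem_append.1 hop with h | h
  · exact constOps_valid hw L αp op h
  · obtain ⟨j, -, hj⟩ := List.mem_flatMap.1 h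
    unfold ringPosB at hj
    rcases List.mem_cons.1 hj with h1 | h1
    · rw [h1]; exact antiOp_valid hw hsm β _ _
    · split_ifs at h1
      · unfold ringHops at h1
        simp only [List.mem_cons, List.not_mem_nil, or_false] at h1
        rcases h1 with h2 | h2
        · rw [h2]; exact hopOp_valid hw hL hsm β (ring_ne hk j).symm
        · rw [h2]; exact hopOp_valid hw hL hsm β (ring_ne hk j)
      · simp at h1

theorem ringNeg_valid (hw : 0 < w) (hk : 1 ≤ k) {L : LaneLayout (Fin (k + 1) → Fin 3) N}
    (hL : IsWLayout L wgt) (hsm : IsSiteMask w L sm) (αn β mode : ℕ) :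
    ∀ op ∈ ringNeg wgt sm w N αn β mode, op.Valid w L := by
  intro op hop
  unfold ringNeg at hop
  rcases List.mem_append.1 hop with h | h
  · exact constOps_valid hw L αn op h
  · obtain ⟨j, -, hj⟩ := List.mem_flatMap.1 h
    unfold ringNegB at hj
    rcases List.mem_cons.1 hj with h1 | h1
    · rw [h1]; exact parOp_valid hw hsm β _ _
    · split_ifs at h1
      · unfold ringHops at h1
        simp only [List.mem_cons, List.not_mem_nil, or_false] at h1
        rcases h1 with h2 | h2
        · rw [h2]; exact hopOp_valid hw hL hsm β (ring_ne hk j).symm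
        · rw [h2]; exact hopOp_valid hw hL hsm β (ring_ne hk j)
      · simp at h1

end ring

/-- The lemmas that are written on demand are cited here once, so that no two downstream files hold
their own copies (RULES.md, rule 6). -/
theorem lanesRing_eqns_cited : True := by
  have := @constOps.eq_1; have := @constOps.eq_def; have := @constOps.congr_simp
  have := @ringZ.eq_1; have := @ringZ.eq_def; have := @ringZ.congr_simp
  have := @ringHops.eq_1; have := @ringHops.eq_def; have := @ringHops.congr_simp
  have := @ringPosB.eq_1; have := @ringPosB.eq_def; have := @ringPosB.congr_simp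
  have := @ringNegB.eq_1; have := @ringNegB.eq_def; have := @ringNegB.congr_simp
  have := @ringPos.eq_1; have := @ringPos.eq_def; have := @ringPos.congr_simp
  have := @ringNeg.eq_1; have := @ringNeg.eq_def; have := @ringNeg.congr_simp
  trivial

end Claimed.Agent.R297
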