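/-
Row 297 (spin-one Haldane gap), package D4 (helper81): the packed Clenshaw run of the ring
`α - β H_n(z)`, `z = ±1`, in the class layout.
-/
import Claimed.Agent.R297.LanesRing

namespace Claimed.Agent.R297

open Matrix

/-- the lane programs of the ring of `k+1` sites in the class layout. -/
def clsRingPos (w k c αp β mode : ℕ) : List LaneOp :=
  (ringPos (clsWgt k) (clsSiteMask w k c) w (3 ^ k) αp β mode).map (SiteOp.toLane (clsLayout k c))

def clsRingNeg (w k c αn β mode : ℕ) : List LaneOp :=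
  (ringNeg (clsWgt k) (clsSiteMask w k c) w (3 ^ k) αn β mode).map (SiteOp.toLane (clsLayout k c))

/-- the closed numerical side conditions. -/
def RingOK (w k c o a g αp αn β mode s : ℕ) : Prop :=
  0 < w ∧ 1 ≤ k ∧ o + g + 1 ≤ w ∧ a + 1 ≤ o ∧ s + 1 ≤ g ∧
    laneWeight (clsRingPos w k c αp β mode) ≤ 2 ^ g ∧
    (laneWeight (clsRingPos w k c αp β mode) + laneWeight (clsRingNeg w k c αn β mode)) * 2 ^ a
      < 2 ^ (o + g) ∧
    (laneWeight (clsRingPos w k c αp β mode) + laneWeight (clsRingNeg w k c αn β mode)) * 2 ^ a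
      + 2 ^ s * (2 ^ a + 1) ≤ 2 ^ (o + s)

instance (w k c o a g αp αn β mode s : ℕ) : Decidable (RingOK w k c o a g αp αn β mode s) := by
  unfold RingOK
  infer_instance

theorem RingOK.params {w k c o a g αp αn β mode s : ℕ} (h : RingOK w k c o a g αp αn β mode s) :
    SiteParams w o a g s (clsLayout k c)
      (ringPos (clsWgt k) (clsSiteMask w k c) w (3 ^ k) αp β mode)
      (ringNeg (clsWgt k) (clsSiteMask w k c) w (3 ^ k) αn β mode) := by
  obtain ⟨hw, hk, hogw, hao, hs, hwt, hR, hRs⟩ := h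
  have hpos := ringPos_valid (clsWgt k) (clsSiteMask w k c) w (3 ^ k) hw hk (clsLayout_isW k c)
    (clsSiteMask_is hw k c) αp β mode
  have hneg := ringNeg_valid (clsWgt k) (clsSiteMask w k c) w (3 ^ k) hw hk (clsLayout_isW k c)
    (clsSiteMask_is hw k c) αn β mode
  refine ⟨⟨hw, hogw, hao, ?_, ?_, hwt, hR⟩, hpos, hneg, hs, hRs⟩
  · intro op hop
    obtain ⟨op', h1, rfl⟩ := List.mem_map.1 hop
    exact (hpos op' h1).toLane
  · intro op hop
    obtain ⟨op', h1, rfl⟩ := List.mem_map.1 hop
    exact (hneg op' h1).toLane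

/-- the packed run of the ring. -/
def ringFull (w k c o a g αp αn β mode s Ev : ℕ) (q : List ℕ) : Option ℕ :=
  laneFull w (3 ^ k) o a g (clsRingPos w k c αp β mode) (clsRingNeg w k c αn β mode) s Ev q

/-- **The packed ring run computes `thC_zRun (thM_B ..)`.** -/
theorem ringFull_spec {w k c o a g αp αn β mode s Ev : ℕ}
    (hok : RingOK w k c o a g αp αn β mode s) {e : (Fin (k + 1) → Fin 3) → ℕ}
    (hEv : Ev = lanePack w (fun i => e (clsDec k c i)) (3 ^ k)) (he : ∀ x, e x ≤ 1)
    (he0 : ∀ y, ¬ digSum y % 3 = c % 3 → e y = 0) {q : List ℕ} (hq : ∀ t ∈ q, t ≤ 2 ^ a) {Y : ℕ}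
    (h : ringFull w k c o a g αp αn β mode s Ev q = some Y) :
    SiteRep w o (a + 2) (clsLayout k c) Y
      (thC_zRun (thM_B (k + 1) (ringZ mode) ((αp : ℤ) - αn) β) (2 ^ s) q (fun x => (e x : ℤ))) := by
  have := siteFull_spec hok.params (e := e) hEv he he0 hq h
  rwa [ring_siteMat _ _ _ _ hok.2.1] at this

/-- The lemmas that are written on demand are cited here once, so that no two downstream files hold
their own copies (RULES.md, rule 6). -/
theorem lanesRingRun_eqns_cited : True := by
  have := @clsRingPos.eq_1; have := @clsRingPos.eq_def; have := @clsRingPos.congr_simp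
  have := @clsRingNeg.eq_1; have := @clsRingNeg.eq_def; have := @clsRingNeg.congr_simp
  have := @RingOK.eq_1; have := @RingOK.eq_def; have := @RingOK.congr_simp
  have := @ringFull.eq_1; have := @ringFull.eq_def; have := @ringFull.congr_simp
  trivial

end Claimed.Agent.R297
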