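/-
Row 297 (spin-one Haldane gap), package D4 (helper81): the packed `ℤ[ω]` Clenshaw run of the ring
with the seam coefficients `(ω², ω)`, on two copies of the class layout.
-/
import Claimed.Agent.R297.LanesRingRun
import Claimed.Agent.R297.LanesDbl

namespace Claimed.Agent.R297

open Matrix

/-! ### generic facts on pairs -/

section generic

variable {ι : Type} {N : ℕ}

theorem dup_sum [DecidableEq ι] (w N : ℕ) (ops : List (SiteOp ι)) :
    ((ops.map (SiteOp.dup w N)).map SiteOp.mat).sum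
      = fromBlocks (ops.map SiteOp.mat).sum 0 0 (ops.map SiteOp.mat).sum := by
  induction ops with
  | nil => simp
  | cons op ops ih =>
    rw [List.map_cons, List.map_cons, List.sum_cons, ih, SiteOp.dup_mat, fromBlocks_add,
      List.map_cons, List.sum_cons]
    simp

theorem laneRep_lt {w N o a : ℕ} {z : ℕ → ℤ} {f : ℕ → ℕ} (hao : a + 1 ≤ o) (how : o + 1 ≤ w)
    (hf : ∀ i, i < N → (f i : ℤ) = z i + 2 ^ o ∧ -2 ^ a ≤ z i ∧ z i < 2 ^ a) :
    ∀ i, i < N → f i < 2 ^ w := by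
  intro i hi
  obtain ⟨h1, _, h3⟩ := hf i hi
  have p1 : (2 : ℤ) ^ a ≤ 2 ^ o := pow_le_pow_right₀ (by norm_num) (by omega)
  have p2 : (2 : ℤ) ^ (o + 1) ≤ 2 ^ w := pow_le_pow_right₀ (by norm_num) how
  have p3 : (2 : ℤ) ^ (o + 1) = 2 * 2 ^ o := by ring
  have : (f i : ℤ) < 2 ^ w := by linarith
  exact_mod_cast this

theorem SiteRep.dbl_fst {w o a Y : ℕ} {L : LaneLayout ι N} {z : ι ⊕ ι → ℤ} (hao : a + 1 ≤ o)
    (how : o + 1 ≤ w) (h : SiteRep w o a (dblLayout L) Y z) :
    SiteRep w o a L (Y % 2 ^ (w * N)) (fun x => z (Sum.inl x)) := by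
  obtain ⟨⟨f, rfl, hf⟩, h0⟩ := h
  have hlt := laneRep_lt hao how hf
  refine ⟨⟨f, ?_, fun i hi => ?_⟩, fun y hy => h0 (Sum.inl y) hy⟩
  · rw [two_mul]
    exact lanePack_mod fun i hi => hlt i (by omega)
  · have := hf i (by omega)
    dsimp only at this ⊢
    rwa [dblLayout_dec_lt L hi] at this

theorem SiteRep.dbl_snd {w o a Y : ℕ} {L : LaneLayout ι N} {z : ι ⊕ ι → ℤ} (hao : a + 1 ≤ o)
    (how : o + 1 ≤ w) (h : SiteRep w o a (dblLayout L) Y z) :
    SiteRep w o a L (Y >>> (w * N)) (fun x => z (Sum.inr x)) := by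
  obtain ⟨⟨f, rfl, hf⟩, h0⟩ := h
  have hlt := laneRep_lt hao how hf
  refine ⟨⟨fun i => f (N + i), ?_, fun i hi => ?_⟩, fun y hy => h0 (Sum.inr y) hy⟩
  · rw [two_mul]
    exact lanePack_shiftRight fun i hi => hlt i (by omega)
  · have := hf (N + i) (by omega)
    dsimp only at this ⊢
    rwa [dblLayout_dec_add L i] at this

theorem SiteRep.diff {w o a X1 X2 : ℕ} {L : LaneLayout ι N} {z1 z2 : ι → ℤ} (hw : 0 < w)
    (hao : a + 1 ≤ o) (h1 : SiteRep w o a L X1 z1) (h2 : SiteRep w o a L X2 z2) :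
    SiteRep w o (a + 1) L ((X1 + laneConst w N (2 ^ o)) - X2) (fun x => z1 x - z2 x) := by
  obtain ⟨⟨f1, rfl, hf1⟩, h10⟩ := h1
  obtain ⟨⟨f2, rfl, hf2⟩, h20⟩ := h2
  have p1 : (2 : ℤ) ^ (a + 1) ≤ 2 ^ o := pow_le_pow_right₀ (by norm_num) hao
  have p2 : (2 : ℤ) ^ (a + 1) = 2 * 2 ^ a := by ring
  have key : ∀ i, i < N → f2 i ≤ f1 i + 2 ^ o ∧
      ((f1 i + 2 ^ o - f2 i : ℕ) : ℤ) = z1 (L.dec i) - z2 (L.dec i) + 2 ^ o := by
    intro i hi
    obtain ⟨a1, a2, a3⟩ := hf1 i hi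
    obtain ⟨b1, b2, b3⟩ := hf2 i hi
    apply lane_sub_cast
    · push_cast
      rw [a1, b1]
      ring
    · linarith
  refine ⟨⟨fun i => f1 i + 2 ^ o - f2 i, ?_, fun i hi => ⟨(key i hi).2, ?_, ?_⟩⟩, fun y hy => ?_⟩
  · rw [laneConst_eq hw, lanePack_add, lanePack_sub fun i hi => (key i hi).1]
  · obtain ⟨a1, a2, a3⟩ := hf1 i hi
    obtain ⟨b1, b2, b3⟩ := hf2 i hi
    linarith
  · obtain ⟨a1, a2, a3⟩ := hf1 i hi
    obtain ⟨b1, b2, b3⟩ := hf2 i hi
    linarith
  · show z1 y - z2 y = 0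
    rw [h10 y hy, h20 y hy, sub_zero]

end generic

/-! ### the programs -/

section ring

variable {k : ℕ} (wgt : Fin (k + 1) → ℕ) (sm : ℕ → ℕ → ℕ) (w N : ℕ)

/-- the seam hop `U_k D_0`. -/
def seamUD (β : ℕ) : SiteOp (Fin (k + 1) → Fin 3) := hopOp wgt sm β (Fin.last k + 1) (Fin.last k)

/-- the seam hop `D_k U_0`. -/
def seamDU (β : ℕ) : SiteOp (Fin (k + 1) → Fin 3) := hopOp wgt sm β (Fin.last k) (Fin.last k + 1)

theorem seamUD_mat (hk : 1 ≤ k) (β : ℕ) :
    (seamUD wgt sm β).mat = (β : ℤ) • mdlSeamUD (k + 1) := by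
  unfold seamUD mdlSeamUD
  rw [hopOp_mat wgt sm β (ring_ne hk _).symm, mdlSite_comm (ring_ne hk _).symm,
    Finset.sum_eq_single (Fin.last k)]
  · rw [if_pos (by simp), finRotate_apply]
  · intro j _ hj
    rw [if_neg]
    intro h
    apply hj
    apply Fin.ext
    simp only [Fin.val_last]
    omega
  · intro h; exact absurd (Finset.mem_univ _) h

theorem seamDU_mat (hk : 1 ≤ k) (β : ℕ) :
    (seamDU wgt sm β).mat = (β : ℤ) • mdlSeamDU (k + 1) := by
  unfold seamDU mdlSeamDU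
  rw [hopOp_mat wgt sm β (ring_ne hk _), Finset.sum_eq_single (Fin.last k)]
  · rw [if_pos (by simp), finRotate_apply]
  · intro j _ hj
    rw [if_neg]
    intro h
    apply hj
    apply Fin.ext
    simp only [Fin.val_last]
    omega
  · intro h; exact absurd (Finset.mem_univ _) h

/-- the moves of `dblMat B0 B1` with a plus sign. -/
def ringWPos (αp β : ℕ) : List (SiteOp ((Fin (k + 1) → Fin 3) ⊕ (Fin (k + 1) → Fin 3))) :=
  (ringPos wgt sm w N αp β 2).map (SiteOp.dup w N) ++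
    [(seamUD wgt sm β).inLL, (seamDU wgt sm β).inRL w N, (seamUD wgt sm β).inLR N,
      (seamDU wgt sm β).inRR w N]

/-- the moves of `dblMat B0 B1` with a minus sign. -/
def ringWNeg (αn β : ℕ) : List (SiteOp ((Fin (k + 1) → Fin 3) ⊕ (Fin (k + 1) → Fin 3))) :=
  (ringNeg wgt sm w N αn β 2).map (SiteOp.dup w N) ++
    [(seamUD wgt sm β).inRL w N, (seamDU wgt sm β).inLR N]

theorem ringW_siteMat (hk : 1 ≤ k) (αp αn β : ℕ) :
    siteMat (ringWPos wgt sm w N αp β) (ringWNeg wgt sm w N αn β)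
      = dblMat (thM_B0 (k + 1) ((αp : ℤ) - αn) β) (thM_B1 (k + 1) β) := by
  have hb := ring_siteMat wgt sm w N hk αp αn β 2
  unfold siteMat at hb
  unfold siteMat ringWPos ringWNeg
  rw [List.map_append, List.sum_append, List.map_append, List.sum_append, dup_sum, dup_sum]
  simp only [List.map_cons, List.map_nil, List.sum_cons, List.sum_nil, add_zero,
    SiteOp.inLL_mat, SiteOp.inRL_mat, SiteOp.inLR_mat, SiteOp.inRR_mat, seamUD_mat wgt sm hk,
    seamDU_mat wgt sm hk, fromBlocks_add]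
  have hB : thM_B (k + 1) (ringZ 2) ((αp : ℤ) - αn) β
      = ((αp : ℤ) - αn) • (1 : Matrix (thM_Cfg (k + 1)) (thM_Cfg (k + 1)) ℤ)
        - (β : ℤ) • mdlPhaseRing (k + 1) 0 0 := by
    unfold thM_B ringZ
    simp
  rw [hB] at hb
  have hsub : ∀ A B C D A' B' C' D' : Matrix (thM_Cfg (k + 1)) (thM_Cfg (k + 1)) ℤ,
      fromBlocks A B C D - fromBlocks A' B' C' D' = fromBlocks (A - A') (B - B') (C - C') (D - D') := by
    intro A B C D A' B' C' D'
    ext (x | x) (y | y) <;> simp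
  rw [hsub]
  unfold dblMat thM_B0 thM_B1
  rw [mdlPhaseRing_affine (k + 1) (-1 : ℤ) 0]
  have hP : (List.map SiteOp.mat (ringPos wgt sm w N αp β 2)).sum
      = (List.map SiteOp.mat (ringNeg wgt sm w N αn β 2)).sum
        + (((αp : ℤ) - αn) • (1 : Matrix (thM_Cfg (k + 1)) (thM_Cfg (k + 1)) ℤ)
          - (β : ℤ) • mdlPhaseRing (k + 1) 0 0) := by
    rw [← hb]; abel
  congr 1
  · rw [hP]
    simp only [neg_smul, one_smul, zero_smul, smul_add, smul_neg]
    abel
  · simp only [smul_sub]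
    abel
  · simp only [smul_sub]
    abel
  · rw [hP]
    simp only [neg_smul, one_smul, zero_smul, smul_add, smul_neg, smul_sub]
    abel

theorem ringWPos_valid (hw : 0 < w) (hk : 1 ≤ k) {L : LaneLayout (Fin (k + 1) → Fin 3) N}
    (hL : IsWLayout L wgt) (hsm : IsSiteMask w L sm) (αp β : ℕ) :
    ∀ op ∈ ringWPos wgt sm w N αp β, op.Valid w (dblLayout L) := by
  have hUD : (seamUD wgt sm β).Valid w L := hopOp_valid hw hL hsm β (ring_ne hk _).symm
  have hDU : (seamDU wgt sm β).Valid w L := hopOp_valid hw hL hsm β (ring_ne hk _)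
  intro op hop
  unfold ringWPos at hop
  rcases List.mem_append.1 hop with h | h
  · obtain ⟨op', h1, rfl⟩ := List.mem_map.1 h
    exact SiteOp.dup_valid (ringPos_valid wgt sm w N hw hk hL hsm αp β 2 op' h1)
  · simp only [List.mem_cons, List.not_mem_nil, or_false] at h
    rcases h with h | h | h | h <;> rw [h]
    · exact SiteOp.inLL_valid hUD
    · exact SiteOp.inRL_valid hDU
    · exact SiteOp.inLR_valid hUD
    · exact SiteOp.inRR_valid hDU

theorem ringWNeg_valid (hw : 0 < w) (hk : 1 ≤ k) {L : LaneLayout (Fin (k + 1) → Fin 3) N}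
    (hL : IsWLayout L wgt) (hsm : IsSiteMask w L sm) (αn β : ℕ) :
    ∀ op ∈ ringWNeg wgt sm w N αn β, op.Valid w (dblLayout L) := by
  have hUD : (seamUD wgt sm β).Valid w L := hopOp_valid hw hL hsm β (ring_ne hk _).symm
  have hDU : (seamDU wgt sm β).Valid w L := hopOp_valid hw hL hsm β (ring_ne hk _)
  intro op hop
  unfold ringWNeg at hop
  rcases List.mem_append.1 hop with h | h
  · obtain ⟨op', h1, rfl⟩ := List.mem_map.1 h
    exact SiteOp.dup_valid (ringNeg_valid wgt sm w N hw hk hL hsm αn β 2 op' h1)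
  · simp only [List.mem_cons, List.not_mem_nil, or_false] at h
    rcases h with h | h <;> rw [h]
    · exact SiteOp.inRL_valid hUD
    · exact SiteOp.inLR_valid hDU

end ring

/-- The lemmas that are written on demand are cited here once, so that no two downstream files hold
their own copies (RULES.md, rule 6). -/
theorem lanesRingW_eqns_cited : True := by
  have := @seamUD.eq_1; have := @seamUD.eq_def; have := @seamUD.congr_simp
  have := @seamDU.eq_1; have := @seamDU.eq_def; have := @seamDU.congr_simp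
  have := @ringWPos.eq_1; have := @ringWPos.eq_def; have := @ringWPos.congr_simp
  have := @ringWNeg.eq_1; have := @ringWNeg.eq_def; have := @ringWNeg.congr_simp
  trivial

end Claimed.Agent.R297
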