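/-
Row 297 (spin-one Haldane gap), package D4 (helper81): the packed `ℤ[ω]` Clenshaw run of the ring
in two copies of the class layout; its three output vectors `u`, `v`, `u - v`.
-/
import Claimed.Agent.R297.LanesRingW

namespace Claimed.Agent.R297

open Matrix

def clsRingWPos (w k c αp β : ℕ) : List LaneOp :=
  (ringWPos (clsWgt k) (clsSiteMask w k c) w (3 ^ k) αp β).map
    (SiteOp.toLane (dblLayout (clsLayout k c)))

def clsRingWNeg (w k c αn β : ℕ) : List LaneOp :=
  (ringWNeg (clsWgt k) (clsSiteMask w k c) w (3 ^ k) αn β).map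
    (SiteOp.toLane (dblLayout (clsLayout k c)))

/-- the closed numerical side conditions. -/
def RingWOK (w k c o a g αp αn β s : ℕ) : Prop :=
  0 < w ∧ 1 ≤ k ∧ o + g + 1 ≤ w ∧ a + 4 ≤ o ∧ s + 1 ≤ g ∧
    laneWeight (clsRingWPos w k c αp β) ≤ 2 ^ g ∧
    (laneWeight (clsRingWPos w k c αp β) + laneWeight (clsRingWNeg w k c αn β)) * 2 ^ a
      < 2 ^ (o + g) ∧
    (laneWeight (clsRingWPos w k c αp β) + laneWeight (clsRingWNeg w k c αn β)) * 2 ^ a
      + 2 ^ s * (2 ^ a + 1) ≤ 2 ^ (o + s)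

instance (w k c o a g αp αn β s : ℕ) : Decidable (RingWOK w k c o a g αp αn β s) := by
  unfold RingWOK
  infer_instance

theorem RingWOK.params {w k c o a g αp αn β s : ℕ} (h : RingWOK w k c o a g αp αn β s) :
    SiteParams w o a g s (dblLayout (clsLayout k c))
      (ringWPos (clsWgt k) (clsSiteMask w k c) w (3 ^ k) αp β)
      (ringWNeg (clsWgt k) (clsSiteMask w k c) w (3 ^ k) αn β) := by
  obtain ⟨hw, hk, hogw, hao, hs, hwt, hR, hRs⟩ := h
  have hpos := ringWPos_valid (clsWgt k) (clsSiteMask w k c) w (3 ^ k) hw hk (clsLayout_isW k c)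
    (clsSiteMask_is hw k c) αp β
  have hneg := ringWNeg_valid (clsWgt k) (clsSiteMask w k c) w (3 ^ k) hw hk (clsLayout_isW k c)
    (clsSiteMask_is hw k c) αn β
  refine ⟨⟨hw, hogw, by omega, ?_, ?_, hwt, hR⟩, hpos, hneg, hs, hRs⟩
  · intro op hop
    obtain ⟨op', h1, rfl⟩ := List.mem_map.1 hop
    exact (hpos op' h1).toLane
  · intro op hop
    obtain ⟨op', h1, rfl⟩ := List.mem_map.1 hop
    exact (hneg op' h1).toLane

/-- the packed run of the ring on pairs (`2 * 3^k` lanes). -/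
def ringWFull (w k c o a g αp αn β s Ev : ℕ) (q : List ℕ) : Option ℕ :=
  laneFull w (2 * 3 ^ k) o a g (clsRingWPos w k c αp β) (clsRingWNeg w k c αn β) s Ev q

/-- **The packed pair run computes `thC_wRun (thM_B0 ..) (thM_B1 ..)`**: the low half of the output
stores `u`, the high half stores `v`, and `(low + bias) - high` stores `u - v`. -/
theorem ringWFull_spec {w k c o a g αp αn β s Ev : ℕ}
    (hok : RingWOK w k c o a g αp αn β s) {e : (Fin (k + 1) → Fin 3) → ℕ}
    (hEv : Ev = lanePack w (fun i => e (clsDec k c i)) (3 ^ k)) (he : ∀ x, e x ≤ 1)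
    (he0 : ∀ y, ¬ digSum y % 3 = c % 3 → e y = 0) {q : List ℕ} (hq : ∀ t ∈ q, t ≤ 2 ^ a) {Y : ℕ}
    (h : ringWFull w k c o a g αp αn β s Ev q = some Y) :
    SiteRep w o (a + 2) (clsLayout k c) (Y % 2 ^ (w * 3 ^ k))
        (thC_wRun (thM_B0 (k + 1) ((αp : ℤ) - αn) β) (thM_B1 (k + 1) β) (2 ^ s) q
          (fun x => (e x : ℤ))).1 ∧
      SiteRep w o (a + 2) (clsLayout k c) (Y >>> (w * 3 ^ k))
        (thC_wRun (thM_B0 (k + 1) ((αp : ℤ) - αn) β) (thM_B1 (k + 1) β) (2 ^ s) q
          (fun x => (e x : ℤ))).2 ∧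
      SiteRep w o (a + 3) (clsLayout k c)
        ((Y % 2 ^ (w * 3 ^ k) + laneConst w (3 ^ k) (2 ^ o)) - Y >>> (w * 3 ^ k))
        (fun x => (thC_wRun (thM_B0 (k + 1) ((αp : ℤ) - αn) β) (thM_B1 (k + 1) β) (2 ^ s) q
            (fun x => (e x : ℤ))).1 x
          - (thC_wRun (thM_B0 (k + 1) ((αp : ℤ) - αn) β) (thM_B1 (k + 1) β) (2 ^ s) q
            (fun x => (e x : ℤ))).2 x) := by
  obtain ⟨hw, hk, hogw, hao, -⟩ := id hok
  have hEv' : Ev = lanePack w
      (fun i => (Sum.elim e (fun _ => 0) : _ → ℕ) ((dblLayout (clsLayout k c)).dec i))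
      (2 * 3 ^ k) := by
    rw [dblLayout_pack w (clsLayout k c) (Sum.elim e (fun _ => 0))]
    simp only [Sum.elim_inl, Sum.elim_inr, lanePack_const_zero, Nat.zero_shiftLeft, add_zero]
    exact hEv
  have := siteFull_spec hok.params (e := Sum.elim e (fun _ => 0)) hEv'
    (by rintro (x | x) <;> simp [he])
    (by
      rintro (y | y) hy
      · exact he0 y hy
      · rfl) hq h
  rw [ringW_siteMat _ _ _ _ hk] at this
  have e1 : (fun x => ((Sum.elim e (fun _ => 0) : _ → ℕ) x : ℤ))
      = Sum.elim (fun x => (e x : ℤ)) (0 : (Fin (k + 1) → Fin 3) → ℤ) := by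
    funext x
    rcases x with x | x <;> simp
  rw [e1, thC_zRun_dbl] at this
  have h1 := SiteRep.dbl_fst (by omega) (by omega) this
  have h2 := SiteRep.dbl_snd (by omega) (by omega) this
  simp only [Sum.elim_inl, Sum.elim_inr] at h1 h2
  exact ⟨h1, h2, SiteRep.diff hw (by omega) h1 h2⟩

/-- The lemmas that are written on demand are cited here once, so that no two downstream files hold
their own copies (RULES.md, rule 6). -/
theorem lanesRingWRun_eqns_cited : True := by
  have := @clsRingWPos.eq_1; have := @clsRingWPos.eq_def; have := @clsRingWPos.congr_simp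
  have := @clsRingWNeg.eq_1; have := @clsRingWNeg.eq_def; have := @clsRingWNeg.congr_simp
  have := @RingWOK.eq_1; have := @RingWOK.eq_def; have := @RingWOK.congr_simp
  have := @ringWFull.eq_1; have := @ringWFull.eq_def; have := @ringWFull.congr_simp
  trivial

end Claimed.Agent.R297
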