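/-
Row 297 (spin-one Haldane gap), package D5 (helper159): weighted sum of squares of a biased packed
vector, computed with whole-vector operations only (absolute values, weights by masks, bit planes,
sum of all lanes by reduction modulo `2^w - 1`).
-/
import Claimed.Agent.R297.LanesStep

namespace Claimed.Agent.R297

open Finset

/-! ### sum of all lanes -/

/-- the sum of all lanes (if it is `< 2^w - 1`). -/
def lsqTotal (w X : ℕ) : ℕ := X % (2 ^ w - 1)

theorem lsq_two_pow_modEq (w : ℕ) : 2 ^ w ≡ 1 [MOD 2 ^ w - 1] := by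
  have h : 2 ^ w = (2 ^ w - 1) + 1 := by
    have := Nat.one_le_two_pow (n := w)
    omega
  unfold Nat.ModEq
  generalize 2 ^ w - 1 = m at h
  rw [h, Nat.add_mod_left]

theorem lsq_pack_modEq (w : ℕ) (f : ℕ → ℕ) (N : ℕ) :
    lanePack w f N ≡ ∑ i ∈ range N, f i [MOD 2 ^ w - 1] := by
  induction N with
  | zero => simp [Nat.ModEq]
  | succ N ih =>
    rw [lanePack_succ, sum_range_succ]
    refine Nat.ModEq.add ih ?_
    have h1 : 2 ^ (w * N) ≡ 1 [MOD 2 ^ w - 1] := by
      rw [pow_mul]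
      simpa using (lsq_two_pow_modEq w).pow N
    simpa using (Nat.ModEq.refl (f N)).mul h1

theorem lsqTotal_eq {w N : ℕ} {f : ℕ → ℕ} (h : ∑ i ∈ range N, f i < 2 ^ w - 1) :
    lsqTotal w (lanePack w f N) = ∑ i ∈ range N, f i := by
  unfold lsqTotal
  rw [lsq_pack_modEq w f N, Nat.mod_eq_of_lt h]

/-! ### bit planes -/

/-- the mask of the lanes whose bit `b` is set. -/
def lsqPlane (w N b V : ℕ) : ℕ := ((V >>> b) &&& laneConst w N 1) * (2 ^ w - 1)

theorem lsq_shr_one {w N b : ℕ} {v : ℕ → ℕ} (hw : 0 < w) (hv : ∀ i, i < N → v i < 2 ^ w)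
    (hb : b < w) :
    (lanePack w v N >>> b) &&& laneConst w N 1 = lanePack w (fun i => v i / 2 ^ b % 2) N := by
  have hpos : 1 ≤ 2 ^ (w - b) - 1 := by
    have : 2 ^ 1 ≤ 2 ^ (w - b) := Nat.pow_le_pow_right (by norm_num) (by omega)
    omega
  have hlt : 2 ^ (w - b) - 1 < 2 ^ w := by
    have h1 : 2 ^ (w - b) ≤ 2 ^ w := Nat.pow_le_pow_right (by norm_num) (Nat.sub_le _ _)
    omega
  have h1w : 1 < 2 ^ w := Nat.one_lt_two_pow (by omega)
  have hC : laneConst w N 1 = laneConst w N (2 ^ (w - b) - 1) &&& laneConst w N 1 := by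
    rw [laneConst_eq hw, laneConst_eq hw, lanePack_and hw (fun _ _ => hlt) (fun _ _ => h1w)]
    refine lanePack_congr fun i _ => ?_
    show 1 = (2 ^ (w - b) - 1) &&& 1
    rw [Nat.and_one_is_mod]
    obtain ⟨c, hc⟩ : ∃ c, w - b = c + 1 := ⟨w - b - 1, by omega⟩
    rw [hc, pow_succ]
    have : 0 < 2 ^ c := by positivity
    omega
  rw [hC, ← Nat.land_assoc, laneConst_eq hw, lanePack_shr_mask hw hv hb.le, laneConst_eq hw,
    lanePack_and hw (fun i hi => lt_of_le_of_lt (Nat.div_le_self _ _) (hv i hi))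
      (fun _ _ => h1w)]
  exact lanePack_congr fun i _ => Nat.and_one_is_mod _

theorem lsqPlane_eq {w N b : ℕ} {v : ℕ → ℕ} (hw : 0 < w) (hv : ∀ i, i < N → v i < 2 ^ w)
    (hb : b < w) :
    lsqPlane w N b (lanePack w v N)
      = lanePack w (fun i => if (v i).testBit b then 2 ^ w - 1 else 0) N := by
  unfold lsqPlane
  rw [lsq_shr_one hw hv hb, Nat.mul_comm, lanePack_mul_left]
  refine lanePack_congr fun i _ => ?_
  rw [Nat.testBit_eq_decide_div_mod_eq]
  have h2 : v i / 2 ^ b % 2 < 2 := Nat.mod_lt _ (by norm_num)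
  by_cases h : v i / 2 ^ b % 2 = 1
  · simp [h]
  · have h0 : v i / 2 ^ b % 2 = 0 := by omega
    simp [h0]

theorem lsq_bits (v k : ℕ) :
    ∑ b ∈ range k, 2 ^ b * (if v.testBit b then 1 else 0) = v % 2 ^ k := by
  induction k with
  | zero => simp [Nat.mod_one]
  | succ k ih =>
    rw [sum_range_succ, ih, Nat.mod_pow_succ, Nat.testBit_eq_decide_div_mod_eq]
    congr 2
    have h2 : v / 2 ^ k % 2 < 2 := Nat.mod_lt _ (by norm_num)
    by_cases h : v / 2 ^ k % 2 = 1
    · simp [h]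
    · have h0 : v / 2 ^ k % 2 = 0 := by omega
      simp [h0]

theorem lsq_list_sum_range (f : ℕ → ℕ) (n : ℕ) :
    ((List.range n).map f).sum = ∑ i ∈ range n, f i := by
  induction n with
  | zero => simp
  | succ n ih => rw [List.range_succ, List.map_append, List.sum_append, ih, sum_range_succ]; simp

/-! ### scalar product of two packed vectors -/

/-- `∑ u_i v_i`, the bits of `v` being read plane by plane. -/
def lsqDot (w N k U V : ℕ) : ℕ :=
  ((List.range k).map fun b => 2 ^ b * lsqTotal w (U &&& lsqPlane w N b V)).sum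

theorem lsqDot_eq {w N k : ℕ} {u v : ℕ → ℕ} (hw : 0 < w) (hk : k ≤ w)
    (hu : ∀ i, i < N → u i < 2 ^ w) (hv : ∀ i, i < N → v i < 2 ^ k)
    (hsum : ∑ i ∈ range N, u i < 2 ^ w - 1) :
    lsqDot w N k (lanePack w u N) (lanePack w v N) = ∑ i ∈ range N, u i * v i := by
  have hv' : ∀ i, i < N → v i < 2 ^ w := fun i hi =>
    lt_of_lt_of_le (hv i hi) (Nat.pow_le_pow_right (by norm_num) hk)
  unfold lsqDot
  rw [lsq_list_sum_range]
  have hterm : ∀ b ∈ range k, 2 ^ b * lsqTotal w (lanePack w u N &&& lsqPlane w N b (lanePack w v N))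
      = ∑ i ∈ range N, u i * (2 ^ b * (if (v i).testBit b then 1 else 0)) := by
    intro b hb
    have hb' : b < w := lt_of_lt_of_le (mem_range.1 hb) hk
    rw [lsqPlane_eq hw hv' hb', lanePack_mask hw hu (fun i => (v i).testBit b), lsqTotal_eq, mul_sum]
    · refine sum_congr rfl fun i _ => ?_
      by_cases h : (v i).testBit b <;> simp [h, Nat.mul_comm]
    · refine lt_of_le_of_lt (sum_le_sum fun i _ => ?_) hsum
      by_cases h : (v i).testBit b <;> simp [h]
  rw [sum_congr rfl hterm, sum_comm]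
  refine sum_congr rfl fun i hi => ?_
  rw [← mul_sum, lsq_bits, Nat.mod_eq_of_lt (hv i (mem_range.1 hi))]

/-! ### absolute values of a biased vector -/

/-- lanes `|z_i|` from lanes `z_i + 2^o`. -/
def lsqAbs (w N o X : ℕ) : ℕ :=
  ((X &&& (((X >>> o) &&& laneConst w N (2 ^ (w - o) - 1)) * (2 ^ w - 1)))
      - ((X >>> o) &&& laneConst w N (2 ^ (w - o) - 1)) * 2 ^ o)
    + ((laneConst w N (2 ^ o) - ((X >>> o) &&& laneConst w N (2 ^ (w - o) - 1)) * 2 ^ o)
      - (X - (X &&& (((X >>> o) &&& laneConst w N (2 ^ (w - o) - 1)) * (2 ^ w - 1)))))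

theorem lsqAbs_eq {w N o a X : ℕ} {z : ℕ → ℤ} (hao : a + 1 ≤ o) (how : o + 1 ≤ w)
    (h : LaneRep w N o a X z) :
    lsqAbs w N o X = lanePack w (fun i => (z i).natAbs) N := by
  obtain ⟨f, rfl, hf⟩ := h
  have hw : 0 < w := by omega
  have p_ao : (2 : ℤ) ^ (a + 1) ≤ 2 ^ o := pow_le_pow_right₀ (by norm_num) hao
  have p_a1 : (2 : ℤ) ^ (a + 1) = 2 * 2 ^ a := by ring
  have p_a : (0 : ℤ) < 2 ^ a := by positivity
  have p_o1 : (2 : ℕ) ^ (o + 1) = 2 * 2 ^ o := by ring
  have p_ow : (2 : ℕ) ^ (o + 1) ≤ 2 ^ w := Nat.pow_le_pow_right (by norm_num) how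
  have p_o : 0 < 2 ^ o := by positivity
  have hf2 : ∀ i, i < N → f i < 2 * 2 ^ o := by
    intro i hi
    obtain ⟨e1, -, e3⟩ := hf i hi
    have : (f i : ℤ) < 2 * 2 ^ o := by rw [e1]; linarith only [e3, p_ao, p_a1, p_a]
    exact_mod_cast this
  have hfw : ∀ i, i < N → f i < 2 ^ w := fun i hi => by have := hf2 i hi; omega
  set μ : ℕ → Bool := fun i => decide (2 ^ o ≤ f i) with hμ
  have hS : (lanePack w f N >>> o) &&& laneConst w N (2 ^ (w - o) - 1)
      = lanePack w (fun i => if μ i then 1 else 0) N := by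
    rw [laneConst_eq hw, lanePack_shr_mask hw hfw (by omega)]
    refine lanePack_congr fun i hi => ?_
    have h2 := hf2 i hi
    by_cases hc : 2 ^ o ≤ f i
    · have : f i / 2 ^ o = 1 := by
        apply Nat.div_eq_of_lt_le <;> omega
      simp [hμ, hc, this]
    · have : f i / 2 ^ o = 0 := Nat.div_eq_of_lt (by omega)
      simp [hμ, hc, this]
  have hM : lanePack w (fun i => if μ i then 1 else 0) N * (2 ^ w - 1)
      = lanePack w (fun i => if μ i then 2 ^ w - 1 else 0) N := by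
    rw [Nat.mul_comm, lanePack_mul_left]
    refine lanePack_congr fun i _ => ?_
    by_cases hc : μ i <;> simp [hc]
  have hSo : lanePack w (fun i => if μ i then 1 else 0) N * 2 ^ o
      = lanePack w (fun i => if μ i then 2 ^ o else 0) N := by
    rw [Nat.mul_comm, lanePack_mul_left]
    refine lanePack_congr fun i _ => ?_
    by_cases hc : μ i <;> simp [hc]
  unfold lsqAbs
  rw [hS, hM, hSo, lanePack_mask hw hfw μ, laneConst_eq hw]
  rw [lanePack_sub (f := fun i => if μ i then f i else 0) (g := fun i => if μ i then 2 ^ o else 0)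
      (fun i _ => by
        by_cases hc : 2 ^ o ≤ f i <;> simp [hμ, hc]),
    lanePack_sub (f := fun _ => 2 ^ o) (g := fun i => if μ i then 2 ^ o else 0)
      (fun i _ => by
        by_cases hc : μ i <;> simp [hc]),
    lanePack_sub (f := f) (g := fun i => if μ i then f i else 0)
      (fun i _ => by
        by_cases hc : μ i <;> simp [hc]),
    lanePack_sub (fun i _ => by
        by_cases hc : 2 ^ o ≤ f i
        · simp [hμ, hc]
        · simp only [hμ, hc, decide_false, Bool.false_eq_true, if_false]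
          omega),
    lanePack_add]
  refine lanePack_congr fun i hi => ?_
  obtain ⟨e1, -, -⟩ := hf i hi
  have e2 : ((2 ^ o : ℕ) : ℤ) = 2 ^ o := by push_cast; rfl
  by_cases hc : 2 ^ o ≤ f i
  · simp only [hμ, hc, decide_true, if_true]
    omega
  · simp only [hμ, hc, decide_false, Bool.false_eq_true, if_false]
    omega

/-! ### weights given by masks -/

/-- a weight `c` on the lanes selected by the mask `m` (meaning `μ`). -/
structure LsqW where
  μ : ℕ → Bool
  m : ℕ
  c : ℕ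

/-- lanes `wt_i * v_i`. -/
def lsqWeigh (A : ℕ) (ws : List LsqW) : ℕ := (ws.map fun p => p.c * (A &&& p.m)).sum

/-- the weight of lane `i`. -/
def lsqWt (ws : List LsqW) (i : ℕ) : ℕ := (ws.map fun p => if p.μ i then p.c else 0).sum

/-- a bound for all weights. -/
def lsqCap (ws : List LsqW) : ℕ := (ws.map LsqW.c).sum

theorem lsqWt_le (ws : List LsqW) (i : ℕ) : lsqWt ws i ≤ lsqCap ws := by
  induction ws with
  | nil => simp [lsqWt, lsqCap]
  | cons p ws ih =>
    unfold lsqWt lsqCap at ih ⊢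
    rw [List.map_cons, List.sum_cons, List.map_cons, List.sum_cons]
    refine add_le_add ?_ ih
    by_cases h : p.μ i <;> simp [h]

theorem lsqWeigh_eq {w N : ℕ} {v : ℕ → ℕ} (hw : 0 < w) (hv : ∀ i, i < N → v i < 2 ^ w)
    {ws : List LsqW}
    (hws : ∀ p ∈ ws, p.m = lanePack w (fun i => if p.μ i then 2 ^ w - 1 else 0) N) :
    lsqWeigh (lanePack w v N) ws = lanePack w (fun i => lsqWt ws i * v i) N := by
  induction ws with
  | nil =>
    simp only [lsqWeigh, lsqWt, List.map_nil, List.sum_nil, zero_mul]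
    symm
    unfold lanePack
    exact sum_eq_zero fun i _ => by simp
  | cons p ws ih =>
    have h1 := ih fun q hq => hws q (List.mem_cons_of_mem _ hq)
    unfold lsqWeigh lsqWt at h1 ⊢
    rw [List.map_cons, List.sum_cons, h1, hws p List.mem_cons_self, lanePack_mask hw hv,
      lanePack_mul_left, lanePack_add]
    refine lanePack_congr fun i _ => ?_
    rw [List.map_cons, List.sum_cons, add_mul]
    by_cases h : p.μ i <;> simp [h]

/-! ### the weighted sum of squares -/

/-- `∑ wt_i z_i^2` for the biased packed vector `X`; `k` bits of `|z_i|` are read, the weighted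
entries are cut into two pieces of `h` bits. -/
def lsqSum (w N o k h : ℕ) (ws : List LsqW) (X : ℕ) : ℕ :=
  lsqDot w N k (lsqWeigh (lsqAbs w N o X) ws &&& laneConst w N (2 ^ h - 1)) (lsqAbs w N o X)
    + 2 ^ h * lsqDot w N k ((lsqWeigh (lsqAbs w N o X) ws >>> h) &&& laneConst w N (2 ^ (w - h) - 1))
        (lsqAbs w N o X)

theorem lsqSum_eq {w N o a h X : ℕ} {z : ℕ → ℤ} {ws : List LsqW} (hao : a + 1 ≤ o)
    (how : o + 1 ≤ w) (hhw : 2 * h ≤ w) (hcap : lsqCap ws * 2 ^ a < 2 ^ (2 * h))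
    (hN : N * 2 ^ h < 2 ^ w - 1)
    (hws : ∀ p ∈ ws, p.m = lanePack w (fun i => if p.μ i then 2 ^ w - 1 else 0) N)
    (hX : LaneRep w N o a X z) :
    lsqSum w N o (a + 1) h ws X = ∑ i ∈ range N, lsqWt ws i * (z i).natAbs ^ 2 := by
  have hw : 0 < w := by omega
  have hv : ∀ i, i < N → (z i).natAbs ≤ 2 ^ a := by
    obtain ⟨f, -, hf⟩ := hX
    intro i hi
    obtain ⟨-, e2, e3⟩ := hf i hi
    have e4 : ((2 ^ a : ℕ) : ℤ) = 2 ^ a := by push_cast; rfl
    omega
  have hv1 : ∀ i, i < N → (z i).natAbs < 2 ^ (a + 1) := fun i hi => by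
    have := hv i hi
    have : 0 < 2 ^ a := by positivity
    rw [pow_succ]; omega
  have hvw : ∀ i, i < N → (z i).natAbs < 2 ^ w := fun i hi =>
    lt_of_lt_of_le (hv1 i hi) (Nat.pow_le_pow_right (by norm_num) (by omega))
  have hu2 : ∀ i, i < N → lsqWt ws i * (z i).natAbs < 2 ^ (2 * h) := fun i hi =>
    lt_of_le_of_lt (Nat.mul_le_mul (lsqWt_le ws i) (hv i hi)) hcap
  have huw : ∀ i, i < N → lsqWt ws i * (z i).natAbs < 2 ^ w := fun i hi =>
    lt_of_lt_of_le (hu2 i hi) (Nat.pow_le_pow_right (by norm_num) hhw)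
  have p_h : 0 < 2 ^ h := by positivity
  have p_hw : 2 ^ h ≤ 2 ^ w := Nat.pow_le_pow_right (by norm_num) (by omega)
  have hsumlt : ∀ g : ℕ → ℕ, (∀ i, i < N → g i < 2 ^ h) → ∑ i ∈ range N, g i < 2 ^ w - 1 := by
    intro g hg
    refine lt_of_le_of_lt ?_ hN
    calc ∑ i ∈ range N, g i ≤ ∑ _i ∈ range N, 2 ^ h :=
          sum_le_sum fun i hi => (hg i (mem_range.1 hi)).le
      _ = N * 2 ^ h := by simp
  unfold lsqSum
  rw [lsqAbs_eq hao how hX, lsqWeigh_eq hw hvw hws]
  have hlo : lanePack w (fun i => lsqWt ws i * (z i).natAbs) N &&& laneConst w N (2 ^ h - 1)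
      = lanePack w (fun i => lsqWt ws i * (z i).natAbs % 2 ^ h) N := by
    rw [laneConst_eq hw, lanePack_and hw huw (fun _ _ => by omega)]
    exact lanePack_congr fun i _ => Nat.and_two_pow_sub_one_eq_mod _ _
  have hhi : (lanePack w (fun i => lsqWt ws i * (z i).natAbs) N >>> h)
        &&& laneConst w N (2 ^ (w - h) - 1)
      = lanePack w (fun i => lsqWt ws i * (z i).natAbs / 2 ^ h) N := by
    rw [laneConst_eq hw, lanePack_shr_mask hw huw (by omega)]
  have hlo_lt : ∀ i, i < N → lsqWt ws i * (z i).natAbs % 2 ^ h < 2 ^ h := fun i _ =>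
    Nat.mod_lt _ p_h
  have hhi_lt : ∀ i, i < N → lsqWt ws i * (z i).natAbs / 2 ^ h < 2 ^ h := fun i hi => by
    rw [Nat.div_lt_iff_lt_mul p_h, ← pow_add]
    have := hu2 i hi
    rwa [two_mul] at this
  rw [hlo, hhi,
    lsqDot_eq hw (by omega) (fun i hi => lt_of_lt_of_le (hlo_lt i hi) p_hw) hv1
      (hsumlt _ hlo_lt),
    lsqDot_eq hw (by omega) (fun i hi => lt_of_lt_of_le (hhi_lt i hi) p_hw) hv1
      (hsumlt _ hhi_lt),
    mul_sum, ← sum_add_distrib]
  refine sum_congr rfl fun i _ => ?_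
  have := Nat.mod_add_div (lsqWt ws i * (z i).natAbs) (2 ^ h)
  calc lsqWt ws i * (z i).natAbs % 2 ^ h * (z i).natAbs
        + 2 ^ h * (lsqWt ws i * (z i).natAbs / 2 ^ h * (z i).natAbs)
      = (lsqWt ws i * (z i).natAbs % 2 ^ h + 2 ^ h * (lsqWt ws i * (z i).natAbs / 2 ^ h))
          * (z i).natAbs := by ring
    _ = lsqWt ws i * (z i).natAbs ^ 2 := by rw [this]; ring

theorem lsqSum_cast {w N o a h X : ℕ} {z : ℕ → ℤ} {ws : List LsqW} (hao : a + 1 ≤ o)
    (how : o + 1 ≤ w) (hhw : 2 * h ≤ w) (hcap : lsqCap ws * 2 ^ a < 2 ^ (2 * h))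
    (hN : N * 2 ^ h < 2 ^ w - 1)
    (hws : ∀ p ∈ ws, p.m = lanePack w (fun i => if p.μ i then 2 ^ w - 1 else 0) N)
    (hX : LaneRep w N o a X z) :
    ((lsqSum w N o (a + 1) h ws X : ℕ) : ℤ) = ∑ i ∈ range N, (lsqWt ws i : ℤ) * z i ^ 2 := by
  rw [lsqSum_eq hao how hhw hcap hN hws hX]
  push_cast
  refine sum_congr rfl fun i _ => ?_
  rw [sq_abs]

/-- The lemmas that are written on demand are cited here once, so that no two downstream files hold
their own copies (RULES.md, rule 6). -/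
theorem lanesSq_eqns_cited : True := by
  have := @lsqTotal.eq_1; have := @lsqTotal.eq_def; have := @lsqTotal.congr_simp
  have := @lsqPlane.eq_1; have := @lsqPlane.eq_def; have := @lsqPlane.congr_simp
  have := @lsqDot.eq_1; have := @lsqDot.eq_def; have := @lsqDot.congr_simp
  have := @lsqAbs.eq_1; have := @lsqAbs.eq_def; have := @lsqAbs.congr_simp
  have := @lsqWeigh.eq_1; have := @lsqWeigh.eq_def; have := @lsqWeigh.congr_simp
  have := @lsqWt.eq_1; have := @lsqWt.eq_def; have := @lsqWt.congr_simp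
  have := @lsqCap.eq_1; have := @lsqCap.eq_def; have := @lsqCap.congr_simp
  have := @lsqSum.eq_1; have := @lsqSum.eq_def; have := @lsqSum.congr_simp
  trivial

end Claimed.Agent.R297
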