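/-
Row 297 (spin-one Haldane gap), package D4f (helper159): exact digit-sum masks, sector masks of the
ternary layouts, and the weighted sum of squares on configurations.
-/
import Claimed.Agent.R297.LanesMask
import Claimed.Agent.R297.LanesSq

namespace Claimed.Agent.R297

open Finset

/-! ### masks of the lanes with a given digit sum -/

/-- one more digit: `new s = e s + (e (s-1) <<< L) + (e (s-2) <<< 2L)`; `p1`, `p2` are the two
previous entries of the old list. -/
def secStep (L : ℕ) : ℕ → ℕ → List ℕ → List ℕ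
  | p1, p2, [] => [(p1 <<< L) + (p2 <<< (2 * L)), p1 <<< (2 * L)]
  | p1, p2, e :: l => (e + (p1 <<< L) + (p2 <<< (2 * L))) :: secStep L e p1 l

/-- the list (indexed by `s`) of the masks of the lanes `i < 3^k` with digit sum `s`. -/
def sumMasks (w : ℕ) : ℕ → List ℕ
  | 0 => [2 ^ w - 1]
  | k + 1 => secStep (w * 3 ^ k) 0 0 (sumMasks w k)

theorem secStep_getD (L : ℕ) (l : List ℕ) (p1 p2 s : ℕ) :
    (secStep L p1 p2 l).getD s 0
      = l.getD s 0 + ((if s = 0 then p1 else l.getD (s - 1) 0) <<< L)
        + ((if s = 0 then p2 else if s = 1 then p1 else l.getD (s - 2) 0) <<< (2 * L)) := by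
  induction l generalizing p1 p2 s with
  | nil =>
    match s with
    | 0 => simp [secStep]
    | 1 => simp [secStep]
    | s + 2 => simp [secStep]
  | cons e l ih =>
    match s with
    | 0 => simp [secStep]
    | 1 =>
      rw [secStep, List.getD_cons_succ, ih]
      simp
    | 2 =>
      rw [secStep, List.getD_cons_succ, ih]
      simp
    | s + 3 =>
      rw [secStep, List.getD_cons_succ, ih]
      simp

theorem sec_isMask_zero (w N : ℕ) : IsMask w N 0 (fun _ => false) := by
  unfold IsMask
  exact (lanePack_eq_zero fun _ _ => by simp).symm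

theorem sec_three {w k : ℕ} {m0 m1 m2 : ℕ} {μ0 μ1 μ2 μ : ℕ → Bool}
    (h0 : IsMask w (3 ^ k) m0 μ0) (h1 : IsMask w (3 ^ k) m1 μ1) (h2 : IsMask w (3 ^ k) m2 μ2)
    (e0 : ∀ i, i < 3 ^ k → μ0 i = μ i) (e1 : ∀ i, i < 3 ^ k → μ1 i = μ (3 ^ k + i))
    (e2 : ∀ i, i < 3 ^ k → μ2 i = μ (2 * 3 ^ k + i)) :
    IsMask w (3 ^ (k + 1)) (m0 + (m1 <<< (w * 3 ^ k)) + (m2 <<< (2 * (w * 3 ^ k)))) μ := by
  unfold IsMask at *
  rw [pow_succ, Nat.mul_comm (3 ^ k) 3, lanePack_three, h0, h1, h2]
  congr 1
  · congr 1
    · exact lanePack_congr fun i hi => by rw [e0 i hi]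
    · congr 1
      exact lanePack_congr fun i hi => by rw [e1 i hi]
  · congr 1
    exact lanePack_congr fun i hi => by rw [e2 i hi]

theorem sumMasks_isMask (w k s : ℕ) :
    IsMask w (3 ^ k) ((sumMasks w k).getD s 0) (fun i => decide (digSum (ternDec k i) = s)) := by
  induction k generalizing s with
  | zero =>
    match s with
    | 0 => simp [IsMask, sumMasks, lanePack, digSum]
    | s + 1 => simp [IsMask, sumMasks, lanePack, digSum]
  | succ k ih =>
    have hz : ∀ L : ℕ, (0 : ℕ) <<< L = 0 := fun L => by simp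
    show IsMask w (3 ^ (k + 1)) ((secStep (w * 3 ^ k) 0 0 (sumMasks w k)).getD s 0) _
    rw [secStep_getD]
    have d0 : ∀ i, i < 3 ^ k → digSum (ternDec (k + 1) i) = digSum (ternDec k i) := by
      intro i hi
      have := digSum_ternDec_succ (t := 0) hi (by norm_num)
      simpa using this
    have d1 : ∀ i, i < 3 ^ k → digSum (ternDec (k + 1) (3 ^ k + i)) = digSum (ternDec k i) + 1 := by
      intro i hi
      have := digSum_ternDec_succ (t := 1) hi (by norm_num)
      rwa [one_mul, Nat.add_comm i] at this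
    have d2 : ∀ i, i < 3 ^ k →
        digSum (ternDec (k + 1) (2 * 3 ^ k + i)) = digSum (ternDec k i) + 2 := by
      intro i hi
      have := digSum_ternDec_succ (t := 2) hi (by norm_num)
      rwa [Nat.add_comm i] at this
    have m1 : IsMask w (3 ^ k) (if s = 0 then 0 else (sumMasks w k).getD (s - 1) 0)
        (fun i => decide (digSum (ternDec k i) + 1 = s)) := by
      by_cases hs : s = 0
      · rw [if_pos hs]
        exact (sec_isMask_zero w _).congr fun i _ => by simp [hs]
      · rw [if_neg hs]
        exact (ih (s - 1)).congr fun i _ => by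
          rw [decide_eq_decide]; omega
    have m2 : IsMask w (3 ^ k)
        (if s = 0 then 0 else if s = 1 then 0 else (sumMasks w k).getD (s - 2) 0)
        (fun i => decide (digSum (ternDec k i) + 2 = s)) := by
      by_cases hs : s = 0
      · rw [if_pos hs]
        exact (sec_isMask_zero w _).congr fun i _ => by simp [hs]
      · rw [if_neg hs]
        by_cases hs1 : s = 1
        · rw [if_pos hs1]
          exact (sec_isMask_zero w _).congr fun i _ => by simp [hs1]
        · rw [if_neg hs1]
          exact (ih (s - 2)).congr fun i _ => by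
            rw [decide_eq_decide]; omega
    exact sec_three (ih s) m1 m2 (fun i hi => by rw [d0 i hi]) (fun i hi => by rw [d1 i hi])
      (fun i hi => by rw [d2 i hi])

/-! ### sector masks of the class layout -/

/-- mask of the lanes of the class layout whose configuration has digit sum `σ`
(`σ ≡ c` modulo `3`). -/
def secMask (w k σ : ℕ) : ℕ :=
  (sumMasks w k).getD σ 0 + (if σ = 0 then 0 else (sumMasks w k).getD (σ - 1) 0)
    + (if σ = 0 then 0 else if σ = 1 then 0 else (sumMasks w k).getD (σ - 2) 0)

theorem digSum_clsDec (k c i : ℕ) :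
    digSum (clsDec k c i) = digSum (ternDec k i) + (c + 2 * digSum (ternDec k i)) % 3 := by
  rw [digSum_castSucc, clsDec_last]
  have : (fun j : Fin k => clsDec k c i j.castSucc) = ternDec k i := by
    funext j; exact clsDec_castSucc k c i j
  rw [this]

theorem secMask_isMask (w k c σ : ℕ) (hσ : σ % 3 = c % 3) :
    IsMask w (3 ^ k) (secMask w k σ) (fun i => decide (digSum (clsDec k c i) = σ)) := by
  have m0 := sumMasks_isMask w k σ
  have m1 : IsMask w (3 ^ k) (if σ = 0 then 0 else (sumMasks w k).getD (σ - 1) 0)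
      (fun i => decide (digSum (ternDec k i) + 1 = σ)) := by
    by_cases hs : σ = 0
    · rw [if_pos hs]
      exact (sec_isMask_zero w _).congr fun i _ => by simp [hs]
    · rw [if_neg hs]
      exact (sumMasks_isMask w k (σ - 1)).congr fun i _ => by
        rw [decide_eq_decide]; omega
  have m2 : IsMask w (3 ^ k)
      (if σ = 0 then 0 else if σ = 1 then 0 else (sumMasks w k).getD (σ - 2) 0)
      (fun i => decide (digSum (ternDec k i) + 2 = σ)) := by
    by_cases hs : σ = 0
    · rw [if_pos hs]
      exact (sec_isMask_zero w _).congr fun i _ => by simp [hs]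
    · rw [if_neg hs]
      by_cases hs1 : σ = 1
      · rw [if_pos hs1]
        exact (sec_isMask_zero w _).congr fun i _ => by simp [hs1]
      · rw [if_neg hs1]
        exact (sumMasks_isMask w k (σ - 2)).congr fun i _ => by
          rw [decide_eq_decide]; omega
  have m01 := m0.add m1 (fun i _ => by
    simp only [decide_eq_true_eq]; omega)
  have m012 := m01.add m2 (fun i _ => by
    simp only [Bool.or_eq_true, decide_eq_true_eq]; omega)
  unfold secMask
  refine m012.congr fun i _ => ?_
  rw [digSum_clsDec]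
  generalize digSum (ternDec k i) = d
  by_cases h : d + (c + 2 * d) % 3 = σ
  · simp only [h, decide_true, Bool.or_eq_true, decide_eq_true_eq]
    omega
  · simp only [h, decide_false, Bool.or_eq_false_iff, decide_eq_false_iff_not]
    omega

/-- the name used in helper81's skeleton. -/
def clsSectorMask (w k M : ℕ) : ℕ := secMask w k M

theorem clsSectorMask_isMask (w k c M : ℕ) (hM : M % 3 = c % 3) :
    IsMask w (3 ^ k) (clsSectorMask w k M) (fun i => decide (digSum (clsDec k c i) = M)) :=
  secMask_isMask w k c M hM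

/-! ### weights depending on the digit sum -/

/-- the weight list for `lsqSum` in the class layout; `wts` = list of (digit sum, weight). -/
def secWs (w k c : ℕ) (wts : List (ℕ × ℕ)) : List LsqW :=
  wts.map fun p => ⟨fun i => decide (digSum (clsDec k c i) = p.1), secMask w k p.1, p.2⟩

/-- the weight of the digit sum `σ`. -/
def secWt (wts : List (ℕ × ℕ)) (σ : ℕ) : ℕ := (wts.map fun p => if σ = p.1 then p.2 else 0).sum

theorem secWs_valid (w k c : ℕ) (wts : List (ℕ × ℕ)) (h : ∀ p ∈ wts, p.1 % 3 = c % 3) :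
    ∀ q ∈ secWs w k c wts, q.m = lanePack w (fun i => if q.μ i then 2 ^ w - 1 else 0) (3 ^ k) := by
  intro q hq
  obtain ⟨p, hp, rfl⟩ := List.mem_map.1 hq
  exact secMask_isMask w k c p.1 (h p hp)

theorem secWs_wt (w k c : ℕ) (wts : List (ℕ × ℕ)) (i : ℕ) :
    lsqWt (secWs w k c wts) i = secWt wts (digSum (clsDec k c i)) := by
  unfold lsqWt secWs secWt
  rw [List.map_map]
  congr 1
  refine List.map_congr_left fun p _ => ?_
  simp

theorem secWs_cap (w k c : ℕ) (wts : List (ℕ × ℕ)) :
    lsqCap (secWs w k c wts) = (wts.map Prod.snd).sum := by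
  unfold lsqCap secWs
  rw [List.map_map]
  rfl

/-! ### from lanes to configurations -/

theorem sec_sum_layout {ι : Type} [Fintype ι] {N : ℕ} (L : LaneLayout ι N) {M : Type}
    [AddCommMonoid M] (F : ι → M) (hF : ∀ y, ¬ L.S y → F y = 0) :
    ∑ i ∈ range N, F (L.dec i) = ∑ x, F x := by
  classical
  have h1 : ∑ x, F x = ∑ x ∈ univ.filter (fun x => L.S x), F x := by
    rw [sum_filter]
    exact sum_congr rfl fun x _ => by
      by_cases h : L.S x
      · rw [if_pos h]
      · rw [if_neg h, hF x h]
  rw [h1]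
  refine sum_bij' (fun i _ => L.dec i) (fun x _ => L.code x) ?_ ?_ ?_ ?_ ?_
  · intro i hi
    exact mem_filter.2 ⟨mem_univ _, L.dec_mem i (mem_range.1 hi)⟩
  · intro x hx
    exact mem_range.2 (L.code_lt x (mem_filter.1 hx).2)
  · intro i hi
    exact L.code_dec i (mem_range.1 hi)
  · intro x hx
    exact L.dec_code x (mem_filter.1 hx).2
  · intro i _
    rfl

/-- **Weighted sum of squares on configurations (class layout).** -/
theorem secSum_cls {w k c o a h X : ℕ} {z : (Fin (k + 1) → Fin 3) → ℤ} {wts : List (ℕ × ℕ)}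
    (hao : a + 1 ≤ o) (how : o + 1 ≤ w) (hhw : 2 * h ≤ w)
    (hcap : (wts.map Prod.snd).sum * 2 ^ a < 2 ^ (2 * h)) (hN : 3 ^ k * 2 ^ h < 2 ^ w - 1)
    (hwts : ∀ p ∈ wts, p.1 % 3 = c % 3) (hX : SiteRep w o a (clsLayout k c) X z) :
    ((lsqSum w (3 ^ k) o (a + 1) h (secWs w k c wts) X : ℕ) : ℤ)
      = ∑ x, (secWt wts (digSum x) : ℤ) * z x ^ 2 := by
  rw [lsqSum_cast hao how hhw (by rw [secWs_cap]; exact hcap) hN (secWs_valid w k c wts hwts) hX.1]
  rw [← sec_sum_layout (clsLayout k c) (fun x => (secWt wts (digSum x) : ℤ) * z x ^ 2)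
    (fun y hy => by rw [hX.2 y hy]; simp)]
  refine sum_congr rfl fun i _ => ?_
  rw [secWs_wt]
  rfl

/-! ### the same for the full layout -/

/-- the weight list for `lsqSum` in the full layout. -/
def secWsT (w k : ℕ) (wts : List (ℕ × ℕ)) : List LsqW :=
  wts.map fun p => ⟨fun i => decide (digSum (ternDec k i) = p.1), (sumMasks w k).getD p.1 0, p.2⟩

theorem secWsT_valid (w k : ℕ) (wts : List (ℕ × ℕ)) :
    ∀ q ∈ secWsT w k wts, q.m = lanePack w (fun i => if q.μ i then 2 ^ w - 1 else 0) (3 ^ k) := by
  intro q hq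
  obtain ⟨p, _, rfl⟩ := List.mem_map.1 hq
  exact sumMasks_isMask w k p.1

theorem secWsT_wt (w k : ℕ) (wts : List (ℕ × ℕ)) (i : ℕ) :
    lsqWt (secWsT w k wts) i = secWt wts (digSum (ternDec k i)) := by
  unfold lsqWt secWsT secWt
  rw [List.map_map]
  congr 1
  refine List.map_congr_left fun p _ => ?_
  simp

theorem secWsT_cap (w k : ℕ) (wts : List (ℕ × ℕ)) :
    lsqCap (secWsT w k wts) = (wts.map Prod.snd).sum := by
  unfold lsqCap secWsT
  rw [List.map_map]
  rfl

/-- **Weighted sum of squares on configurations (full layout).** -/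
theorem secSum_tern {w k o a h X : ℕ} {z : (Fin k → Fin 3) → ℤ} {wts : List (ℕ × ℕ)}
    (hao : a + 1 ≤ o) (how : o + 1 ≤ w) (hhw : 2 * h ≤ w)
    (hcap : (wts.map Prod.snd).sum * 2 ^ a < 2 ^ (2 * h)) (hN : 3 ^ k * 2 ^ h < 2 ^ w - 1)
    (hX : SiteRep w o a (ternLayout k) X z) :
    ((lsqSum w (3 ^ k) o (a + 1) h (secWsT w k wts) X : ℕ) : ℤ)
      = ∑ x, (secWt wts (digSum x) : ℤ) * z x ^ 2 := by
  rw [lsqSum_cast hao how hhw (by rw [secWsT_cap]; exact hcap) hN (secWsT_valid w k wts) hX.1]
  rw [← sec_sum_layout (ternLayout k) (fun x => (secWt wts (digSum x) : ℤ) * z x ^ 2)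
    (fun y hy => absurd trivial hy)]
  refine sum_congr rfl fun i _ => ?_
  rw [secWsT_wt]
  rfl

/-- The lemmas that are written on demand are cited here once, so that no two downstream files hold
their own copies (RULES.md, rule 6). -/
theorem lanesSector_eqns_cited : True := by
  have := @secStep.eq_1; have := @secStep.eq_def; have := @secStep.congr_simp
  have := @sumMasks.eq_1; have := @sumMasks.eq_def; have := @sumMasks.congr_simp
  have := @secMask.eq_1; have := @secMask.eq_def; have := @secMask.congr_simp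
  have := @clsSectorMask.eq_1; have := @clsSectorMask.eq_def; have := @clsSectorMask.congr_simp
  have := @secWs.eq_1; have := @secWs.eq_def; have := @secWs.congr_simp
  have := @secWt.eq_1; have := @secWt.eq_def; have := @secWt.congr_simp
  have := @secWsT.eq_1; have := @secWsT.eq_def; have := @secWsT.congr_simp
  have := @secStep.eq_2
  have := @sumMasks.eq_2
  trivial

end Claimed.Agent.R297
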