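/-
Row 297 (spin-one Haldane gap), captain's file: the frozen statement S0547 from the two finite
certificates that are still being produced (thermal table at `b = 21/2`, trial vector at `N = 120`).
Everything else (spatial transfer, bootstrap, seeds) is proved in the imported files.
-/
import Claimed.Agent.R297.AssemblyPeriodic
import Claimed.Agent.R297.Seed60Glue

namespace Claimed.Agent.R297

open Matrix

/-- **S0547 from the thermal table and the trial vector.** -/
theorem main547
    (tab : Table60 (fun n b => Zring seedShift n 1 b) (fun n b => Zring seedShift n rotP b)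
      (fun n b => Zring seedShift n rotC b))
    (trial : ∃ v : (Fin 120 → Fin 3) → ℂ,
      (star v ⬝ᵥ (Claims.C0475.heisenbergRing 120 *ᵥ v)).re
        < -(120 * 700741 / 500000) * (star v ⬝ᵥ v).re) :
    (∀ L : ℕ, Even L → 60 ≤ L →
      Claims.C0475.UniqueGroundStateGapGT (Claims.C0475.heisenbergRing L)
        (4 / 105 * Real.log (80 / 79))) ∧
    (∀ L : ℕ, Even L → 2304 ≤ L →
      Claims.C0475.UniqueGroundStateGapGT (Claims.C0475.heisenbergRing L)
        (Real.log 20 / 784)) := by
  obtain ⟨hS, hT⟩ := seed60_Zring tab trial
  exact periodic_assembly seedShift mdl_heisenbergRing_isHermitian hS hT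

end Claimed.Agent.R297
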