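/-
Row 297 (Haldane gap), package M (model lemmas), owner helper100.

One-site facts used by the energy bounds: the real antisymmetric matrices `mdlE_G α`
(`(G_α)_{βγ} = ε_{αβγ}`), the unitary `mdlE_V` from the Cartesian to the frozen weight basis,
`S^α = V (-i G_α) Vᴴ`, and the implementation of the lattice rotations on the spin matrices.
-/
import Claimed.Agent.R297.ModelHerm

set_option autoImplicit false

namespace Claimed.Agent.R297

open Matrix Complex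

/-- `(G_α)_{βγ} = ε_{αβγ}` (integer, antisymmetric). -/
def mdlE_G : Fin 3 → Matrix (Fin 3) (Fin 3) ℤ :=
  ![!![0, 0, 0; 0, 0, 1; 0, -1, 0], !![0, 0, -1; 0, 0, 0; 1, 0, 0], !![0, 1, 0; -1, 0, 0; 0, 0, 0]]

/-- Complex version of `mdlE_G`. -/
def mdlE_Gc (α : Fin 3) : Matrix (Fin 3) (Fin 3) ℂ := (mdlE_G α).map (Int.cast : ℤ → ℂ)

/-- Basis change from the Cartesian basis to the frozen weight basis. -/
noncomputable def mdlE_V : Matrix (Fin 3) (Fin 3) ℂ :=
  !![-((Real.sqrt 2 : ℂ)⁻¹), I * ((Real.sqrt 2 : ℂ)⁻¹), 0; 0, 0, 1;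
     ((Real.sqrt 2 : ℂ)⁻¹), I * ((Real.sqrt 2 : ℂ)⁻¹), 0]

theorem mdlE_sqrt2_sq : ((Real.sqrt 2 : ℂ)⁻¹) ^ 2 = 1 / 2 := by
  rw [inv_pow, ← Complex.ofReal_pow, Real.sq_sqrt (by norm_num)]
  norm_num

theorem mdlE_V_mul_conjTranspose : mdlE_V * mdlE_Vᴴ = 1 := by
  have h2 : (starRingEnd ℂ) ((Real.sqrt 2 : ℂ)) = (Real.sqrt 2 : ℂ) := Complex.conj_ofReal _
  have h3 := mdlE_sqrt2_sq
  ext i j
  fin_cases i <;> fin_cases j <;>
    simp [mdlE_V, Matrix.mul_apply, Fin.sum_univ_three, Matrix.conjTranspose_apply, h2] <;>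
    ring_nf <;> simp only [h3, Complex.I_sq] <;> norm_num

theorem mdlE_V_conjTranspose_mul : mdlE_Vᴴ * mdlE_V = 1 :=
  mul_eq_one_comm.mp mdlE_V_mul_conjTranspose

theorem mdlE_spinOne_mul_V (α : Fin 3) :
    Claims.C0475.spinOne α * mdlE_V = mdlE_V * ((-I) • mdlE_Gc α) := by
  have h3 := mdlE_sqrt2_sq
  ext i j
  fin_cases α <;> fin_cases i <;> fin_cases j <;>
    simp only [Matrix.mul_apply, Fin.sum_univ_three, Matrix.smul_apply, mdlE_Gc,
      Matrix.map_apply] <;>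
    simp [Claims.C0475.spinOne, mdlE_V, mdlE_G] <;>
    ring_nf <;> simp only [h3, Complex.I_sq] <;> ring_nf

/-- The frozen spin matrices in the Cartesian basis. -/
theorem mdlE_spinOne_eq (α : Fin 3) :
    Claims.C0475.spinOne α = mdlE_V * ((-I) • mdlE_Gc α) * mdlE_Vᴴ := by
  rw [← mdlE_spinOne_mul_V, mul_assoc, mdlE_V_mul_conjTranspose, mul_one]

end Claimed.Agent.R297
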