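/-
Row 297 (Haldane gap), package M (model lemmas), owner helper100.

Operator form of the local energy bounds, for the frozen spin operators on an arbitrary finite
set of sites:  `-2 ≤ S_j·S_k ≤ 1`,  `S_i·S_j + S_j·S_k ≥ -3`.
-/
import Claimed.Agent.R297.ModelEnergyCert

set_option autoImplicit false
set_option linter.unusedSectionVars false
set_option linter.unusedSimpArgs false

namespace Claimed.Agent.R297

open Matrix Complex
open scoped ComplexOrder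

section Cart

variable {ι : Type} [Fintype ι] [DecidableEq ι]

/-- The Cartesian bond `-∑_α G_α(j) G_α(k)` (integer matrix). -/
def mdlE_cbZ (j k : ι) : Matrix (ι → Fin 3) (ι → Fin 3) ℤ :=
  -∑ α : Fin 3, mdlSite j (mdlE_G α) * mdlSite k (mdlE_G α)

theorem mdlE_cbZ_apply {j k : ι} (hjk : j ≠ k) (s t : ι → Fin 3) :
    mdlE_cbZ j k s t =
      if ∀ l, l ≠ j → l ≠ k → s l = t l then mdlE_cb (s j) (s k) (t j) (t k) else 0 := by
  simp only [mdlE_cbZ, Matrix.neg_apply, Matrix.sum_apply, mdlSite_mul_apply_of_ne hjk]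
  split_ifs with h
  · exact mdlE_cb_eq _ _ _ _
  · simp

theorem mdlE_T3_entries : ∀ s t : Fin 3 → Fin 3, 1 * mdlE_T3 s t =
    (if ∀ l : Fin 3, l ≠ 0 → l ≠ 1 → s l = t l then mdlE_cb (s 0) (s 1) (t 0) (t 1) else 0) +
    (if ∀ l : Fin 3, l ≠ 1 → l ≠ 2 → s l = t l then mdlE_cb (s 1) (s 2) (t 1) (t 2) else 0) +
    (3 : ℤ) * (if s = t then 1 else 0) := by
  decide +kernel

theorem mdlE_T2lo_entries : ∀ s t : Fin 2 → Fin 3, 1 * mdlE_T2lo s t =
    (if ∀ l : Fin 2, l ≠ 0 → l ≠ 1 → s l = t l then mdlE_cb (s 0) (s 1) (t 0) (t 1) else 0) +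
    (2 : ℤ) * (if s = t then 1 else 0) := by
  decide +kernel

theorem mdlE_T2hi_entries : ∀ s t : Fin 2 → Fin 3, 1 * mdlE_T2hi s t =
    (if s = t then 1 else 0) -
    (if ∀ l : Fin 2, l ≠ 0 → l ≠ 1 → s l = t l then mdlE_cb (s 0) (s 1) (t 0) (t 1) else 0) := by
  decide +kernel

theorem mdlE_T3_eq :
    mdlE_T3 = mdlE_cbZ (0 : Fin 3) 1 + mdlE_cbZ (1 : Fin 3) 2 + (3 : ℤ) • 1 := by
  ext s t
  rw [Matrix.add_apply, Matrix.add_apply, mdlE_cbZ_apply (by decide), mdlE_cbZ_apply (by decide),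
    Matrix.smul_apply, Matrix.one_apply, smul_eq_mul]
  rw [← one_mul (mdlE_T3 s t), mdlE_T3_entries s t]
  congr!

theorem mdlE_T2lo_eq : mdlE_T2lo = mdlE_cbZ (0 : Fin 2) 1 + (2 : ℤ) • 1 := by
  ext s t
  rw [Matrix.add_apply, mdlE_cbZ_apply (by decide), Matrix.smul_apply, Matrix.one_apply,
    smul_eq_mul]
  rw [← one_mul (mdlE_T2lo s t), mdlE_T2lo_entries s t]
  congr!

theorem mdlE_T2hi_eq : mdlE_T2hi = 1 - mdlE_cbZ (0 : Fin 2) 1 := by
  ext s t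
  rw [Matrix.sub_apply, mdlE_cbZ_apply (by decide), Matrix.one_apply]
  rw [← one_mul (mdlE_T2hi s t), mdlE_T2hi_entries s t]
  congr!

theorem mdlE_loc_cbZ {α : Type} [Fintype α] [DecidableEq α] {e : α → ι}
    (he : Function.Injective e) (a b : α) : mdlLoc e (mdlE_cbZ a b) = mdlE_cbZ (e a) (e b) := by
  simp only [mdlE_cbZ, mdlLoc_neg, mdlLoc_sum, ← mdlLoc_mul he, mdlLoc_mdlSite he]

/-- complex version of the Cartesian bond -/
def mdlE_cbC (j k : ι) : Matrix (ι → Fin 3) (ι → Fin 3) ℂ :=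
  (mdlE_cbZ j k).map (Int.cast : ℤ → ℂ)

theorem mdlE_cbC_eq (j k : ι) :
    mdlE_cbC j k = -∑ α : Fin 3, mdlSite j (mdlE_Gc α) * mdlSite k (mdlE_Gc α) := by
  have h := map_neg (Int.castRingHom ℂ).mapMatrix
    (∑ α : Fin 3, mdlSite j (mdlE_G α) * mdlSite k (mdlE_G α))
  rw [map_sum] at h
  simp only [map_mul, RingHom.mapMatrix_apply, mdlSite_map] at h
  exact h

theorem mdlE_vec3_injective {i j k : ι} (hij : i ≠ j) (hjk : j ≠ k) (hik : i ≠ k) :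
    Function.Injective ![i, j, k] := by
  intro a b h
  fin_cases a <;> fin_cases b <;> simp_all [eq_comm]

theorem mdlE_vec2_injective {j k : ι} (hjk : j ≠ k) : Function.Injective ![j, k] := by
  intro a b h
  fin_cases a <;> fin_cases b <;> simp_all [eq_comm]

theorem mdlE_cart_pair {i j k : ι} (hij : i ≠ j) (hjk : j ≠ k) (hik : i ≠ k) :
    (mdlE_cbC i j + mdlE_cbC j k + (3 : ℂ) • 1).PosSemidef := by
  have he := mdlE_vec3_injective hij hjk hik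
  have h1 := mdlLoc_posSemidef he mdlE_T3_posSemidef
  rw [← mdlLoc_map _ _ _ Int.cast_zero, mdlE_T3_eq, mdlLoc_add, mdlLoc_add, mdlLoc_smul,
    mdlLoc_one, mdlE_loc_cbZ he, mdlE_loc_cbZ he] at h1
  convert h1 using 1
  ext s t
  simp only [mdlE_cbC, Matrix.map_apply, Matrix.add_apply, Matrix.sub_apply, Matrix.smul_apply,
    Matrix.one_apply, smul_eq_mul]
  split_ifs <;> push_cast <;> ring

theorem mdlE_cart_lo {j k : ι} (hjk : j ≠ k) : (mdlE_cbC j k + (2 : ℂ) • 1).PosSemidef := by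
  have he := mdlE_vec2_injective hjk
  have h1 := mdlLoc_posSemidef he mdlE_T2lo_posSemidef
  rw [← mdlLoc_map _ _ _ Int.cast_zero, mdlE_T2lo_eq, mdlLoc_add, mdlLoc_smul,
    mdlLoc_one, mdlE_loc_cbZ he] at h1
  convert h1 using 1
  ext s t
  simp only [mdlE_cbC, Matrix.map_apply, Matrix.add_apply, Matrix.sub_apply, Matrix.smul_apply,
    Matrix.one_apply, smul_eq_mul]
  split_ifs <;> push_cast <;> ring

theorem mdlE_cart_hi {j k : ι} (hjk : j ≠ k) : (1 - mdlE_cbC j k).PosSemidef := by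
  have he := mdlE_vec2_injective hjk
  have h1 := mdlLoc_posSemidef he mdlE_T2hi_posSemidef
  rw [← mdlLoc_map _ _ _ Int.cast_zero, mdlE_T2hi_eq, mdlLoc_sub,
    mdlLoc_one, mdlE_loc_cbZ he] at h1
  convert h1 using 1
  ext s t
  simp only [mdlE_cbC, Matrix.map_apply, Matrix.add_apply, Matrix.sub_apply, Matrix.smul_apply,
    Matrix.one_apply, smul_eq_mul]
  split_ifs <;> push_cast <;> ring

/-- The global basis change `⊗ V`. -/
noncomputable def mdlE_VV : Matrix (ι → Fin 3) (ι → Fin 3) ℂ := mdlTens (fun _ : ι => mdlE_V)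

theorem mdlE_VV_conjTranspose :
    (mdlE_VV : Matrix (ι → Fin 3) (ι → Fin 3) ℂ)ᴴ = mdlTens (fun _ : ι => mdlE_Vᴴ) :=
  mdlTens_conjTranspose _

theorem mdlE_VV_mul_conjTranspose :
    (mdlE_VV : Matrix (ι → Fin 3) (ι → Fin 3) ℂ) * mdlE_VVᴴ = 1 := by
  rw [mdlE_VV_conjTranspose]
  exact mdlTens_mul_inv _ _ (fun _ => mdlE_V_mul_conjTranspose)

theorem mdlE_VV_conjTranspose_mul :
    (mdlE_VV : Matrix (ι → Fin 3) (ι → Fin 3) ℂ)ᴴ * mdlE_VV = 1 := by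
  rw [mdlE_VV_conjTranspose]
  exact mdlTens_mul_inv _ _ (fun _ => mdlE_V_conjTranspose_mul)

theorem mdlE_siteOp_spinOne (j : ι) (α : Fin 3) :
    Claims.C0475.siteOp j (Claims.C0475.spinOne α) =
      mdlE_VV * mdlSite j ((-I) • mdlE_Gc α) * mdlE_VVᴴ := by
  rw [mdlE_VV_conjTranspose, mdlE_VV,
    mdlTens_mul_site_mul _ _ (fun _ => mdlE_V_mul_conjTranspose), ← mdlE_spinOne_eq,
    mdlSite_eq_C0475]

/-- The spin bond `S_j · S_k` built from the frozen operators. -/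
noncomputable def mdlE_sb (j k : ι) : Matrix (ι → Fin 3) (ι → Fin 3) ℂ :=
  ∑ α : Fin 3, Claims.C0475.siteOp j (Claims.C0475.spinOne α) *
    Claims.C0475.siteOp k (Claims.C0475.spinOne α)

theorem mdlE_sb_eq (j k : ι) : mdlE_sb j k = mdlE_VV * mdlE_cbC j k * mdlE_VVᴴ := by
  rw [mdlE_cbC_eq, mdlE_sb, Matrix.mul_neg, Matrix.neg_mul, Matrix.mul_sum, Matrix.sum_mul,
    ← Finset.sum_neg_distrib]
  refine Finset.sum_congr rfl fun α _ => ?_
  rw [mdlE_siteOp_spinOne, mdlE_siteOp_spinOne]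
  have h1 : ∀ A B : Matrix (ι → Fin 3) (ι → Fin 3) ℂ,
      mdlE_VV * A * mdlE_VVᴴ * (mdlE_VV * B * mdlE_VVᴴ) = mdlE_VV * (A * B) * mdlE_VVᴴ := by
    intro A B
    calc mdlE_VV * A * mdlE_VVᴴ * (mdlE_VV * B * mdlE_VVᴴ)
        = mdlE_VV * A * (mdlE_VVᴴ * mdlE_VV) * B * mdlE_VVᴴ := by simp only [mul_assoc]
      _ = mdlE_VV * (A * B) * mdlE_VVᴴ := by
          rw [mdlE_VV_conjTranspose_mul, mul_one]; simp only [mul_assoc]
  rw [h1, mdlSite_smul, mdlSite_smul, smul_mul_smul_comm]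
  have h2 : (-I) * (-I) = (-1 : ℂ) := by
    rw [neg_mul_neg, Complex.I_mul_I]
  rw [h2, neg_one_smul, Matrix.mul_neg, Matrix.neg_mul]

theorem mdlE_conj_VV_one (c : ℂ) :
    (mdlE_VV : Matrix (ι → Fin 3) (ι → Fin 3) ℂ) * (c • 1) * mdlE_VVᴴ = c • 1 := by
  rw [Matrix.mul_smul, mul_one, Matrix.smul_mul, mdlE_VV_mul_conjTranspose]

/-- `S_i·S_j + S_j·S_k + 3 ≥ 0` for three distinct sites. -/
theorem mdlE_sb_pair {i j k : ι} (hij : i ≠ j) (hjk : j ≠ k) (hik : i ≠ k) :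
    (mdlE_sb i j + mdlE_sb j k + (3 : ℂ) • 1).PosSemidef := by
  have h := (mdlE_cart_pair hij hjk hik).mul_mul_conjTranspose_same
    (mdlE_VV : Matrix (ι → Fin 3) (ι → Fin 3) ℂ)
  rwa [mul_add, mul_add, add_mul, add_mul, mdlE_conj_VV_one, ← mdlE_sb_eq, ← mdlE_sb_eq] at h

/-- `S_j·S_k + 2 ≥ 0`. -/
theorem mdlE_sb_lo {j k : ι} (hjk : j ≠ k) : (mdlE_sb j k + (2 : ℂ) • 1).PosSemidef := by
  have h := (mdlE_cart_lo hjk).mul_mul_conjTranspose_same
    (mdlE_VV : Matrix (ι → Fin 3) (ι → Fin 3) ℂ)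
  rwa [mul_add, add_mul, mdlE_conj_VV_one, ← mdlE_sb_eq] at h

/-- `1 - S_j·S_k ≥ 0`. -/
theorem mdlE_sb_hi {j k : ι} (hjk : j ≠ k) : (1 - mdlE_sb j k).PosSemidef := by
  have h := (mdlE_cart_hi hjk).mul_mul_conjTranspose_same
    (mdlE_VV : Matrix (ι → Fin 3) (ι → Fin 3) ℂ)
  rwa [mul_sub, sub_mul, mul_one, mdlE_VV_mul_conjTranspose, ← mdlE_sb_eq] at h

end Cart

end Claimed.Agent.R297
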