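/-
Row 297 (Haldane gap), package M (model lemmas), owner helper100.

Twisted bonds `∑_{αβ} R_{αβ} S^α_j S^β_k` for lattice rotations `R`: they are unitarily equivalent
(by a one-site unitary at either end) to the plain bond, so all local energy bounds survive.
-/
import Claimed.Agent.R297.ModelEnergyBond

set_option autoImplicit false
set_option linter.unusedSectionVars false
set_option linter.unusedSimpArgs false

namespace Claimed.Agent.R297

open Matrix Complex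
open scoped ComplexOrder

/-- `W` is a unitary implementing the rotation `R` on the frozen spin matrices. -/
def mdlE_Impl (R : Matrix (Fin 3) (Fin 3) ℝ) (W : Matrix (Fin 3) (Fin 3) ℂ) : Prop :=
  W * Wᴴ = 1 ∧
  (∀ α, ∑ β, ((R α β : ℝ) : ℂ) • Claims.C0475.spinOne β = W * Claims.C0475.spinOne α * Wᴴ) ∧
  (∀ β, ∑ α, ((R α β : ℝ) : ℂ) • Claims.C0475.spinOne α = Wᴴ * Claims.C0475.spinOne β * W)

/-- `R` is implemented by some unitary. -/
def mdlE_IsRot (R : Matrix (Fin 3) (Fin 3) ℝ) : Prop := ∃ W, mdlE_Impl R W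

theorem mdlE_phi_mul (A B : Matrix (Fin 3) (Fin 3) ℂ) :
    mdlE_V * A * mdlE_Vᴴ * (mdlE_V * B * mdlE_Vᴴ) = mdlE_V * (A * B) * mdlE_Vᴴ := by
  calc mdlE_V * A * mdlE_Vᴴ * (mdlE_V * B * mdlE_Vᴴ)
      = mdlE_V * A * (mdlE_Vᴴ * mdlE_V) * B * mdlE_Vᴴ := by simp only [mul_assoc]
    _ = mdlE_V * (A * B) * mdlE_Vᴴ := by
        rw [mdlE_V_conjTranspose_mul, mul_one]; simp only [mul_assoc]

theorem mdlE_impl_of_int (RZ : Matrix (Fin 3) (Fin 3) ℤ) (h1 : RZ * RZᵀ = 1)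
    (h2 : ∀ α, ∑ β, RZ α β • mdlE_G β = RZᵀ * mdlE_G α * RZ)
    (h3 : ∀ β, ∑ α, RZ α β • mdlE_G α = RZ * mdlE_G β * RZᵀ) :
    mdlE_Impl (RZ.map (Int.cast : ℤ → ℝ))
      (mdlE_V * (RZᵀ).map (Int.cast : ℤ → ℂ) * mdlE_Vᴴ) := by
  set Rc : Matrix (Fin 3) (Fin 3) ℂ := RZ.map (Int.cast : ℤ → ℂ) with hRc
  have hT : (RZᵀ).map (Int.cast : ℤ → ℂ) = Rcᵀ := by rw [hRc, Matrix.transpose_map]
  have hH : (Rcᵀ)ᴴ = Rc := by
    ext i j; simp [hRc, Matrix.conjTranspose_apply]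
  have hW : (mdlE_V * Rcᵀ * mdlE_Vᴴ)ᴴ = mdlE_V * Rc * mdlE_Vᴴ := by
    rw [Matrix.conjTranspose_mul, Matrix.conjTranspose_mul, Matrix.conjTranspose_conjTranspose,
      hH, mul_assoc]
  have c1 : Rcᵀ * Rc = 1 := by
    have := congrArg (Int.castRingHom ℂ).mapMatrix (mul_eq_one_comm.mp h1)
    rw [map_mul, map_one] at this
    exact this
  have c2 : ∀ α, ∑ β, ((RZ α β : ℤ) : ℂ) • mdlE_Gc β = Rcᵀ * mdlE_Gc α * Rc := by
    intro α
    have := congrArg (fun M : Matrix (Fin 3) (Fin 3) ℤ => (Int.castRingHom ℂ).mapMatrix M) (h2 α)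
    simp only [map_sum, map_mul, RingHom.mapMatrix_apply] at this
    rw [hRc, mdlE_Gc, ← Matrix.transpose_map]
    refine Eq.trans (Finset.sum_congr rfl fun β _ => ?_) this
    ext i j
    simp only [mdlE_Gc, Matrix.map_apply, Matrix.smul_apply, smul_eq_mul, Int.coe_castRingHom,
      Int.cast_mul]
  have c3 : ∀ β, ∑ α, ((RZ α β : ℤ) : ℂ) • mdlE_Gc α = Rc * mdlE_Gc β * Rcᵀ := by
    intro β
    have := congrArg (fun M : Matrix (Fin 3) (Fin 3) ℤ => (Int.castRingHom ℂ).mapMatrix M) (h3 β)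
    simp only [map_sum, map_mul, RingHom.mapMatrix_apply] at this
    rw [hRc, mdlE_Gc, ← Matrix.transpose_map]
    refine Eq.trans (Finset.sum_congr rfl fun α _ => ?_) this
    ext i j
    simp only [mdlE_Gc, Matrix.map_apply, Matrix.smul_apply, smul_eq_mul, Int.coe_castRingHom,
      Int.cast_mul]
  rw [hT]
  refine ⟨?_, fun α => ?_, fun β => ?_⟩
  · rw [hW, mdlE_phi_mul, c1, mul_one, mdlE_V_mul_conjTranspose]
  · rw [hW, mdlE_spinOne_eq α, mdlE_phi_mul, mdlE_phi_mul, Matrix.mul_smul, Matrix.smul_mul,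
      ← c2 α, Finset.smul_sum, Matrix.mul_sum, Matrix.sum_mul]
    refine Finset.sum_congr rfl fun β _ => ?_
    rw [mdlE_spinOne_eq β, smul_comm, Matrix.mul_smul, Matrix.smul_mul]
    simp
  · rw [hW, mdlE_spinOne_eq β, mdlE_phi_mul, mdlE_phi_mul, Matrix.mul_smul, Matrix.smul_mul,
      ← c3 β, Finset.smul_sum, Matrix.mul_sum, Matrix.sum_mul]
    refine Finset.sum_congr rfl fun α _ => ?_
    rw [mdlE_spinOne_eq α, smul_comm, Matrix.mul_smul, Matrix.smul_mul]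
    simp

theorem mdlE_isRot_one : mdlE_IsRot 1 := by
  refine ⟨1, by simp, fun α => ?_, fun β => ?_⟩
  · rw [Finset.sum_eq_single α] <;> simp +contextual [Matrix.one_apply, eq_comm]
  · rw [Finset.sum_eq_single β] <;> simp +contextual [Matrix.one_apply, eq_comm]

theorem mdlE_isRot_rotP : mdlE_IsRot rotP := by
  have h := mdlE_impl_of_int !![-1, 0, 0; 0, -1, 0; 0, 0, 1] (by decide +kernel)
    (by decide +kernel) (by decide +kernel)
  have e : (!![-1, 0, 0; 0, -1, 0; 0, 0, 1] : Matrix (Fin 3) (Fin 3) ℤ).map (Int.cast : ℤ → ℝ)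
      = rotP := by
    ext i j; fin_cases i <;> fin_cases j <;> simp [rotP]
  rw [e] at h
  exact ⟨_, h⟩

theorem mdlE_isRot_rotC : mdlE_IsRot rotC := by
  have h := mdlE_impl_of_int !![0, 0, 1; 1, 0, 0; 0, 1, 0] (by decide +kernel)
    (by decide +kernel) (by decide +kernel)
  have e : (!![0, 0, 1; 1, 0, 0; 0, 1, 0] : Matrix (Fin 3) (Fin 3) ℤ).map (Int.cast : ℤ → ℝ)
      = rotC := by
    ext i j; fin_cases i <;> fin_cases j <;> simp [rotC]
  rw [e] at h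
  exact ⟨_, h⟩

section Twist

variable {ι : Type} [Fintype ι] [DecidableEq ι]

/-- The twisted bond `∑_{αβ} R_{αβ} S^α_j S^β_k`. -/
noncomputable def mdlE_tb (R : Matrix (Fin 3) (Fin 3) ℝ) (j k : ι) :
    Matrix (ι → Fin 3) (ι → Fin 3) ℂ :=
  ∑ α : Fin 3, ∑ β : Fin 3, ((R α β : ℝ) : ℂ) •
    (Claims.C0475.siteOp j (Claims.C0475.spinOne α) *
      Claims.C0475.siteOp k (Claims.C0475.spinOne β))

theorem mdlE_tb_one (j k : ι) : mdlE_tb 1 j k = mdlE_sb j k := by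
  unfold mdlE_tb mdlE_sb
  refine Finset.sum_congr rfl fun α _ => ?_
  rw [Finset.sum_eq_single α]
  · simp
  · intro β _ hβ
    simp [Ne.symm hβ]
  · simp

/-- Removing the twist by a unitary at the right end. -/
theorem mdlE_tb_right {R : Matrix (Fin 3) (Fin 3) ℝ} {W : Matrix (Fin 3) (Fin 3) ℂ}
    (h : mdlE_Impl R W) {j k : ι} (hjk : j ≠ k) :
    mdlE_tb R j k = mdlSite k W * mdlE_sb j k * mdlSite k Wᴴ := by
  unfold mdlE_tb mdlE_sb
  rw [Matrix.mul_sum, Matrix.sum_mul]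
  refine Finset.sum_congr rfl fun α _ => ?_
  simp only [mdlSite_eq_C0475]
  calc ∑ β : Fin 3, ((R α β : ℝ) : ℂ) •
        (mdlSite j (Claims.C0475.spinOne α) * mdlSite k (Claims.C0475.spinOne β))
      = mdlSite j (Claims.C0475.spinOne α) *
          mdlSite k (∑ β : Fin 3, ((R α β : ℝ) : ℂ) • Claims.C0475.spinOne β) := by
        rw [mdlSite_sum, Matrix.mul_sum]
        exact Finset.sum_congr rfl fun β _ => by rw [mdlSite_smul, Matrix.mul_smul]
    _ = mdlSite j (Claims.C0475.spinOne α) *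
          (mdlSite k W * mdlSite k (Claims.C0475.spinOne α) * mdlSite k Wᴴ) := by
        rw [h.2.1 α, mdlSite_mul, mdlSite_mul]
    _ = mdlSite k W * (mdlSite j (Claims.C0475.spinOne α) *
          mdlSite k (Claims.C0475.spinOne α)) * mdlSite k Wᴴ := by
        rw [← mul_assoc, ← mul_assoc, mdlSite_comm hjk, mul_assoc (mdlSite k W)]

/-- Removing the twist by a unitary at the left end. -/
theorem mdlE_tb_left {R : Matrix (Fin 3) (Fin 3) ℝ} {W : Matrix (Fin 3) (Fin 3) ℂ}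
    (h : mdlE_Impl R W) {j k : ι} (hjk : j ≠ k) :
    mdlE_tb R j k = mdlSite j Wᴴ * mdlE_sb j k * mdlSite j W := by
  unfold mdlE_tb mdlE_sb
  rw [Matrix.mul_sum, Matrix.sum_mul, Finset.sum_comm]
  refine Finset.sum_congr rfl fun β _ => ?_
  simp only [mdlSite_eq_C0475]
  calc ∑ α : Fin 3, ((R α β : ℝ) : ℂ) •
        (mdlSite j (Claims.C0475.spinOne α) * mdlSite k (Claims.C0475.spinOne β))
      = mdlSite j (∑ α : Fin 3, ((R α β : ℝ) : ℂ) • Claims.C0475.spinOne α) *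
          mdlSite k (Claims.C0475.spinOne β) := by
        rw [mdlSite_sum, Matrix.sum_mul]
        exact Finset.sum_congr rfl fun α _ => by rw [mdlSite_smul, Matrix.smul_mul]
    _ = (mdlSite j Wᴴ * mdlSite j (Claims.C0475.spinOne β) * mdlSite j W) *
          mdlSite k (Claims.C0475.spinOne β) := by
        rw [h.2.2 β, mdlSite_mul, mdlSite_mul]
    _ = mdlSite j Wᴴ * (mdlSite j (Claims.C0475.spinOne β) *
          mdlSite k (Claims.C0475.spinOne β)) * mdlSite j W := by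
        rw [mul_assoc _ (mdlSite j W), mdlSite_comm hjk, ← mul_assoc, ← mul_assoc]

/-- A one-site unitary away from the bond does not change it. -/
theorem mdlE_conj_tb {U U' : Matrix (Fin 3) (Fin 3) ℂ} (hU : U * U' = 1)
    (R : Matrix (Fin 3) (Fin 3) ℝ) {l j k : ι} (hlj : l ≠ j) (hlk : l ≠ k) :
    mdlSite l U * mdlE_tb R j k * mdlSite l U' = mdlE_tb R j k := by
  unfold mdlE_tb
  simp only [Matrix.mul_sum, Matrix.sum_mul, Matrix.mul_smul, Matrix.smul_mul, mdlSite_eq_C0475]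
  refine Finset.sum_congr rfl fun α _ => Finset.sum_congr rfl fun β _ => ?_
  congr 1
  rw [← mul_assoc, mdlSite_comm hlj, mul_assoc _ (mdlSite l U), mdlSite_comm hlk, mul_assoc,
    mul_assoc, mdlSite_mul, hU, mdlSite_one, mul_one]

theorem mdlE_conj_one {U U' : Matrix (Fin 3) (Fin 3) ℂ} (hU : U * U' = 1) (l : ι) (c : ℂ) :
    mdlSite l U * (c • (1 : Matrix (ι → Fin 3) (ι → Fin 3) ℂ)) * mdlSite l U' = c • 1 := by
  rw [Matrix.mul_smul, mul_one, Matrix.smul_mul, mdlSite_mul, hU, mdlSite_one]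

/-- Two adjacent (possibly twisted) bonds: `b_{ij}(R) + b_{jk}(R') + 3 ≥ 0`. -/
theorem mdlE_tb_pair {R R' : Matrix (Fin 3) (Fin 3) ℝ} (hR : mdlE_IsRot R) (hR' : mdlE_IsRot R')
    {i j k : ι} (hij : i ≠ j) (hjk : j ≠ k) (hik : i ≠ k) :
    (mdlE_tb R i j + mdlE_tb R' j k + (3 : ℂ) • 1).PosSemidef := by
  obtain ⟨W, hW⟩ := hR
  obtain ⟨W', hW'⟩ := hR'
  have h0 := mdlE_sb_pair hij hjk hik
  have h1 := h0.mul_mul_conjTranspose_same (mdlSite k W')
  rw [mdlSite_conjTranspose, mul_add, mul_add, add_mul, add_mul, mdlE_conj_one hW'.1,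
    ← mdlE_tb_right hW' hjk, ← mdlE_tb_one i j, mdlE_conj_tb hW'.1 1 hik.symm hjk.symm,
    mdlE_tb_one] at h1
  have h2 := h1.mul_mul_conjTranspose_same (mdlSite i Wᴴ)
  have hW2 : Wᴴ * W = 1 := mul_eq_one_comm.mp hW.1
  rw [mdlSite_conjTranspose, Matrix.conjTranspose_conjTranspose, mul_add, mul_add, add_mul,
    add_mul, mdlE_conj_one hW2, ← mdlE_tb_left hW hij, mdlE_conj_tb hW2 R' hij hik] at h2
  exact h2

/-- `b_{jk}(R) + 2 ≥ 0`. -/
theorem mdlE_tb_lo {R : Matrix (Fin 3) (Fin 3) ℝ} (hR : mdlE_IsRot R) {j k : ι} (hjk : j ≠ k) :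
    (mdlE_tb R j k + (2 : ℂ) • 1).PosSemidef := by
  obtain ⟨W, hW⟩ := hR
  have h1 := (mdlE_sb_lo hjk).mul_mul_conjTranspose_same (mdlSite k W)
  rwa [mdlSite_conjTranspose, mul_add, add_mul, mdlE_conj_one hW.1, ← mdlE_tb_right hW hjk] at h1

/-- `1 - b_{jk}(R) ≥ 0`. -/
theorem mdlE_tb_hi {R : Matrix (Fin 3) (Fin 3) ℝ} (hR : mdlE_IsRot R) {j k : ι} (hjk : j ≠ k) :
    (1 - mdlE_tb R j k).PosSemidef := by
  obtain ⟨W, hW⟩ := hR
  have h1 := (mdlE_sb_hi hjk).mul_mul_conjTranspose_same (mdlSite k W)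
  rwa [mdlSite_conjTranspose, mul_sub, sub_mul, mul_one, mdlSite_mul, hW.1, mdlSite_one,
    ← mdlE_tb_right hW hjk] at h1

end Twist

end Claimed.Agent.R297
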