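/-
Row 297 (Haldane gap), package M (model lemmas), owner helper100.

Global energy bounds:  `-3n/2 ≤ twistRing n R ≤ n`  (`R` a lattice rotation, e.g. `1`, `rotP`,
`rotC`), as positive-semidefiniteness statements and as bounds on the eigenvalues.
-/
import Claimed.Agent.R297.ModelEnergyTwist

set_option autoImplicit false
set_option linter.unusedSectionVars false
set_option linter.unusedSimpArgs false

namespace Claimed.Agent.R297

open Matrix Complex
open scoped ComplexOrder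

section Eig

variable {n : Type} [Fintype n] [DecidableEq n]

theorem mdlE_eigvec_normSq {H : Matrix n n ℂ} (hH : H.IsHermitian) (k : n) :
    star (⇑(hH.eigenvectorBasis k) : n → ℂ) ⬝ᵥ (⇑(hH.eigenvectorBasis k) : n → ℂ) = 1 := by
  have h1 : ‖hH.eigenvectorBasis k‖ = 1 := hH.eigenvectorBasis.orthonormal.1 k
  have h2 := inner_self_eq_norm_sq_to_K (𝕜 := ℂ) (hH.eigenvectorBasis k)
  rw [h1, EuclideanSpace.inner_eq_star_dotProduct] at h2
  rw [dotProduct_comm]
  simpa using h2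

/-- `H + c ≥ 0` implies that all eigenvalues are `≥ -c`. -/
theorem mdlE_eig_ge {H : Matrix n n ℂ} (hH : H.IsHermitian) {c : ℝ}
    (h : (H + (c : ℂ) • 1).PosSemidef) (k : n) : -c ≤ hH.eigenvalues k := by
  have h1 := h.re_dotProduct_nonneg (⇑(hH.eigenvectorBasis k) : n → ℂ)
  rw [add_mulVec, smul_mulVec, one_mulVec, hH.mulVec_eigenvectorBasis k, dotProduct_add,
    dotProduct_smul, dotProduct_smul, mdlE_eigvec_normSq] at h1
  simp at h1
  linarith

/-- `c - H ≥ 0` implies that all eigenvalues are `≤ c`. -/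
theorem mdlE_eig_le {H : Matrix n n ℂ} (hH : H.IsHermitian) {c : ℝ}
    (h : ((c : ℂ) • 1 - H).PosSemidef) (k : n) : hH.eigenvalues k ≤ c := by
  have h1 := h.re_dotProduct_nonneg (⇑(hH.eigenvectorBasis k) : n → ℂ)
  rw [sub_mulVec, smul_mulVec, one_mulVec, hH.mulVec_eigenvectorBasis k, dotProduct_sub,
    dotProduct_smul, dotProduct_smul, mdlE_eigvec_normSq] at h1
  simp at h1
  linarith

end Eig

/-- the coupling matrix of the bond starting at site `j` of the twisted ring -/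
def mdlE_Rj (n : ℕ) (R : Matrix (Fin 3) (Fin 3) ℝ) (j : Fin n) : Matrix (Fin 3) (Fin 3) ℝ :=
  if (j : ℕ) + 1 = n then R else 1

theorem mdlE_isRot_Rj {n : ℕ} {R : Matrix (Fin 3) (Fin 3) ℝ} (hR : mdlE_IsRot R) (j : Fin n) :
    mdlE_IsRot (mdlE_Rj n R j) := by
  unfold mdlE_Rj
  split_ifs
  · exact hR
  · exact mdlE_isRot_one

theorem mdlE_twistRing_eq (n : ℕ) (R : Matrix (Fin 3) (Fin 3) ℝ) :
    twistRing n R = ∑ j : Fin n, mdlE_tb (mdlE_Rj n R j) j (finRotate n j) := by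
  unfold twistRing mdlE_tb mdlE_Rj
  refine Finset.sum_congr rfl fun j _ => Finset.sum_congr rfl fun α _ =>
    Finset.sum_congr rfl fun β _ => ?_
  split_ifs <;> rfl

theorem mdlE_finRotate_sq_ne {n : ℕ} (hn : 3 ≤ n) (j : Fin n) :
    j ≠ finRotate n (finRotate n j) := by
  obtain ⟨m, rfl⟩ : ∃ m, n = m + 3 := ⟨n - 3, by omega⟩
  intro h
  rw [finRotate_apply, finRotate_apply, add_assoc] at h
  have h2 : (1 : Fin (m + 3)) + 1 = 0 := by
    have := h.symm
    rwa [add_eq_left] at this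
  have h3 := congrArg Fin.val h2
  rw [Fin.val_add] at h3
  simp at h3
  rw [Nat.mod_eq_of_lt (by omega)] at h3
  omega

/-- `twistRing n R + 3n/2 ≥ 0`. -/
theorem mdlE_twistRing_lower {n : ℕ} (hn : 3 ≤ n) {R : Matrix (Fin 3) (Fin 3) ℝ}
    (hR : mdlE_IsRot R) : (twistRing n R + ((3 * n / 2 : ℝ) : ℂ) • 1).PosSemidef := by
  set f : Fin n → Matrix (Fin n → Fin 3) (Fin n → Fin 3) ℂ :=
    fun j => mdlE_tb (mdlE_Rj n R j) j (finRotate n j) with hf
  have h1 : (∑ j : Fin n, (f j + f (finRotate n j) + (3 : ℂ) • 1)).PosSemidef := by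
    refine Matrix.posSemidef_sum _ fun j _ => ?_
    exact mdlE_tb_pair (mdlE_isRot_Rj hR j) (mdlE_isRot_Rj hR _) (mdl_finRotate_ne (by omega) j)
      (mdl_finRotate_ne (by omega) _) (mdlE_finRotate_sq_ne hn j)
  have h2 : ∑ j : Fin n, (f j + f (finRotate n j) + (3 : ℂ) • 1) =
      (2 : ℝ) • (twistRing n R + ((3 * n / 2 : ℝ) : ℂ) • 1) := by
    rw [Finset.sum_add_distrib, Finset.sum_add_distrib, Equiv.sum_comp (finRotate n) f,
      ← mdlE_twistRing_eq, Finset.sum_const, Finset.card_univ, Fintype.card_fin]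
    ext s t
    simp only [Matrix.add_apply, Matrix.smul_apply, Matrix.one_apply, smul_eq_mul,
      Complex.real_smul]
    rw [nsmul_eq_mul]
    push_cast
    ring
  rw [h2] at h1
  have h3 := h1.smul (show (0 : ℝ) ≤ 1 / 2 by norm_num)
  rwa [smul_smul, show (1 / 2 : ℝ) * 2 = 1 by norm_num, one_smul] at h3

/-- `n - twistRing n R ≥ 0`. -/
theorem mdlE_twistRing_upper {n : ℕ} (hn : 2 ≤ n) {R : Matrix (Fin 3) (Fin 3) ℝ}
    (hR : mdlE_IsRot R) : (((n : ℝ) : ℂ) • 1 - twistRing n R).PosSemidef := by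
  have h1 : (∑ j : Fin n, (1 - mdlE_tb (mdlE_Rj n R j) j (finRotate n j))).PosSemidef :=
    Matrix.posSemidef_sum _ fun j _ => mdlE_tb_hi (mdlE_isRot_Rj hR j) (mdl_finRotate_ne hn j)
  rw [Finset.sum_sub_distrib, ← mdlE_twistRing_eq, Finset.sum_const, Finset.card_univ,
    Fintype.card_fin] at h1
  convert h1 using 2
  ext s t
  simp [Matrix.smul_apply, Matrix.one_apply]

/-- Eigenvalue form of the lower energy bound of the (twisted) ring. -/
theorem mdlE_twistRing_eig_ge {n : ℕ} (hn : 3 ≤ n) {R : Matrix (Fin 3) (Fin 3) ℝ}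
    (hR : mdlE_IsRot R) (hH : (twistRing n R).IsHermitian) (k : Fin n → Fin 3) :
    -(3 * n / 2 : ℝ) ≤ hH.eigenvalues k :=
  mdlE_eig_ge hH (mdlE_twistRing_lower hn hR) k

/-- Eigenvalue form of the upper energy bound of the (twisted) ring. -/
theorem mdlE_twistRing_eig_le {n : ℕ} (hn : 2 ≤ n) {R : Matrix (Fin 3) (Fin 3) ℝ}
    (hR : mdlE_IsRot R) (hH : (twistRing n R).IsHermitian) (k : Fin n → Fin 3) :
    hH.eigenvalues k ≤ (n : ℝ) :=
  mdlE_eig_le hH (mdlE_twistRing_upper hn hR) k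

end Claimed.Agent.R297
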