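/-
Row 297 (Haldane gap), package M (model lemmas), owner helper100.

Energy bounds for the open chains with endpoint fields (`openChain`, `openChainX` of
`TransferDefs`):  with `m` bonds,
`-(3⌊m/2⌋ + 2 (m mod 2) + |hL| + |hR|) ≤ H ≤ m + |hL| + |hR|`.
-/
import Claimed.Agent.R297.ModelEnergyRing

set_option autoImplicit false
set_option linter.unusedSectionVars false
set_option linter.unusedSimpArgs false

namespace Claimed.Agent.R297

open Matrix Complex
open scoped ComplexOrder

section OneSite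

variable {n : Type} [Fintype n] [DecidableEq n]

/-- A Hermitian matrix with `S³ = S` satisfies `1 + S ≥ 0`. -/
theorem mdlE_one_add_posSemidef {S : Matrix n n ℂ} (hS : S.IsHermitian) (h3 : S * S * S = S) :
    (1 + S).PosSemidef := by
  have h4 : S * S * (S * S) = S * S := by rw [← mul_assoc, h3]
  have hA : (1 + S)ᴴ = 1 + S := by rw [conjTranspose_add, conjTranspose_one, hS.eq]
  have hB : (1 - S * S)ᴴ = 1 - S * S := by
    rw [conjTranspose_sub, conjTranspose_one, conjTranspose_mul, hS.eq]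
  have key : 1 + S = (1 / 2 : ℝ) • ((1 + S)ᴴ * (1 + S) + (1 - S * S)ᴴ * (1 - S * S)) := by
    rw [hA, hB]
    have : (1 + S) * (1 + S) + (1 - S * S) * (1 - S * S) = (2 : ℝ) • (1 + S) := by
      simp only [mul_add, add_mul, mul_sub, sub_mul, mul_one, one_mul, h4, two_smul]
      abel
    rw [this, smul_smul]
    norm_num
  rw [key]
  exact ((posSemidef_conjTranspose_mul_self _).add (posSemidef_conjTranspose_mul_self _)).smul
    (by norm_num)

theorem mdlE_one_sub_posSemidef {S : Matrix n n ℂ} (hS : S.IsHermitian) (h3 : S * S * S = S) :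
    (1 - S).PosSemidef := by
  have := mdlE_one_add_posSemidef (S := -S) hS.neg (by simp [h3])
  rwa [← sub_eq_add_neg] at this

/-- `|h| - h X ≥ 0` if `1 ± X ≥ 0`. -/
theorem mdlE_field_posSemidef {X : Matrix n n ℂ} (hp : (1 + X).PosSemidef)
    (hm : (1 - X).PosSemidef) (h : ℝ) : (((|h| : ℝ) : ℂ) • 1 - (h : ℂ) • X).PosSemidef := by
  rcases le_total 0 h with hh | hh
  · have := hm.smul hh
    rw [abs_of_nonneg hh]
    convert this using 1
    ext s t
    simp [Matrix.sub_apply, Matrix.smul_apply, mul_sub]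
  · have := hp.smul (neg_nonneg.mpr hh)
    rw [abs_of_nonpos hh]
    convert this using 1
    ext s t
    simp [Matrix.sub_apply, Matrix.add_apply, Matrix.smul_apply, mul_add]
    ring

end OneSite

theorem mdlE_G_cube : ∀ α : Fin 3, mdlE_G α * mdlE_G α * mdlE_G α = -mdlE_G α := by
  decide +kernel

theorem mdlE_spinOne_cube (α : Fin 3) :
    Claims.C0475.spinOne α * Claims.C0475.spinOne α * Claims.C0475.spinOne α =
      Claims.C0475.spinOne α := by
  have hG : mdlE_Gc α * mdlE_Gc α * mdlE_Gc α = -mdlE_Gc α := by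
    have := congrArg (Int.castRingHom ℂ).mapMatrix (mdlE_G_cube α)
    rw [map_mul, map_mul, map_neg] at this
    exact this
  rw [mdlE_spinOne_eq α, mdlE_phi_mul, mdlE_phi_mul]
  congr 2
  rw [smul_mul_smul_comm, smul_mul_smul_comm, hG, smul_neg, ← neg_smul]
  congr 1
  have : (-I) * (-I) = (-1 : ℂ) := by rw [neg_mul_neg, Complex.I_mul_I]
  rw [this]
  ring

section Chain

variable {ι : Type} [Fintype ι] [DecidableEq ι]

theorem mdlE_site_field (j : ι) (α : Fin 3) (h : ℝ) :
    (((|h| : ℝ) : ℂ) • 1 - (h : ℂ) • Claims.C0475.siteOp j (Claims.C0475.spinOne α)).PosSemidef := by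
  have hS := mdl_spinOne_isHermitian α
  have h3 := mdlE_spinOne_cube α
  refine mdlE_field_posSemidef ?_ ?_ h
  · have := mdlSite_posSemidef j (mdlE_one_add_posSemidef hS h3)
    rwa [mdlSite_add, mdlSite_one] at this
  · have := mdlSite_posSemidef j (mdlE_one_sub_posSemidef hS h3)
    rwa [mdlSite_sub, mdlSite_one] at this

theorem mdlE_site_field' (j : ι) (α : Fin 3) (h : ℝ) :
    (((|h| : ℝ) : ℂ) • 1 + (h : ℂ) • Claims.C0475.siteOp j (Claims.C0475.spinOne α)).PosSemidef := by
  have := mdlE_site_field j α (-h)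
  rw [abs_neg] at this
  convert this using 1
  push_cast
  rw [neg_smul, sub_neg_eq_add]

end Chain

/-- the constant of the pairing bound for `k` consecutive bonds -/
def mdlE_pairC (k : ℕ) : ℕ := 3 * (k / 2) + 2 * (k % 2)

/-- the site number `i` of the chain (clipped) -/
def mdlE_st (m i : ℕ) : Fin (m + 1) := ⟨min i m, by omega⟩

theorem mdlE_st_ne {m i j : ℕ} (hi : i ≤ m) (hj : j ≤ m) (hij : i ≠ j) :
    mdlE_st m i ≠ mdlE_st m j := by
  intro h
  have := congrArg Fin.val h
  simp only [mdlE_st] at this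
  omega

/-- bonds of the open chain -/
theorem mdlE_open_bonds_eq (m : ℕ) :
    (∑ i : Fin m, ∑ α : Fin 3,
      Claims.C0475.siteOp (Fin.castSucc i) (Claims.C0475.spinOne α) *
        Claims.C0475.siteOp (Fin.succ i) (Claims.C0475.spinOne α)) =
      ∑ i ∈ Finset.range m, mdlE_sb (mdlE_st m i) (mdlE_st m (i + 1)) := by
  rw [← Fin.sum_univ_eq_sum_range (fun i => mdlE_sb (mdlE_st m i) (mdlE_st m (i + 1))) m]
  refine Finset.sum_congr rfl fun i _ => ?_
  have h1 : mdlE_st m i = Fin.castSucc i := by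
    apply Fin.ext; simp only [mdlE_st, Fin.val_castSucc]; omega
  have h2 : mdlE_st m (i + 1) = Fin.succ i := by
    apply Fin.ext; simp only [mdlE_st, Fin.val_succ]; omega
  rw [h1, h2]
  rfl

theorem mdlE_open_bonds_lower (m : ℕ) : ∀ k : ℕ, k ≤ m →
    (∑ i ∈ Finset.range k, mdlE_sb (mdlE_st m i) (mdlE_st m (i + 1)) +
      ((mdlE_pairC k : ℝ) : ℂ) • 1).PosSemidef := by
  intro k
  induction k using Nat.twoStepInduction with
  | zero => intro _; simp [mdlE_pairC, PosSemidef.zero]
  | one =>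
    intro h1
    have := mdlE_sb_lo (mdlE_st_ne (m := m) (i := 0) (j := 1) (by omega) h1 (by omega))
    simpa [mdlE_pairC] using this
  | more k ih _ =>
    intro hk
    have h1 := ih (by omega)
    have h2 := mdlE_sb_pair (mdlE_st_ne (m := m) (i := k) (j := k + 1) (by omega) (by omega)
      (by omega)) (mdlE_st_ne (m := m) (i := k + 1) (j := k + 2) (by omega) (by omega) (by omega))
      (mdlE_st_ne (m := m) (i := k) (j := k + 2) (by omega) (by omega) (by omega))
    have h3 := h1.add h2
    have hc : mdlE_pairC (k + 2) = mdlE_pairC k + 3 := by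
      unfold mdlE_pairC; omega
    rw [Finset.sum_range_succ, Finset.sum_range_succ, hc]
    convert h3 using 1
    push_cast
    rw [add_smul]
    abel

theorem mdlE_open_bonds_upper (m : ℕ) :
    (((m : ℝ) : ℂ) • 1 -
      ∑ i ∈ Finset.range m, mdlE_sb (mdlE_st m i) (mdlE_st m (i + 1))).PosSemidef := by
  have h1 : (∑ i ∈ Finset.range m, (1 - mdlE_sb (mdlE_st m i) (mdlE_st m (i + 1)))).PosSemidef :=
    Matrix.posSemidef_sum _ fun i hi => mdlE_sb_hi
      (mdlE_st_ne (by have := Finset.mem_range.mp hi; omega)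
        (by have := Finset.mem_range.mp hi; omega) (by omega))
  rw [Finset.sum_sub_distrib, Finset.sum_const, Finset.card_range] at h1
  convert h1 using 2
  ext s t
  simp [Matrix.smul_apply, Matrix.one_apply]

/-- the lower energy constant of the open chain with `m` bonds -/
noncomputable def mdlE_openC (m : ℕ) (hL hR : ℝ) : ℝ := mdlE_pairC m + |hL| + |hR|

theorem mdlE_openChain_lower (m : ℕ) (hL hR : ℝ) :
    (openChain m hL hR + ((mdlE_openC m hL hR : ℝ) : ℂ) • 1).PosSemidef := by
  have h := ((mdlE_open_bonds_lower m m le_rfl).add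
    (mdlE_site_field (0 : Fin (m + 1)) 2 hL)).add (mdlE_site_field (Fin.last m) 2 hR)
  unfold openChain mdlE_openC
  rw [mdlE_open_bonds_eq]
  convert h using 1
  push_cast
  rw [add_smul, add_smul]
  abel

theorem mdlE_openChain_upper (m : ℕ) (hL hR : ℝ) :
    (((m + |hL| + |hR| : ℝ) : ℂ) • 1 - openChain m hL hR).PosSemidef := by
  have h := ((mdlE_open_bonds_upper m).add
    (mdlE_site_field' (0 : Fin (m + 1)) 2 hL)).add (mdlE_site_field' (Fin.last m) 2 hR)
  unfold openChain
  rw [mdlE_open_bonds_eq]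
  convert h using 1
  push_cast
  rw [add_smul, add_smul]
  abel

theorem mdlE_openChainX_lower (m : ℕ) (hL hR : ℝ) :
    (openChainX m hL hR + ((mdlE_openC m hL hR : ℝ) : ℂ) • 1).PosSemidef := by
  have h := ((mdlE_open_bonds_lower m m le_rfl).add
    (mdlE_site_field (0 : Fin (m + 1)) 2 hL)).add (mdlE_site_field (Fin.last m) 0 hR)
  unfold openChainX mdlE_openC
  rw [mdlE_open_bonds_eq]
  convert h using 1
  push_cast
  rw [add_smul, add_smul]
  abel

theorem mdlE_openChainX_upper (m : ℕ) (hL hR : ℝ) :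
    (((m + |hL| + |hR| : ℝ) : ℂ) • 1 - openChainX m hL hR).PosSemidef := by
  have h := ((mdlE_open_bonds_upper m).add
    (mdlE_site_field' (0 : Fin (m + 1)) 2 hL)).add (mdlE_site_field' (Fin.last m) 0 hR)
  unfold openChainX
  rw [mdlE_open_bonds_eq]
  convert h using 1
  push_cast
  rw [add_smul, add_smul]
  abel

theorem mdlE_openChain_eig_ge (m : ℕ) (hL hR : ℝ) (hH : (openChain m hL hR).IsHermitian)
    (k : Fin (m + 1) → Fin 3) : -(mdlE_openC m hL hR) ≤ hH.eigenvalues k :=
  mdlE_eig_ge hH (mdlE_openChain_lower m hL hR) k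

theorem mdlE_openChain_eig_le (m : ℕ) (hL hR : ℝ) (hH : (openChain m hL hR).IsHermitian)
    (k : Fin (m + 1) → Fin 3) : hH.eigenvalues k ≤ m + |hL| + |hR| :=
  mdlE_eig_le hH (mdlE_openChain_upper m hL hR) k

theorem mdlE_openChainX_eig_ge (m : ℕ) (hL hR : ℝ) (hH : (openChainX m hL hR).IsHermitian)
    (k : Fin (m + 1) → Fin 3) : -(mdlE_openC m hL hR) ≤ hH.eigenvalues k :=
  mdlE_eig_ge hH (mdlE_openChainX_lower m hL hR) k

theorem mdlE_openChainX_eig_le (m : ℕ) (hL hR : ℝ) (hH : (openChainX m hL hR).IsHermitian)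
    (k : Fin (m + 1) → Fin 3) : hH.eigenvalues k ≤ m + |hL| + |hR| :=
  mdlE_eig_le hH (mdlE_openChainX_upper m hL hR) k

end Claimed.Agent.R297
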