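/-
Row 297 (Haldane gap), package M (model lemmas), owner helper100.

`mdlLoc e K` : the operator on `ι → κ` acting as `K` on the sites `e a` (`a : α`) and
trivially on all other sites.  For injective `e` it is a unital star-algebra embedding.
Everything is over an arbitrary commutative (semi)ring, so that the same lemmas serve the
integer, real and complex versions of the model.
-/
import Mathlib

set_option autoImplicit false
set_option linter.unusedSectionVars false

namespace Claimed.Agent.R297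

open Matrix

section Loc

variable {α β ι κ R : Type*} [Fintype α] [DecidableEq α] [Fintype ι] [DecidableEq ι]
  [DecidableEq κ]

/-- `σ` and `τ` agree at all sites outside the range of `e`. -/
def mdlAgree (e : α → ι) (σ τ : ι → κ) : Prop := ∀ k, (∀ a, e a ≠ k) → σ k = τ k

instance mdlAgree_decidable (e : α → ι) (σ τ : ι → κ) : Decidable (mdlAgree e σ τ) := by
  unfold mdlAgree; infer_instance

omit [Fintype α] [DecidableEq α] [Fintype ι] [DecidableEq ι] [DecidableEq κ] in
theorem mdlAgree_refl (e : α → ι) (σ : ι → κ) : mdlAgree e σ σ := fun _ _ => rfl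

omit [Fintype α] [DecidableEq α] [Fintype ι] [DecidableEq ι] [DecidableEq κ] in
theorem mdlAgree_symm {e : α → ι} {σ τ : ι → κ} (h : mdlAgree e σ τ) : mdlAgree e τ σ :=
  fun k hk => (h k hk).symm

omit [Fintype α] [DecidableEq α] [Fintype ι] [DecidableEq ι] [DecidableEq κ] in
theorem mdlAgree_comm {e : α → ι} {σ τ : ι → κ} : mdlAgree e σ τ ↔ mdlAgree e τ σ :=
  ⟨mdlAgree_symm, mdlAgree_symm⟩

omit [Fintype α] [DecidableEq α] [Fintype ι] [DecidableEq ι] [DecidableEq κ] in
theorem mdlAgree_trans {e : α → ι} {σ τ ρ : ι → κ} (h : mdlAgree e σ τ) (h' : mdlAgree e τ ρ) :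
    mdlAgree e σ ρ := fun k hk => (h k hk).trans (h' k hk)

omit [Fintype α] [DecidableEq α] [Fintype ι] [DecidableEq ι] [DecidableEq κ] in
theorem mdlAgree_extend (e : α → ι) (x : α → κ) (σ : ι → κ) :
    mdlAgree e σ (Function.extend e x σ) := fun k hk =>
  (Function.extend_apply' x σ k (by rintro ⟨a, ha⟩; exact hk a ha)).symm

omit [Fintype α] [DecidableEq α] [Fintype ι] [DecidableEq ι] [DecidableEq κ] in
theorem mdlAgree_extend_left_iff (e : α → ι) (x : α → κ) (σ τ : ι → κ) :
    mdlAgree e (Function.extend e x σ) τ ↔ mdlAgree e σ τ :=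
  ⟨fun h => mdlAgree_trans (mdlAgree_extend e x σ) h,
   fun h => mdlAgree_trans (mdlAgree_symm (mdlAgree_extend e x σ)) h⟩

omit [Fintype α] [DecidableEq α] [Fintype ι] [DecidableEq ι] [DecidableEq κ] in
/-- A configuration agreeing with `σ` off the range of `e` is the extension of its restriction. -/
theorem mdlAgree_eq_extend {e : α → ι} {σ τ : ι → κ} (h : mdlAgree e σ τ) :
    Function.extend e (τ ∘ e) σ = τ := by
  classical
  funext k
  by_cases hk : ∃ a, e a = k
  · obtain ⟨a, rfl⟩ := hk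
    simp only [Function.extend, Function.comp]
    have hex : ∃ a', e a' = e a := ⟨a, rfl⟩
    rw [dif_pos hex, hex.choose_spec]
  · rw [Function.extend_apply' _ _ _ hk]
    exact h k (fun a ha => hk ⟨a, ha⟩)

/-- The operator acting as `K` on the sites `e a` and trivially elsewhere. -/
def mdlLoc [Zero R] (e : α → ι) (K : Matrix (α → κ) (α → κ) R) :
    Matrix (ι → κ) (ι → κ) R :=
  Matrix.of fun σ τ => if mdlAgree e σ τ then K (σ ∘ e) (τ ∘ e) else 0

theorem mdlLoc_apply [Zero R] (e : α → ι) (K : Matrix (α → κ) (α → κ) R) (σ τ : ι → κ) :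
    mdlLoc e K σ τ = if mdlAgree e σ τ then K (σ ∘ e) (τ ∘ e) else 0 := rfl

/-- Summation over the configurations which agree with `σ` off the range of `e`. -/
theorem mdl_sum_agree [Fintype κ] [AddCommMonoid R] {e : α → ι} (he : Function.Injective e)
    (σ : ι → κ) (G : (ι → κ) → R) :
    (∑ ρ : ι → κ, if mdlAgree e σ ρ then G ρ else 0) =
      ∑ x : α → κ, G (Function.extend e x σ) := by
  classical
  rw [← Finset.sum_filter]
  refine Finset.sum_nbij' (fun ρ => ρ ∘ e) (fun x => Function.extend e x σ) ?_ ?_ ?_ ?_ ?_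
  · intro ρ _; exact Finset.mem_univ _
  · intro x _
    simp only [Finset.mem_filter, Finset.mem_univ, true_and]
    exact mdlAgree_extend e x σ
  · intro ρ hρ
    simp only [Finset.mem_filter, Finset.mem_univ, true_and] at hρ
    exact mdlAgree_eq_extend hρ
  · intro x _
    exact Function.extend_comp he x σ
  · intro ρ hρ
    simp only [Finset.mem_filter, Finset.mem_univ, true_and] at hρ
    rw [mdlAgree_eq_extend hρ]

/-- Explicit action of a local operator on a vector. -/
theorem mdlLoc_mulVec [Fintype κ] [NonUnitalNonAssocSemiring R] {e : α → ι}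
    (he : Function.Injective e) (K : Matrix (α → κ) (α → κ) R) (v : (ι → κ) → R) (σ : ι → κ) :
    (mdlLoc e K *ᵥ v) σ = ∑ x : α → κ, K (σ ∘ e) x * v (Function.extend e x σ) := by
  rw [← (mdl_sum_agree he σ (fun ρ => K (σ ∘ e) (ρ ∘ e) * v ρ)).trans
    (Finset.sum_congr rfl fun x _ => by rw [Function.extend_comp he])]
  simp only [mulVec, dotProduct, mdlLoc_apply, ite_mul, zero_mul]

theorem mdlLoc_mul_apply [Fintype κ] [NonUnitalNonAssocSemiring R] {e : α → ι}
    (he : Function.Injective e) (K : Matrix (α → κ) (α → κ) R)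
    (M : Matrix (ι → κ) (ι → κ) R) (σ τ : ι → κ) :
    (mdlLoc e K * M) σ τ = ∑ x : α → κ, K (σ ∘ e) x * M (Function.extend e x σ) τ := by
  rw [← (mdl_sum_agree he σ (fun ρ => K (σ ∘ e) (ρ ∘ e) * M ρ τ)).trans
    (Finset.sum_congr rfl fun x _ => by rw [Function.extend_comp he])]
  simp only [mul_apply, mdlLoc_apply, ite_mul, zero_mul]

theorem mdlLoc_mul [Fintype κ] [NonUnitalNonAssocSemiring R] {e : α → ι}
    (he : Function.Injective e) (K K' : Matrix (α → κ) (α → κ) R) :
    mdlLoc e K * mdlLoc e K' = mdlLoc e (K * K') := by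
  ext σ τ
  rw [mdlLoc_mul_apply he]
  simp only [mdlLoc_apply, mdlAgree_extend_left_iff, Function.extend_comp he, mul_apply]
  split_ifs with h
  · rfl
  · simp

theorem mdlLoc_one [Zero R] [One R] (e : α → ι) :
    mdlLoc e (1 : Matrix (α → κ) (α → κ) R) = 1 := by
  ext σ τ
  rw [mdlLoc_apply]
  by_cases hστ : σ = τ
  · subst hστ; simp [mdlAgree_refl]
  · rw [one_apply_ne hστ]
    split_ifs with h
    · refine one_apply_ne fun hc => hστ ?_
      funext k
      by_cases hk : ∃ a, e a = k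
      · obtain ⟨a, rfl⟩ := hk; exact congrFun hc a
      · exact h k (fun a ha => hk ⟨a, ha⟩)
    · rfl

theorem mdlLoc_zero [Zero R] (e : α → ι) :
    mdlLoc e (0 : Matrix (α → κ) (α → κ) R) = 0 := by
  ext σ τ; simp [mdlLoc_apply]

theorem mdlLoc_add [AddZeroClass R] (e : α → ι) (K K' : Matrix (α → κ) (α → κ) R) :
    mdlLoc e (K + K') = mdlLoc e K + mdlLoc e K' := by
  ext σ τ; simp only [mdlLoc_apply, Matrix.add_apply]; split_ifs <;> simp

theorem mdlLoc_neg [SubtractionMonoid R] (e : α → ι) (K : Matrix (α → κ) (α → κ) R) :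
    mdlLoc e (-K) = -mdlLoc e K := by
  ext σ τ; simp only [mdlLoc_apply, Matrix.neg_apply]; split_ifs <;> simp

theorem mdlLoc_sub [AddGroup R] (e : α → ι) (K K' : Matrix (α → κ) (α → κ) R) :
    mdlLoc e (K - K') = mdlLoc e K - mdlLoc e K' := by
  ext σ τ; simp only [mdlLoc_apply, Matrix.sub_apply]; split_ifs <;> simp

theorem mdlLoc_smul {S : Type*} [Zero R] [SMulZeroClass S R] (e : α → ι) (c : S)
    (K : Matrix (α → κ) (α → κ) R) : mdlLoc e (c • K) = c • mdlLoc e K := by
  ext σ τ; simp only [mdlLoc_apply, Matrix.smul_apply]; split_ifs <;> simp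

theorem mdlLoc_sum {γ : Type*} [AddCommMonoid R] (e : α → ι) (s : Finset γ)
    (K : γ → Matrix (α → κ) (α → κ) R) :
    mdlLoc e (∑ c ∈ s, K c) = ∑ c ∈ s, mdlLoc e (K c) := by
  classical
  induction s using Finset.induction_on with
  | empty => simp [mdlLoc_zero]
  | insert a s ha ih => rw [Finset.sum_insert ha, Finset.sum_insert ha, mdlLoc_add, ih]

theorem mdlLoc_transpose [Zero R] (e : α → ι) (K : Matrix (α → κ) (α → κ) R) :
    (mdlLoc e K)ᵀ = mdlLoc e Kᵀ := by
  ext σ τ
  simp only [transpose_apply, mdlLoc_apply, mdlAgree_comm (σ := τ)]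

theorem mdlLoc_conjTranspose [AddMonoid R] [StarAddMonoid R] (e : α → ι)
    (K : Matrix (α → κ) (α → κ) R) : (mdlLoc e K)ᴴ = mdlLoc e Kᴴ := by
  ext σ τ
  simp only [conjTranspose_apply, mdlLoc_apply, mdlAgree_comm (σ := τ)]
  split_ifs <;> simp

theorem mdlLoc_map {S : Type*} [Zero R] [Zero S] (e : α → ι) (K : Matrix (α → κ) (α → κ) R)
    (f : R → S) (hf : f 0 = 0) : (mdlLoc e K).map f = mdlLoc e (K.map f) := by
  ext σ τ
  simp only [map_apply, mdlLoc_apply]
  split_ifs <;> simp [hf]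

theorem mdlLoc_pow [Fintype κ] [Semiring R] {e : α → ι}
    (he : Function.Injective e) (K : Matrix (α → κ) (α → κ) R) (m : ℕ) :
    (mdlLoc e K) ^ m = mdlLoc e (K ^ m) := by
  induction m with
  | zero => simp [mdlLoc_one]
  | succ m ih => rw [pow_succ, pow_succ, ih, mdlLoc_mul he]

/-- Embedding in two stages. -/
theorem mdlLoc_mdlLoc [Fintype β] [Zero R] {e : α → ι}
    (he : Function.Injective e) (f : β → α) (K : Matrix (β → κ) (β → κ) R) :
    mdlLoc e (mdlLoc f K) = mdlLoc (e ∘ f) K := by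
  ext σ τ
  simp only [mdlLoc_apply]
  have key : (mdlAgree e σ τ ∧ mdlAgree f (σ ∘ e) (τ ∘ e)) ↔ mdlAgree (e ∘ f) σ τ := by
    constructor
    · rintro ⟨h1, h2⟩ k hk
      by_cases hk' : ∃ a, e a = k
      · obtain ⟨a, rfl⟩ := hk'
        exact h2 a (fun b hb => hk b (by simp [hb]))
      · exact h1 k (fun a ha => hk' ⟨a, ha⟩)
    · intro h
      refine ⟨fun k hk => h k (fun b hb => hk (f b) hb), fun a ha => h (e a) (fun b hb => ?_)⟩
      exact ha b (he hb)
  by_cases h1 : mdlAgree e σ τ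
  · by_cases h2 : mdlAgree f (σ ∘ e) (τ ∘ e)
    · rw [if_pos h1, if_pos h2, if_pos (key.1 ⟨h1, h2⟩)]; rfl
    · rw [if_pos h1, if_neg h2, if_neg (fun h => h2 (key.2 h).2)]
  · rw [if_neg h1, if_neg (fun h => h1 (key.2 h).1)]

/-- Entries of a product of two local operators with disjoint supports. -/
theorem mdlLoc_mul_mdlLoc_apply [Fintype β] [DecidableEq β] [Fintype κ]
    [NonUnitalNonAssocSemiring R]
    {e : α → ι} {f : β → ι} (he : Function.Injective e)
    (hd : ∀ a b, e a ≠ f b) (K : Matrix (α → κ) (α → κ) R) (K' : Matrix (β → κ) (β → κ) R)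
    (σ τ : ι → κ) :
    (mdlLoc e K * mdlLoc f K') σ τ =
      if (∀ k, (∀ a, e a ≠ k) → (∀ b, f b ≠ k) → σ k = τ k) then
        K (σ ∘ e) (τ ∘ e) * K' (σ ∘ f) (τ ∘ f) else 0 := by
  rw [mdlLoc_mul_apply he]
  have hf' : ∀ x : α → κ, Function.extend e x σ ∘ f = σ ∘ f := by
    intro x; funext b
    exact Function.extend_apply' x σ (f b) (by rintro ⟨a, ha⟩; exact hd a b ha)
  have hc : ∀ x : α → κ, mdlAgree f (Function.extend e x σ) τ ↔
      (x = τ ∘ e ∧ ∀ k, (∀ a, e a ≠ k) → (∀ b, f b ≠ k) → σ k = τ k) := by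
    intro x
    constructor
    · intro h
      refine ⟨?_, fun k hk hk' => ?_⟩
      · funext a
        have := h (e a) (fun b hb => hd a b hb.symm)
        rwa [he.extend_apply] at this
      · have := h k hk'
        rwa [Function.extend_apply' x σ k (by rintro ⟨a, ha⟩; exact hk a ha)] at this
    · rintro ⟨rfl, h⟩ k hk
      by_cases hk' : ∃ a, e a = k
      · obtain ⟨a, rfl⟩ := hk'
        rw [he.extend_apply]; rfl
      · rw [Function.extend_apply' _ σ k hk']
        exact h k (fun a ha => hk' ⟨a, ha⟩) hk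
  simp only [mdlLoc_apply, hf', hc]
  by_cases h : ∀ k, (∀ a, e a ≠ k) → (∀ b, f b ≠ k) → σ k = τ k
  · rw [if_pos h, Finset.sum_eq_single (τ ∘ e)]
    · rw [if_pos ⟨rfl, h⟩]
    · intro x _ hx; rw [if_neg (fun hh => hx hh.1), mul_zero]
    · intro hx; exact absurd (Finset.mem_univ _) hx
  · rw [if_neg h]
    exact Finset.sum_eq_zero (fun x _ => by rw [if_neg (fun hh => h hh.2), mul_zero])

/-- Local operators with disjoint supports commute. -/
theorem mdlLoc_commute [Fintype β] [DecidableEq β] [Fintype κ] [NonUnitalNonAssocCommSemiring R]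
    {e : α → ι} {f : β → ι} (he : Function.Injective e) (hf : Function.Injective f)
    (hd : ∀ a b, e a ≠ f b) (K : Matrix (α → κ) (α → κ) R) (K' : Matrix (β → κ) (β → κ) R) :
    mdlLoc e K * mdlLoc f K' = mdlLoc f K' * mdlLoc e K := by
  ext σ τ
  rw [mdlLoc_mul_mdlLoc_apply he hd, mdlLoc_mul_mdlLoc_apply hf (fun b a => (hd a b).symm)]
  refine if_congr ⟨fun h k h1 h2 => h k h2 h1, fun h k h1 h2 => h k h2 h1⟩ (mul_comm _ _) rfl

end Loc

end Claimed.Agent.R297
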