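/-
Row 297 (Haldane gap), package M (model lemmas), owner helper100.

Interplay of the local embeddings `mdlLoc` (ModelLoc) with the one-site operators `mdlSite` and the
product operators `mdlTens` (ModelSite, helper150); positivity is preserved by `mdlLoc`.
-/
import Claimed.Agent.R297.ModelLoc
import Claimed.Agent.R297.ModelSite

set_option autoImplicit false
set_option linter.unusedSectionVars false

namespace Claimed.Agent.R297

open Matrix

section LocSite

variable {α ι κ R : Type*} [Fintype α] [DecidableEq α] [Fintype ι] [DecidableEq ι]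
  [Fintype κ] [DecidableEq κ]

/-- A one-site matrix seen as a matrix on configurations of a one-point set. -/
def mdlOne (A : Matrix κ κ R) : Matrix (Unit → κ) (Unit → κ) R :=
  A.submatrix (fun s => s ()) (fun s => s ())

theorem mdlOne_apply (A : Matrix κ κ R) (s t : Unit → κ) : mdlOne A s t = A (s ()) (t ()) := rfl

theorem mdlOne_mul [NonUnitalNonAssocSemiring R] (A B : Matrix κ κ R) :
    mdlOne A * mdlOne B = mdlOne (A * B) :=
  Matrix.submatrix_mul_equiv A B (fun s : Unit → κ => s ())
    (Equiv.funUnique Unit κ) (fun s : Unit → κ => s ())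

theorem mdlOne_conjTranspose [Star R] (A : Matrix κ κ R) : (mdlOne A)ᴴ = mdlOne Aᴴ := rfl

theorem mdlSite_eq_loc [Zero R] (j : ι) (A : Matrix κ κ R) :
    mdlSite j A = mdlLoc (fun _ : Unit => j) (mdlOne A) := by
  ext σ τ
  rw [mdlSite_apply, mdlLoc_apply]
  refine if_congr ⟨fun h k hk => h k (fun hh => hk () hh.symm),
    fun h k hk => h k (fun _ hh => hk hh.symm)⟩ rfl rfl

theorem mdl_unit_injective (j : ι) : Function.Injective (fun _ : Unit => j) :=
  fun _ _ _ => rfl

/-- A local embedding maps one-site operators to one-site operators. -/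
theorem mdlLoc_mdlSite [Zero R] {e : α → ι} (he : Function.Injective e) (a : α)
    (A : Matrix κ κ R) : mdlLoc e (mdlSite a A) = mdlSite (e a) A := by
  rw [mdlSite_eq_loc, mdlSite_eq_loc, mdlLoc_mdlLoc he]
  rfl

/-- A one-site operator commutes with a local operator whose support avoids the site. -/
theorem mdlSite_commute_mdlLoc [NonUnitalNonAssocCommSemiring R] {e : α → ι}
    (he : Function.Injective e) {j : ι} (hj : ∀ a, e a ≠ j) (A : Matrix κ κ R)
    (K : Matrix (α → κ) (α → κ) R) : mdlSite j A * mdlLoc e K = mdlLoc e K * mdlSite j A := by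
  rw [mdlSite_eq_loc]
  exact mdlLoc_commute (mdl_unit_injective j) he (fun _ a => (hj a).symm) _ _

end LocSite

section Pos

open scoped MatrixOrder ComplexOrder

variable {α ι κ : Type*} [Fintype α] [DecidableEq α] [Fintype ι] [DecidableEq ι]
  [Fintype κ] [DecidableEq κ]

/-- Local embeddings preserve positive semidefiniteness. -/
theorem mdlLoc_posSemidef {e : α → ι} (he : Function.Injective e)
    {K : Matrix (α → κ) (α → κ) ℂ} (hK : K.PosSemidef) : (mdlLoc e K).PosSemidef := by
  obtain ⟨a, rfl⟩ := CStarAlgebra.nonneg_iff_eq_star_mul_self.mp hK.nonneg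
  rw [star_eq_conjTranspose, ← mdlLoc_mul he, ← mdlLoc_conjTranspose]
  exact posSemidef_conjTranspose_mul_self _

/-- One-site operators built from positive semidefinite matrices are positive semidefinite. -/
theorem mdlSite_posSemidef (j : ι) {A : Matrix κ κ ℂ} (hA : A.PosSemidef) :
    (mdlSite j A).PosSemidef := by
  obtain ⟨a, rfl⟩ := CStarAlgebra.nonneg_iff_eq_star_mul_self.mp hA.nonneg
  rw [star_eq_conjTranspose, ← mdlSite_mul, ← mdlSite_conjTranspose]
  exact posSemidef_conjTranspose_mul_self _

end Pos

end Claimed.Agent.R297
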