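/-
Row 297 (spin-one Haldane gap), package M (model layer), owner helper150.

The weight-basis ring with unimodular seam phases is literally `twistRing n (rotZ c s)`; rotations
about `z` are implemented by diagonal unitaries, so the energy bounds of `ModelEnergyRing` apply.
-/
import Claimed.Agent.R297.ModelWeight
import Claimed.Agent.R297.ModelEnergyRing

namespace Claimed.Agent.R297

open Matrix Complex

/-- the diagonal unitary implementing `rotZ c s`. -/
noncomputable def mdlRotW (c s : ℝ) : Matrix (Fin 3) (Fin 3) ℂ :=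
  !![(c : ℂ) + s * I, 0, 0; 0, 1, 0; 0, 0, (c : ℂ) - s * I]

theorem mdl_isRot_rotZ (c s : ℝ) (h : c ^ 2 + s ^ 2 = 1) : mdlE_IsRot (rotZ c s) := by
  have hc : (c : ℂ) ^ 2 + (s : ℂ) ^ 2 = 1 := by exact_mod_cast h
  have hI : I * I = -1 := Complex.I_mul_I
  refine ⟨mdlRotW c s, ?_, fun α => ?_, fun β => ?_⟩
  · ext i j
    fin_cases i <;> fin_cases j <;>
      simp [mdlRotW, Matrix.mul_apply, Fin.sum_univ_three, Matrix.conjTranspose_apply] <;> grind
  · simp only [mdl_spinOne_eq]
    ext i j
    fin_cases α <;> fin_cases i <;> fin_cases j <;>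
      simp [mdlRotW, rotZ, Matrix.mul_apply, Fin.sum_univ_three, Matrix.conjTranspose_apply] <;>
      grind
  · simp only [mdl_spinOne_eq]
    ext i j
    fin_cases β <;> fin_cases i <;> fin_cases j <;>
      simp [mdlRotW, rotZ, Matrix.mul_apply, Fin.sum_univ_three, Matrix.conjTranspose_apply] <;>
      grind

/-- For a primitive cube root of unity `om`, the `ℤ[ω]` ring is a twisted ring. -/
theorem mdlPhaseRing_omega_eq_twistRing {om : ℂ} (hre : om.re = -1 / 2) (him : om.im ^ 2 = 3 / 4)
    (n : ℕ) : mdlPhaseRing n (om ^ 2) om = twistRing n (rotZ om.re om.im) := by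
  rw [mdl_twistRing_rotZ, ← mdl_omega_star hre him]
  congr 1
  · apply Complex.ext <;> simp
  · apply Complex.ext <;> simp

theorem mdl_isRot_omega {om : ℂ} (hre : om.re = -1 / 2) (him : om.im ^ 2 = 3 / 4) :
    mdlE_IsRot (rotZ om.re om.im) :=
  mdl_isRot_rotZ _ _ (by rw [hre, him]; norm_num)

/-- **The cyclic twist as a twist about `z`.** -/
theorem mdl_gibbsZ_rotC_eq_rotZ {om : ℂ} (hre : om.re = -1 / 2) (him : om.im ^ 2 = 3 / 4)
    {n : ℕ} (hn : 2 ≤ n) (b : ℝ) :
    gibbsZ (twistRing n rotC) b = gibbsZ (twistRing n (rotZ om.re om.im)) b := by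
  rw [mdl_gibbsZ_twistRing_rotC hre him hn, mdlPhaseRing_omega_eq_twistRing hre him]

end Claimed.Agent.R297
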