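/-
Row 297 (spin-one Haldane gap), package E2 (open-chain MPS trial vectors), owner helper227.

A small verified engine for exact integer sparse matrices, tuned for evaluation inside the KERNEL
(`decide +kernel`):
* integers are pairs `(p, n)` of naturals standing for `p - n` (only GMP-accelerated `Nat` operations);
* own first-order inductive types and direct recursor applications (about 6 times faster in the kernel
  than `List`/`Prod` with the equation compiler);
* three operations: `ompL P Q` (constant matrix times matrix), `ompT` (transpose),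
  `ompAS a b P Q` (`P + (a - b) • Q`).
Semantics: `OmpMat.val M i j : ℤ`, no well-formedness invariant is needed.
The functions defined through recursors are `noncomputable`; `OmpTw.*` are compiled twins which are
only used to PRODUCE check-point literals (`eval%`), never in a proof.
-/
import Mathlib

namespace Claimed.Agent.R297

/-- sparse row: entries `(column, positive part, negative part)` -/
inductive OmpRow where
  | nil : OmpRow
  | cons (k p n : ℕ) (t : OmpRow) : OmpRow
  deriving DecidableEq, Lean.ToExpr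

/-- list of sparse rows -/
inductive OmpMat where
  | nil : OmpMat
  | cons (r : OmpRow) (t : OmpMat) : OmpMat
  deriving DecidableEq, Lean.ToExpr

/-- dense row of constant coefficients (`z` = zero, `c a b` = `a - b`) -/
inductive OmpCRow where
  | nil : OmpCRow
  | z (t : OmpCRow) : OmpCRow
  | c (a b : ℕ) (t : OmpCRow) : OmpCRow

/-- constant matrix -/
inductive OmpCMat where
  | nil : OmpCMat
  | cons (r : OmpCRow) (t : OmpCMat) : OmpCMat

/-! ### Kernel functions -/

/-- add `(p,n)` to the entry of column `j` (slow path of `ompAxpy`) -/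
noncomputable def ompIns (j p n : ℕ) (r : OmpRow) : OmpRow :=
  OmpRow.rec (OmpRow.cons j p n OmpRow.nil)
    (fun k p' n' t ih =>
      Bool.rec (OmpRow.cons k p' n' ih) (OmpRow.cons k (Nat.add p' p) (Nat.add n' n) t)
        (Nat.beq k j)) r

/-- `acc + (a - b) • r`; linear time when `acc` and `r` have the same column layout -/
noncomputable def ompAxpy (a b : ℕ) (r : OmpRow) : OmpRow → OmpRow :=
  OmpRow.rec (motive := fun _ => OmpRow → OmpRow) (fun acc => acc)
    (fun j x y _ ih acc =>
      OmpRow.rec (motive := fun _ => OmpRow)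
        (OmpRow.cons j (Nat.add (Nat.mul a x) (Nat.mul b y)) (Nat.add (Nat.mul a y) (Nat.mul b x))
          (ih OmpRow.nil))
        (fun k p n acc' _ =>
          Bool.rec
            (ompIns j (Nat.add (Nat.mul a x) (Nat.mul b y)) (Nat.add (Nat.mul a y) (Nat.mul b x))
              (ih acc))
            (OmpRow.cons k (Nat.add p (Nat.add (Nat.mul a x) (Nat.mul b y)))
              (Nat.add n (Nat.add (Nat.mul a y) (Nat.mul b x))) (ih acc'))
            (Nat.beq k j))
        acc) r

/-- `acc + ∑ᵢ csᵢ • Qᵢ` -/
noncomputable def ompLComb (cs : OmpCRow) : OmpMat → OmpRow → OmpRow :=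
  OmpCRow.rec (motive := fun _ => OmpMat → OmpRow → OmpRow) (fun _ acc => acc)
    (fun _ ih Q acc => OmpMat.rec (motive := fun _ => OmpRow) acc (fun _ Q' _ => ih Q' acc) Q)
    (fun a b _ ih Q acc =>
      OmpMat.rec (motive := fun _ => OmpRow) acc (fun q Q' _ => ih Q' (ompAxpy a b q acc)) Q)
    cs

/-- constant matrix times matrix -/
noncomputable def ompL (P : OmpCMat) (Q : OmpMat) : OmpMat :=
  OmpCMat.rec OmpMat.nil (fun cs _ ih => OmpMat.cons (ompLComb cs Q OmpRow.nil) ih) P

/-- auxiliary to `ompGet`: a first entry of column `j` has been found -/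
noncomputable def ompGetAcc (j : ℕ) (r : OmpRow) : ℕ → ℕ → (ℕ → ℕ → OmpRow) → OmpRow :=
  OmpRow.rec (motive := fun _ => ℕ → ℕ → (ℕ → ℕ → OmpRow) → OmpRow) (fun p n f => f p n)
    (fun k p' n' _ ih p n f =>
      Bool.rec (ih p n f) (ih (Nat.add p p') (Nat.add n n') f) (Nat.beq k j)) r

/-- continuation-style lookup: `d` if the row has no entry of column `j`, else `f p n` -/
noncomputable def ompGet (j : ℕ) (r : OmpRow) : OmpRow → (ℕ → ℕ → OmpRow) → OmpRow :=
  OmpRow.rec (motive := fun _ => OmpRow → (ℕ → ℕ → OmpRow) → OmpRow) (fun d _ => d)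
    (fun k p n t ih d f => Bool.rec (ih d f) (ompGetAcc j t p n f) (Nat.beq k j)) r

/-- column `j` of `M` as a sparse row, the rows being numbered from `a` -/
noncomputable def ompCol (j : ℕ) (M : OmpMat) : ℕ → OmpRow :=
  OmpMat.rec (motive := fun _ => ℕ → OmpRow) (fun _ => OmpRow.nil)
    (fun r _ ih a =>
      ompGet j r (ih (Nat.succ a)) (fun p n => OmpRow.cons a p n (ih (Nat.succ a)))) M

noncomputable def ompTgo (M : OmpMat) (idx : List ℕ) : OmpMat :=
  List.rec OmpMat.nil (fun j _ ih => OmpMat.cons (ompCol j M 0) ih) idx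

/-- the column indices `0, …, 25` -/
def ompIdx : List ℕ :=
  [0, 1, 2, 3, 4, 5, 6, 7, 8, 9, 10, 11, 12, 13, 14, 15, 16, 17, 18, 19, 20, 21, 22, 23, 24, 25]

/-- transpose (columns `0..25`) -/
noncomputable def ompT (M : OmpMat) : OmpMat := ompTgo M ompIdx

/-- `P + (a - b) • Q` -/
noncomputable def ompAS (a b : ℕ) (P : OmpMat) : OmpMat → OmpMat :=
  OmpMat.rec (motive := fun _ => OmpMat → OmpMat)
    (fun Q => OmpMat.rec OmpMat.nil (fun s _ ih => OmpMat.cons (ompAxpy a b s OmpRow.nil) ih) Q)
    (fun r P' ih Q =>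
      OmpMat.rec (motive := fun _ => OmpMat) (OmpMat.cons r P')
        (fun s Q' _ => OmpMat.cons (ompAxpy a b s r) (ih Q')) Q) P

/-! ### Semantics -/

def OmpRow.val : OmpRow → ℕ → ℤ
  | .nil, _ => 0
  | .cons k p n t, j => (if k = j then (p : ℤ) - n else 0) + t.val j

def OmpMat.row : OmpMat → ℕ → OmpRow
  | .nil, _ => .nil
  | .cons r _, 0 => r
  | .cons _ t, i + 1 => t.row i

def OmpMat.val (M : OmpMat) (i j : ℕ) : ℤ := (M.row i).val j

def OmpCRow.val : OmpCRow → ℕ → ℤ
  | .nil, _ => 0
  | .z _, 0 => 0
  | .z t, i + 1 => t.val i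
  | .c a b _, 0 => (a : ℤ) - b
  | .c _ _ t, i + 1 => t.val i

def OmpCRow.len : OmpCRow → ℕ
  | .nil => 0
  | .z t => t.len + 1
  | .c _ _ t => t.len + 1

def OmpCMat.row : OmpCMat → ℕ → OmpCRow
  | .nil, _ => .nil
  | .cons r _, 0 => r
  | .cons _ t, i + 1 => t.row i

def OmpCMat.val (P : OmpCMat) (i j : ℕ) : ℤ := (P.row i).val j

/-- every row has at most `N` coefficients -/
def OmpCMat.lenLe (N : ℕ) : OmpCMat → Prop
  | .nil => True
  | .cons r t => r.len ≤ N ∧ t.lenLe N

instance OmpCMat.lenLe_decidable (N : ℕ) : (P : OmpCMat) → Decidable (P.lenLe N)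
  | .nil => isTrue trivial
  | .cons r t =>
    have := OmpCMat.lenLe_decidable N t
    inferInstanceAs (Decidable (r.len ≤ N ∧ t.lenLe N))

@[simp] theorem OmpRow.val_nil (j : ℕ) : OmpRow.nil.val j = 0 := rfl
theorem OmpRow.val_cons (k p n : ℕ) (t : OmpRow) (j : ℕ) :
    (OmpRow.cons k p n t).val j = (if k = j then (p : ℤ) - n else 0) + t.val j := rfl

theorem ompIns_val (j p n : ℕ) (r : OmpRow) (c : ℕ) :
    (ompIns j p n r).val c = r.val c + (if j = c then (p : ℤ) - n else 0) := by
  induction r with
  | nil => show (OmpRow.cons j p n OmpRow.nil).val c = _; simp [OmpRow.val_cons]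
  | cons k p' n' t ih =>
    cases h : Nat.beq k j with
    | true =>
      have hk : k = j := Nat.eq_of_beq_eq_true h
      have : ompIns j p n (OmpRow.cons k p' n' t) = OmpRow.cons k (p' + p) (n' + n) t := by
        show @Bool.rec (fun _ => OmpRow) _ _ (Nat.beq k j) = _
        rw [h]; rfl
      rw [this, OmpRow.val_cons, OmpRow.val_cons, hk]
      split_ifs <;> push_cast <;> ring
    | false =>
      have : ompIns j p n (OmpRow.cons k p' n' t) = OmpRow.cons k p' n' (ompIns j p n t) := by
        show @Bool.rec (fun _ => OmpRow) _ _ (Nat.beq k j) = _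
        rw [h]; rfl
      rw [this, OmpRow.val_cons, OmpRow.val_cons, ih]
      ring

theorem ompAxpy_val (a b : ℕ) (r acc : OmpRow) (c : ℕ) :
    (ompAxpy a b r acc).val c = acc.val c + ((a : ℤ) - b) * r.val c := by
  induction r generalizing acc with
  | nil => show acc.val c = _; simp
  | cons j x y r ih =>
    cases acc with
    | nil =>
      have : ompAxpy a b (OmpRow.cons j x y r) OmpRow.nil
          = OmpRow.cons j (a * x + b * y) (a * y + b * x) (ompAxpy a b r OmpRow.nil) := rfl
      rw [this, OmpRow.val_cons, OmpRow.val_cons, ih]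
      split_ifs <;> push_cast <;> simp
      ring
    | cons k p n acc' =>
      cases h : Nat.beq k j with
      | true =>
        have hk : k = j := Nat.eq_of_beq_eq_true h
        have : ompAxpy a b (OmpRow.cons j x y r) (OmpRow.cons k p n acc')
            = OmpRow.cons k (p + (a * x + b * y)) (n + (a * y + b * x)) (ompAxpy a b r acc') := by
          show @Bool.rec (fun _ => OmpRow) _ _ (Nat.beq k j) = _
          rw [h]; rfl
        rw [this, OmpRow.val_cons, OmpRow.val_cons, OmpRow.val_cons, ih, hk]
        split_ifs <;> push_cast <;> ring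
      | false =>
        have : ompAxpy a b (OmpRow.cons j x y r) (OmpRow.cons k p n acc')
            = ompIns j (a * x + b * y) (a * y + b * x)
                (ompAxpy a b r (OmpRow.cons k p n acc')) := by
          show @Bool.rec (fun _ => OmpRow) _ _ (Nat.beq k j) = _
          rw [h]; rfl
        rw [this, ompIns_val, ih, OmpRow.val_cons j]
        split_ifs <;> push_cast <;> ring

@[simp] theorem OmpMat.val_nil (i j : ℕ) : OmpMat.nil.val i j = 0 := rfl
@[simp] theorem OmpMat.val_cons_zero (r : OmpRow) (t : OmpMat) (j : ℕ) :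
    (OmpMat.cons r t).val 0 j = r.val j := rfl
@[simp] theorem OmpMat.val_cons_succ (r : OmpRow) (t : OmpMat) (i j : ℕ) :
    (OmpMat.cons r t).val (i + 1) j = t.val i j := rfl

theorem ompLComb_val (cs : OmpCRow) (Q : OmpMat) (acc : OmpRow) (N c : ℕ) (hN : cs.len ≤ N) :
    (ompLComb cs Q acc).val c = acc.val c + ∑ i ∈ Finset.range N, cs.val i * Q.val i c := by
  induction cs generalizing Q acc N with
  | nil =>
    show acc.val c = _
    simp [OmpCRow.val]
  | z t ih =>
    cases Q with
    | nil => show acc.val c = _; simp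
    | cons q Q' =>
      obtain ⟨N', rfl⟩ : ∃ N', N = N' + 1 := ⟨N - 1, by simp only [OmpCRow.len] at hN; omega⟩
      have hN' : t.len ≤ N' := by simp only [OmpCRow.len] at hN; omega
      show (ompLComb t Q' acc).val c = _
      rw [ih Q' acc N' hN', Finset.sum_range_succ']
      simp [OmpCRow.val]
  | c a b t ih =>
    cases Q with
    | nil => show acc.val c = _; simp
    | cons q Q' =>
      obtain ⟨N', rfl⟩ : ∃ N', N = N' + 1 := ⟨N - 1, by simp only [OmpCRow.len] at hN; omega⟩
      have hN' : t.len ≤ N' := by simp only [OmpCRow.len] at hN; omega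
      show (ompLComb t Q' (ompAxpy a b q acc)).val c = _
      rw [ih Q' _ N' hN', Finset.sum_range_succ', ompAxpy_val]
      simp only [OmpCRow.val, OmpMat.val_cons_succ, OmpMat.val_cons_zero]
      ring

theorem ompL_row (P : OmpCMat) (Q : OmpMat) (i : ℕ) :
    (ompL P Q).row i = ompLComb (P.row i) Q OmpRow.nil := by
  induction P generalizing i with
  | nil => rfl
  | cons cs P ih =>
    cases i with
    | zero => rfl
    | succ i => exact ih i

theorem OmpCMat.lenLe_row {N : ℕ} {P : OmpCMat} (h : P.lenLe N) (i : ℕ) : (P.row i).len ≤ N := by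
  induction P generalizing i with
  | nil => exact Nat.zero_le _
  | cons cs P ih =>
    cases i with
    | zero => exact h.1
    | succ i => exact ih h.2 i

theorem ompL_val {N : ℕ} {P : OmpCMat} (hP : P.lenLe N) (Q : OmpMat) (i c : ℕ) :
    (ompL P Q).val i c = ∑ a ∈ Finset.range N, P.val i a * Q.val a c := by
  unfold OmpMat.val
  rw [ompL_row, ompLComb_val _ _ _ N c (OmpCMat.lenLe_row hP i)]
  simp [OmpCMat.val, OmpMat.val]

theorem ompGetAcc_spec (j : ℕ) (r : OmpRow) (p n : ℕ) (f : ℕ → ℕ → OmpRow) :
    ∃ p' n' : ℕ, ompGetAcc j r p n f = f p' n' ∧ (p' : ℤ) - n' = ((p : ℤ) - n) + r.val j := by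
  induction r generalizing p n with
  | nil => exact ⟨p, n, rfl, by simp⟩
  | cons k p1 n1 t ih =>
    cases h : Nat.beq k j with
    | true =>
      have hk : k = j := Nat.eq_of_beq_eq_true h
      have : ompGetAcc j (OmpRow.cons k p1 n1 t) p n f = ompGetAcc j t (p + p1) (n + n1) f := by
        show @Bool.rec (fun _ => OmpRow) _ _ (Nat.beq k j) = _
        rw [h]; rfl
      obtain ⟨p', n', h1, h2⟩ := ih (p + p1) (n + n1)
      refine ⟨p', n', by rw [this, h1], ?_⟩
      rw [h2, OmpRow.val_cons, if_pos hk]
      push_cast; ring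
    | false =>
      have hk : k ≠ j := Nat.ne_of_beq_eq_false h
      have : ompGetAcc j (OmpRow.cons k p1 n1 t) p n f = ompGetAcc j t p n f := by
        show @Bool.rec (fun _ => OmpRow) _ _ (Nat.beq k j) = _
        rw [h]; rfl
      obtain ⟨p', n', h1, h2⟩ := ih p n
      refine ⟨p', n', by rw [this, h1], ?_⟩
      rw [h2, OmpRow.val_cons, if_neg hk]
      ring

theorem ompGet_spec (j : ℕ) (r d : OmpRow) (f : ℕ → ℕ → OmpRow) :
    (ompGet j r d f = d ∧ r.val j = 0) ∨
      ∃ p n : ℕ, ompGet j r d f = f p n ∧ (p : ℤ) - n = r.val j := by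
  induction r with
  | nil => exact Or.inl ⟨rfl, rfl⟩
  | cons k p1 n1 t ih =>
    cases h : Nat.beq k j with
    | true =>
      have hk : k = j := Nat.eq_of_beq_eq_true h
      have : ompGet j (OmpRow.cons k p1 n1 t) d f = ompGetAcc j t p1 n1 f := by
        show @Bool.rec (fun _ => OmpRow) _ _ (Nat.beq k j) = _
        rw [h]
      obtain ⟨p', n', h1, h2⟩ := ompGetAcc_spec j t p1 n1 f
      refine Or.inr ⟨p', n', by rw [this, h1], ?_⟩
      rw [h2, OmpRow.val_cons, if_pos hk]
    | false =>
      have hk : k ≠ j := Nat.ne_of_beq_eq_false h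
      have : ompGet j (OmpRow.cons k p1 n1 t) d f = ompGet j t d f := by
        show @Bool.rec (fun _ => OmpRow) _ _ (Nat.beq k j) = _
        rw [h]; rfl
      rw [this, OmpRow.val_cons, if_neg hk, zero_add]
      exact ih

theorem ompCol_val (j : ℕ) (M : OmpMat) (a c : ℕ) :
    (ompCol j M a).val c = if a ≤ c then M.val (c - a) j else 0 := by
  induction M generalizing a with
  | nil => show (0 : ℤ) = _; simp
  | cons r M ih =>
    have hdef : ompCol j (OmpMat.cons r M) a = ompGet j r (ompCol j M (a + 1))
        (fun p n => OmpRow.cons a p n (ompCol j M (a + 1))) := rfl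
    have hrest : ∀ v : ℤ, v = r.val j →
        (if a = c then v else 0) + (ompCol j M (a + 1)).val c
          = if a ≤ c then (OmpMat.cons r M).val (c - a) j else 0 := by
      intro v hv
      rw [ih (a + 1)]
      rcases Nat.lt_trichotomy a c with h | h | h
      · obtain ⟨k, rfl⟩ : ∃ k, c = a + 1 + k := ⟨c - (a + 1), by omega⟩
        rw [if_neg (by omega), if_pos (by omega), if_pos (by omega)]
        have h1 : a + 1 + k - (a + 1) = k := by omega
        have h2 : a + 1 + k - a = k + 1 := by omega
        rw [h1, h2]; simp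
      · subst h
        rw [if_pos rfl, if_neg (by omega), if_pos le_rfl]
        simp [hv]
      · rw [if_neg (by omega), if_neg (by omega), if_neg (by omega)]; simp
    rcases ompGet_spec j r (ompCol j M (a + 1))
        (fun p n => OmpRow.cons a p n (ompCol j M (a + 1))) with ⟨h1, h2⟩ | ⟨p, n, h1, h2⟩
    · rw [hdef, h1, ← hrest 0 h2.symm]; simp
    · rw [hdef, h1, OmpRow.val_cons, hrest _ h2]

theorem ompTgo_row (M : OmpMat) (idx : List ℕ) (i : ℕ) :
    (ompTgo M idx).row i = (idx[i]?).elim OmpRow.nil (fun j => ompCol j M 0) := by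
  induction idx generalizing i with
  | nil => rfl
  | cons j idx ih =>
    cases i with
    | zero => rfl
    | succ i =>
      rw [List.getElem?_cons_succ]
      exact ih i

theorem ompT_val (M : OmpMat) (j a : ℕ) (hj : j < 26) : (ompT M).val j a = M.val a j := by
  have h : ompIdx[j]? = some j := by
    interval_cases j <;> rfl
  unfold OmpMat.val ompT
  rw [ompTgo_row, h]
  show (ompCol j M 0).val a = _
  rw [ompCol_val]
  simp [OmpMat.val]

theorem ompAS_row (a b : ℕ) (P Q : OmpMat) (i : ℕ) :
    (ompAS a b P Q).row i = ompAxpy a b (Q.row i) (P.row i) := by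
  induction P generalizing Q i with
  | nil =>
    induction Q generalizing i with
    | nil => rfl
    | cons s Q ih =>
      cases i with
      | zero => rfl
      | succ i => exact ih i
  | cons r P ih =>
    cases Q with
    | nil => rfl
    | cons s Q =>
      cases i with
      | zero => rfl
      | succ i => exact ih Q i

theorem ompAS_val (a b : ℕ) (P Q : OmpMat) (i c : ℕ) :
    (ompAS a b P Q).val i c = P.val i c + ((a : ℤ) - b) * Q.val i c := by
  unfold OmpMat.val
  rw [ompAS_row, ompAxpy_val]

/-! ### Matrices -/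

open Matrix

def ompToMat (M : OmpMat) : Matrix (Fin 26) (Fin 26) ℤ := Matrix.of fun i j => M.val i j

def ompCToMat (P : OmpCMat) : Matrix (Fin 26) (Fin 26) ℤ := Matrix.of fun i j => P.val i j

theorem ompToMat_L {P : OmpCMat} (hP : P.lenLe 26) (Q : OmpMat) :
    ompToMat (ompL P Q) = ompCToMat P * ompToMat Q := by
  ext i j
  rw [Matrix.mul_apply]
  simp only [ompToMat, ompCToMat, Matrix.of_apply]
  rw [ompL_val hP, ← Fin.sum_univ_eq_sum_range (fun a => P.val i a * Q.val a j) 26]

theorem ompToMat_T (M : OmpMat) : ompToMat (ompT M) = (ompToMat M)ᵀ := by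
  ext i j
  simp only [ompToMat, Matrix.of_apply, Matrix.transpose_apply]
  exact ompT_val M i j i.isLt

theorem ompToMat_AS (a b : ℕ) (P Q : OmpMat) :
    ompToMat (ompAS a b P Q) = ompToMat P + ((a : ℤ) - b) • ompToMat Q := by
  ext i j
  simp only [ompToMat, Matrix.of_apply, Matrix.add_apply, Matrix.smul_apply, smul_eq_mul]
  exact ompAS_val a b P Q i j

theorem ompToMat_nil : ompToMat OmpMat.nil = 0 := by
  ext i j; rfl

/-! ### Compiled twins (only used to produce literals with `eval%`) -/

namespace OmpTw

def ins (j p n : ℕ) : OmpRow → OmpRow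
  | .nil => .cons j p n .nil
  | .cons k p' n' t =>
    if k == j then .cons k (p' + p) (n' + n) t else .cons k p' n' (ins j p n t)

def axpy (a b : ℕ) : OmpRow → OmpRow → OmpRow
  | .nil, acc => acc
  | .cons j x y r, .nil => .cons j (a * x + b * y) (a * y + b * x) (axpy a b r .nil)
  | .cons j x y r, .cons k p n acc =>
    if k == j then .cons k (p + (a * x + b * y)) (n + (a * y + b * x)) (axpy a b r acc)
    else ins j (a * x + b * y) (a * y + b * x) (axpy a b r (.cons k p n acc))

def lcomb : OmpCRow → OmpMat → OmpRow → OmpRow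
  | .nil, _, acc => acc
  | .z _, .nil, acc => acc
  | .z cs, .cons _ Q, acc => lcomb cs Q acc
  | .c _ _ _, .nil, acc => acc
  | .c a b cs, .cons q Q, acc => lcomb cs Q (axpy a b q acc)

def mulL : OmpCMat → OmpMat → OmpMat
  | .nil, _ => .nil
  | .cons cs P, Q => .cons (lcomb cs Q .nil) (mulL P Q)

def get (j : ℕ) : OmpRow → Option (ℕ × ℕ) → Option (ℕ × ℕ)
  | .nil, acc => acc
  | .cons k p n t, acc =>
    if k == j then
      (match acc with
        | none => get j t (some (p, n))
        | some (p', n') => get j t (some (p' + p, n' + n)))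
    else get j t acc

def col (j : ℕ) : OmpMat → ℕ → OmpRow
  | .nil, _ => .nil
  | .cons r M, a =>
    match get j r none with
    | none => col j M (a + 1)
    | some (p, n) => .cons a p n (col j M (a + 1))

def tr (M : OmpMat) : OmpMat := ompIdx.foldr (fun j acc => .cons (col j M 0) acc) .nil

def addS (a b : ℕ) : OmpMat → OmpMat → OmpMat
  | .nil, .nil => .nil
  | .nil, .cons s Q => .cons (axpy a b s .nil) (addS a b .nil Q)
  | .cons r P, .nil => .cons r P
  | .cons r P, .cons s Q => .cons (axpy a b s r) (addS a b P Q)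

end OmpTw

end Claimed.Agent.R297
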