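/-
Row 297 (spin-one Haldane gap), package E2 (open-chain MPS trial vectors), owner helper227.

Generic part: expectation values of operators in an open-boundary matrix-product vector, by the
"environment" recursion.  Everything is over an arbitrary commutative ring `K`, an arbitrary finite
virtual index type `D` and an arbitrary finite physical index type `κ`.

* `ompRow A b m σ`   : the row vector `bᵀ A_{σ 0} ⋯ A_{σ (m-1)}`
* `ompAmp A b c m σ` : the amplitude `bᵀ A_{σ 0} ⋯ A_{σ (m-1)} c`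
* `ompEnv A b m M`   : `∑_{σ τ} M σ τ • (row σ)ᵀ (row τ)`, so `⟨ψ, M ψ⟩ = cᵀ (Env M) c`
* `ompExt m M X`     : the operator `M ⊗ X` on `m+1` sites
* `ompE A X ρ`       : `∑_{s t} X s t • A_sᵀ ρ A_t`
* `ompEnv_ext`       : `Env (M ⊗ X) = E_X (Env M)`.
-/
import Mathlib
import Claimed.Agent.R297.ModelSite

set_option linter.unusedSectionVars false

namespace Claimed.Agent.R297

open Matrix

section OmpMps

variable {K : Type*} [CommRing K] {D : Type*} [Fintype D] [DecidableEq D]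
variable {κ : Type*} [Fintype κ] [DecidableEq κ]

/-- The row vector `bᵀ A_{σ 0} ⋯ A_{σ (m-1)}`. -/
def ompRow (A : κ → Matrix D D K) (b : D → K) : (m : ℕ) → (Fin m → κ) → D → K
  | 0, _ => b
  | m + 1, σ => ompRow A b m (Fin.init σ) ᵥ* A (σ (Fin.last m))

/-- The amplitude `bᵀ A_{σ 0} ⋯ A_{σ (m-1)} c` of the matrix-product vector. -/
def ompAmp (A : κ → Matrix D D K) (b c : D → K) (m : ℕ) (σ : Fin m → κ) : K :=
  ompRow A b m σ ⬝ᵥ c

/-- The (left) environment of an operator on `m` sites. -/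
def ompEnv (A : κ → Matrix D D K) (b : D → K) (m : ℕ)
    (M : Matrix (Fin m → κ) (Fin m → κ) K) : Matrix D D K :=
  ∑ σ, ∑ τ, M σ τ • vecMulVec (ompRow A b m σ) (ompRow A b m τ)

/-- `M ⊗ X` on `m + 1` sites. -/
def ompExt (m : ℕ) (M : Matrix (Fin m → κ) (Fin m → κ) K) (X : Matrix κ κ K) :
    Matrix (Fin (m + 1) → κ) (Fin (m + 1) → κ) K :=
  Matrix.of fun σ τ => M (Fin.init σ) (Fin.init τ) * X (σ (Fin.last m)) (τ (Fin.last m))

/-- The one-site transfer map with the operator `X` inserted. -/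
def ompE (A : κ → Matrix D D K) (X : Matrix κ κ K) (ρ : Matrix D D K) : Matrix D D K :=
  ∑ s, ∑ t, X s t • ((A s)ᵀ * ρ * A t)

theorem ompExt_apply (m : ℕ) (M : Matrix (Fin m → κ) (Fin m → κ) K) (X : Matrix κ κ K)
    (σ τ : Fin (m + 1) → κ) :
    ompExt m M X σ τ = M (Fin.init σ) (Fin.init τ) * X (σ (Fin.last m)) (τ (Fin.last m)) := rfl

/-- Sum over configurations of `m+1` sites = sum over the last site and the first `m` sites. -/
theorem omp_sum_snoc {β : Type*} [AddCommMonoid β] (m : ℕ) (f : (Fin (m + 1) → κ) → β) :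
    ∑ σ, f σ = ∑ s : κ, ∑ σ' : Fin m → κ, f (Fin.snoc σ' s) := by
  rw [← Fintype.sum_prod_type']
  exact (Fintype.sum_equiv (Fin.snocEquiv fun _ => κ) _ _ fun _ => rfl).symm

theorem omp_vecMulVec_vecMul (x y : D → K) (P Q : Matrix D D K) :
    vecMulVec (x ᵥ* P) (y ᵥ* Q) = Pᵀ * vecMulVec x y * Q := by
  rw [Matrix.mul_vecMulVec, Matrix.vecMulVec_mul, Matrix.mulVec_transpose]

theorem ompRow_snoc (A : κ → Matrix D D K) (b : D → K) (m : ℕ) (σ : Fin m → κ) (s : κ) :
    ompRow A b (m + 1) (Fin.snoc σ s) = ompRow A b m σ ᵥ* A s := by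
  simp [ompRow]

theorem ompEnv_ext (A : κ → Matrix D D K) (b : D → K) (m : ℕ)
    (M : Matrix (Fin m → κ) (Fin m → κ) K) (X : Matrix κ κ K) :
    ompEnv A b (m + 1) (ompExt m M X) = ompE A X (ompEnv A b m M) := by
  unfold ompEnv ompE
  rw [omp_sum_snoc]
  refine Finset.sum_congr rfl fun s _ => ?_
  have h1 : ∀ σ' : Fin m → κ,
      ∑ τ, ompExt m M X (Fin.snoc σ' s) τ •
          vecMulVec (ompRow A b (m + 1) (Fin.snoc σ' s)) (ompRow A b (m + 1) τ)
        = ∑ t : κ, ∑ τ' : Fin m → κ, X s t •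
          ((A s)ᵀ * (M σ' τ' • vecMulVec (ompRow A b m σ') (ompRow A b m τ')) * A t) := by
    intro σ'
    rw [omp_sum_snoc]
    refine Finset.sum_congr rfl fun t _ => Finset.sum_congr rfl fun τ' _ => ?_
    rw [ompExt_apply, ompRow_snoc, ompRow_snoc, omp_vecMulVec_vecMul]
    simp only [Fin.init_snoc, Fin.snoc_last, Matrix.mul_smul, Matrix.smul_mul, smul_smul]
    rw [mul_comm]
  simp only [h1]
  rw [Finset.sum_comm]
  refine Finset.sum_congr rfl fun t _ => ?_
  rw [Matrix.mul_sum, Matrix.sum_mul, Finset.smul_sum]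
  refine Finset.sum_congr rfl fun σ' _ => ?_
  rw [Matrix.mul_sum, Matrix.sum_mul, Finset.smul_sum]

/-- `⟨ψ, M ψ⟩ = cᵀ (Env M) c` (bilinear form, no conjugation). -/
theorem omp_quad (A : κ → Matrix D D K) (b c : D → K) (m : ℕ)
    (M : Matrix (Fin m → κ) (Fin m → κ) K) :
    ompAmp A b c m ⬝ᵥ (M *ᵥ ompAmp A b c m) = c ⬝ᵥ (ompEnv A b m M *ᵥ c) := by
  have h : ∀ x y : D → K, c ⬝ᵥ (vecMulVec x y *ᵥ c) = (x ⬝ᵥ c) * (y ⬝ᵥ c) := by
    intro x y
    simp only [dotProduct, mulVec, vecMulVec_apply]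
    rw [Finset.sum_mul_sum]
    refine Finset.sum_congr rfl fun i _ => ?_
    rw [Finset.mul_sum]
    refine Finset.sum_congr rfl fun j _ => by ring
  have h2 : ∀ σ, ompRow A b m σ ⬝ᵥ c = ompAmp A b c m σ := fun _ => rfl
  unfold ompEnv
  simp only [Matrix.sum_mulVec, dotProduct_sum, Matrix.smul_mulVec, dotProduct_smul, h, h2,
    smul_eq_mul]
  generalize ompAmp A b c m = ψ
  simp only [dotProduct, mulVec, Finset.mul_sum]
  refine Finset.sum_congr rfl fun σ _ => Finset.sum_congr rfl fun τ _ => by ring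

/-! ### Algebra of `ompExt` -/

theorem ompExt_mul (m : ℕ) (M M' : Matrix (Fin m → κ) (Fin m → κ) K) (X X' : Matrix κ κ K) :
    ompExt m M X * ompExt m M' X' = ompExt m (M * M') (X * X') := by
  ext σ τ
  simp only [Matrix.mul_apply, ompExt_apply]
  rw [omp_sum_snoc, Finset.sum_mul_sum, Finset.sum_comm]
  refine Finset.sum_congr rfl fun ρ _ => Finset.sum_congr rfl fun r _ => ?_
  simp only [Fin.init_snoc, Fin.snoc_last]
  ring

theorem ompExt_one (m : ℕ) :
    ompExt m (1 : Matrix (Fin m → κ) (Fin m → κ) K) (1 : Matrix κ κ K) = 1 := by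
  ext σ τ
  simp only [ompExt_apply, Matrix.one_apply]
  by_cases h : σ = τ
  · subst h; simp
  · rw [if_neg h]
    by_cases h1 : Fin.init σ = Fin.init τ
    · by_cases h2 : σ (Fin.last m) = τ (Fin.last m)
      · exfalso
        apply h
        rw [← Fin.snoc_init_self σ, ← Fin.snoc_init_self τ, h1, h2]
      · simp [h2]
    · simp [h1]

theorem ompExt_add_left (m : ℕ) (M M' : Matrix (Fin m → κ) (Fin m → κ) K) (X : Matrix κ κ K) :
    ompExt m (M + M') X = ompExt m M X + ompExt m M' X := by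
  ext σ τ; simp only [ompExt_apply, Matrix.add_apply]; ring

theorem ompExt_add_right (m : ℕ) (M : Matrix (Fin m → κ) (Fin m → κ) K) (X X' : Matrix κ κ K) :
    ompExt m M (X + X') = ompExt m M X + ompExt m M X' := by
  ext σ τ; simp only [ompExt_apply, Matrix.add_apply]; ring

theorem ompExt_smul_left (m : ℕ) (a : K) (M : Matrix (Fin m → κ) (Fin m → κ) K)
    (X : Matrix κ κ K) : ompExt m (a • M) X = a • ompExt m M X := by
  ext σ τ; simp only [ompExt_apply, Matrix.smul_apply, smul_eq_mul]; ring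

theorem ompExt_smul_right (m : ℕ) (a : K) (M : Matrix (Fin m → κ) (Fin m → κ) K)
    (X : Matrix κ κ K) : ompExt m M (a • X) = a • ompExt m M X := by
  ext σ τ; simp only [ompExt_apply, Matrix.smul_apply, smul_eq_mul]; ring

theorem ompExt_zero_left (m : ℕ) (X : Matrix κ κ K) :
    ompExt m (0 : Matrix (Fin m → κ) (Fin m → κ) K) X = 0 := by
  ext σ τ; simp [ompExt_apply]

theorem ompExt_sum_left {α : Type*} (s : Finset α) (m : ℕ)
    (M : α → Matrix (Fin m → κ) (Fin m → κ) K) (X : Matrix κ κ K) :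
    ompExt m (∑ a ∈ s, M a) X = ∑ a ∈ s, ompExt m (M a) X := by
  classical
  induction s using Finset.induction_on with
  | empty => simp [ompExt_zero_left]
  | insert a s ha ih => rw [Finset.sum_insert ha, Finset.sum_insert ha, ompExt_add_left, ih]

theorem omp_mdlSite_castSucc (m : ℕ) (j : Fin m) (X : Matrix κ κ K) :
    mdlSite (Fin.castSucc j) X = ompExt m (mdlSite j X) 1 := by
  ext σ τ
  rw [ompExt_apply, mdlSite_apply, mdlSite_apply, Matrix.one_apply]
  have hiff : (∀ k, k ≠ Fin.castSucc j → σ k = τ k) ↔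
      ((∀ k, k ≠ j → Fin.init σ k = Fin.init τ k) ∧ σ (Fin.last m) = τ (Fin.last m)) := by
    rw [Fin.forall_fin_succ']
    constructor
    · rintro ⟨h1, h2⟩
      refine ⟨fun k hk => h1 k (fun h => hk (Fin.castSucc_injective _ h)), h2 ?_⟩
      exact (Fin.castSucc_lt_last j).ne'
    · rintro ⟨h1, h2⟩
      exact ⟨fun k hk => h1 k (fun h => hk (by rw [h])), fun _ => h2⟩
  by_cases h : ∀ k, k ≠ Fin.castSucc j → σ k = τ k
  · rw [if_pos h, if_pos (hiff.mp h).1, if_pos (hiff.mp h).2, mul_one]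
    rfl
  · rw [if_neg h]
    by_cases h1 : ∀ k, k ≠ j → Fin.init σ k = Fin.init τ k
    · have h2 : ¬ σ (Fin.last m) = τ (Fin.last m) := fun h2 => h (hiff.mpr ⟨h1, h2⟩)
      rw [if_neg h2, mul_zero]
    · rw [if_neg h1, zero_mul]

theorem omp_mdlSite_last (m : ℕ) (X : Matrix κ κ K) :
    mdlSite (Fin.last m) X = ompExt m 1 X := by
  ext σ τ
  rw [ompExt_apply, mdlSite_apply, Matrix.one_apply]
  have hiff : (∀ k, k ≠ Fin.last m → σ k = τ k) ↔ Fin.init σ = Fin.init τ := by
    rw [Fin.forall_fin_succ']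
    constructor
    · rintro ⟨h1, _⟩
      funext k
      exact h1 k (Fin.castSucc_lt_last k).ne
    · intro h
      exact ⟨fun k _ => congrFun h k, fun h' => absurd rfl h'⟩
  by_cases h : ∀ k, k ≠ Fin.last m → σ k = τ k
  · rw [if_pos h, if_pos (hiff.mp h), one_mul]
  · rw [if_neg h, if_neg (fun h' => h (hiff.mpr h')), zero_mul]

/-! ### Linearity of `ompEnv` and `ompE` -/

theorem ompEnv_add (A : κ → Matrix D D K) (b : D → K) (m : ℕ)
    (M M' : Matrix (Fin m → κ) (Fin m → κ) K) :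
    ompEnv A b m (M + M') = ompEnv A b m M + ompEnv A b m M' := by
  simp only [ompEnv, Matrix.add_apply, add_smul, Finset.sum_add_distrib]

theorem ompEnv_smul (A : κ → Matrix D D K) (b : D → K) (m : ℕ) (a : K)
    (M : Matrix (Fin m → κ) (Fin m → κ) K) :
    ompEnv A b m (a • M) = a • ompEnv A b m M := by
  simp only [ompEnv, Matrix.smul_apply, smul_eq_mul, Finset.smul_sum, smul_smul]

theorem ompEnv_zero (A : κ → Matrix D D K) (b : D → K) (m : ℕ) :
    ompEnv A b m 0 = 0 := by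
  simp [ompEnv]

theorem ompEnv_sum {α : Type*} (s : Finset α) (A : κ → Matrix D D K) (b : D → K) (m : ℕ)
    (M : α → Matrix (Fin m → κ) (Fin m → κ) K) :
    ompEnv A b m (∑ a ∈ s, M a) = ∑ a ∈ s, ompEnv A b m (M a) := by
  classical
  induction s using Finset.induction_on with
  | empty => simp [ompEnv_zero]
  | insert a s ha ih => rw [Finset.sum_insert ha, Finset.sum_insert ha, ompEnv_add, ih]

theorem ompE_add (A : κ → Matrix D D K) (X : Matrix κ κ K) (ρ ρ' : Matrix D D K) :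
    ompE A X (ρ + ρ') = ompE A X ρ + ompE A X ρ' := by
  simp only [ompE, Matrix.mul_add, Matrix.add_mul, smul_add, Finset.sum_add_distrib]

theorem ompE_smul (A : κ → Matrix D D K) (X : Matrix κ κ K) (a : K) (ρ : Matrix D D K) :
    ompE A X (a • ρ) = a • ompE A X ρ := by
  simp only [ompE, Matrix.mul_smul, Matrix.smul_mul, Finset.smul_sum]
  refine Finset.sum_congr rfl fun s _ => Finset.sum_congr rfl fun t _ => ?_
  rw [smul_comm]

theorem ompE_smul_op (A : κ → Matrix D D K) (a : K) (X : Matrix κ κ K) (ρ : Matrix D D K) :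
    ompE A (a • X) ρ = a • ompE A X ρ := by
  simp only [ompE, Matrix.smul_apply, smul_eq_mul, Finset.smul_sum, smul_smul]

theorem ompE_transpose (A : κ → Matrix D D K) (X : Matrix κ κ K) (ρ : Matrix D D K) :
    (ompE A X ρ)ᵀ = ompE A Xᵀ ρᵀ := by
  simp only [ompE, Matrix.transpose_sum, Matrix.transpose_smul, Matrix.transpose_mul,
    Matrix.transpose_transpose, Matrix.transpose_apply]
  rw [Finset.sum_comm]
  simp only [Matrix.mul_assoc]

/-! ### The chain Hamiltonian and its environment recursion -/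

variable {ι : Type*} [Fintype ι]

/-- Open chain on `m+1` sites: bonds `∑ₖ Xₖ ⊗ Yₖ` and the one-site operator `F` at the left end. -/
def ompHl (X Y : ι → Matrix κ κ K) (F : Matrix κ κ K) (m : ℕ) :
    Matrix (Fin (m + 1) → κ) (Fin (m + 1) → κ) K :=
  (∑ i : Fin m, ∑ k : ι, mdlSite (Fin.castSucc i) (X k) * mdlSite (Fin.succ i) (Y k)) +
    mdlSite (0 : Fin (m + 1)) F

theorem ompHl_succ (X Y : ι → Matrix κ κ K) (F : Matrix κ κ K) (m : ℕ) :
    ompHl X Y F (m + 1) = ompExt (m + 1) (ompHl X Y F m) 1 +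
      ∑ k : ι, ompExt (m + 1) (ompExt m 1 (X k)) (Y k) := by
  unfold ompHl
  rw [Fin.sum_univ_castSucc, ompExt_add_left, ompExt_sum_left]
  have h1 : ∀ i : Fin m, ∑ k : ι, mdlSite (Fin.castSucc (Fin.castSucc i)) (X k) *
        mdlSite (Fin.succ (Fin.castSucc i)) (Y k)
      = ompExt (m + 1) (∑ k : ι, mdlSite (Fin.castSucc i) (X k) * mdlSite (Fin.succ i) (Y k))
          (1 : Matrix κ κ K) := by
    intro i
    rw [ompExt_sum_left]
    refine Finset.sum_congr rfl fun k _ => ?_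
    rw [Fin.succ_castSucc, omp_mdlSite_castSucc (m + 1) (Fin.castSucc i),
      omp_mdlSite_castSucc (m + 1) (Fin.succ i), ompExt_mul, one_mul]
  have h2 : ∀ k : ι, mdlSite (Fin.castSucc (Fin.last m)) (X k) *
        mdlSite (Fin.succ (Fin.last m)) (Y k) = ompExt (m + 1) (ompExt m 1 (X k)) (Y k) := by
    intro k
    rw [Fin.succ_last, omp_mdlSite_castSucc, omp_mdlSite_last (m + 1), ompExt_mul, mul_one,
      one_mul, omp_mdlSite_last m]
  have h3 : mdlSite (0 : Fin (m + 1 + 1)) F = ompExt (m + 1) (mdlSite (0 : Fin (m + 1)) F) 1 := by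
    rw [← omp_mdlSite_castSucc, Fin.castSucc_zero]
  simp only [h1, h2, h3]
  abel

/-- `ρ_m = Env(1)` on `m` sites. -/
def ompRho (A : κ → Matrix D D K) (b : D → K) : ℕ → Matrix D D K
  | 0 => vecMulVec b b
  | m + 1 => ompE A 1 (ompRho A b m)

/-- `N_m = Env(ompHl m)` (chain of `m+1` sites). -/
def ompN (A : κ → Matrix D D K) (b : D → K) (X Y : ι → Matrix κ κ K) (F : Matrix κ κ K) :
    ℕ → Matrix D D K
  | 0 => ompE A F (vecMulVec b b)
  | m + 1 => ompE A 1 (ompN A b X Y F m) + ∑ k : ι, ompE A (Y k) (ompE A (X k) (ompRho A b m))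

theorem ompEnv_one (A : κ → Matrix D D K) (b : D → K) (m : ℕ) :
    ompEnv A b m 1 = ompRho A b m := by
  induction m with
  | zero =>
    simp [ompEnv, ompRho, ompRow]
  | succ m ih => rw [← ompExt_one, ompEnv_ext, ih, ompRho]

theorem ompEnv_last (A : κ → Matrix D D K) (b : D → K) (m : ℕ) (G : Matrix κ κ K) :
    ompEnv A b (m + 1) (mdlSite (Fin.last m) G) = ompE A G (ompRho A b m) := by
  rw [omp_mdlSite_last, ompEnv_ext, ompEnv_one]

theorem ompEnv_Hl (A : κ → Matrix D D K) (b : D → K) (X Y : ι → Matrix κ κ K)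
    (F : Matrix κ κ K) (m : ℕ) :
    ompEnv A b (m + 1) (ompHl X Y F m) = ompN A b X Y F m := by
  induction m with
  | zero =>
    have : ompHl X Y F 0 = mdlSite (Fin.last 0) F := by
      simp [ompHl]
    rw [this, ompEnv_last, ompN, ompRho]
  | succ m ih =>
    rw [ompHl_succ, ompEnv_add, ompEnv_ext, ih, ompEnv_sum, ompN]
    congr 1
    refine Finset.sum_congr rfl fun k _ => ?_
    rw [ompEnv_ext, ompEnv_ext, ompEnv_one]

/-- **Energy and norm of the matrix-product vector** on `m+1` sites, for the chain with bonds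
`∑ₖ Xₖ ⊗ Yₖ`, left end operator `F` and right end operator `G`. -/
theorem omp_energy (A : κ → Matrix D D K) (b c : D → K) (X Y : ι → Matrix κ κ K)
    (F G : Matrix κ κ K) (m : ℕ) :
    ompAmp A b c (m + 1) ⬝ᵥ ((ompHl X Y F m + mdlSite (Fin.last m) G) *ᵥ ompAmp A b c (m + 1))
      = c ⬝ᵥ ((ompN A b X Y F m + ompE A G (ompRho A b m)) *ᵥ c) := by
  rw [omp_quad, ompEnv_add, ompEnv_Hl, ompEnv_last]

theorem omp_norm (A : κ → Matrix D D K) (b c : D → K) (m : ℕ) :
    ompAmp A b c m ⬝ᵥ ompAmp A b c m = c ⬝ᵥ (ompRho A b m *ᵥ c) := by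
  rw [← ompEnv_one, ← omp_quad, Matrix.one_mulVec]

end OmpMps

end Claimed.Agent.R297
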