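/-
Row 297 (spin-one Haldane gap), package E2 (open-chain MPS trial vectors), owner helper227.

The kernel recurrence `ompStep : (ρ_m, N_m) ↦ (ρ_{m+1}, N_{m+1})` on engine matrices, its semantics
(`ompIter_sem`: it computes `ompRho`, `ompN` of `OMpsEnv`), the read-out predicate `ompGood`, and the
bridge theorem `omp_trial_of_good`.
-/
import Mathlib
import Claimed.Agent.R297.OMpsEngine
import Claimed.Agent.R297.OMpsData
import Claimed.Agent.R297.OMpsEnv
import Claimed.Agent.R297.OMpsHam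

namespace Claimed.Agent.R297

open Matrix

/-- one step of the recurrence -/
noncomputable def ompStep (st : OmpMat × OmpMat) : OmpMat × OmpMat :=
  let x := st.1
  let w := st.2
  let a0 := ompT (ompL ompAT0 x)
  let a1 := ompT (ompL ompAT1 x)
  let a2 := ompT (ompL ompAT2 x)
  let g00 := ompL ompAT0 a0
  let g11 := ompL ompAT1 a1
  let g22 := ompL ompAT2 a2
  let y := ompAS 1 0 (ompAS 1 0 g00 g11) g22
  let eZ := ompAS 0 1 g00 g22
  let eU := ompAS 1 0 (ompL ompAT0 a1) (ompL ompAT1 a2)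
  let eD := ompAS 1 0 (ompL ompAT1 a0) (ompL ompAT2 a1)
  let b0 := ompAS 1 0 (ompL ompAT0 eZ) (ompL ompAT1 eU)
  let b1 := ompAS 1 0 (ompL ompAT0 eD) (ompL ompAT2 eU)
  let b2 := ompAS 0 1 (ompL ompAT1 eD) (ompL ompAT2 eZ)
  let u0 := ompT (ompAS 5 0 (ompL ompAT0 w) b0)
  let u1 := ompT (ompAS 5 0 (ompL ompAT1 w) b1)
  let u2 := ompT (ompAS 5 0 (ompL ompAT2 w) b2)
  let w' := ompAS 1 0 (ompAS 1 0 (ompL ompAT0 u0) (ompL ompAT1 u1)) (ompL ompAT2 u2)
  (y, w')

noncomputable def ompIter : ℕ → OmpMat × OmpMat → OmpMat × OmpMat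
  | 0, st => st
  | k + 1, st => ompIter k (ompStep st)

/-- the initial state `(ρ_0, N_0)` -/
noncomputable def ompInit : OmpMat × OmpMat :=
  let x := ompRho0
  let g00 := ompL ompAT0 (ompT (ompL ompAT0 x))
  let g22 := ompL ompAT2 (ompT (ompL ompAT2 x))
  (x, ompAS 3 0 (ompAS 0 3 OmpMat.nil g00) g22)

/-- `cᵀ M c` as the `(0,0)` entry -/
noncomputable def ompQ (M : OmpMat) : OmpMat := ompL ompCrow (ompT (ompL ompCrow M))

/-- norm of the vector on `m+1` sites from the state `(ρ_m, N_m)` -/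
noncomputable def ompVq (st : OmpMat × OmpMat) : OmpMat :=
  let x := st.1
  let g00 := ompL ompAT0 (ompT (ompL ompAT0 x))
  let g11 := ompL ompAT1 (ompT (ompL ompAT1 x))
  let g22 := ompL ompAT2 (ompT (ompL ompAT2 x))
  ompQ (ompAS 1 0 (ompAS 1 0 g00 g11) g22)

/-- `5 ⟨H⟩` of the vector on `m+1` sites from the state `(ρ_m, N_m)` -/
noncomputable def ompHq (st : OmpMat × OmpMat) : OmpMat :=
  let x := st.1
  let w := st.2
  let g00 := ompL ompAT0 (ompT (ompL ompAT0 x))
  let g22 := ompL ompAT2 (ompT (ompL ompAT2 x))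
  ompQ (ompAS 0 3 (ompAS 3 0 w g00) g22)

/-- the read-out inequalities for the chain of `L` sites: `V > 0` and
`500000 (⟨H⟩ + a L V) < K V` -/
def ompGood (K L : ℤ) (st : OmpMat × OmpMat) : Prop :=
  0 < (ompVq st).val 0 0 ∧
    100000 * (ompHq st).val 0 0 + 700741 * L * (ompVq st).val 0 0 < K * (ompVq st).val 0 0

noncomputable instance ompGood_decidable (K L : ℤ) (st : OmpMat × OmpMat) :
    Decidable (ompGood K L st) :=
  inferInstanceAs (Decidable (0 < (ompVq st).val 0 0 ∧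
    100000 * (ompHq st).val 0 0 + 700741 * L * (ompVq st).val 0 0 < K * (ompVq st).val 0 0))

namespace OmpTw

def step (st : OmpMat × OmpMat) : OmpMat × OmpMat :=
  let x := st.1
  let w := st.2
  let a0 := tr (mulL ompAT0 x)
  let a1 := tr (mulL ompAT1 x)
  let a2 := tr (mulL ompAT2 x)
  let g00 := mulL ompAT0 a0
  let g11 := mulL ompAT1 a1
  let g22 := mulL ompAT2 a2
  let y := addS 1 0 (addS 1 0 g00 g11) g22
  let eZ := addS 0 1 g00 g22
  let eU := addS 1 0 (mulL ompAT0 a1) (mulL ompAT1 a2)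
  let eD := addS 1 0 (mulL ompAT1 a0) (mulL ompAT2 a1)
  let b0 := addS 1 0 (mulL ompAT0 eZ) (mulL ompAT1 eU)
  let b1 := addS 1 0 (mulL ompAT0 eD) (mulL ompAT2 eU)
  let b2 := addS 0 1 (mulL ompAT1 eD) (mulL ompAT2 eZ)
  let u0 := tr (addS 5 0 (mulL ompAT0 w) b0)
  let u1 := tr (addS 5 0 (mulL ompAT1 w) b1)
  let u2 := tr (addS 5 0 (mulL ompAT2 w) b2)
  let w' := addS 1 0 (addS 1 0 (mulL ompAT0 u0) (mulL ompAT1 u1)) (mulL ompAT2 u2)
  (y, w')

def iter : ℕ → OmpMat × OmpMat → OmpMat × OmpMat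
  | 0, st => st
  | k + 1, st => iter k (step st)

def init : OmpMat × OmpMat :=
  let x := ompRho0
  let g00 := mulL ompAT0 (tr (mulL ompAT0 x))
  let g22 := mulL ompAT2 (tr (mulL ompAT2 x))
  (x, addS 3 0 (addS 0 3 OmpMat.nil g00) g22)

end OmpTw

/-! ### Semantics -/

/-- the three tensors -/
def ompA : Fin 3 → Matrix (Fin 26) (Fin 26) ℤ :=
  ![(ompCToMat ompAT0)ᵀ, (ompCToMat ompAT1)ᵀ, (ompCToMat ompAT2)ᵀ]

/-- left end vector -/
def ompBv : Fin 26 → ℤ := fun i => ompBrow.val i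

/-- right end vector -/
def ompCv : Fin 26 → ℤ := fun i => ompCrow.val 0 i

theorem ompAT0_len : ompAT0.lenLe 26 := by decide +kernel
theorem ompAT1_len : ompAT1.lenLe 26 := by decide +kernel
theorem ompAT2_len : ompAT2.lenLe 26 := by decide +kernel
theorem ompCrow_len : ompCrow.lenLe 26 := by decide +kernel

theorem ompE_one_eq (ρ : Matrix (Fin 26) (Fin 26) ℤ) :
    ompE ompA 1 ρ = ompCToMat ompAT0 * ρ * (ompCToMat ompAT0)ᵀ +
      ompCToMat ompAT1 * ρ * (ompCToMat ompAT1)ᵀ + ompCToMat ompAT2 * ρ * (ompCToMat ompAT2)ᵀ := by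
  simp [ompE, Fin.sum_univ_three, ompA, Matrix.one_apply]

theorem ompE_Z_eq (ρ : Matrix (Fin 26) (Fin 26) ℤ) :
    ompE ompA ompZ ρ = ompCToMat ompAT0 * ρ * (ompCToMat ompAT0)ᵀ -
      ompCToMat ompAT2 * ρ * (ompCToMat ompAT2)ᵀ := by
  simp [ompE, Fin.sum_univ_three, ompA, ompZ, sub_eq_add_neg]

theorem ompE_U_eq (ρ : Matrix (Fin 26) (Fin 26) ℤ) :
    ompE ompA ompU ρ = ompCToMat ompAT0 * ρ * (ompCToMat ompAT1)ᵀ +
      ompCToMat ompAT1 * ρ * (ompCToMat ompAT2)ᵀ := by
  simp [ompE, Fin.sum_univ_three, ompA, ompU]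

theorem ompE_D_eq (ρ : Matrix (Fin 26) (Fin 26) ℤ) :
    ompE ompA ompD ρ = ompCToMat ompAT1 * ρ * (ompCToMat ompAT0)ᵀ +
      ompCToMat ompAT2 * ρ * (ompCToMat ompAT1)ᵀ := by
  simp [ompE, Fin.sum_univ_three, ompA, ompD]

theorem ompStep_fst (st : OmpMat × OmpMat) (hx : (ompToMat st.1)ᵀ = ompToMat st.1) :
    ompToMat (ompStep st).1 = ompE ompA 1 (ompToMat st.1) := by
  unfold ompStep
  simp only [ompToMat_L ompAT0_len, ompToMat_L ompAT1_len, ompToMat_L ompAT2_len, ompToMat_T,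
    ompToMat_AS, ompE_one_eq]
  simp only [Matrix.transpose_mul, hx, Nat.cast_one, Nat.cast_zero, sub_zero, one_smul,
    Matrix.mul_assoc]

theorem ompStep_snd (st : OmpMat × OmpMat) (hw : (ompToMat st.2)ᵀ = ompToMat st.2) :
    ompToMat (ompStep st).2 = ompE ompA 1 (ompToMat st.2) +
      ∑ k : Fin 3, ompE ompA (ompBY k) (ompE ompA (ompBX k) (ompToMat st.1)) := by
  unfold ompStep
  simp only [ompToMat_L ompAT0_len, ompToMat_L ompAT1_len, ompToMat_L ompAT2_len, ompToMat_T,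
    ompToMat_AS, Fin.sum_univ_three]
  simp only [ompBX, ompBY, Matrix.cons_val_zero, Matrix.cons_val_one, Matrix.cons_val,
    ompE_smul_op, ompE_smul, ompE_one_eq, ompE_Z_eq, ompE_U_eq, ompE_D_eq]
  generalize ompCToMat ompAT0 = P0
  generalize ompCToMat ompAT1 = P1
  generalize ompCToMat ompAT2 = P2
  generalize ompToMat st.1 = X
  generalize ompToMat st.2 = W at hw ⊢
  simp only [Matrix.transpose_mul, Matrix.transpose_add, Matrix.transpose_smul,
    Matrix.transpose_transpose, hw, Nat.cast_one, Nat.cast_zero, Nat.cast_ofNat, sub_zero, zero_sub,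
    one_smul, neg_smul, Matrix.transpose_neg]
  noncomm_ring

theorem omp_vecMulVec_symm {n : Type*} (b : n → ℤ) : (vecMulVec b b)ᵀ = vecMulVec b b := by
  ext i j; simp [vecMulVec_apply, mul_comm]

theorem ompRho_symm (A : Fin 3 → Matrix (Fin 26) (Fin 26) ℤ) (b : Fin 26 → ℤ) (m : ℕ) :
    (ompRho A b m)ᵀ = ompRho A b m := by
  induction m with
  | zero => exact omp_vecMulVec_symm b
  | succ m ih => rw [ompRho, ompE_transpose, ih, Matrix.transpose_one]

theorem ompZ_transpose : ompZᵀ = ompZ := by decide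
theorem ompU_transpose : ompUᵀ = ompD := by decide
theorem ompD_transpose : ompDᵀ = ompU := by decide

theorem ompN_symm (A : Fin 3 → Matrix (Fin 26) (Fin 26) ℤ) (b : Fin 26 → ℤ) (m : ℕ) :
    (ompN A b ompBX ompBY ((-3 : ℤ) • ompZ) m)ᵀ = ompN A b ompBX ompBY ((-3 : ℤ) • ompZ) m := by
  induction m with
  | zero =>
    rw [ompN, ompE_transpose, omp_vecMulVec_symm, Matrix.transpose_smul, ompZ_transpose]
  | succ m ih =>
    rw [ompN, Matrix.transpose_add, ompE_transpose, ih, Matrix.transpose_one]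
    congr 1
    simp only [Fin.sum_univ_three, Matrix.transpose_add, ompE_transpose, ompRho_symm]
    simp only [ompBX, ompBY, Matrix.cons_val_zero, Matrix.cons_val_one, Matrix.cons_val,
      Matrix.transpose_smul, ompZ_transpose, ompU_transpose, ompD_transpose]
    abel

theorem ompRho0_sem : ompToMat ompRho0 = vecMulVec ompBv ompBv := by
  ext i j
  show ompRho0.val i j = ompBrow.val i * ompBrow.val j
  revert i j
  decide +kernel

theorem ompInit_fst : ompToMat ompInit.1 = ompRho ompA ompBv 0 := ompRho0_sem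

theorem ompInit_snd :
    ompToMat ompInit.2 = ompN ompA ompBv ompBX ompBY ((-3 : ℤ) • ompZ) 0 := by
  have hx : (ompToMat ompRho0)ᵀ = ompToMat ompRho0 := by
    rw [ompRho0_sem]; exact omp_vecMulVec_symm _
  unfold ompInit
  simp only [ompToMat_L ompAT0_len, ompToMat_L ompAT2_len, ompToMat_T, ompToMat_AS, ompToMat_nil,
    ompN, ompE_smul_op, ompE_Z_eq, ← ompRho0_sem]
  simp only [Matrix.transpose_mul, hx, Nat.cast_zero, Nat.cast_ofNat, sub_zero, zero_sub,
    Matrix.mul_assoc]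
  module

theorem ompIter_succ' (m : ℕ) (st : OmpMat × OmpMat) :
    ompIter (m + 1) st = ompStep (ompIter m st) := by
  induction m generalizing st with
  | zero => rfl
  | succ m ih => exact ih (ompStep st)

theorem ompIter_add (a b : ℕ) (st : OmpMat × OmpMat) :
    ompIter (a + b) st = ompIter b (ompIter a st) := by
  induction a generalizing st with
  | zero => rw [Nat.zero_add]; rfl
  | succ a ih =>
    rw [Nat.succ_add]
    exact ih (ompStep st)

theorem ompIter_sem (m : ℕ) :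
    ompToMat (ompIter m ompInit).1 = ompRho ompA ompBv m ∧
      ompToMat (ompIter m ompInit).2 = ompN ompA ompBv ompBX ompBY ((-3 : ℤ) • ompZ) m := by
  induction m with
  | zero => exact ⟨ompInit_fst, ompInit_snd⟩
  | succ m ih =>
    obtain ⟨h1, h2⟩ := ih
    rw [ompIter_succ']
    constructor
    · rw [ompStep_fst _ (by rw [h1]; exact ompRho_symm _ _ _), h1, ompRho]
    · rw [ompStep_snd _ (by rw [h2]; exact ompN_symm _ _ _), h1, h2, ompN]

theorem ompQ_val (M : OmpMat) :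
    (ompQ M).val 0 0 = ompCv ⬝ᵥ (ompToMat M *ᵥ ompCv) := by
  have h : (ompQ M).val 0 0 = ompToMat (ompQ M) 0 0 := rfl
  rw [h]
  unfold ompQ
  rw [ompToMat_L ompCrow_len, ompToMat_T, ompToMat_L ompCrow_len]
  have hC : ∀ j : Fin 26, ompCToMat ompCrow 0 j = ompCv j := fun _ => rfl
  simp only [Matrix.mul_apply, Matrix.transpose_apply, hC, dotProduct, Matrix.mulVec,
    Finset.mul_sum]
  rw [Finset.sum_comm]
  refine Finset.sum_congr rfl fun a _ => Finset.sum_congr rfl fun j _ => by ring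

theorem ompVq_val (st : OmpMat × OmpMat) (hx : (ompToMat st.1)ᵀ = ompToMat st.1) :
    (ompVq st).val 0 0 = ompCv ⬝ᵥ (ompE ompA 1 (ompToMat st.1) *ᵥ ompCv) := by
  unfold ompVq
  simp only [ompQ_val, ompToMat_L ompAT0_len, ompToMat_L ompAT1_len, ompToMat_L ompAT2_len,
    ompToMat_T, ompToMat_AS, ompE_one_eq]
  simp only [Matrix.transpose_mul, hx, Nat.cast_one, Nat.cast_zero, sub_zero, one_smul,
    Matrix.mul_assoc]

theorem ompHq_val (st : OmpMat × OmpMat) (hx : (ompToMat st.1)ᵀ = ompToMat st.1) :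
    (ompHq st).val 0 0 = ompCv ⬝ᵥ
      ((ompToMat st.2 + ompE ompA ((3 : ℤ) • ompZ) (ompToMat st.1)) *ᵥ ompCv) := by
  unfold ompHq
  simp only [ompQ_val, ompToMat_L ompAT0_len, ompToMat_L ompAT2_len,
    ompToMat_T, ompToMat_AS, ompE_smul_op, ompE_Z_eq]
  simp only [Matrix.transpose_mul, hx, Nat.cast_zero, Nat.cast_ofNat, sub_zero, zero_sub,
    Matrix.mul_assoc]
  congr 2
  module

/-- **Bridge**: a successful read-out of the kernel recurrence gives the variational inequality for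
the frozen opposite-field chain of `m+1` sites. -/
theorem omp_trial_of_good (m : ℕ) (K : ℤ) (h : ompGood K ((m : ℤ) + 1) (ompIter m ompInit)) :
    ∃ v : (Fin (m + 1) → Fin 3) → ℂ, v ≠ 0 ∧
      (star v ⬝ᵥ (openChain m (3 / 5) (-(3 / 5)) *ᵥ v)).re <
        ((K : ℝ) / 500000 - 700741 / 500000 * ((m : ℝ) + 1)) * (star v ⬝ᵥ v).re := by
  obtain ⟨h1, h2⟩ := ompIter_sem m
  have hx : (ompToMat (ompIter m ompInit).1)ᵀ = ompToMat (ompIter m ompInit).1 := by
    rw [h1]; exact ompRho_symm _ _ _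
  obtain ⟨hpos, hlt⟩ := h
  rw [ompVq_val _ hx, h1] at hpos hlt
  rw [ompHq_val _ hx, h1, h2] at hlt
  refine omp_trial_of_int m (ompAmp ompA ompBv ompCv (m + 1)) _ _ K
    (omp_norm ompA ompBv ompCv (m + 1)) (omp_energy ompA ompBv ompCv ompBX ompBY _ _ m) hpos hlt

end Claimed.Agent.R297
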