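/-
Row 297 (spin-one Haldane gap), package E2 (open-chain MPS trial vectors), owner helper227.
Check-point literals of the kernel recurrence, every 5 sites.  They are PRODUCED by the compiled
twins (`eval%`); that they are the values of the kernel recurrence is proved in `OMpsRun*.lean`.
-/
import Mathlib
import Claimed.Agent.R297.OMpsStep

namespace Claimed.Agent.R297

def ompCk4 : OmpMat × OmpMat := eval% (OmpTw.iter 4 OmpTw.init)
def ompCk9 : OmpMat × OmpMat := eval% (OmpTw.iter 5 ompCk4)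
def ompCk14 : OmpMat × OmpMat := eval% (OmpTw.iter 5 ompCk9)
def ompCk19 : OmpMat × OmpMat := eval% (OmpTw.iter 5 ompCk14)
def ompCk24 : OmpMat × OmpMat := eval% (OmpTw.iter 5 ompCk19)
def ompCk29 : OmpMat × OmpMat := eval% (OmpTw.iter 5 ompCk24)
def ompCk34 : OmpMat × OmpMat := eval% (OmpTw.iter 5 ompCk29)
def ompCk39 : OmpMat × OmpMat := eval% (OmpTw.iter 5 ompCk34)
def ompCk44 : OmpMat × OmpMat := eval% (OmpTw.iter 5 ompCk39)
def ompCk49 : OmpMat × OmpMat := eval% (OmpTw.iter 5 ompCk44)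
def ompCk54 : OmpMat × OmpMat := eval% (OmpTw.iter 5 ompCk49)
def ompCk59 : OmpMat × OmpMat := eval% (OmpTw.iter 5 ompCk54)
def ompCk64 : OmpMat × OmpMat := eval% (OmpTw.iter 5 ompCk59)
def ompCk69 : OmpMat × OmpMat := eval% (OmpTw.iter 5 ompCk64)
def ompCk74 : OmpMat × OmpMat := eval% (OmpTw.iter 5 ompCk69)
def ompCk79 : OmpMat × OmpMat := eval% (OmpTw.iter 5 ompCk74)
def ompCk84 : OmpMat × OmpMat := eval% (OmpTw.iter 5 ompCk79)
def ompCk89 : OmpMat × OmpMat := eval% (OmpTw.iter 5 ompCk84)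
def ompCk94 : OmpMat × OmpMat := eval% (OmpTw.iter 5 ompCk89)
def ompCk99 : OmpMat × OmpMat := eval% (OmpTw.iter 5 ompCk94)
def ompCk104 : OmpMat × OmpMat := eval% (OmpTw.iter 5 ompCk99)
def ompCk109 : OmpMat × OmpMat := eval% (OmpTw.iter 5 ompCk104)
def ompCk114 : OmpMat × OmpMat := eval% (OmpTw.iter 5 ompCk109)
def ompCk119 : OmpMat × OmpMat := eval% (OmpTw.iter 5 ompCk114)

end Claimed.Agent.R297
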