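/-
Row 297 (spin-one Haldane gap), package E2 (open-chain MPS trial vectors), owner helper227.

The opposite-field open chain `openChain m (3/5) (-(3/5))` (frozen `siteOp`, `spinOne`) is, up to the
factor `5`, the cast of an INTEGER matrix `ompHint m`, which has the shape treated in `OMpsEnv`.
Consequence: an integer vector with integer norm `V` and integer energy `E` gives a variational
bound for the complex Hamiltonian (`omp_trial_of_int`).
-/
import Mathlib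
import Claimed.Agent.R297.ModelSite
import Claimed.Agent.R297.TransferDefs
import Claimed.Agent.R297.OMpsEnv

namespace Claimed.Agent.R297

open Matrix

/-- `S^z` in the weight basis (index `0 ↔ +1`, `1 ↔ 0`, `2 ↔ -1`). -/
def ompZ : Matrix (Fin 3) (Fin 3) ℤ := !![1, 0, 0; 0, 0, 0; 0, 0, -1]
/-- `S^+ / √2`. -/
def ompU : Matrix (Fin 3) (Fin 3) ℤ := !![0, 1, 0; 0, 0, 1; 0, 0, 0]
/-- `S^- / √2`. -/
def ompD : Matrix (Fin 3) (Fin 3) ℤ := !![0, 0, 0; 1, 0, 0; 0, 1, 0]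

/-- first factors of the bond operator `5 S·S = 5 Z⊗Z + 5 U⊗D + 5 D⊗U` -/
def ompBX : Fin 3 → Matrix (Fin 3) (Fin 3) ℤ := ![(5 : ℤ) • ompZ, (5 : ℤ) • ompU, (5 : ℤ) • ompD]
/-- second factors of the bond operator -/
def ompBY : Fin 3 → Matrix (Fin 3) (Fin 3) ℤ := ![ompZ, ompD, ompU]

/-- `5 (∑ S_i·S_{i+1} - (3/5) S^z_0 + (3/5) S^z_m)` as an integer matrix. -/
def ompHint (m : ℕ) : Matrix (Fin (m + 1) → Fin 3) (Fin (m + 1) → Fin 3) ℤ :=
  ompHl ompBX ompBY ((-3 : ℤ) • ompZ) m + mdlSite (Fin.last m) ((3 : ℤ) • ompZ)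

theorem omp_spin2 : Claims.C0475.spinOne 2 = ompZ.map (Int.cast : ℤ → ℂ) := by
  ext i j
  fin_cases i <;> fin_cases j <;> simp [Claims.C0475.spinOne, ompZ]

theorem omp_spin0 : Claims.C0475.spinOne 0 =
    ((Real.sqrt 2 : ℂ)⁻¹) • (ompU.map (Int.cast : ℤ → ℂ) + ompD.map (Int.cast : ℤ → ℂ)) := by
  ext i j
  fin_cases i <;> fin_cases j <;> simp [Claims.C0475.spinOne, ompU, ompD]

theorem omp_spin1 : Claims.C0475.spinOne 1 =
    ((Real.sqrt 2 : ℂ)⁻¹) • ((-Complex.I) • ompU.map (Int.cast : ℤ → ℂ) +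
      Complex.I • ompD.map (Int.cast : ℤ → ℂ)) := by
  ext i j
  fin_cases i <;> fin_cases j <;> simp [Claims.C0475.spinOne, ompU, ompD]

theorem omp_bond {ι : Type} [Fintype ι] [DecidableEq ι] (i j : ι) :
    ∑ α : Fin 3, Claims.C0475.siteOp i (Claims.C0475.spinOne α) *
        Claims.C0475.siteOp j (Claims.C0475.spinOne α)
      = mdlSite i (ompZ.map (Int.cast : ℤ → ℂ)) * mdlSite j (ompZ.map (Int.cast : ℤ → ℂ)) +
        mdlSite i (ompU.map (Int.cast : ℤ → ℂ)) * mdlSite j (ompD.map (Int.cast : ℤ → ℂ)) +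
        mdlSite i (ompD.map (Int.cast : ℤ → ℂ)) * mdlSite j (ompU.map (Int.cast : ℤ → ℂ)) := by
  have hc : ((Real.sqrt 2 : ℂ)⁻¹) * ((Real.sqrt 2 : ℂ)⁻¹) = 1 / 2 := by
    rw [← mul_inv, ← Complex.ofReal_mul, Real.mul_self_sqrt (by norm_num)]
    norm_num
  rw [Fin.sum_univ_three, omp_spin0, omp_spin1, omp_spin2]
  simp only [mdlSite_eq_C0475, mdlSite_smul, mdlSite_add]
  generalize mdlSite i (ompU.map (Int.cast : ℤ → ℂ)) = ui
  generalize mdlSite j (ompU.map (Int.cast : ℤ → ℂ)) = uj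
  generalize mdlSite i (ompD.map (Int.cast : ℤ → ℂ)) = di
  generalize mdlSite j (ompD.map (Int.cast : ℤ → ℂ)) = dj
  generalize mdlSite i (ompZ.map (Int.cast : ℤ → ℂ)) = zi
  generalize mdlSite j (ompZ.map (Int.cast : ℤ → ℂ)) = zj
  generalize ((Real.sqrt 2 : ℂ)⁻¹) = c at hc ⊢
  have hc2 : c ^ 2 = 1 / 2 := by rw [sq]; exact hc
  have hI2 : Complex.I ^ 2 = -1 := Complex.I_sq
  simp only [smul_mul_smul_comm, mul_add, add_mul, smul_add, smul_smul]
  match_scalars <;> ring_nf <;> simp only [hc2, hI2] <;> norm_num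

theorem omp_map_add {n : Type*} (M N : Matrix n n ℤ) :
    (M + N).map (Int.cast : ℤ → ℂ) = M.map (Int.cast : ℤ → ℂ) + N.map (Int.cast : ℤ → ℂ) := by
  ext i j; simp

theorem omp_map_smul {n : Type*} (a : ℤ) (M : Matrix n n ℤ) :
    (a • M).map (Int.cast : ℤ → ℂ) = (a : ℂ) • M.map (Int.cast : ℤ → ℂ) := by
  ext i j; simp

theorem omp_map_mul {n : Type*} [Fintype n] (M N : Matrix n n ℤ) :
    (M * N).map (Int.cast : ℤ → ℂ) = M.map (Int.cast : ℤ → ℂ) * N.map (Int.cast : ℤ → ℂ) := by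
  ext i j; simp [Matrix.mul_apply]

theorem omp_map_sum {n α : Type*} (s : Finset α) (M : α → Matrix n n ℤ) :
    (∑ a ∈ s, M a).map (Int.cast : ℤ → ℂ) = ∑ a ∈ s, (M a).map (Int.cast : ℤ → ℂ) := by
  ext i j; simp [Matrix.sum_apply]

theorem omp_map_site {ι : Type*} [Fintype ι] [DecidableEq ι] (j : ι)
    (A : Matrix (Fin 3) (Fin 3) ℤ) :
    (mdlSite j A).map (Int.cast : ℤ → ℂ) = mdlSite j (A.map (Int.cast : ℤ → ℂ)) :=
  mdlSite_map (Int.castRingHom ℂ) j A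

theorem ompHint_map (m : ℕ) :
    (ompHint m).map (Int.cast : ℤ → ℂ) = (5 : ℂ) • openChain m (3 / 5) (-(3 / 5)) := by
  unfold ompHint ompHl openChain
  simp only [omp_bond]
  simp only [omp_spin2, mdlSite_eq_C0475]
  simp only [omp_map_add, omp_map_sum, omp_map_mul, omp_map_site, omp_map_smul,
    Fin.sum_univ_three, mdlSite_smul]
  simp only [ompBX, ompBY, Matrix.cons_val_zero, Matrix.cons_val_one, Matrix.cons_val,
    omp_map_smul, mdlSite_smul, smul_mul_assoc]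
  rw [smul_sub, smul_sub, Finset.smul_sum]
  simp only [smul_add, smul_smul]
  push_cast
  have h1 : (5 : ℂ) * (3 / 5) = 3 := by norm_num
  have h2 : (5 : ℂ) * (-(3 / 5)) = -3 := by norm_num
  rw [h1, h2]
  simp only [neg_smul]
  abel

/-- **From integer data to the variational inequality.** -/
theorem omp_trial_of_int (m : ℕ) (ψ : (Fin (m + 1) → Fin 3) → ℤ) (V E K : ℤ)
    (hV : ψ ⬝ᵥ ψ = V) (hE : ψ ⬝ᵥ (ompHint m *ᵥ ψ) = E) (hpos : 0 < V)
    (hlt : 100000 * E + 700741 * ((m : ℤ) + 1) * V < K * V) :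
    ∃ v : (Fin (m + 1) → Fin 3) → ℂ, v ≠ 0 ∧
      (star v ⬝ᵥ (openChain m (3 / 5) (-(3 / 5)) *ᵥ v)).re <
        ((K : ℝ) / 500000 - 700741 / 500000 * ((m : ℝ) + 1)) * (star v ⬝ᵥ v).re := by
  refine ⟨fun σ => ((ψ σ : ℤ) : ℂ), ?_, ?_⟩
  · intro h
    have : ψ = 0 := by
      funext σ
      have := congrFun h σ
      simpa using this
    rw [this] at hV
    simp at hV
    omega
  · have hstar : star (fun σ => ((ψ σ : ℤ) : ℂ)) = fun σ => ((ψ σ : ℤ) : ℂ) := by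
      funext σ; simp
    have hn : (fun σ => ((ψ σ : ℤ) : ℂ)) ⬝ᵥ (fun σ => ((ψ σ : ℤ) : ℂ)) = ((V : ℤ) : ℂ) := by
      rw [← hV]; simp [dotProduct]
    have he : (5 : ℂ) * ((fun σ => ((ψ σ : ℤ) : ℂ)) ⬝ᵥ
        (openChain m (3 / 5) (-(3 / 5)) *ᵥ (fun σ => ((ψ σ : ℤ) : ℂ)))) = ((E : ℤ) : ℂ) := by
      rw [← hE, ← smul_eq_mul, ← dotProduct_smul, ← Matrix.smul_mulVec, ← ompHint_map]
      simp [dotProduct, Matrix.mulVec]
    have he' : ((fun σ => ((ψ σ : ℤ) : ℂ)) ⬝ᵥ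
        (openChain m (3 / 5) (-(3 / 5)) *ᵥ (fun σ => ((ψ σ : ℤ) : ℂ)))) = ((E : ℝ) / 5 : ℝ) := by
      have h5 : (5 : ℂ) ≠ 0 := by norm_num
      apply mul_left_cancel₀ h5
      rw [he]
      push_cast
      field_simp
    rw [hstar, hn, he', Complex.ofReal_re, Complex.intCast_re]
    have hlt' : (100000 : ℝ) * E + 700741 * ((m : ℝ) + 1) * V < K * V := by exact_mod_cast hlt
    have : ((K : ℝ) / 500000 - 700741 / 500000 * ((m : ℝ) + 1)) * V - (E : ℝ) / 5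
        = (K * V - (100000 * E + 700741 * ((m : ℝ) + 1) * V)) / 500000 := by ring
    have h0 : 0 < ((K : ℝ) / 500000 - 700741 / 500000 * ((m : ℝ) + 1)) * V - (E : ℝ) / 5 := by
      rw [this]; apply div_pos <;> linarith
    linarith

end Claimed.Agent.R297
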