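/-
Row 297 (spin-one Haldane gap), package E2 (open-chain MPS trial vectors), owner helper227.
Kernel read-outs: norm and energy of the trial vector at the required lengths 30, 60, 90, 120.
-/
import Mathlib
import Claimed.Agent.R297.OMpsCk

namespace Claimed.Agent.R297

set_option maxRecDepth 100000
set_option Elab.async false

theorem ompRead30 : ompGood 202100 30 ompCk29 := by decide +kernel

theorem ompRead60 : ompGood 202100 60 ompCk59 := by decide +kernel

theorem ompRead90 : ompGood 202100 90 ompCk89 := by decide +kernel

theorem ompRead120 : ompGood 202100 120 ompCk119 := by decide +kernel

end Claimed.Agent.R297
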