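/-
Row 297 (spin-one Haldane gap), package E2 (open-chain MPS trial vectors), owner helper227.
Kernel runs of the recurrence between check-points (about 8 s and 1 GB per declaration).
-/
import Mathlib
import Claimed.Agent.R297.OMpsCk

namespace Claimed.Agent.R297

set_option maxRecDepth 100000
set_option Elab.async false

theorem ompRun79 : ompIter 5 ompCk74 = ompCk79 := by decide +kernel

theorem ompRun84 : ompIter 5 ompCk79 = ompCk84 := by decide +kernel

theorem ompRun89 : ompIter 5 ompCk84 = ompCk89 := by decide +kernel

end Claimed.Agent.R297
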