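/-
Row 297 (spin-one Haldane gap), package E1b (owner helper127), prefix `pmps_`.

Generic contraction lemmas for periodic matrix-product vectors with site-dependent tensors:
the expectation of a product operator is the trace of an ordered product of generalised
transfer matrices; the trace of an ordered product is invariant under cyclic shifts.
-/
import Claimed.Agent.R297.ModelSite

set_option linter.unusedSectionVars false

namespace Claimed.Agent.R297

open Matrix Kronecker

section General

variable {κ κ' ι R : Type*} [Fintype κ] [DecidableEq κ] [Fintype κ'] [DecidableEq κ']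
  [Fintype ι] [DecidableEq ι] [CommRing R]

/-- The sum over all configurations of an ordered product is the ordered product of the sums. -/
theorem pmps_sum_prod (N : ℕ) (X : Fin N → ι → Matrix κ κ R) :
    ∑ σ : Fin N → ι, (List.ofFn fun j => X j (σ j)).prod
      = (List.ofFn fun j => ∑ s, X j s).prod := by
  induction N with
  | zero => simp
  | succ N ih =>
    rw [← (Fin.consEquiv (fun _ : Fin (N + 1) => ι)).sum_comp, Fintype.sum_prod_type]
    simp only [List.ofFn_succ, List.prod_cons, Fin.consEquiv, Equiv.coe_fn_mk, Fin.cons_zero,
      Fin.cons_succ]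
    rw [← ih (fun j => X j.succ), Finset.sum_mul_sum]

/-- Kronecker product of two ordered products. -/
theorem pmps_kron_prod (N : ℕ) (X : Fin N → Matrix κ κ R) (Y : Fin N → Matrix κ' κ' R) :
    (List.ofFn X).prod ⊗ₖ (List.ofFn Y).prod = (List.ofFn fun j => X j ⊗ₖ Y j).prod := by
  induction N with
  | zero => simp
  | succ N ih =>
    simp only [List.ofFn_succ, List.prod_cons]
    rw [Matrix.mul_kronecker_mul, ih]

/-- Scalars can be pulled out of an ordered product. -/
theorem pmps_smul_prod (N : ℕ) (c : Fin N → R) (X : Fin N → Matrix κ κ R) :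
    (List.ofFn fun j => c j • X j).prod = (∏ j, c j) • (List.ofFn X).prod := by
  induction N with
  | zero => simp
  | succ N ih =>
    simp only [List.ofFn_succ, List.prod_cons, Fin.prod_univ_succ]
    rw [ih (fun j => c j.succ) (fun j => X j.succ), smul_mul_smul_comm]

/-- **Expectation of a product operator between two periodic matrix-product vectors** with
site-dependent tensors. -/
theorem pmps_expect (N : ℕ) (X : Fin N → ι → Matrix κ κ R) (Y : Fin N → ι → Matrix κ' κ' R)
    (V : Fin N → Matrix ι ι R) :
    ∑ σ : Fin N → ι, ∑ τ : Fin N → ι,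
        trace (List.ofFn fun j => X j (σ j)).prod * (∏ j, V j (σ j) (τ j)) *
          trace (List.ofFn fun j => Y j (τ j)).prod
      = trace (List.ofFn fun j => ∑ s, ∑ t, V j s t • (X j s ⊗ₖ Y j t)).prod := by
  have h1 : (fun j => ∑ s, ∑ t, V j s t • (X j s ⊗ₖ Y j t))
      = fun j => ∑ p : ι × ι, V j p.1 p.2 • (X j p.1 ⊗ₖ Y j p.2) := by
    funext j
    rw [Fintype.sum_prod_type]
  rw [h1, ← pmps_sum_prod N (fun j (p : ι × ι) => V j p.1 p.2 • (X j p.1 ⊗ₖ Y j p.2)),
    Matrix.trace_sum, ← Fintype.sum_prod_type',
    ← (Equiv.arrowProdEquivProdArrow (Fin N) (fun _ => ι) (fun _ => ι)).sum_comp]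
  refine Finset.sum_congr rfl fun ρ _ => ?_
  rw [pmps_smul_prod N (fun j => V j (ρ j).1 (ρ j).2) (fun j => X j (ρ j).1 ⊗ₖ Y j (ρ j).2),
    ← pmps_kron_prod, Matrix.trace_smul, Matrix.trace_kronecker, smul_eq_mul]
  simp only [Equiv.arrowProdEquivProdArrow, Equiv.coe_fn_mk]
  ring

/-- The trace of an ordered product is invariant under rotation of the list. -/
theorem pmps_trace_rotate (l : List (Matrix κ κ R)) (n : ℕ) :
    trace (l.rotate n).prod = trace l.prod := by
  rw [← List.rotate_mod]
  rcases Nat.eq_zero_or_pos l.length with h0 | hpos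
  · have : l = [] := List.length_eq_zero_iff.mp h0
    subst this; simp
  · have h : n % l.length ≤ l.length := (Nat.mod_lt _ hpos).le
    rw [List.rotate_eq_drop_append_take h, List.prod_append, Matrix.trace_mul_comm,
      ← List.prod_append, List.take_append_drop]

/-- The trace of an ordered product around a ring is invariant under cyclic shifts. -/
theorem pmps_trace_shift {N : ℕ} [NeZero N] (G : Fin N → Matrix κ κ R) (j : Fin N) :
    trace (List.ofFn fun k => G (k - j)).prod = trace (List.ofFn G).prod := by
  have h : (List.ofFn fun k => G (k - j)) = (List.ofFn G).rotate (N - j) := by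
    apply List.ext_getElem
    · simp
    · intro i h1 h2
      rw [List.getElem_rotate]
      simp only [List.getElem_ofFn, List.length_ofFn]
      congr 1
      apply Fin.ext
      rw [Fin.val_sub]
      simp only
      rw [add_comm]
  rw [h, pmps_trace_rotate]

end General

end Claimed.Agent.R297
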