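/-
Row 297 (spin-one Haldane gap), package E1b (owner helper127), prefix `pmps`.

Norm and energy of a translation-invariant periodic matrix-product vector with integer tensors
against the FROZEN `Claims.C0475.heisenbergRing`:
`⟨ψ,ψ⟩ = tr (T ^ N)` and `⟨ψ, H_N ψ⟩ = N · tr (T ^ (N-2) * O)`.
Index convention of the physical index `Fin 3`: `0,1,2` are the weights `+1,0,-1` (as in the frozen
`spinOne`).
-/
import Claimed.Agent.R297.PMps

set_option linter.unusedSectionVars false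

namespace Claimed.Agent.R297

open Matrix Kronecker

section Ring

variable {κ : Type*} [Fintype κ] [DecidableEq κ]

/-- amplitude of the periodic matrix-product vector. -/
def pmpsAmp (A : Fin 3 → Matrix κ κ ℤ) (N : ℕ) (σ : Fin N → Fin 3) : ℤ :=
  trace (List.ofFn fun j => A (σ j)).prod

/-- the periodic matrix-product vector, as a complex vector. -/
def pmpsVec (A : Fin 3 → Matrix κ κ ℤ) (N : ℕ) : (Fin N → Fin 3) → ℂ :=
  fun σ => ((pmpsAmp A N σ : ℤ) : ℂ)

/-- the transfer matrix `∑ₛ Aₛ ⊗ Aₛ`. -/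
def pmpsT (A : Fin 3 → Matrix κ κ ℤ) : Matrix (κ × κ) (κ × κ) ℤ := ∑ s, A s ⊗ₖ A s

/-- integer matrix elements `⟨s s'| S·S |t t'⟩` of the spin-one bond in the weight basis. -/
def pmpsBond (s s' t t' : Fin 3) : ℤ :=
  if s = t ∧ s' = t' then (1 - (s : ℤ)) * (1 - (s' : ℤ))
  else if ((s : ℕ) + 1 = t ∧ (t' : ℕ) + 1 = s') ∨ ((t : ℕ) + 1 = s ∧ (s' : ℕ) + 1 = t') then 1
  else 0

/-- the bond insertion. -/
def pmpsO (A : Fin 3 → Matrix κ κ ℤ) : Matrix (κ × κ) (κ × κ) ℤ :=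
  ∑ s, ∑ s', ∑ t, ∑ t', pmpsBond s s' t t' • ((A s * A s') ⊗ₖ (A t * A t'))

/-- generalised transfer matrix of a one-site operator `W`. -/
def pmpsE {R : Type*} [CommRing R] (A : Fin 3 → Matrix κ κ R) (W : Matrix (Fin 3) (Fin 3) R) :
    Matrix (κ × κ) (κ × κ) R :=
  ∑ s, ∑ t, W s t • (A s ⊗ₖ A t)

/-- the complexified tensors. -/
def pmpsC (A : Fin 3 → Matrix κ κ ℤ) (s : Fin 3) : Matrix κ κ ℂ := (A s).map (Int.cast : ℤ → ℂ)

theorem pmps_bond_entries (s s' t t' : Fin 3) :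
    ∑ α, Claims.C0475.spinOne α s t * Claims.C0475.spinOne α s' t' = ((pmpsBond s s' t t' : ℤ) : ℂ) := by
  have h2 : ((Real.sqrt 2 : ℝ) : ℂ)⁻¹ * ((Real.sqrt 2 : ℝ) : ℂ)⁻¹ = 1 / 2 := by
    rw [← mul_inv, ← Complex.ofReal_mul, Real.mul_self_sqrt (by norm_num)]
    norm_num
  have h3 : ∀ z w : ℂ, ((Real.sqrt 2 : ℝ) : ℂ)⁻¹ * z * (((Real.sqrt 2 : ℝ) : ℂ)⁻¹ * w)
      = 1 / 2 * (z * w) := by
    intro z w
    rw [← h2]; ring
  fin_cases s <;> fin_cases s' <;> fin_cases t <;> fin_cases t' <;>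
    simp [Claims.C0475.spinOne, pmpsBond, Fin.sum_univ_three, h2, h3] <;> norm_num

/-- casting commutes with ordered products. -/
theorem pmps_map_prod {m : Type*} [Fintype m] [DecidableEq m] (l : List (Matrix m m ℤ)) :
    l.prod.map (Int.cast : ℤ → ℂ) = (l.map fun M => M.map (Int.cast : ℤ → ℂ)).prod := by
  exact map_list_prod (Int.castRingHom ℂ).mapMatrix l

theorem pmps_trace_map {m : Type*} [Fintype m] (M : Matrix m m ℤ) :
    trace (M.map (Int.cast : ℤ → ℂ)) = ((trace M : ℤ) : ℂ) := by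
  simp [Matrix.trace]

theorem pmps_kron_map {m m' : Type*} (M : Matrix m m ℤ) (M' : Matrix m' m' ℤ) :
    (M ⊗ₖ M').map (Int.cast : ℤ → ℂ) = M.map (Int.cast : ℤ → ℂ) ⊗ₖ M'.map (Int.cast : ℤ → ℂ) := by
  ext ⟨a, b⟩ ⟨c, d⟩
  simp [Matrix.kroneckerMap_apply]

theorem pmpsVec_eq (A : Fin 3 → Matrix κ κ ℤ) (N : ℕ) (σ : Fin N → Fin 3) :
    pmpsVec A N σ = trace (List.ofFn fun j => pmpsC A (σ j)).prod := by
  unfold pmpsVec pmpsAmp pmpsC
  rw [← pmps_trace_map, pmps_map_prod, List.map_ofFn]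
  rfl

theorem pmpsVec_star (A : Fin 3 → Matrix κ κ ℤ) (N : ℕ) : star (pmpsVec A N) = pmpsVec A N := by
  funext σ
  simp [pmpsVec]

/-- quadratic form of a product operator. -/
theorem pmps_form_tens (A : Fin 3 → Matrix κ κ ℤ) (N : ℕ)
    (V : Fin N → Matrix (Fin 3) (Fin 3) ℂ) :
    star (pmpsVec A N) ⬝ᵥ (mdlTens V *ᵥ pmpsVec A N)
      = trace (List.ofFn fun j => pmpsE (pmpsC A) (V j)).prod := by
  rw [pmpsVec_star]
  unfold pmpsE
  rw [← pmps_expect N (fun _ => pmpsC A) (fun _ => pmpsC A) V]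
  simp only [dotProduct, Matrix.mulVec, mdlTens_apply, pmpsVec_eq, Finset.mul_sum]
  refine Finset.sum_congr rfl fun σ _ => Finset.sum_congr rfl fun τ _ => ?_
  ring

theorem pmpsE_one (A : Fin 3 → Matrix κ κ ℤ) :
    pmpsE (pmpsC A) 1 = (pmpsT A).map (Int.cast : ℤ → ℂ) := by
  unfold pmpsE pmpsT pmpsC
  have : ((∑ s, A s ⊗ₖ A s : Matrix (κ × κ) (κ × κ) ℤ)).map (Int.cast : ℤ → ℂ)
      = ∑ s, (A s ⊗ₖ A s).map (Int.cast : ℤ → ℂ) := by
    exact map_sum (Int.castRingHom ℂ).mapMatrix (fun s => A s ⊗ₖ A s) Finset.univ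
  rw [this]
  refine Finset.sum_congr rfl fun s _ => ?_
  rw [Finset.sum_eq_single s]
  · simp [pmps_kron_map]
  · intro t _ ht
    simp [Ne.symm ht]
  · simp

/-- **Norm of the periodic matrix-product vector.** -/
theorem pmps_norm (A : Fin 3 → Matrix κ κ ℤ) (N : ℕ) :
    star (pmpsVec A N) ⬝ᵥ pmpsVec A N = ((trace (pmpsT A ^ N) : ℤ) : ℂ) := by
  have h := pmps_form_tens A N (fun _ => 1)
  rw [mdlTens_one, Matrix.one_mulVec] at h
  rw [h, List.ofFn_const, List.prod_replicate, pmpsE_one, ← pmps_trace_map]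
  congr 1
  exact (map_pow (Int.castRingHom ℂ).mapMatrix (pmpsT A) N).symm

/-- the one-site operators of a bond placed at the sites `0, 1` of the ring. -/
def pmpsG (n : ℕ) (P Q : Matrix (Fin 3) (Fin 3) ℂ) : Fin (n + 2) → Matrix (Fin 3) (Fin 3) ℂ :=
  Function.update (Function.update (fun _ => 1) 0 P) 1 Q

theorem pmps_site_mul (n : ℕ) (j : Fin (n + 2)) (P Q : Matrix (Fin 3) (Fin 3) ℂ) :
    Claims.C0475.siteOp j P * Claims.C0475.siteOp (finRotate (n + 2) j) Q
      = mdlTens (fun k => pmpsG n P Q (k - j)) := by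
  have h01 : (0 : Fin (n + 2)) ≠ 1 := Fin.zero_ne_one
  have hj : j ≠ j + 1 := by
    intro h
    exact h01 (left_eq_add.mp h).symm
  rw [finRotate_apply, mdlSite_eq_C0475, mdlSite_eq_C0475, mdlSite_mul_of_ne hj]
  congr 1
  funext k
  unfold pmpsG
  by_cases h1 : k = j + 1
  · subst h1
    simp
  · have h1' : k - j ≠ 1 := by
      intro h
      exact h1 ((sub_eq_iff_eq_add.mp h).trans (add_comm _ _))
    by_cases h0 : k = j
    · subst h0
      simp [hj]
    · have h0' : k - j ≠ 0 := sub_ne_zero.mpr h0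
      simp [Function.update_of_ne h1, Function.update_of_ne h0, Function.update_of_ne h1',
        Function.update_of_ne h0']

/-- quadratic form of one bond term: independent of the position of the bond. -/
theorem pmps_form_bond (A : Fin 3 → Matrix κ κ ℤ) (n : ℕ) (j : Fin (n + 2))
    (P Q : Matrix (Fin 3) (Fin 3) ℂ) :
    star (pmpsVec A (n + 2)) ⬝ᵥ
        ((Claims.C0475.siteOp j P * Claims.C0475.siteOp (finRotate (n + 2) j) Q) *ᵥ
          pmpsVec A (n + 2))
      = trace (pmpsE (pmpsC A) P * pmpsE (pmpsC A) Q * pmpsE (pmpsC A) 1 ^ n) := by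
  rw [pmps_site_mul, pmps_form_tens,
    pmps_trace_shift (fun k => pmpsE (pmpsC A) (pmpsG n P Q k)) j]
  have h01 : (0 : Fin (n + 2)) ≠ 1 := Fin.zero_ne_one
  have e0 : pmpsG n P Q 0 = P := by
    unfold pmpsG
    rw [Function.update_of_ne h01, Function.update_self]
  have e1 : pmpsG n P Q (Fin.succ 0) = Q := by
    unfold pmpsG
    rw [Fin.succ_zero_eq_one, Function.update_self]
  have e2 : ∀ k : Fin n, pmpsG n P Q k.succ.succ = 1 := by
    intro k
    unfold pmpsG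
    have a1 : k.succ.succ ≠ (1 : Fin (n + 2)) := by
      rw [← Fin.succ_zero_eq_one]
      intro h
      exact Fin.succ_ne_zero k (Fin.succ_injective _ h)
    rw [Function.update_of_ne a1, Function.update_of_ne (Fin.succ_ne_zero _)]
  rw [List.ofFn_succ, List.ofFn_succ]
  simp only [e0, e1, e2, List.prod_cons, List.ofFn_const, List.prod_replicate]
  rw [mul_assoc]

theorem pmps_map_zsmul {m : Type*} (z : ℤ) (M : Matrix m m ℤ) :
    (z • M).map (Int.cast : ℤ → ℂ) = (z : ℂ) • M.map (Int.cast : ℤ → ℂ) := by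
  ext a b
  simp

theorem pmps_map_mul {m : Type*} [Fintype m] (M M' : Matrix m m ℤ) :
    (M * M').map (Int.cast : ℤ → ℂ) = M.map (Int.cast : ℤ → ℂ) * M'.map (Int.cast : ℤ → ℂ) :=
  Matrix.map_mul (f := Int.castRingHom ℂ)

theorem pmpsO_map (A : Fin 3 → Matrix κ κ ℤ) :
    (pmpsO A).map (Int.cast : ℤ → ℂ)
      = ∑ s, ∑ s', ∑ t, ∑ t', ((pmpsBond s s' t t' : ℤ) : ℂ) •
          ((pmpsC A s * pmpsC A s') ⊗ₖ (pmpsC A t * pmpsC A t')) := by
  have hsum : ∀ f : Fin 3 → Matrix (κ × κ) (κ × κ) ℤ,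
      (∑ s, f s).map (Int.cast : ℤ → ℂ) = ∑ s, (f s).map (Int.cast : ℤ → ℂ) := fun f =>
    map_sum (Int.castRingHom ℂ).mapMatrix f Finset.univ
  unfold pmpsO pmpsC
  simp only [hsum, pmps_map_zsmul, pmps_kron_map, pmps_map_mul]

/-- the three spin components of a bond add up to the integer bond insertion. -/
theorem pmpsE_bond (A : Fin 3 → Matrix κ κ ℤ) :
    ∑ α, pmpsE (pmpsC A) (Claims.C0475.spinOne α) * pmpsE (pmpsC A) (Claims.C0475.spinOne α)
      = (pmpsO A).map (Int.cast : ℤ → ℂ) := by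
  have key : ∀ α, pmpsE (pmpsC A) (Claims.C0475.spinOne α) *
        pmpsE (pmpsC A) (Claims.C0475.spinOne α)
      = ∑ s, ∑ s', ∑ t, ∑ t',
          (Claims.C0475.spinOne α s t * Claims.C0475.spinOne α s' t') •
            ((pmpsC A s * pmpsC A s') ⊗ₖ (pmpsC A t * pmpsC A t')) := by
    intro α
    unfold pmpsE
    rw [Finset.sum_mul_sum]
    refine Finset.sum_congr rfl fun s _ => Finset.sum_congr rfl fun s' _ => ?_
    rw [Finset.sum_mul_sum]
    refine Finset.sum_congr rfl fun t _ => Finset.sum_congr rfl fun t' _ => ?_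
    rw [smul_mul_smul_comm, ← Matrix.mul_kronecker_mul]
  simp only [key]
  rw [pmpsO_map, Finset.sum_comm]
  refine Finset.sum_congr rfl fun s _ => ?_
  rw [Finset.sum_comm]
  refine Finset.sum_congr rfl fun s' _ => ?_
  rw [Finset.sum_comm]
  refine Finset.sum_congr rfl fun t _ => ?_
  rw [Finset.sum_comm]
  refine Finset.sum_congr rfl fun t' _ => ?_
  rw [← Finset.sum_smul, pmps_bond_entries]

/-- **Energy of the periodic matrix-product vector** against the frozen Heisenberg ring. -/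
theorem pmps_energy (A : Fin 3 → Matrix κ κ ℤ) (n : ℕ) :
    star (pmpsVec A (n + 2)) ⬝ᵥ (Claims.C0475.heisenbergRing (n + 2) *ᵥ pmpsVec A (n + 2))
      = (((n + 2 : ℕ) * trace (pmpsT A ^ n * pmpsO A) : ℤ) : ℂ) := by
  unfold Claims.C0475.heisenbergRing
  rw [Matrix.sum_mulVec, dotProduct_sum]
  have hj : ∀ j : Fin (n + 2),
      star (pmpsVec A (n + 2)) ⬝ᵥ ((∑ α, Claims.C0475.siteOp j (Claims.C0475.spinOne α) *
          Claims.C0475.siteOp (finRotate (n + 2) j) (Claims.C0475.spinOne α)) *ᵥ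
            pmpsVec A (n + 2))
        = ((trace (pmpsT A ^ n * pmpsO A) : ℤ) : ℂ) := by
    intro j
    rw [Matrix.sum_mulVec, dotProduct_sum]
    simp only [pmps_form_bond]
    rw [← Matrix.trace_sum, ← Finset.sum_mul, pmpsE_bond, pmpsE_one, Matrix.trace_mul_comm,
      ← pmps_trace_map, pmps_map_mul]
    congr 2
    exact (map_pow (Int.castRingHom ℂ).mapMatrix (pmpsT A) n).symm
  simp only [hj]
  simp

end Ring

end Claimed.Agent.R297
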