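/-
Row 297, package E (trial energies), owner helper245.
Cyclic path sums `ptrCyc B = ∑_z ∏_t B t (z t) (z (t+1))` = traces of ordered products:
multilinearity, Kronecker products, rotation invariance.
-/
import Claimed.Agent.R297.Duality

set_option autoImplicit false
set_option linter.unusedSectionVars false

namespace Claimed.Agent.R297

open Matrix Kronecker

section cyc

variable {ι ι' P R : Type} [Fintype ι] [DecidableEq ι] [Fintype ι'] [DecidableEq ι']
  [Fintype P] [DecidableEq P] [CommRing R]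

/-- cyclic path sum of a family of matrices. -/
def ptrCyc {N : ℕ} (B : Fin N → Matrix ι ι R) : R :=
  ∑ z : Fin N → ι, ∏ t, B t (z t) (z (finRotate N t))

theorem ptrCyc_sum {N : ℕ} (B : Fin N → P → Matrix ι ι R) :
    ptrCyc (fun j => ∑ p, B j p) = ∑ π : Fin N → P, ptrCyc (fun j => B j (π j)) := by
  simp only [ptrCyc, Matrix.sum_apply, Finset.prod_univ_sum, Fintype.piFinset_univ]
  rw [Finset.sum_comm]

theorem ptrCyc_smul {N : ℕ} (c : Fin N → R) (B : Fin N → Matrix ι ι R) :
    ptrCyc (fun j => c j • B j) = (∏ j, c j) * ptrCyc B := by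
  simp only [ptrCyc, Matrix.smul_apply, smul_eq_mul, Finset.prod_mul_distrib, Finset.mul_sum]

theorem ptrCyc_kronecker {N : ℕ} (X : Fin N → Matrix ι ι R) (Y : Fin N → Matrix ι' ι' R) :
    ptrCyc X * ptrCyc Y = ptrCyc (fun j => X j ⊗ₖ Y j) := by
  simp only [ptrCyc, Finset.sum_mul_sum, kroneckerMap_apply, Finset.prod_mul_distrib]
  rw [← Fintype.sum_prod_type']
  exact (Fintype.sum_equiv (Equiv.arrowProdEquivProdArrow (Fin N) (fun _ => ι) (fun _ => ι')) _ _
    (fun z => rfl)).symm

theorem ptrCyc_rotate {N : ℕ} (B : Fin N → Matrix ι ι R) :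
    ptrCyc (fun j => B (finRotate N j)) = ptrCyc B := by
  simp only [ptrCyc]
  have h : ∀ z : Fin N → ι, ∏ t, B (finRotate N t) (z t) (z (finRotate N t))
      = ∏ t, B t ((z ∘ (finRotate N).symm) t) ((z ∘ (finRotate N).symm) (finRotate N t)) := by
    intro z
    rw [← Equiv.prod_comp (finRotate N)
      (fun t => B t ((z ∘ (finRotate N).symm) t) ((z ∘ (finRotate N).symm) (finRotate N t)))]
    simp only [Function.comp, Equiv.symm_apply_apply]
  simp only [h]
  exact (Equiv.arrowCongr (finRotate N) (Equiv.refl ι)).sum_comp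
    (fun w => ∏ t, B t (w t) (w (finRotate N t)))

/-- cyclic path sums are traces of ordered products. -/
theorem ptrCyc_eq_trace {n : ℕ} (B : Fin (n + 1) → Matrix ι ι R) :
    ptrCyc B = trace (List.ofFn B).prod := by
  rw [dual_trace_ofFn, ← (Fin.snocEquiv (fun _ : Fin (n + 1 + 1) => ι)).sum_comp,
    Fintype.sum_prod_type, Finset.sum_comm]
  simp only [ptrCyc]
  refine Finset.sum_congr rfl (fun z _ => ?_)
  rw [Finset.sum_eq_single (z 0)]
  · have h0 : (Fin.snocEquiv (fun _ : Fin (n + 1 + 1) => ι)) (z 0, z) 0 = z 0 := by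
      simp only [Fin.snocEquiv, Equiv.coe_fn_mk]
      exact Fin.snoc_castSucc (α := fun _ : Fin (n + 1 + 1) => ι) (z 0) z 0
    have hl : (Fin.snocEquiv (fun _ : Fin (n + 1 + 1) => ι)) (z 0, z) (Fin.last (n + 1)) = z 0 := by
      simp only [Fin.snocEquiv, Equiv.coe_fn_mk, Fin.snoc_last]
    rw [h0, hl, if_pos rfl, one_mul]
    refine Finset.prod_congr rfl (fun t _ => ?_)
    simp only [Fin.snocEquiv, Equiv.coe_fn_mk, Fin.snoc_castSucc]
    congr 1
    induction t using Fin.lastCases with
    | last => simp [Fin.succ_last]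
    | cast s =>
      rw [Fin.succ_castSucc, Fin.snoc_castSucc, finRotate_apply, Fin.coeSucc_eq_succ]
  · intro a _ ha
    have h0 : (Fin.snocEquiv (fun _ : Fin (n + 1 + 1) => ι)) (a, z) 0 = z 0 := by
      simp only [Fin.snocEquiv, Equiv.coe_fn_mk]
      exact Fin.snoc_castSucc (α := fun _ : Fin (n + 1 + 1) => ι) a z 0
    have hl : (Fin.snocEquiv (fun _ : Fin (n + 1 + 1) => ι)) (a, z) (Fin.last (n + 1)) = a := by
      simp only [Fin.snocEquiv, Equiv.coe_fn_mk, Fin.snoc_last]
    rw [h0, hl, if_neg ha, zero_mul]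
  · intro h; exact absurd (Finset.mem_univ _) h

end cyc

end Claimed.Agent.R297
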