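/-
Row 297, package E (trial energies), owner helper245.
Periodic matrix product vectors: expectation values of product operators and of
nearest-neighbour bonds on the ring as traces of products of transfer matrices.
-/
import Claimed.Agent.R297.PTrialCyc
import Claimed.Agent.R297.ModelSite

set_option autoImplicit false
set_option linter.unusedSectionVars false

namespace Claimed.Agent.R297

open Matrix Kronecker

section mps

variable {κ R : Type} [Fintype κ] [DecidableEq κ] [CommRing R]

/-- the periodic matrix product vector with tensors `A s`. -/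
def ptrPsi (A : Fin 3 → Matrix κ κ R) (N : ℕ) : (Fin N → Fin 3) → R :=
  fun σ => ptrCyc (fun j => A (σ j))

/-- the transfer matrix with the one-site operator `W` inserted. -/
def ptrE (A : Fin 3 → Matrix κ κ R) (W : Matrix (Fin 3) (Fin 3) R) : Matrix (κ × κ) (κ × κ) R :=
  ∑ p : Fin 3 × Fin 3, W p.1 p.2 • (A p.1 ⊗ₖ A p.2)

/-- expectation of a product operator. -/
theorem ptr_expect (A : Fin 3 → Matrix κ κ R) {N : ℕ} (V : Fin N → Matrix (Fin 3) (Fin 3) R) :
    ptrPsi A N ⬝ᵥ (mdlTens V *ᵥ ptrPsi A N) = ptrCyc (fun j => ptrE A (V j)) := by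
  simp only [ptrE]
  rw [ptrCyc_sum]
  simp only [ptrCyc_smul, ← ptrCyc_kronecker]
  rw [← (Equiv.arrowProdEquivProdArrow (Fin N) (fun _ => Fin 3) (fun _ => Fin 3)).symm.sum_comp,
    Fintype.sum_prod_type]
  simp only [dotProduct, mulVec, mdlTens_apply, Finset.mul_sum, ptrPsi]
  refine Finset.sum_congr rfl (fun σ _ => Finset.sum_congr rfl (fun τ _ => ?_))
  simp only [Equiv.arrowProdEquivProdArrow, Equiv.coe_fn_symm_mk]
  ring

/-- a family equal to `T` except for `X` at `j` and `Y` at the next site. -/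
def ptrIns {M : Type} {N : ℕ} (T X Y : M) (j : Fin N) : Fin N → M :=
  Function.update (Function.update (fun _ => T) j X) (finRotate N j) Y

theorem ptrIns_rotate {M : Type} {N : ℕ} (T X Y : M) (j : Fin N) :
    (fun i => ptrIns T X Y (finRotate N j) (finRotate N i)) = ptrIns T X Y j := by
  funext i
  simp only [ptrIns, Function.update_apply, EmbeddingLike.apply_eq_iff_eq]

theorem ptrCyc_ins_eq_zero {ι : Type} [Fintype ι] [DecidableEq ι] {n : ℕ}
    (T X Y : Matrix ι ι R) (j : Fin (n + 1)) :
    ptrCyc (ptrIns T X Y j) = ptrCyc (ptrIns T X Y (0 : Fin (n + 1))) := by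
  induction j using Fin.induction with
  | zero => rfl
  | succ i ih =>
    rw [← ih, ← ptrCyc_rotate (ptrIns T X Y i.succ)]
    have h : i.succ = finRotate (n + 1) i.castSucc := by
      rw [finRotate_apply, Fin.coeSucc_eq_succ]
    rw [h, ptrIns_rotate]

theorem ptrCyc_ins {ι : Type} [Fintype ι] [DecidableEq ι] {m : ℕ}
    (T X Y : Matrix ι ι R) (j : Fin (m + 2)) :
    ptrCyc (ptrIns T X Y j) = trace (X * (Y * T ^ m)) := by
  rw [ptrCyc_ins_eq_zero, ptrCyc_eq_trace, List.ofFn_succ, List.ofFn_succ, List.prod_cons,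
    List.prod_cons]
  have h1 : finRotate (m + 2) 0 = 1 := by rw [finRotate_apply, zero_add]
  have e0 : ptrIns T X Y (0 : Fin (m + 2)) 0 = X := by
    simp only [ptrIns, h1]
    rw [Function.update_of_ne (by simp), Function.update_self]
  have e1 : ptrIns T X Y (0 : Fin (m + 2)) (Fin.succ 0) = Y := by
    simp only [ptrIns, h1]
    exact Function.update_self _ _ _
  have e2 : (fun i : Fin m => ptrIns T X Y (0 : Fin (m + 2)) i.succ.succ) = fun _ => T := by
    funext i
    simp only [ptrIns, h1]
    rw [Function.update_of_ne, Function.update_of_ne]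
    · exact Fin.succ_ne_zero _
    · intro h
      have : (i.succ.succ : Fin (m + 2)).val = 1 := by rw [h]; rfl
      simp at this
  rw [e0, e1, e2, List.ofFn_const, List.prod_replicate]

/-- expectation of a nearest-neighbour product `X_j Y_{j+1}` on the ring. -/
theorem ptr_expect_bond (A : Fin 3 → Matrix κ κ R) {m : ℕ} (X Y : Matrix (Fin 3) (Fin 3) R)
    (j : Fin (m + 2)) :
    ptrPsi A (m + 2) ⬝ᵥ ((mdlSite j X * mdlSite (finRotate (m + 2) j) Y) *ᵥ ptrPsi A (m + 2))
      = trace (ptrE A X * (ptrE A Y * ptrE A 1 ^ m)) := by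
  have hne : j ≠ finRotate (m + 2) j := by
    intro h
    rw [finRotate_apply] at h
    have h2 : (1 : Fin (m + 2)) = 0 := by
      have := congrArg (fun x => x - j) h
      simpa using this.symm
    exact absurd h2 (by simp)
  rw [mdlSite_mul_of_ne hne, ptr_expect, ← ptrCyc_ins (ptrE A 1) (ptrE A X) (ptrE A Y) j]
  congr 1
  funext i
  simp only [ptrIns, Function.update_apply]
  split_ifs <;> rfl

theorem ptr_norm (A : Fin 3 → Matrix κ κ R) {n : ℕ} :
    ptrPsi A (n + 1) ⬝ᵥ ptrPsi A (n + 1) = trace (ptrE A 1 ^ (n + 1)) := by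
  have h := ptr_expect A (N := n + 1) (fun _ => (1 : Matrix (Fin 3) (Fin 3) R))
  rw [mdlTens_one, one_mulVec, ptrCyc_eq_trace, List.ofFn_const, List.prod_replicate] at h
  exact h

end mps

end Claimed.Agent.R297
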