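/-
Row 297, package E (trial energies), owner helper245.
Norm and energy of an integer periodic matrix product vector for the FROZEN ring Hamiltonian
`Claims.C0475.heisenbergRing`, as integer traces.
-/
import Claimed.Agent.R297.PTrialMps
import Claimed.Prelude.Def_0475

set_option autoImplicit false
set_option linter.unusedSectionVars false

namespace Claimed.Agent.R297

open Matrix Kronecker

/-- integer one-site matrices: `S^z` and the normalised ladder operators `S^± / √2`
(index `0,1,2` = weight `+1,0,-1`, as in the frozen `spinOne`). -/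
def ptrSz : Matrix (Fin 3) (Fin 3) ℤ := !![1, 0, 0; 0, 0, 0; 0, 0, -1]
def ptrEp : Matrix (Fin 3) (Fin 3) ℤ := !![0, 1, 0; 0, 0, 1; 0, 0, 0]
def ptrEm : Matrix (Fin 3) (Fin 3) ℤ := !![0, 0, 0; 1, 0, 0; 0, 1, 0]

/-- cast of an integer matrix to `ℂ`. -/
abbrev ptrC {a : Type} (M : Matrix a a ℤ) : Matrix a a ℂ := M.map (Int.castRingHom ℂ)

noncomputable def ptrS2 : ℂ := ((Real.sqrt 2 : ℝ) : ℂ)⁻¹

theorem ptrS2_sq : ptrS2 * ptrS2 = 1 / 2 := by
  unfold ptrS2
  rw [← mul_inv, ← Complex.ofReal_mul, Real.mul_self_sqrt (by norm_num)]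
  norm_num

theorem ptr_spin0 : Claims.C0475.spinOne 0 = ptrS2 • (ptrC ptrEp + ptrC ptrEm) := by
  ext i j
  fin_cases i <;> fin_cases j <;> simp [Claims.C0475.spinOne, ptrS2, ptrEp, ptrEm]

theorem ptr_spin1 :
    Claims.C0475.spinOne 1 = (ptrS2 * (-Complex.I)) • (ptrC ptrEp - ptrC ptrEm) := by
  ext i j
  fin_cases i <;> fin_cases j <;> simp [Claims.C0475.spinOne, ptrS2, ptrEp, ptrEm]

theorem ptr_spin2 : Claims.C0475.spinOne 2 = ptrC ptrSz := by
  ext i j
  fin_cases i <;> fin_cases j <;> simp [Claims.C0475.spinOne, ptrSz]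

/-- the bond operator through integer matrices. -/
theorem ptr_bond {ι : Type} [Fintype ι] [DecidableEq ι] (j k : ι) :
    ∑ α : Fin 3, Claims.C0475.siteOp j (Claims.C0475.spinOne α) *
        Claims.C0475.siteOp k (Claims.C0475.spinOne α)
      = mdlSite j (ptrC ptrSz) * mdlSite k (ptrC ptrSz)
        + mdlSite j (ptrC ptrEp) * mdlSite k (ptrC ptrEm)
        + mdlSite j (ptrC ptrEm) * mdlSite k (ptrC ptrEp) := by
  simp only [Fin.sum_univ_three, mdlSite_eq_C0475, ptr_spin0, ptr_spin1, ptr_spin2, mdlSite_smul,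
    mdlSite_add, mdlSite_sub, smul_mul_smul_comm]
  have h1 : ptrS2 * -Complex.I * (ptrS2 * -Complex.I) = -(1 / 2) := by
    have : ptrS2 * -Complex.I * (ptrS2 * -Complex.I)
        = (ptrS2 * ptrS2) * (Complex.I * Complex.I) := by ring
    rw [this, ptrS2_sq, Complex.I_mul_I]; ring
  rw [h1, ptrS2_sq]
  simp only [add_mul, mul_add, sub_mul, mul_sub]
  module

end Claimed.Agent.R297
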