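/-
Row 297 (spin-one Haldane gap), package E3a (owner helper127), prefix `pmps`.

Second moment `⟨H ψ, H ψ⟩` of a translation-invariant periodic matrix-product vector with integer
tensors against the FROZEN `Claims.C0475.heisenbergRing (n + 4)`, as an integer combination of
traces of products of the transfer matrix with two- and three-site insertions.
-/
import Claimed.Agent.R297.PMpsRing
import Claimed.Agent.R297.PTrialRing
import Claimed.Agent.R297.ModelHerm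

set_option linter.unusedSectionVars false

namespace Claimed.Agent.R297

open Matrix Kronecker

section Pr

variable {M : Type*} [Monoid M]

/-- ordered product `F 0 * F 1 * ⋯ * F (N-1)`. -/
def pmpsPr (F : ℕ → M) (N : ℕ) : M := ((List.range N).map F).prod

theorem pmpsPr_zero (F : ℕ → M) : pmpsPr F 0 = 1 := by simp [pmpsPr]

theorem pmpsPr_succ (F : ℕ → M) (N : ℕ) : pmpsPr F (N + 1) = pmpsPr F N * F N :=
  List.prod_range_succ F N

theorem pmpsPr_succ' (F : ℕ → M) (N : ℕ) :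
    pmpsPr F (N + 1) = F 0 * pmpsPr (fun i => F (i + 1)) N :=
  List.prod_range_succ' F N

theorem pmpsPr_add (F : ℕ → M) (a b : ℕ) :
    pmpsPr F (a + b) = pmpsPr F a * pmpsPr (fun i => F (a + i)) b := by
  induction b with
  | zero => simp [pmpsPr_zero]
  | succ b ih => rw [← add_assoc, pmpsPr_succ, ih, pmpsPr_succ, mul_assoc]

theorem pmpsPr_const (F : ℕ → M) (T : M) (k : ℕ) (h : ∀ i < k, F i = T) : pmpsPr F k = T ^ k := by
  induction k with
  | zero => simp [pmpsPr_zero]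
  | succ k ih =>
    rw [pmpsPr_succ, ih (fun i hi => h i (Nat.lt_succ_of_lt hi)), h k (Nat.lt_succ_self k),
      pow_succ]

theorem pmpsPr_ofFn (F : ℕ → M) (N : ℕ) :
    (List.ofFn fun x : Fin N => F x.val).prod = pmpsPr F N := by
  unfold pmpsPr
  congr 1
  apply List.ext_getElem <;> simp

end Pr

section Pattern

variable {R : Type*} [CommRing R]

/-- one-site pattern: `P` at position `c`, the identity elsewhere. -/
def pmpsAt (c : ℕ) (P : Matrix (Fin 3) (Fin 3) R) (x : ℕ) : Matrix (Fin 3) (Fin 3) R :=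
  if x = c then P else 1

theorem pmpsAt_pos {c x : ℕ} (h : x = c) (P : Matrix (Fin 3) (Fin 3) R) : pmpsAt c P x = P :=
  if_pos h

theorem pmpsAt_neg {c x : ℕ} (h : x ≠ c) (P : Matrix (Fin 3) (Fin 3) R) : pmpsAt c P x = 1 :=
  if_neg h

/-- pattern of a product of four one-site operators. -/
def pmpsG4 (c₀ c₁ c₂ c₃ : ℕ) (P Q P' Q' : Matrix (Fin 3) (Fin 3) R) (x : ℕ) :
    Matrix (Fin 3) (Fin 3) R :=
  pmpsAt c₀ P x * pmpsAt c₁ Q x * (pmpsAt c₂ P' x * pmpsAt c₃ Q' x)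

theorem pmps_site_at {N : ℕ} [NeZero N] (j c : Fin N) (P : Matrix (Fin 3) (Fin 3) R) :
    mdlSite (j + c) P = mdlTens (fun i : Fin N => pmpsAt c.val P (i - j).val) := by
  rw [mdlSite_eq_tens]
  congr 1
  funext i
  unfold pmpsAt
  rw [Function.update_apply]
  have h : (i = j + c) ↔ ((i - j).val = c.val) := by
    rw [← Fin.ext_iff, sub_eq_iff_eq_add']
  simp only [h]

theorem pmps_site4 {N : ℕ} [NeZero N] (j c₀ c₁ c₂ c₃ : Fin N)
    (P Q P' Q' : Matrix (Fin 3) (Fin 3) R) :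
    mdlSite (j + c₀) P * mdlSite (j + c₁) Q * (mdlSite (j + c₂) P' * mdlSite (j + c₃) Q')
      = mdlTens (fun i : Fin N => pmpsG4 c₀.val c₁.val c₂.val c₃.val P Q P' Q' (i - j).val) := by
  simp only [pmps_site_at, mdlTens_mul]
  rfl

end Pattern

theorem pmpsAt_map (c : ℕ) (P : Matrix (Fin 3) (Fin 3) ℤ) (x : ℕ) :
    (pmpsAt c P x).map (Int.cast : ℤ → ℂ) = pmpsAt c (P.map (Int.cast : ℤ → ℂ)) x := by
  unfold pmpsAt
  split_ifs <;> simp

theorem pmpsG4_map (c₀ c₁ c₂ c₃ : ℕ) (P Q P' Q' : Matrix (Fin 3) (Fin 3) ℤ) (x : ℕ) :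
    (pmpsG4 c₀ c₁ c₂ c₃ P Q P' Q' x).map (Int.cast : ℤ → ℂ)
      = pmpsG4 c₀ c₁ c₂ c₃ (P.map (Int.cast : ℤ → ℂ)) (Q.map (Int.cast : ℤ → ℂ))
          (P'.map (Int.cast : ℤ → ℂ)) (Q'.map (Int.cast : ℤ → ℂ)) x := by
  unfold pmpsG4
  simp only [pmps_map_mul, pmpsAt_map]

section Sq

variable {κ : Type*} [Fintype κ] [DecidableEq κ]

theorem pmpsE_map (A : Fin 3 → Matrix κ κ ℤ) (W : Matrix (Fin 3) (Fin 3) ℤ) :
    pmpsE (pmpsC A) (W.map (Int.cast : ℤ → ℂ)) = (pmpsE A W).map (Int.cast : ℤ → ℂ) := by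
  have hsum : ∀ f : Fin 3 → Matrix (κ × κ) (κ × κ) ℤ,
      (∑ s, f s).map (Int.cast : ℤ → ℂ) = ∑ s, (f s).map (Int.cast : ℤ → ℂ) := fun f =>
    map_sum (Int.castRingHom ℂ).mapMatrix f Finset.univ
  unfold pmpsE pmpsC
  simp only [hsum, pmps_map_zsmul, pmps_kron_map, Matrix.map_apply]

theorem pmpsE_one_int (A : Fin 3 → Matrix κ κ ℤ) : pmpsE A 1 = pmpsT A := by
  unfold pmpsE pmpsT
  refine Finset.sum_congr rfl fun s _ => ?_
  rw [Finset.sum_eq_single s]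
  · simp
  · intro t _ ht
    simp [Ne.symm ht]
  · simp

/-- quadratic form of a product operator given by an integer pattern seen from site `j`. -/
theorem pmps_form_nat (A : Fin 3 → Matrix κ κ ℤ) {N : ℕ} [NeZero N] (j : Fin N)
    (g : ℕ → Matrix (Fin 3) (Fin 3) ℤ) :
    star (pmpsVec A N) ⬝ᵥ
        (mdlTens (fun i : Fin N => (g (i - j).val).map (Int.cast : ℤ → ℂ)) *ᵥ pmpsVec A N)
      = ((trace (pmpsPr (fun x => pmpsE A (g x)) N) : ℤ) : ℂ) := by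
  rw [pmps_form_tens,
    pmps_trace_shift (fun k : Fin N => pmpsE (pmpsC A) ((g k.val).map (Int.cast : ℤ → ℂ))) j]
  simp only [pmpsE_map]
  rw [pmpsPr_ofFn (fun x => (pmpsE A (g x)).map (Int.cast : ℤ → ℂ)) N, ← pmps_trace_map]
  congr 1
  unfold pmpsPr
  rw [pmps_map_prod, List.map_map]
  rfl

/-- quadratic form of a product of four one-site operators. -/
theorem pmps_form4 (A : Fin 3 → Matrix κ κ ℤ) {N : ℕ} [NeZero N] (j c₀ c₁ c₂ c₃ : Fin N)
    (P Q P' Q' : Matrix (Fin 3) (Fin 3) ℤ) :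
    star (pmpsVec A N) ⬝ᵥ
        ((mdlSite (j + c₀) (P.map (Int.cast : ℤ → ℂ)) * mdlSite (j + c₁) (Q.map (Int.cast : ℤ → ℂ)) *
          (mdlSite (j + c₂) (P'.map (Int.cast : ℤ → ℂ)) *
            mdlSite (j + c₃) (Q'.map (Int.cast : ℤ → ℂ)))) *ᵥ pmpsVec A N)
      = ((trace (pmpsPr (fun x => pmpsE A (pmpsG4 c₀.val c₁.val c₂.val c₃.val P Q P' Q' x)) N) : ℤ)
          : ℂ) := by
  rw [pmps_site4, ← pmps_form_nat A j]
  simp only [pmpsG4_map]


/-! ### evaluation of the four kinds of patterns -/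

/-- both bonds on the sites `0, 1`. -/
theorem pmps_evalA (A : Fin 3 → Matrix κ κ ℤ) (n : ℕ) (P Q P' Q' : Matrix (Fin 3) (Fin 3) ℤ) :
    pmpsPr (fun x => pmpsE A (pmpsG4 0 1 0 1 P Q P' Q' x)) (n + 4)
      = pmpsE A (P * P') * pmpsE A (Q * Q') * pmpsT A ^ (n + 2) := by
  rw [pmpsPr_succ', pmpsPr_succ', pmpsPr_const _ (pmpsT A) (n + 2), mul_assoc]
  · congr 2
    · simp [pmpsG4, pmpsAt]
    · simp [pmpsG4, pmpsAt]
  · intro i _
    rw [← pmpsE_one_int]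
    simp [pmpsG4, pmpsAt]

/-- bonds on the sites `0, 1` and `1, 2`. -/
theorem pmps_evalB (A : Fin 3 → Matrix κ κ ℤ) (n : ℕ) (P Q P' Q' : Matrix (Fin 3) (Fin 3) ℤ) :
    pmpsPr (fun x => pmpsE A (pmpsG4 0 1 1 2 P Q P' Q' x)) (n + 4)
      = pmpsE A P * pmpsE A (Q * P') * pmpsE A Q' * pmpsT A ^ (n + 1) := by
  rw [pmpsPr_succ', pmpsPr_succ', pmpsPr_succ', pmpsPr_const _ (pmpsT A) (n + 1), mul_assoc,
    mul_assoc]
  · have e0 : pmpsG4 0 1 1 2 P Q P' Q' 0 = P := by simp [pmpsG4, pmpsAt]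
    have e1 : pmpsG4 0 1 1 2 P Q P' Q' (0 + 1) = Q * P' := by simp [pmpsG4, pmpsAt]
    have e2 : pmpsG4 0 1 1 2 P Q P' Q' (0 + 1 + 1) = Q' := by simp [pmpsG4, pmpsAt]
    rw [e0, e1, e2]
  · intro i _
    rw [← pmpsE_one_int]
    simp [pmpsG4, pmpsAt]

/-- disjoint bonds on the sites `0, 1` and `k + 2, k + 3`. -/
theorem pmps_evalC (A : Fin 3 → Matrix κ κ ℤ) (k m : ℕ) (P Q P' Q' : Matrix (Fin 3) (Fin 3) ℤ) :
    pmpsPr (fun x => pmpsE A (pmpsG4 0 1 (k + 2) (k + 3) P Q P' Q' x)) (k + m + 4)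
      = pmpsE A P * pmpsE A Q * pmpsT A ^ k * (pmpsE A P' * pmpsE A Q' * pmpsT A ^ m) := by
  have hN : k + m + 4 = 2 + (k + (2 + m)) := by omega
  rw [hN, pmpsPr_add, pmpsPr_add, pmpsPr_add, pmpsPr_const _ (pmpsT A) k,
    pmpsPr_const _ (pmpsT A) m, pmpsPr_succ, pmpsPr_succ, pmpsPr_zero, pmpsPr_succ, pmpsPr_succ,
    pmpsPr_zero, one_mul, one_mul]
  · have e0 : pmpsG4 0 1 (k + 2) (k + 3) P Q P' Q' 0 = P := by
      unfold pmpsG4
      rw [pmpsAt_pos rfl, pmpsAt_neg (by omega), pmpsAt_neg (by omega), pmpsAt_neg (by omega)]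
      simp
    have e1 : pmpsG4 0 1 (k + 2) (k + 3) P Q P' Q' 1 = Q := by
      unfold pmpsG4
      rw [pmpsAt_neg (by omega), pmpsAt_pos rfl, pmpsAt_neg (by omega), pmpsAt_neg (by omega)]
      simp
    have e2 : pmpsG4 0 1 (k + 2) (k + 3) P Q P' Q' (2 + (k + 0)) = P' := by
      unfold pmpsG4
      rw [pmpsAt_neg (by omega), pmpsAt_neg (by omega), pmpsAt_pos (by omega),
        pmpsAt_neg (by omega)]
      simp
    have e3 : pmpsG4 0 1 (k + 2) (k + 3) P Q P' Q' (2 + (k + 1)) = Q' := by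
      unfold pmpsG4
      rw [pmpsAt_neg (by omega), pmpsAt_neg (by omega), pmpsAt_neg (by omega),
        pmpsAt_pos (by omega)]
      simp
    rw [e0, e1, e2, e3]
    simp only [mul_assoc]
  · intro i _
    rw [← pmpsE_one_int]
    unfold pmpsG4
    rw [pmpsAt_neg (by omega), pmpsAt_neg (by omega), pmpsAt_neg (by omega),
      pmpsAt_neg (by omega)]
    simp
  · intro i hi
    rw [← pmpsE_one_int]
    unfold pmpsG4
    rw [pmpsAt_neg (by omega), pmpsAt_neg (by omega), pmpsAt_neg (by omega),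
      pmpsAt_neg (by omega)]
    simp

/-- bonds on the sites `0, 1` and `n + 3, 0` (around the seam). -/
theorem pmps_evalD (A : Fin 3 → Matrix κ κ ℤ) (n : ℕ) (P Q P' Q' : Matrix (Fin 3) (Fin 3) ℤ) :
    trace (pmpsPr (fun x => pmpsE A (pmpsG4 0 1 (n + 3) 0 P Q P' Q' x)) (n + 4))
      = trace (pmpsE A P' * pmpsE A (P * Q') * pmpsE A Q * pmpsT A ^ (n + 1)) := by
  rw [pmpsPr_succ, Matrix.trace_mul_comm, pmpsPr_succ', pmpsPr_succ',
    pmpsPr_const _ (pmpsT A) (n + 1)]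
  · have e0 : pmpsG4 0 1 (n + 3) 0 P Q P' Q' 0 = P * Q' := by
      unfold pmpsG4
      rw [pmpsAt_pos rfl, pmpsAt_neg (by omega), pmpsAt_neg (by omega), pmpsAt_pos rfl]
      simp
    have e1 : pmpsG4 0 1 (n + 3) 0 P Q P' Q' (0 + 1) = Q := by
      unfold pmpsG4
      rw [pmpsAt_neg (by omega), pmpsAt_pos rfl, pmpsAt_neg (by omega), pmpsAt_neg (by omega)]
      simp
    have e2 : pmpsG4 0 1 (n + 3) 0 P Q P' Q' (n + 3) = P' := by
      unfold pmpsG4
      rw [pmpsAt_neg (by omega), pmpsAt_neg (by omega), pmpsAt_pos rfl, pmpsAt_neg (by omega)]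
      simp
    rw [e0, e1, e2]
    simp only [mul_assoc]
  · intro i hi
    rw [← pmpsE_one_int]
    unfold pmpsG4
    rw [pmpsAt_neg (by omega), pmpsAt_neg (by omega), pmpsAt_neg (by omega),
      pmpsAt_neg (by omega)]
    simp


/-! ### the bond operator and the integer insertions -/

/-- `S·S = ∑ₐ Xₐ ⊗ Yₐ` with integer one-site matrices: `Xₐ = S^z, E⁺, E⁻`. -/
def pmpsX : Fin 3 → Matrix (Fin 3) (Fin 3) ℤ := ![ptrSz, ptrEp, ptrEm]

/-- `S·S = ∑ₐ Xₐ ⊗ Yₐ` with integer one-site matrices: `Yₐ = S^z, E⁻, E⁺`. -/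
def pmpsY : Fin 3 → Matrix (Fin 3) (Fin 3) ℤ := ![ptrSz, ptrEm, ptrEp]

/-- two-site insertion of the bond `h₀₁`. -/
def pmpsO2 (A : Fin 3 → Matrix κ κ ℤ) : Matrix (κ × κ) (κ × κ) ℤ :=
  ∑ a, pmpsE A (pmpsX a) * pmpsE A (pmpsY a)

/-- two-site insertion of `h₀₁ ^ 2`. -/
def pmpsOsq (A : Fin 3 → Matrix κ κ ℤ) : Matrix (κ × κ) (κ × κ) ℤ :=
  ∑ a, ∑ b, pmpsE A (pmpsX a * pmpsX b) * pmpsE A (pmpsY a * pmpsY b)

/-- three-site insertion of `h₀₁ h₁₂ + h₁₂ h₀₁`. -/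
def pmpsO3 (A : Fin 3 → Matrix κ κ ℤ) : Matrix (κ × κ) (κ × κ) ℤ :=
  ∑ a, ∑ b, (pmpsE A (pmpsX a) * pmpsE A (pmpsY a * pmpsX b) * pmpsE A (pmpsY b)
    + pmpsE A (pmpsX b) * pmpsE A (pmpsX a * pmpsY b) * pmpsE A (pmpsY a))

/-- the bond operator at the sites `j, k`. -/
noncomputable def pmpsHb {N : ℕ} (j k : Fin N) : Matrix (Fin N → Fin 3) (Fin N → Fin 3) ℂ :=
  ∑ a, mdlSite j ((pmpsX a).map (Int.cast : ℤ → ℂ)) * mdlSite k ((pmpsY a).map (Int.cast : ℤ → ℂ))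

theorem pmps_bond_XY {N : ℕ} (j k : Fin N) :
    ∑ α : Fin 3, Claims.C0475.siteOp j (Claims.C0475.spinOne α) *
        Claims.C0475.siteOp k (Claims.C0475.spinOne α) = pmpsHb j k := by
  rw [ptr_bond, pmpsHb, Fin.sum_univ_three]
  rfl

theorem pmps_ring_eq (n : ℕ) :
    Claims.C0475.heisenbergRing (n + 4) = ∑ j : Fin (n + 4), pmpsHb j (j + 1) := by
  unfold Claims.C0475.heisenbergRing
  refine Finset.sum_congr rfl fun j _ => ?_
  rw [pmps_bond_XY, finRotate_apply]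

/-- the correlation of two bonds at distance `x`. -/
def pmpsW (A : Fin 3 → Matrix κ κ ℤ) (n x : ℕ) : ℤ :=
  ∑ a, ∑ b, trace (pmpsPr (fun y => pmpsE A
    (pmpsG4 0 1 x ((x + 1) % (n + 4)) (pmpsX a) (pmpsY a) (pmpsX b) (pmpsY b) y)) (n + 4))

theorem pmps_form_bonds (A : Fin 3 → Matrix κ κ ℤ) (n : ℕ) (j d : Fin (n + 4)) :
    star (pmpsVec A (n + 4)) ⬝ᵥ
        ((pmpsHb j (j + 1) * pmpsHb (j + d) (j + d + 1)) *ᵥ pmpsVec A (n + 4))
      = ((pmpsW A n d.val : ℤ) : ℂ) := by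
  unfold pmpsHb pmpsW
  rw [Finset.sum_mul_sum, Matrix.sum_mulVec, dotProduct_sum]
  push_cast
  refine Finset.sum_congr rfl fun a _ => ?_
  rw [Matrix.sum_mulVec, dotProduct_sum]
  refine Finset.sum_congr rfl fun b _ => ?_
  have h := pmps_form4 A j 0 1 d (d + 1) (pmpsX a) (pmpsY a) (pmpsX b) (pmpsY b)
  rw [add_zero, ← add_assoc] at h
  rw [h]
  simp only [Fin.val_zero, Fin.val_one, Fin.val_add]

theorem pmpsW_zero (A : Fin 3 → Matrix κ κ ℤ) (n : ℕ) :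
    pmpsW A n 0 = trace (pmpsOsq A * pmpsT A ^ (n + 2)) := by
  unfold pmpsW pmpsOsq
  have h : (0 + 1) % (n + 4) = 1 := Nat.mod_eq_of_lt (by omega)
  simp only [h, pmps_evalA, Finset.sum_mul, Matrix.trace_sum]

theorem pmpsW_mid (A : Fin 3 → Matrix κ κ ℤ) (n k : ℕ) (hk : k ≤ n) :
    pmpsW A n (k + 2) = trace (pmpsO2 A * pmpsT A ^ k * (pmpsO2 A * pmpsT A ^ (n - k))) := by
  unfold pmpsW pmpsO2
  have h : (k + 2 + 1) % (n + 4) = k + 3 := Nat.mod_eq_of_lt (by omega)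
  have h' : n + 4 = k + (n - k) + 4 := by omega
  rw [h]
  conv_lhs => rw [h']
  simp only [pmps_evalC, Finset.sum_mul, Finset.mul_sum, Matrix.trace_sum]
  rw [Finset.sum_comm]

theorem pmpsW_one_add_last (A : Fin 3 → Matrix κ κ ℤ) (n : ℕ) :
    pmpsW A n 1 + pmpsW A n (n + 3) = trace (pmpsO3 A * pmpsT A ^ (n + 1)) := by
  unfold pmpsW pmpsO3
  have h : (1 + 1) % (n + 4) = 2 := Nat.mod_eq_of_lt (by omega)
  have h' : (n + 3 + 1) % (n + 4) = 0 := Nat.mod_self _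
  simp only [h, h', pmps_evalB, pmps_evalD, Finset.sum_mul, Matrix.trace_sum, add_mul,
    Matrix.trace_add, Finset.sum_add_distrib]

/-- **Second moment of the periodic matrix-product vector** against the frozen ring. -/
theorem pmps_second (A : Fin 3 → Matrix κ κ ℤ) (n : ℕ) :
    star (Claims.C0475.heisenbergRing (n + 4) *ᵥ pmpsVec A (n + 4)) ⬝ᵥ
        (Claims.C0475.heisenbergRing (n + 4) *ᵥ pmpsVec A (n + 4))
      = (((n + 4 : ℕ) * (trace (pmpsOsq A * pmpsT A ^ (n + 2)) + trace (pmpsO3 A * pmpsT A ^ (n + 1))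
          + ∑ k ∈ Finset.range (n + 1),
              trace (pmpsO2 A * pmpsT A ^ k * (pmpsO2 A * pmpsT A ^ (n - k)))) : ℤ) : ℂ) := by
  have hH := mdl_heisenbergRing_isHermitian (n + 4)
  rw [Matrix.star_mulVec, hH.eq, ← Matrix.dotProduct_mulVec, Matrix.mulVec_mulVec, pmps_ring_eq,
    Finset.sum_mul_sum, Matrix.sum_mulVec, dotProduct_sum]
  have hj : ∀ j : Fin (n + 4),
      star (pmpsVec A (n + 4)) ⬝ᵥ ((∑ k : Fin (n + 4), pmpsHb j (j + 1) * pmpsHb k (k + 1)) *ᵥ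
          pmpsVec A (n + 4))
        = ((∑ x ∈ Finset.range (n + 4), pmpsW A n x : ℤ) : ℂ) := by
    intro j
    rw [← Equiv.sum_comp (Equiv.addLeft j), Matrix.sum_mulVec, dotProduct_sum]
    simp only [Equiv.coe_addLeft, pmps_form_bonds]
    rw [← Fin.sum_univ_eq_sum_range]
    push_cast
    rfl
  simp only [hj]
  have hsum : ∑ x ∈ Finset.range (n + 4), pmpsW A n x
      = trace (pmpsOsq A * pmpsT A ^ (n + 2)) + trace (pmpsO3 A * pmpsT A ^ (n + 1))
          + ∑ k ∈ Finset.range (n + 1),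
              trace (pmpsO2 A * pmpsT A ^ k * (pmpsO2 A * pmpsT A ^ (n - k))) := by
    rw [Finset.sum_range_succ, Finset.sum_range_succ', Finset.sum_range_succ', ← pmpsW_zero,
      ← pmpsW_one_add_last]
    have : ∑ k ∈ Finset.range (n + 1), pmpsW A n (k + 1 + 1)
        = ∑ k ∈ Finset.range (n + 1),
            trace (pmpsO2 A * pmpsT A ^ k * (pmpsO2 A * pmpsT A ^ (n - k))) := by
      refine Finset.sum_congr rfl fun k hk => ?_
      exact pmpsW_mid A n k (Nat.lt_succ_iff.mp (Finset.mem_range.mp hk))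
    rw [this]
    ring
  rw [hsum]
  simp
  ring


theorem pmpsE_mul {R : Type*} [CommRing R] (A : Fin 3 → Matrix κ κ R)
    (W W' : Matrix (Fin 3) (Fin 3) R) :
    pmpsE A W * pmpsE A W'
      = ∑ s, ∑ s', ∑ t, ∑ t', (W s t * W' s' t') • ((A s * A s') ⊗ₖ (A t * A t')) := by
  unfold pmpsE
  rw [Finset.sum_mul_sum]
  refine Finset.sum_congr rfl fun s _ => Finset.sum_congr rfl fun s' _ => ?_
  rw [Finset.sum_mul_sum]
  refine Finset.sum_congr rfl fun t _ => Finset.sum_congr rfl fun t' _ => ?_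
  rw [smul_mul_smul_comm, ← Matrix.mul_kronecker_mul]

theorem pmpsBond_XY (s s' t t' : Fin 3) :
    ∑ a, pmpsX a s t * pmpsY a s' t' = pmpsBond s s' t t' := by
  revert s s' t t'
  decide

/-- the two forms of the bond insertion agree. -/
theorem pmpsO2_eq (A : Fin 3 → Matrix κ κ ℤ) : pmpsO2 A = pmpsO A := by
  unfold pmpsO2 pmpsO
  simp only [pmpsE_mul]
  rw [Finset.sum_comm]
  refine Finset.sum_congr rfl fun s _ => ?_
  rw [Finset.sum_comm]
  refine Finset.sum_congr rfl fun s' _ => ?_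
  rw [Finset.sum_comm]
  refine Finset.sum_congr rfl fun t _ => ?_
  rw [Finset.sum_comm]
  refine Finset.sum_congr rfl fun t' _ => ?_
  rw [← Finset.sum_smul, pmpsBond_XY]

end Sq

end Claimed.Agent.R297
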