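/-
Row 297 (spin-one Haldane gap), package E1b (owner helper127), prefix `pmps`.

Assembly of the variational input `trial120` of `main547` / `seed60_Zring` from the integer
certificate on the transfer matrices `trnT`, `trnO` of `TrialDefs.lean` (helper52 / helper186).
-/
import Claimed.Agent.R297.PMpsRing
import Claimed.Agent.R297.TrialDefs

namespace Claimed.Agent.R297

open Matrix Kronecker

/-- Generic form: an integer inequality between the two traces gives a trial vector for the frozen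
ring of length `n + 2` with Rayleigh quotient below `-(n+2) p / q`. -/
theorem pmps_trial {κ : Type*} [Fintype κ] [DecidableEq κ] (A : Fin 3 → Matrix κ κ ℤ) (n : ℕ)
    (p q : ℤ) (hq : 0 < q)
    (h : q * trace (pmpsT A ^ n * pmpsO A) < -p * trace (pmpsT A ^ (n + 2))) :
    ∃ v : (Fin (n + 2) → Fin 3) → ℂ,
      (star v ⬝ᵥ (Claims.C0475.heisenbergRing (n + 2) *ᵥ v)).re
        < -(((n + 2 : ℕ) : ℝ) * (p : ℝ) / (q : ℝ)) * (star v ⬝ᵥ v).re := by
  refine ⟨pmpsVec A (n + 2), ?_⟩
  rw [pmps_energy, pmps_norm, Complex.intCast_re, Complex.intCast_re]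
  have hq' : (0 : ℝ) < (q : ℝ) := by exact_mod_cast hq
  have h' : (q : ℝ) * (trace (pmpsT A ^ n * pmpsO A) : ℤ)
      < -(p : ℝ) * (trace (pmpsT A ^ (n + 2)) : ℤ) := by exact_mod_cast h
  have hn : (0 : ℝ) < ((n + 2 : ℕ) : ℝ) := by positivity
  push_cast
  push_cast at hn
  rw [show -(((n : ℝ) + 2) * (p : ℝ) / (q : ℝ)) * ((trace (pmpsT A ^ (n + 2)) : ℤ) : ℝ)
      = ((n : ℝ) + 2) * (-(p : ℝ) * ((trace (pmpsT A ^ (n + 2)) : ℤ) : ℝ) / (q : ℝ)) by ring]
  refine mul_lt_mul_of_pos_left ?_ hn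
  rw [lt_div_iff₀ hq', mul_comm]
  exact h'

theorem pmpsT_trn : pmpsT trnA = trnT := rfl

theorem pmpsBond_trn (s t s' t' : Fin 3) : pmpsBond s t s' t' = trnBond s t s' t' := rfl

theorem pmpsO_trn : pmpsO trnA = trnO := rfl

/-- **`trial120` from the integer certificate** (shape of `main547`, `seed60_Zring`). -/
theorem pmps_trial120
    (cert : 500000 * trace (trnT ^ 118 * trnO) < -700741 * trace (trnT ^ 120)) :
    ∃ v : (Fin 120 → Fin 3) → ℂ,
      (star v ⬝ᵥ (Claims.C0475.heisenbergRing 120 *ᵥ v)).re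
        < -(120 * 700741 / 500000) * (star v ⬝ᵥ v).re := by
  have h := pmps_trial trnA 118 700741 500000 (by norm_num)
    (by rw [pmpsT_trn, pmpsO_trn]; exact cert)
  obtain ⟨v, hv⟩ := h
  refine ⟨v, ?_⟩
  norm_num at hv ⊢
  exact hv

/-- the same from the one-trace form of the certificate. -/
theorem pmps_trial120'
    (cert : trace (trnT ^ 118 * (500000 • trnO + 700741 • trnT ^ 2)) < 0) :
    ∃ v : (Fin 120 → Fin 3) → ℂ,
      (star v ⬝ᵥ (Claims.C0475.heisenbergRing 120 *ᵥ v)).re
        < -(120 * 700741 / 500000) * (star v ⬝ᵥ v).re := by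
  refine pmps_trial120 ?_
  rw [mul_add, trace_add, Matrix.mul_smul, Matrix.mul_smul, trace_smul, trace_smul, ← pow_add] at cert
  norm_num at cert
  linarith

end Claimed.Agent.R297
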