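/-
Row 297 (spin-one Haldane gap), package E3a (owner helper127), prefix `pmps`.

Assembly of `Trial30Cert` (`Seed42Glue.lean`: energy and second moment of a trial vector on the ring
of 30 sites) from three integer inequalities between traces of products of the transfer matrix
`trnT` of `TrialDefs.lean` with the insertions `trnO`, `pmpsOsq trnA`, `pmpsO3 trnA`.
-/
import Claimed.Agent.R297.PMpsSq
import Claimed.Agent.R297.PMpsTrial
import Claimed.Agent.R297.Seed42Glue

namespace Claimed.Agent.R297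

open Matrix Kronecker

/-- norm of the trial vector on 30 sites. -/
def pmpsV30 : ℤ := trace (trnT ^ 30)

/-- energy per site (times the norm) of the trial vector on 30 sites. -/
def pmpsU30 : ℤ := trace (trnT ^ 28 * trnO)

/-- second moment per site (times the norm) of the trial vector on 30 sites. -/
def pmpsW30 : ℤ :=
  trace (pmpsOsq trnA * trnT ^ 28) + trace (pmpsO3 trnA * trnT ^ 27)
    + ∑ k ∈ Finset.range 27, trace (trnO * trnT ^ k * (trnO * trnT ^ (26 - k)))

theorem pmps_norm30 :
    star (pmpsVec trnA 30) ⬝ᵥ pmpsVec trnA 30 = ((pmpsV30 : ℤ) : ℂ) := pmps_norm trnA 30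

theorem pmps_energy30 :
    star (pmpsVec trnA 30) ⬝ᵥ (Claims.C0475.heisenbergRing 30 *ᵥ pmpsVec trnA 30)
      = ((30 * pmpsU30 : ℤ) : ℂ) := pmps_energy trnA 28

theorem pmps_second30 :
    star (Claims.C0475.heisenbergRing 30 *ᵥ pmpsVec trnA 30) ⬝ᵥ
        (Claims.C0475.heisenbergRing 30 *ᵥ pmpsVec trnA 30) = ((30 * pmpsW30 : ℤ) : ℂ) := by
  have h := pmps_second trnA 26
  rw [pmpsO2_eq, pmpsO_trn, pmpsT_trn] at h
  exact h

/-- **`Trial30Cert` from the integer certificate.** -/
theorem pmps_trial30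
    (h1 : 500000 * pmpsU30 + 700741 * pmpsV30 < 0)
    (h2 : -815 * pmpsV30 ≤ 15000000 * pmpsU30 + 21022230 * pmpsV30)
    (h3 : 7500000000000 * pmpsW30 + 630666900000000 * pmpsU30 + 21022230 ^ 2 * pmpsV30
      ≤ 62000000 * pmpsV30) :
    Trial30Cert := by
  refine ⟨pmpsVec trnA 30, ?_, ?_, ?_⟩
  · rw [seed42_shift_energy, pmps_energy30, pmps_norm30, Complex.intCast_re, Complex.intCast_re]
    have h1' : (500000 : ℝ) * (pmpsU30 : ℝ) + 700741 * (pmpsV30 : ℝ) < 0 := by exact_mod_cast h1
    push_cast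
    linarith
  · rw [seed42_shift_energy, pmps_energy30, pmps_norm30, Complex.intCast_re, Complex.intCast_re]
    have h2' : (-815 : ℝ) * (pmpsV30 : ℝ) ≤ 15000000 * (pmpsU30 : ℝ) + 21022230 * (pmpsV30 : ℝ) := by
      exact_mod_cast h2
    push_cast
    linarith
  · rw [seed42_shift_second, pmps_second30, pmps_energy30, pmps_norm30, Complex.intCast_re,
      Complex.intCast_re, Complex.intCast_re]
    have h3' : (7500000000000 : ℝ) * (pmpsW30 : ℝ) + 630666900000000 * (pmpsU30 : ℝ)
        + 21022230 ^ 2 * (pmpsV30 : ℝ) ≤ 62000000 * (pmpsV30 : ℝ) := by exact_mod_cast h3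
    push_cast
    linarith

end Claimed.Agent.R297
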