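/-
Row 297, package E (trial energies), owner helper245.
Norm and energy of an INTEGER periodic matrix product vector for the frozen ring Hamiltonian
`Claims.C0475.heisenbergRing`, as integer traces; the criterion for a trial energy.
-/
import Claimed.Agent.R297.PTrialRing

set_option autoImplicit false
set_option linter.unusedSectionVars false

namespace Claimed.Agent.R297

open Matrix Kronecker

section energy

variable {κ : Type} [Fintype κ] [DecidableEq κ]

/-- the integer transfer matrix. -/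
def ptrT (A : Fin 3 → Matrix κ κ ℤ) : Matrix (κ × κ) (κ × κ) ℤ := ptrE A 1

/-- the integer two-site energy insertion. -/
def ptrO (A : Fin 3 → Matrix κ κ ℤ) : Matrix (κ × κ) (κ × κ) ℤ :=
  ptrE A ptrSz * ptrE A ptrSz + ptrE A ptrEp * ptrE A ptrEm + ptrE A ptrEm * ptrE A ptrEp

/-- the complex trial vector. -/
def ptrVec (A : Fin 3 → Matrix κ κ ℤ) (N : ℕ) : (Fin N → Fin 3) → ℂ :=
  ptrPsi (fun s => ptrC (A s)) N

theorem ptrVec_apply (A : Fin 3 → Matrix κ κ ℤ) (N : ℕ) (σ : Fin N → Fin 3) :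
    ptrVec A N σ = ((ptrPsi A N σ : ℤ) : ℂ) := by
  simp only [ptrVec, ptrPsi, ptrCyc, Int.cast_sum, Int.cast_prod, Matrix.map_apply,
    Int.coe_castRingHom]

theorem ptrVec_star (A : Fin 3 → Matrix κ κ ℤ) (N : ℕ) : star (ptrVec A N) = ptrVec A N := by
  funext σ
  rw [Pi.star_apply, ptrVec_apply, Complex.star_def, map_intCast]

theorem ptrE_cast (A : Fin 3 → Matrix κ κ ℤ) (W : Matrix (Fin 3) (Fin 3) ℤ) :
    ptrE (fun s => ptrC (A s)) (ptrC W) = ptrC (ptrE A W) := by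
  ext a b
  simp only [ptrE, Matrix.sum_apply, Matrix.smul_apply, Matrix.kroneckerMap_apply,
    Matrix.map_apply, Int.coe_castRingHom, Int.cast_sum, smul_eq_mul, Int.cast_mul]

theorem ptrC_one {a : Type} [DecidableEq a] : ptrC (1 : Matrix a a ℤ) = 1 := by
  simp [ptrC]

theorem ptrC_mul {a : Type} [Fintype a] (M N : Matrix a a ℤ) :
    ptrC (M * N) = ptrC M * ptrC N := Matrix.map_mul

theorem ptrC_pow {a : Type} [Fintype a] [DecidableEq a] (M : Matrix a a ℤ) (k : ℕ) :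
    ptrC (M ^ k) = ptrC M ^ k :=
  map_pow (Int.castRingHom ℂ).mapMatrix M k

theorem ptrC_trace {a : Type} [Fintype a] (M : Matrix a a ℤ) :
    trace (ptrC M) = ((trace M : ℤ) : ℂ) := by
  simp only [trace, Matrix.diag_apply, Matrix.map_apply, Int.coe_castRingHom, Int.cast_sum]

theorem ptrVec_norm (A : Fin 3 → Matrix κ κ ℤ) (n : ℕ) :
    star (ptrVec A (n + 1)) ⬝ᵥ ptrVec A (n + 1) = ((trace (ptrT A ^ (n + 1)) : ℤ) : ℂ) := by
  rw [ptrVec_star, ptrVec, ptr_norm, ← ptrC_one, ptrE_cast, ← ptrC_pow, ptrC_trace, ptrT]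

theorem ptrVec_bond (A : Fin 3 → Matrix κ κ ℤ) (m : ℕ) (X Y : Matrix (Fin 3) (Fin 3) ℤ)
    (j : Fin (m + 2)) :
    ptrVec A (m + 2) ⬝ᵥ ((mdlSite j (ptrC X) * mdlSite (finRotate (m + 2) j) (ptrC Y)) *ᵥ
        ptrVec A (m + 2))
      = ((trace (ptrE A X * ptrE A Y * ptrT A ^ m) : ℤ) : ℂ) := by
  rw [ptrVec, ptr_expect_bond, ← ptrC_one, ptrE_cast, ptrE_cast, ptrE_cast, ← ptrC_pow,
    ← ptrC_mul, ← ptrC_mul, ptrC_trace, ptrT, mul_assoc]

theorem ptrVec_energy (A : Fin 3 → Matrix κ κ ℤ) (m : ℕ) :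
    star (ptrVec A (m + 2)) ⬝ᵥ (Claims.C0475.heisenbergRing (m + 2) *ᵥ ptrVec A (m + 2))
      = (((m + 2 : ℕ) : ℤ) * trace (ptrO A * ptrT A ^ m) : ℤ) := by
  rw [ptrVec_star, Claims.C0475.heisenbergRing, Matrix.sum_mulVec, dotProduct_sum]
  simp only [ptr_bond, Matrix.add_mulVec, dotProduct_add, ptrVec_bond]
  rw [Finset.sum_const, Finset.card_univ, Fintype.card_fin, ptrO]
  simp only [add_mul, Matrix.trace_add]
  push_cast
  simp only [nsmul_eq_mul]
  push_cast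
  ring

/-- **Trial-energy criterion**: an integer inequality between two traces gives a trial vector
for the frozen ring Hamiltonian. -/
theorem ptr_trial (A : Fin 3 → Matrix κ κ ℤ) (m : ℕ) (p q : ℤ) (hq : 0 < q)
    (h : q * trace (ptrO A * ptrT A ^ m) < -p * trace (ptrT A ^ (m + 2))) :
    ∃ v : (Fin (m + 2) → Fin 3) → ℂ,
      (star v ⬝ᵥ (Claims.C0475.heisenbergRing (m + 2) *ᵥ v)).re
        < -(((m + 2 : ℕ) : ℝ) * p / q) * (star v ⬝ᵥ v).re := by
  refine ⟨ptrVec A (m + 2), ?_⟩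
  rw [ptrVec_energy, ptrVec_norm A (m + 1), Complex.intCast_re, Complex.intCast_re]
  have hq' : (0 : ℝ) < q := by exact_mod_cast hq
  have h' : (q : ℝ) * (trace (ptrO A * ptrT A ^ m) : ℤ)
      < -p * (trace (ptrT A ^ (m + 2)) : ℤ) := by exact_mod_cast h
  have hN : (0 : ℝ) < ((m + 2 : ℕ) : ℝ) := by positivity
  push_cast
  push_cast at hN
  rw [show -(((m : ℝ) + 2) * p / q) * ((trace (ptrT A ^ (m + 1 + 1)) : ℤ) : ℝ)
      = ((m : ℝ) + 2) * ((-p * ((trace (ptrT A ^ (m + 2)) : ℤ) : ℝ)) / q) by ring]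
  apply mul_lt_mul_of_pos_left _ hN
  rw [lt_div_iff₀ hq']
  linarith

end energy

end Claimed.Agent.R297
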