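/-
Row 297, package E (trial energies), owner helper245.
Bridge from the generic periodic-MPS energy formula to the shared definitions `trnT`, `trnO`
(`TrialDefs.lean`), and the `N = 120` (and generic `N`) trial statement from the integer
certificate.
-/
import Claimed.Agent.R297.PTrialEnergy
import Claimed.Agent.R297.TrialDefs

set_option autoImplicit false
set_option linter.unusedSectionVars false

namespace Claimed.Agent.R297

open Matrix Kronecker

section bridge

variable {κ : Type} [Fintype κ] [DecidableEq κ]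

theorem ptrT_eq (A : Fin 3 → Matrix κ κ ℤ) : ptrT A = ∑ s : Fin 3, A s ⊗ₖ A s := by
  rw [ptrT, ptrE, Fintype.sum_prod_type]
  refine Finset.sum_congr rfl (fun s _ => ?_)
  simp only [Matrix.one_apply, ite_smul, one_smul, zero_smul, Finset.sum_ite_eq,
    Finset.mem_univ, if_true]

theorem ptrE_mul (A : Fin 3 → Matrix κ κ ℤ) (X Y : Matrix (Fin 3) (Fin 3) ℤ) :
    ptrE A X * ptrE A Y = ∑ s : Fin 3, ∑ t : Fin 3, ∑ s' : Fin 3, ∑ t' : Fin 3,
      (X s s' * Y t t') • ((A s * A t) ⊗ₖ (A s' * A t')) := by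
  simp only [ptrE, Fintype.sum_prod_type]
  rw [Finset.sum_mul_sum]
  refine Finset.sum_congr rfl (fun s _ => Finset.sum_congr rfl (fun t _ => ?_))
  rw [Finset.sum_mul_sum]
  refine Finset.sum_congr rfl (fun s' _ => Finset.sum_congr rfl (fun t' _ => ?_))
  rw [smul_mul_smul_comm, ← Matrix.mul_kronecker_mul]

theorem ptr_bond_coeff : ∀ s t s' t' : Fin 3,
    ptrSz s s' * ptrSz t t' + ptrEp s s' * ptrEm t t' + ptrEm s s' * ptrEp t t'
      = trnBond s t s' t' := by
  decide

theorem ptrO_eq (A : Fin 3 → Matrix κ κ ℤ) :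
    ptrO A = ∑ s : Fin 3, ∑ t : Fin 3, ∑ s' : Fin 3, ∑ t' : Fin 3,
      trnBond s t s' t' • ((A s * A t) ⊗ₖ (A s' * A t')) := by
  simp only [ptrO, ptrE_mul, ← Finset.sum_add_distrib, ← add_smul, ptr_bond_coeff]

end bridge

theorem ptrT_trn : ptrT trnA = trnT := ptrT_eq trnA

theorem ptrO_trn : ptrO trnA = trnO := ptrO_eq trnA

/-- generic length: trial vector from the integer certificate for the `D = 26` triple. -/
theorem ptr_trial_trn (m : ℕ) (p q : ℤ) (hq : 0 < q)
    (h : q * trace (trnT ^ m * trnO) < -p * trace (trnT ^ (m + 2))) :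
    ∃ v : (Fin (m + 2) → Fin 3) → ℂ,
      (star v ⬝ᵥ (Claims.C0475.heisenbergRing (m + 2) *ᵥ v)).re
        < -(((m + 2 : ℕ) : ℝ) * p / q) * (star v ⬝ᵥ v).re := by
  apply ptr_trial trnA m p q hq
  rw [ptrT_trn, ptrO_trn, Matrix.trace_mul_comm]
  exact h

/-- **The `N = 120` trial vector from the integer certificate.** -/
theorem ptr_trial120
    (h : 500000 * trace (trnT ^ 118 * trnO) < -700741 * trace (trnT ^ 120)) :
    ∃ v : (Fin 120 → Fin 3) → ℂ,
      (star v ⬝ᵥ (Claims.C0475.heisenbergRing 120 *ᵥ v)).re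
        < -(120 * 700741 / 500000) * (star v ⬝ᵥ v).re := by
  obtain ⟨v, hv⟩ := ptr_trial_trn 118 700741 500000 (by norm_num) h
  refine ⟨v, ?_⟩
  norm_num at hv ⊢
  exact hv

end Claimed.Agent.R297
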