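/-
Row 297 (spin-one Haldane gap), package D6 (helper193): short chains on the packed lane engine.
Full layout `Fin n → Fin 3 ≃ lanes 0..3^n-1`, masks, hop / diagonal / one-site moves as `SiteOp`s.
-/
import Claimed.Agent.R297.LanesLayout

namespace Claimed.Agent.R297

open Matrix

/-- lane index of a configuration. -/
def sthCode {n : ℕ} (x : Fin n → Fin 3) : ℕ := ∑ j : Fin n, (x j : ℕ) * 3 ^ (j : ℕ)

/-- configuration of a lane index. -/
def sthDec (n : ℕ) (i : ℕ) : Fin n → Fin 3 :=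
  fun j => ⟨i / 3 ^ (j : ℕ) % 3, Nat.mod_lt _ (by norm_num)⟩

theorem sthCode_lt {n : ℕ} (x : Fin n → Fin 3) : sthCode x < 3 ^ n :=
  (finFunctionFinEquiv x).isLt

theorem sthCode_dec {n : ℕ} {i : ℕ} (hi : i < 3 ^ n) : sthCode (sthDec n i) = i := by
  have h := finFunctionFinEquiv.apply_symm_apply (⟨i, hi⟩ : Fin (3 ^ n))
  exact congrArg Fin.val h

theorem sthDec_code {n : ℕ} (x : Fin n → Fin 3) : sthDec n (sthCode x) = x :=
  finFunctionFinEquiv.symm_apply_apply x

/-- the full layout. -/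
def sthLayout (n : ℕ) : LaneLayout (Fin n → Fin 3) (3 ^ n) where
  code := sthCode
  dec := sthDec n
  S := fun _ => True
  dec_mem := fun _ _ => trivial
  code_dec := fun _ hi => sthCode_dec hi
  dec_code := fun x _ => sthDec_code x
  code_lt := fun x _ => sthCode_lt x

theorem sthCode_update {n : ℕ} (y : Fin n → Fin 3) (j : Fin n) (a : Fin 3) :
    sthCode (Function.update y j a) + (y j : ℕ) * 3 ^ (j : ℕ)
      = sthCode y + (a : ℕ) * 3 ^ (j : ℕ) := by
  unfold sthCode
  have h : ∀ k, ((Function.update y j a k : Fin 3) : ℕ) * 3 ^ (k : ℕ)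
      = Function.update (fun k : Fin n => (y k : ℕ) * 3 ^ (k : ℕ)) j ((a : ℕ) * 3 ^ (j : ℕ)) k := by
    intro k
    by_cases hk : k = j
    · subst hk; simp
    · simp [hk]
  simp only [h]
  rw [Finset.sum_update_of_mem (Finset.mem_univ j),
    Finset.sum_eq_add_sum_sdiff_singleton_of_mem (Finset.mem_univ j) (fun k : Fin n => (y k : ℕ) * 3 ^ (k : ℕ))]
  ring

/-- mask of the lanes selected by `P`. -/
def sthMask (w : ℕ) (P : ℕ → Bool) : ℕ → ℕ
  | 0 => 0
  | N + 1 => sthMask w P N + (bif P N then (2 ^ w - 1) * 2 ^ (w * N) else 0)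

theorem sthMask_eq (w : ℕ) (P : ℕ → Bool) (N : ℕ) :
    sthMask w P N = lanePack w (fun i => if P i then 2 ^ w - 1 else 0) N := by
  induction N with
  | zero => simp [sthMask]
  | succ N ih =>
    rw [sthMask, lanePack_succ, ih]
    cases P N <;> simp

/-- digit minus one. -/
def sthLow : Fin 3 → Fin 3 := ![0, 0, 1]

/-- digit plus one. -/
def sthRaise : Fin 3 → Fin 3 := ![1, 2, 2]

theorem sthLow_val {d : Fin 3} (h : 1 ≤ (d : ℕ)) : ((sthLow d : Fin 3) : ℕ) + 1 = d := by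
  fin_cases d <;> simp_all [sthLow]

theorem sthRaise_val {d : Fin 3} (h : (d : ℕ) ≤ 1) : ((sthRaise d : Fin 3) : ℕ) = d + 1 := by
  fin_cases d <;> simp_all [sthRaise]

variable {n : ℕ}

/-- diagonal move. -/
def sthDiagOp (w : ℕ) (D : (Fin n → Fin 3) → Bool) (coef : ℕ) : SiteOp (Fin n → Fin 3) :=
  ⟨D, id, sthMask w (fun i => D (sthDec n i)) (3 ^ n), false, 0, coef⟩

theorem sthDiagOp_valid (w : ℕ) (D : (Fin n → Fin 3) → Bool) (coef : ℕ) :
    (sthDiagOp w D coef).Valid w (sthLayout n) where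
  mask := sthMask_eq _ _ _
  mem := fun _ _ _ => trivial
  mem' := fun _ _ _ => trivial
  shift := fun _ _ _ => by simp [sthDiagOp]

/-- one-site move lowering the digit at `j`, restricted to `E`. -/
def sthLowOp (w : ℕ) (j : Fin n) (E : (Fin n → Fin 3) → Bool) (coef : ℕ) :
    SiteOp (Fin n → Fin 3) :=
  ⟨fun y => decide (1 ≤ (y j : ℕ)) && E y, fun y => Function.update y j (sthLow (y j)),
    sthMask w (fun i => decide (1 ≤ (sthDec n i j : ℕ)) && E (sthDec n i)) (3 ^ n),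
    false, 3 ^ (j : ℕ), coef⟩

theorem sthLowOp_valid (w : ℕ) (j : Fin n) (E : (Fin n → Fin 3) → Bool) (coef : ℕ) :
    (sthLowOp w j E coef).Valid w (sthLayout n) where
  mask := sthMask_eq _ _ _
  mem := fun _ _ _ => trivial
  mem' := fun _ _ _ => trivial
  shift := fun y _ hD => by
    have h1 : 1 ≤ (y j : ℕ) := by
      simp only [sthLowOp, Bool.and_eq_true, decide_eq_true_eq] at hD
      exact hD.1
    have h2 := sthCode_update y j (sthLow (y j))
    have h3 := sthLow_val h1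
    simp only [sthLowOp, sthLayout, Bool.false_eq_true, if_false]
    have h4 : (y j : ℕ) * 3 ^ (j : ℕ) = ((sthLow (y j) : Fin 3) : ℕ) * 3 ^ (j : ℕ) + 3 ^ (j : ℕ) := by
      rw [← h3]; ring
    omega

/-- one-site move raising the digit at `j`, restricted to `E`. -/
def sthRaiseOp (w : ℕ) (j : Fin n) (E : (Fin n → Fin 3) → Bool) (coef : ℕ) :
    SiteOp (Fin n → Fin 3) :=
  ⟨fun y => decide ((y j : ℕ) ≤ 1) && E y, fun y => Function.update y j (sthRaise (y j)),
    sthMask w (fun i => decide ((sthDec n i j : ℕ) ≤ 1) && E (sthDec n i)) (3 ^ n),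
    true, 3 ^ (j : ℕ), coef⟩

theorem sthRaiseOp_valid (w : ℕ) (j : Fin n) (E : (Fin n → Fin 3) → Bool) (coef : ℕ) :
    (sthRaiseOp w j E coef).Valid w (sthLayout n) where
  mask := sthMask_eq _ _ _
  mem := fun _ _ _ => trivial
  mem' := fun _ _ _ => trivial
  shift := fun y _ hD => by
    have h1 : (y j : ℕ) ≤ 1 := by
      simp only [sthRaiseOp, Bool.and_eq_true, decide_eq_true_eq] at hD
      exact hD.1
    have h2 := sthCode_update y j (sthRaise (y j))
    have h3 := sthRaise_val h1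
    simp only [sthRaiseOp, sthLayout, if_true]
    have h4 : ((sthRaise (y j) : Fin 3) : ℕ) * 3 ^ (j : ℕ) = (y j : ℕ) * 3 ^ (j : ℕ) + 3 ^ (j : ℕ) := by
      rw [h3]; ring
    omega

/-- the hop: digit at `j` lowered, digit at `k` raised. -/
def sthHopMap (j k : Fin n) (y : Fin n → Fin 3) : Fin n → Fin 3 :=
  Function.update (Function.update y j (sthLow (y j))) k (sthRaise (y k))

def sthHopD (j k : Fin n) (y : Fin n → Fin 3) : Bool :=
  decide (1 ≤ (y j : ℕ)) && decide ((y k : ℕ) ≤ 1)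

/-- hop as a masked move. -/
def sthHopOp (w : ℕ) (j k : Fin n) (coef : ℕ) : SiteOp (Fin n → Fin 3) :=
  ⟨sthHopD j k, sthHopMap j k, sthMask w (fun i => sthHopD j k (sthDec n i)) (3 ^ n),
    decide ((j : ℕ) < k), (if (j : ℕ) < k then 3 ^ (k : ℕ) - 3 ^ (j : ℕ) else 3 ^ (j : ℕ) - 3 ^ (k : ℕ)),
    coef⟩

theorem sthCode_hop {j k : Fin n} (hjk : j ≠ k) {y : Fin n → Fin 3} (hD : sthHopD j k y = true) :
    sthCode (sthHopMap j k y) + 3 ^ (j : ℕ) = sthCode y + 3 ^ (k : ℕ) := by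
  simp only [sthHopD, Bool.and_eq_true, decide_eq_true_eq] at hD
  have h1 := sthCode_update y j (sthLow (y j))
  have h2 := sthCode_update (Function.update y j (sthLow (y j))) k (sthRaise (y k))
  rw [Function.update_of_ne hjk.symm] at h2
  have h3 := sthLow_val hD.1
  have h4 := sthRaise_val hD.2
  have h5 : (y j : ℕ) * 3 ^ (j : ℕ) = ((sthLow (y j) : Fin 3) : ℕ) * 3 ^ (j : ℕ) + 3 ^ (j : ℕ) := by
    rw [← h3]; ring
  have h6 : ((sthRaise (y k) : Fin 3) : ℕ) * 3 ^ (k : ℕ) = (y k : ℕ) * 3 ^ (k : ℕ) + 3 ^ (k : ℕ) := by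
    rw [h4]; ring
  unfold sthHopMap
  omega

theorem sthHopOp_valid (w : ℕ) {j k : Fin n} (hjk : j ≠ k) (coef : ℕ) :
    (sthHopOp w j k coef).Valid w (sthLayout n) where
  mask := sthMask_eq _ _ _
  mem := fun _ _ _ => trivial
  mem' := fun _ _ _ => trivial
  shift := fun y _ hD => by
    have h := sthCode_hop hjk (y := y) hD
    simp only [sthHopOp, sthLayout, decide_eq_true_eq]
    by_cases hlt : (j : ℕ) < k
    · have hp : 3 ^ (j : ℕ) ≤ 3 ^ (k : ℕ) := Nat.pow_le_pow_right (by norm_num) hlt.le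
      rw [if_pos hlt, if_pos hlt]
      omega
    · have hp : 3 ^ (k : ℕ) ≤ 3 ^ (j : ℕ) := Nat.pow_le_pow_right (by norm_num) (by omega)
      rw [if_neg hlt, if_neg hlt]
      omega

end Claimed.Agent.R297
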