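/-
Row 297 (spin-one Haldane gap), package D6 (helper193): entries of the frozen bond / field operators
in the weight basis, in the shape of the partial-permutation matrices of the lane engine.
-/
import Claimed.Agent.R297.SThermalLayout
import Claimed.Agent.R297.ModelBond

namespace Claimed.Agent.R297

open Matrix Complex

/-- `S^z` of a digit. -/
def sthSz : Fin 3 → ℤ := ![1, 0, -1]

theorem sth_table (a b c d : Fin 3) :
    ∑ α : Fin 3, Claims.C0475.spinOne α a c * Claims.C0475.spinOne α b d
      = ((if a = c ∧ b = d then sthSz c * sthSz d else 0 : ℤ) : ℂ)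
        + (if (1 ≤ (c : ℕ) ∧ (d : ℕ) ≤ 1) ∧ a = sthLow c ∧ b = sthRaise d then 1 else 0)
        + (if (1 ≤ (d : ℕ) ∧ (c : ℕ) ≤ 1) ∧ b = sthLow d ∧ a = sthRaise c then 1 else 0) := by
  have h := mdlS2_mul_self
  have hI : I * I = -1 := Complex.I_mul_I
  simp only [Fin.sum_univ_three, mdl_spinOne_eq]
  fin_cases a <;> fin_cases b <;> fin_cases c <;> fin_cases d <;>
    simp [sthSz, sthLow, sthRaise] <;> grind

theorem sth_tableZ (a c : Fin 3) :
    Claims.C0475.spinOne 2 a c = ((if a = c then sthSz c else 0 : ℤ) : ℂ) := by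
  rw [mdl_spinOne_eq]
  fin_cases a <;> fin_cases c <;> simp [sthSz]

theorem sth_tableX (a c : Fin 3) :
    Claims.C0475.spinOne 0 a c = mdlS2 * ((if 1 ≤ (c : ℕ) ∧ a = sthLow c then 1 else 0)
      + (if (c : ℕ) ≤ 1 ∧ a = sthRaise c then 1 else 0)) := by
  rw [mdl_spinOne_eq]
  fin_cases a <;> fin_cases c <;> simp [sthLow, sthRaise]

variable {n : ℕ}

theorem sth_update_eq_iff (y x : Fin n → Fin 3) (j : Fin n) (a : Fin 3)
    (hag : ∀ l, l ≠ j → x l = y l) : Function.update y j a = x ↔ x j = a := by
  constructor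
  · intro h; rw [← h]; simp
  · intro h
    funext l
    by_cases hl : l = j
    · subst hl; simp [h]
    · rw [Function.update_of_ne hl, hag l hl]

theorem sth_hop_eq_iff {j k : Fin n} (hjk : j ≠ k) (y x : Fin n → Fin 3)
    (hag : ∀ l, l ≠ j → l ≠ k → x l = y l) :
    sthHopMap j k y = x ↔ x j = sthLow (y j) ∧ x k = sthRaise (y k) := by
  unfold sthHopMap
  constructor
  · intro h
    rw [← h]
    simp [Function.update_of_ne hjk]
  · rintro ⟨h1, h2⟩
    funext l
    by_cases hl : l = k
    · subst hl; simp [h2]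
    · rw [Function.update_of_ne hl]
      by_cases hl' : l = j
      · subst hl'; simp [h1]
      · rw [Function.update_of_ne hl', hag l hl' hl]

theorem sth_hop_agree {j k : Fin n} (y : Fin n → Fin 3) (l : Fin n) (h1 : l ≠ j) (h2 : l ≠ k) :
    sthHopMap j k y l = y l := by
  unfold sthHopMap
  rw [Function.update_of_ne h2, Function.update_of_ne h1]

/-- integer form of the bond operator `S_j · S_k`. -/
def sthBondZ (j k : Fin n) : Matrix (Fin n → Fin 3) (Fin n → Fin 3) ℤ :=
  fun x y => (if x = y then sthSz (y j) * sthSz (y k) else 0)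
    + (if sthHopD j k y = true ∧ sthHopMap j k y = x then 1 else 0)
    + (if sthHopD k j y = true ∧ sthHopMap k j y = x then 1 else 0)

theorem sth_bond_entry {j k : Fin n} (hjk : j ≠ k) (x y : Fin n → Fin 3) :
    (∑ α : Fin 3, Claims.C0475.siteOp j (Claims.C0475.spinOne α) *
        Claims.C0475.siteOp k (Claims.C0475.spinOne α)) x y = ((sthBondZ j k x y : ℤ) : ℂ) := by
  rw [Matrix.sum_apply]
  simp only [mdlSite_eq_C0475, mdlSite_mul_apply_of_ne hjk]
  unfold sthBondZ
  by_cases hag : ∀ l, l ≠ j → l ≠ k → x l = y l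
  · simp only [if_pos hag]
    rw [sth_table]
    have e1 : x = y ↔ x j = y j ∧ x k = y k := by
      constructor
      · intro h; subst h; exact ⟨rfl, rfl⟩
      · rintro ⟨h1, h2⟩
        funext l
        by_cases hl : l = j
        · subst hl; exact h1
        · by_cases hl' : l = k
          · subst hl'; exact h2
          · exact hag l hl hl'
    have e2 := sth_hop_eq_iff hjk y x hag
    have e3 := sth_hop_eq_iff hjk.symm y x (fun l h1 h2 => hag l h2 h1)
    simp only [sthHopD, Bool.and_eq_true, decide_eq_true_eq, e1, e2, e3]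
    push_cast
    rfl
  · simp only [if_neg hag, Finset.sum_const_zero]
    have e1 : x ≠ y := fun h => hag fun l _ _ => by rw [h]
    have e2 : sthHopMap j k y ≠ x := fun h => hag fun l h1 h2 => by
      rw [← h, sth_hop_agree y l h1 h2]
    have e3 : sthHopMap k j y ≠ x := fun h => hag fun l h1 h2 => by
      rw [← h, sth_hop_agree y l h2 h1]
    simp [e1, e2, e3]

theorem sth_siteZ_entry (j : Fin n) (x y : Fin n → Fin 3) :
    Claims.C0475.siteOp j (Claims.C0475.spinOne 2) x y
      = ((if x = y then sthSz (y j) else 0 : ℤ) : ℂ) := by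
  rw [mdlSite_eq_C0475, mdlSite_apply, sth_tableZ]
  by_cases hag : ∀ l, l ≠ j → x l = y l
  · rw [if_pos hag]
    have e1 : x = y ↔ x j = y j := by
      constructor
      · intro h; rw [h]
      · intro h
        funext l
        by_cases hl : l = j
        · subst hl; exact h
        · exact hag l hl
    simp only [e1]
  · rw [if_neg hag]
    have e1 : x ≠ y := fun h => hag fun l _ => by rw [h]
    simp [e1]

theorem sth_siteX_entry (j : Fin n) (x y : Fin n → Fin 3) :
    Claims.C0475.siteOp j (Claims.C0475.spinOne 0) x y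
      = mdlS2 * ((if 1 ≤ (y j : ℕ) ∧ Function.update y j (sthLow (y j)) = x then 1 else 0)
        + (if (y j : ℕ) ≤ 1 ∧ Function.update y j (sthRaise (y j)) = x then 1 else 0)) := by
  rw [mdlSite_eq_C0475, mdlSite_apply, sth_tableX]
  by_cases hag : ∀ l, l ≠ j → x l = y l
  · rw [if_pos hag]
    simp only [sth_update_eq_iff y x j _ hag]
  · rw [if_neg hag]
    have e : ∀ a, Function.update y j a ≠ x := fun a h => hag fun l hl => by
      rw [← h, Function.update_of_ne hl]
    simp [e]

end Claimed.Agent.R297
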