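/-
Row 297 (spin-one Haldane gap), package D6 (helper193): the op lists of the short open chains
(end fields along `z`, or right field along `x` in the parity-weighted integer form) and the integer
matrices they describe.
-/
import Claimed.Agent.R297.SThermalModel

namespace Claimed.Agent.R297

open Matrix

section blocks

variable {ι : Type} [DecidableEq ι]

theorem siteMat_append (p1 p2 n1 n2 : List (SiteOp ι)) :
    siteMat (p1 ++ p2) (n1 ++ n2) = siteMat p1 n1 + siteMat p2 n2 := by
  unfold siteMat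
  simp only [List.map_append, List.sum_append]
  abel

theorem siteMat_nil : siteMat ([] : List (SiteOp ι)) [] = 0 := by
  simp [siteMat]

end blocks

variable {n : ℕ}

/-- diagonal integer matrix `S^z_j`. -/
def sthSzDiag (j : Fin n) : Matrix (Fin n → Fin 3) (Fin n → Fin 3) ℤ :=
  fun x y => if x = y then sthSz (y j) else 0

theorem sthDiagOp_mat (w : ℕ) (D : (Fin n → Fin 3) → Bool) (coef : ℕ) (x y : Fin n → Fin 3) :
    (sthDiagOp w D coef).mat x y = if D y = true ∧ x = y then (coef : ℤ) else 0 := by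
  unfold SiteOp.mat sthDiagOp
  simp only [id]
  by_cases h : x = y
  · subst h; simp
  · have h' : ¬ y = x := fun e => h e.symm
    simp [h, h']

/-- constant block. -/
def sthConstOps (w : ℕ) (n c : ℕ) : List (SiteOp (Fin n → Fin 3)) :=
  if c = 0 then [] else [sthDiagOp w (fun _ => true) c]

theorem sthConstOps_sum (w c : ℕ) :
    ((sthConstOps w n c).map SiteOp.mat).sum = (c : ℤ) • (1 : Matrix (Fin n → Fin 3) _ ℤ) := by
  unfold sthConstOps
  split_ifs with h
  · subst h; simp
  · ext x y
    simp only [List.map_cons, List.map_nil, List.sum_cons, List.sum_nil, add_zero, sthDiagOp_mat,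
      Matrix.smul_apply, Matrix.one_apply, smul_eq_mul, true_and]
    split_ifs <;> simp

theorem sthConst_siteMat (w cP cN : ℕ) :
    siteMat (sthConstOps w n cP) (sthConstOps w n cN)
      = ((cP : ℤ) - cN) • (1 : Matrix (Fin n → Fin 3) _ ℤ) := by
  unfold siteMat
  rw [sthConstOps_sum, sthConstOps_sum, sub_smul]

/-- `[y j = d]` with a coefficient. -/
def sthDigOp (w : ℕ) (j : Fin n) (d : ℕ) (f : ℕ) : SiteOp (Fin n → Fin 3) :=
  sthDiagOp w (fun y => decide ((y j : ℕ) = d)) f

theorem sthField_siteMat (w : ℕ) (j : Fin n) (f : ℕ) :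
    siteMat [sthDigOp w j 0 f] [sthDigOp w j 2 f] = (f : ℤ) • sthSzDiag j := by
  ext x y
  simp only [siteMat, sthDigOp, List.map_cons, List.map_nil, List.sum_cons, List.sum_nil, add_zero,
    Matrix.sub_apply, sthDiagOp_mat, Matrix.smul_apply, sthSzDiag, smul_eq_mul, decide_eq_true_eq]
  by_cases h : x = y
  · subst h
    generalize x j = d
    fin_cases d <;> simp [sthSz]
  · simp [h]

theorem sthField_siteMat' (w : ℕ) (j : Fin n) (f : ℕ) :
    siteMat [sthDigOp w j 2 f] [sthDigOp w j 0 f] = -((f : ℤ) • sthSzDiag j) := by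
  rw [← sthField_siteMat w j f]
  unfold siteMat
  abel

/-- `S^z_j S^z_k = 1`. -/
def sthZZp (j k : Fin n) (y : Fin n → Fin 3) : Bool :=
  (decide ((y j : ℕ) = 0) && decide ((y k : ℕ) = 0)) || (decide ((y j : ℕ) = 2) && decide ((y k : ℕ) = 2))

/-- `S^z_j S^z_k = -1`. -/
def sthZZn (j k : Fin n) (y : Fin n → Fin 3) : Bool :=
  (decide ((y j : ℕ) = 0) && decide ((y k : ℕ) = 2)) || (decide ((y j : ℕ) = 2) && decide ((y k : ℕ) = 0))

theorem sthBond_mat (w μ : ℕ) (j k : Fin n) :
    (sthDiagOp w (sthZZn j k) μ).mat - (sthHopOp w j k μ).mat - (sthHopOp w k j μ).mat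
      - (sthDiagOp w (sthZZp j k) μ).mat = -((μ : ℤ) • sthBondZ j k) := by
  ext x y
  simp only [Matrix.sub_apply, Matrix.neg_apply, Matrix.smul_apply, sthDiagOp_mat, smul_eq_mul]
  have h1 : (sthHopOp w j k μ).mat x y
      = (μ : ℤ) * (if sthHopD j k y = true ∧ sthHopMap j k y = x then 1 else 0) := by
    unfold SiteOp.mat sthHopOp; simp
  have h2 : (sthHopOp w k j μ).mat x y
      = (μ : ℤ) * (if sthHopD k j y = true ∧ sthHopMap k j y = x then 1 else 0) := by
    unfold SiteOp.mat sthHopOp; simp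
  have h3 : (if sthZZn j k y = true ∧ x = y then (μ : ℤ) else 0)
      - (if sthZZp j k y = true ∧ x = y then (μ : ℤ) else 0)
      = -((μ : ℤ) * (if x = y then sthSz (y j) * sthSz (y k) else 0)) := by
    by_cases h : x = y
    · subst h
      unfold sthZZn sthZZp
      generalize x j = a
      generalize x k = b
      fin_cases a <;> fin_cases b <;> simp [sthSz]
    · simp [h]
  rw [h1, h2]
  unfold sthBondZ
  linear_combination h3

variable (w m μ : ℕ)

/-- bulk block, positive part. -/
def sthBulkPos : List (SiteOp (Fin (m + 1) → Fin 3)) :=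
  (List.finRange m).map fun i => sthDiagOp w (sthZZn i.castSucc i.succ) μ

/-- bulk block, negative part. -/
def sthBulkNeg : List (SiteOp (Fin (m + 1) → Fin 3)) :=
  ((List.finRange m).map fun i => sthHopOp w i.castSucc i.succ μ) ++
  (((List.finRange m).map fun i => sthHopOp w i.succ i.castSucc μ) ++
   ((List.finRange m).map fun i => sthDiagOp w (sthZZp i.castSucc i.succ) μ))

theorem sthBulk_siteMat :
    siteMat (sthBulkPos w m μ) (sthBulkNeg w m μ)
      = -((μ : ℤ) • ∑ i : Fin m, sthBondZ i.castSucc i.succ) := by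
  unfold siteMat sthBulkPos sthBulkNeg
  simp only [List.map_append, List.sum_append, List.map_map]
  simp only [← Fin.sum_univ_def]
  rw [Finset.smul_sum, ← Finset.sum_neg_distrib, ← Finset.sum_add_distrib, ← Finset.sum_add_distrib,
    ← Finset.sum_sub_distrib]
  refine Finset.sum_congr rfl fun i _ => ?_
  rw [← sthBond_mat w μ]
  simp only [Function.comp]
  abel

/-! ### the right field along `x` -/

section xfield

variable {n : ℕ}

/-- parity of a configuration (= parity of its digit sum = parity of its lane index). -/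
def sthPar (y : Fin n → Fin 3) : ℕ := sthCode y % 2

theorem sth_three_pow_mod (j : ℕ) : 3 ^ j % 2 = 1 := by
  rw [Nat.pow_mod]; simp

theorem sthPar_low {y : Fin n → Fin 3} {j : Fin n} (h : 1 ≤ (y j : ℕ)) :
    sthPar (Function.update y j (sthLow (y j))) = 1 - sthPar y := by
  have h2 := sthCode_update y j (sthLow (y j))
  have h3 := sthLow_val h
  have h4 : (y j : ℕ) * 3 ^ (j : ℕ) = ((sthLow (y j) : Fin 3) : ℕ) * 3 ^ (j : ℕ) + 3 ^ (j : ℕ) := by
    rw [← h3]; ring
  have h5 := sth_three_pow_mod (j : ℕ)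
  unfold sthPar
  omega

theorem sthPar_raise {y : Fin n → Fin 3} {j : Fin n} (h : (y j : ℕ) ≤ 1) :
    sthPar (Function.update y j (sthRaise (y j))) = 1 - sthPar y := by
  have h2 := sthCode_update y j (sthRaise (y j))
  have h3 := sthRaise_val h
  have h4 : ((sthRaise (y j) : Fin 3) : ℕ) * 3 ^ (j : ℕ) = (y j : ℕ) * 3 ^ (j : ℕ) + 3 ^ (j : ℕ) := by
    rw [h3]; ring
  have h5 := sth_three_pow_mod (j : ℕ)
  unfold sthPar
  omega

theorem sthPar_hop {j k : Fin n} (hjk : j ≠ k) {y : Fin n → Fin 3} (hD : sthHopD j k y = true) :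
    sthPar (sthHopMap j k y) = sthPar y := by
  have h := sthCode_hop hjk hD
  have h5 := sth_three_pow_mod (j : ℕ)
  have h6 := sth_three_pow_mod (k : ℕ)
  unfold sthPar
  omega

/-- lowering move on the configurations of parity `r`. -/
def sthLowP (w : ℕ) (j : Fin n) (r coef : ℕ) : SiteOp (Fin n → Fin 3) :=
  ⟨fun y => decide (1 ≤ (y j : ℕ)) && decide (sthPar y = r),
    fun y => Function.update y j (sthLow (y j)),
    sthMask w (fun i => decide (1 ≤ i / 3 ^ (j : ℕ) % 3) && decide (i % 2 = r)) (3 ^ n),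
    false, 3 ^ (j : ℕ), coef⟩

/-- raising move on the configurations of parity `r`. -/
def sthRaiseP (w : ℕ) (j : Fin n) (r coef : ℕ) : SiteOp (Fin n → Fin 3) :=
  ⟨fun y => decide ((y j : ℕ) ≤ 1) && decide (sthPar y = r),
    fun y => Function.update y j (sthRaise (y j)),
    sthMask w (fun i => decide (i / 3 ^ (j : ℕ) % 3 ≤ 1) && decide (i % 2 = r)) (3 ^ n),
    true, 3 ^ (j : ℕ), coef⟩

theorem sthLowP_valid (w : ℕ) (j : Fin n) (r coef : ℕ) :
    (sthLowP w j r coef).Valid w (sthLayout n) where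
  mask := by
    show sthMask w _ _ = _
    rw [sthMask_eq]
    refine lanePack_congr fun i hi => ?_
    have : sthPar (sthDec n i) = i % 2 := by unfold sthPar; rw [sthCode_dec hi]
    simp only [sthLowP, sthLayout, this]
    rfl
  mem := fun _ _ _ => trivial
  mem' := fun _ _ _ => trivial
  shift := fun y _ hD => by
    have h1 : 1 ≤ (y j : ℕ) := by
      simp only [sthLowP, Bool.and_eq_true, decide_eq_true_eq] at hD
      exact hD.1
    have h2 := sthCode_update y j (sthLow (y j))
    have h3 := sthLow_val h1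
    simp only [sthLowP, sthLayout, Bool.false_eq_true, if_false]
    have h4 : (y j : ℕ) * 3 ^ (j : ℕ) = ((sthLow (y j) : Fin 3) : ℕ) * 3 ^ (j : ℕ) + 3 ^ (j : ℕ) := by
      rw [← h3]; ring
    omega

theorem sthRaiseP_valid (w : ℕ) (j : Fin n) (r coef : ℕ) :
    (sthRaiseP w j r coef).Valid w (sthLayout n) where
  mask := by
    show sthMask w _ _ = _
    rw [sthMask_eq]
    refine lanePack_congr fun i hi => ?_
    have : sthPar (sthDec n i) = i % 2 := by unfold sthPar; rw [sthCode_dec hi]
    simp only [sthRaiseP, sthLayout, this]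
    rfl
  mem := fun _ _ _ => trivial
  mem' := fun _ _ _ => trivial
  shift := fun y _ hD => by
    have h1 : (y j : ℕ) ≤ 1 := by
      simp only [sthRaiseP, Bool.and_eq_true, decide_eq_true_eq] at hD
      exact hD.1
    have h2 := sthCode_update y j (sthRaise (y j))
    have h3 := sthRaise_val h1
    simp only [sthRaiseP, sthLayout, if_true]
    have h4 : ((sthRaise (y j) : Fin 3) : ℕ) * 3 ^ (j : ℕ) = (y j : ℕ) * 3 ^ (j : ℕ) + 3 ^ (j : ℕ) := by
      rw [h3]; ring
    omega

/-- parity-weighted integer form of `√2 S^x_j`. -/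
def sthXZ (j : Fin n) : Matrix (Fin n → Fin 3) (Fin n → Fin 3) ℤ :=
  fun x y => (1 + (sthPar x : ℤ)) *
    ((if 1 ≤ (y j : ℕ) ∧ Function.update y j (sthLow (y j)) = x then 1 else 0)
      + (if (y j : ℕ) ≤ 1 ∧ Function.update y j (sthRaise (y j)) = x then 1 else 0))

/-- the four moves of the `x` field. -/
def sthXOps (w : ℕ) (j : Fin n) (f : ℕ) : List (SiteOp (Fin n → Fin 3)) :=
  [sthLowP w j 0 (2 * f), sthLowP w j 1 f, sthRaiseP w j 0 (2 * f), sthRaiseP w j 1 f]

theorem sthPar_lt (y : Fin n → Fin 3) : sthPar y < 2 := Nat.mod_lt _ (by norm_num)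

theorem sthXOps_siteMat (w : ℕ) (j : Fin n) (f : ℕ) :
    siteMat [] (sthXOps w j f) = -((f : ℤ) • sthXZ j) := by
  ext x y
  simp only [siteMat, sthXOps, List.map_cons, List.map_nil, List.sum_cons, List.sum_nil, add_zero,
    Matrix.sub_apply, Matrix.zero_apply, Matrix.add_apply, Matrix.neg_apply, Matrix.smul_apply,
    smul_eq_mul, zero_sub, neg_inj]
  unfold SiteOp.mat sthLowP sthRaiseP sthXZ
  simp only [Bool.and_eq_true, decide_eq_true_eq]
  have hp := sthPar_lt y
  by_cases h1 : 1 ≤ (y j : ℕ) ∧ Function.update y j (sthLow (y j)) = x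
  · have hx : sthPar x = 1 - sthPar y := by rw [← h1.2]; exact sthPar_low h1.1
    have h2 : ¬ ((y j : ℕ) ≤ 1 ∧ Function.update y j (sthRaise (y j)) = x) := by
      rintro ⟨h3, h4⟩
      have := congrFun (h1.2.trans h4.symm) j
      simp only [Function.update_self] at this
      have e1 := sthLow_val h1.1
      have e2 := sthRaise_val h3
      rw [this] at e1
      omega
    have h2' : ∀ r, ¬ (((y j : ℕ) ≤ 1 ∧ sthPar y = r) ∧ Function.update y j (sthRaise (y j)) = x) :=
      fun r h => h2 ⟨h.1.1, h.2⟩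
    simp only [h2, h2', if_false, add_zero, h1.1, h1.2, true_and, and_true, if_true, hx]
    rcases (by omega : sthPar y = 0 ∨ sthPar y = 1) with h | h <;> simp [h] <;> ring
  · have h1' : ∀ r, ¬ ((1 ≤ (y j : ℕ) ∧ sthPar y = r) ∧ Function.update y j (sthLow (y j)) = x) :=
      fun r h => h1 ⟨h.1.1, h.2⟩
    simp only [h1, h1', if_false, zero_add]
    by_cases h2 : (y j : ℕ) ≤ 1 ∧ Function.update y j (sthRaise (y j)) = x
    · have hx : sthPar x = 1 - sthPar y := by rw [← h2.2]; exact sthPar_raise h2.1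
      simp only [h2.1, h2.2, true_and, and_true, if_true, hx]
      rcases (by omega : sthPar y = 0 ∨ sthPar y = 1) with h | h <;> simp [h] <;> ring
    · have h2' : ∀ r, ¬ (((y j : ℕ) ≤ 1 ∧ sthPar y = r) ∧ Function.update y j (sthRaise (y j)) = x) :=
        fun r h => h2 ⟨h.1.1, h.2⟩
      simp [h2, h2']

end xfield

end Claimed.Agent.R297
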