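/-
Row 297 (spin-one Haldane gap), package D6 (helper193): op lists of the three short open chains
(right end: opposite `z` field, same `z` field, `x` field) and their relation with the frozen
Hamiltonians `openChain`, `openChainX`.
-/
import Claimed.Agent.R297.SThermalOps
import Claimed.Agent.R297.TransferDefs

namespace Claimed.Agent.R297

open Matrix

variable (w m μ cP cN f g : ℕ)

/-- positive moves; `g = 0`: opposite fields, `g = 1`: same fields, otherwise right field along `x`. -/
def sthPos : List (SiteOp (Fin (m + 1) → Fin 3)) :=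
  sthConstOps w (m + 1) cP ++ (sthBulkPos w m μ ++ ([sthDigOp w 0 0 (2 * f)] ++
    (if g = 0 then [sthDigOp w (Fin.last m) 2 (2 * f)]
      else if g = 1 then [sthDigOp w (Fin.last m) 0 (2 * f)] else [])))

/-- negative moves. -/
def sthNeg : List (SiteOp (Fin (m + 1) → Fin 3)) :=
  sthConstOps w (m + 1) cN ++ (sthBulkNeg w m μ ++ ([sthDigOp w 0 2 (2 * f)] ++
    (if g = 0 then [sthDigOp w (Fin.last m) 0 (2 * f)]
      else if g = 1 then [sthDigOp w (Fin.last m) 2 (2 * f)] else sthXOps w (Fin.last m) f)))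

/-- the integer matrix of the run. -/
def sthBmat : Matrix (Fin (m + 1) → Fin 3) (Fin (m + 1) → Fin 3) ℤ :=
  ((cP : ℤ) - cN) • 1 + (-((μ : ℤ) • ∑ i : Fin m, sthBondZ i.castSucc i.succ)
    + (((2 * f : ℕ) : ℤ) • sthSzDiag 0 +
      (if g = 0 then -(((2 * f : ℕ) : ℤ) • sthSzDiag (Fin.last m))
        else if g = 1 then ((2 * f : ℕ) : ℤ) • sthSzDiag (Fin.last m)
        else -((f : ℤ) • sthXZ (Fin.last m)))))

theorem sth_siteMat_eq : siteMat (sthPos w m μ cP f g) (sthNeg w m μ cN f g)
    = sthBmat m μ cP cN f g := by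
  unfold sthPos sthNeg sthBmat
  rw [siteMat_append, siteMat_append, siteMat_append, sthConst_siteMat, sthBulk_siteMat,
    sthField_siteMat]
  congr 3
  split_ifs
  · exact sthField_siteMat' _ _ _
  · exact sthField_siteMat _ _ _
  · exact sthXOps_siteMat _ _ _

theorem sthConstOps_valid (n c : ℕ) : ∀ op ∈ sthConstOps w n c, op.Valid w (sthLayout n) := by
  intro op hop
  unfold sthConstOps at hop
  split_ifs at hop
  · simp at hop
  · simp only [List.mem_singleton] at hop
    subst hop
    exact sthDiagOp_valid _ _ _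

theorem sthPos_valid : ∀ op ∈ sthPos w m μ cP f g, op.Valid w (sthLayout (m + 1)) := by
  intro op hop
  unfold sthPos at hop
  simp only [List.mem_append] at hop
  rcases hop with h | h | h | h
  · exact sthConstOps_valid w _ _ op h
  · simp only [sthBulkPos, List.mem_map] at h
    obtain ⟨i, -, rfl⟩ := h
    exact sthDiagOp_valid _ _ _
  · simp only [List.mem_singleton] at h
    subst h
    exact sthDiagOp_valid _ _ _
  · split_ifs at h
    · simp only [List.mem_singleton] at h
      subst h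
      exact sthDiagOp_valid _ _ _
    · simp only [List.mem_singleton] at h
      subst h
      exact sthDiagOp_valid _ _ _
    · simp at h

theorem sthNeg_valid : ∀ op ∈ sthNeg w m μ cN f g, op.Valid w (sthLayout (m + 1)) := by
  intro op hop
  unfold sthNeg at hop
  simp only [List.mem_append] at hop
  rcases hop with h | h | h | h
  · exact sthConstOps_valid w _ _ op h
  · simp only [sthBulkNeg, List.mem_append, List.mem_map] at h
    rcases h with ⟨i, -, rfl⟩ | ⟨i, -, rfl⟩ | ⟨i, -, rfl⟩
    · exact sthHopOp_valid _ (Fin.castSucc_lt_succ).ne _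
    · exact sthHopOp_valid _ (Fin.castSucc_lt_succ).ne' _
    · exact sthDiagOp_valid _ _ _
  · simp only [List.mem_singleton] at h
    subst h
    exact sthDiagOp_valid _ _ _
  · split_ifs at h
    · simp only [List.mem_singleton] at h
      subst h
      exact sthDiagOp_valid _ _ _
    · simp only [List.mem_singleton] at h
      subst h
      exact sthDiagOp_valid _ _ _
    · simp only [sthXOps, List.mem_cons, List.not_mem_nil, or_false] at h
      rcases h with rfl | rfl | rfl | rfl
      · exact sthLowP_valid _ _ _ _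
      · exact sthLowP_valid _ _ _ _
      · exact sthRaiseP_valid _ _ _ _
      · exact sthRaiseP_valid _ _ _ _

/-! ### relation with the frozen Hamiltonians -/

/-- the three Hamiltonians. -/
noncomputable def sthH (h : ℝ) : Matrix (Fin (m + 1) → Fin 3) (Fin (m + 1) → Fin 3) ℂ :=
  if g = 0 then openChain m h (-h) else if g = 1 then openChain m h h else openChainX m h (-h)

/-- the diagonal similarity. -/
noncomputable def sthJ {n : ℕ} (y : Fin n → Fin 3) : ℝ := if sthPar y = 1 then Real.sqrt 2 else 1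

theorem sthJ_pos {n : ℕ} (y : Fin n → Fin 3) : 0 < sthJ y := by
  unfold sthJ; split_ifs <;> positivity

theorem sthJ_comm {n : ℕ} {x y : Fin n → Fin 3} (M : ℤ) (h : M ≠ 0 → sthPar x = sthPar y) :
    (M : ℂ) * (sthJ y : ℂ) = (sthJ x : ℂ) * (M : ℂ) := by
  by_cases hM : M = 0
  · simp [hM]
  · unfold sthJ
    rw [h hM, mul_comm]

theorem sthBondZ_par {n : ℕ} {j k : Fin n} (hjk : j ≠ k) (x y : Fin n → Fin 3)
    (h : sthBondZ j k x y ≠ 0) : sthPar x = sthPar y := by
  unfold sthBondZ at h
  by_cases h1 : x = y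
  · rw [h1]
  · by_cases h2 : sthHopD j k y = true ∧ sthHopMap j k y = x
    · rw [← h2.2]; exact sthPar_hop hjk h2.1
    · by_cases h3 : sthHopD k j y = true ∧ sthHopMap k j y = x
      · rw [← h3.2]; exact sthPar_hop hjk.symm h3.1
      · simp [h1, h2, h3] at h

theorem sthXZ_J {n : ℕ} (j : Fin n) (x y : Fin n → Fin 3) :
    ((sthXZ j x y : ℤ) : ℂ) * (sthJ y : ℂ)
      = (sthJ x : ℂ) * (2 * Claims.C0475.siteOp j (Claims.C0475.spinOne 0) x y) := by
  rw [sth_siteX_entry]
  unfold sthXZ
  have hs : ((Real.sqrt 2 : ℝ) : ℂ) * mdlS2 = 1 := by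
    unfold mdlS2
    apply mul_inv_cancel₀
    have : Real.sqrt 2 ≠ 0 := by positivity
    exact_mod_cast this
  have hs2 : ((Real.sqrt 2 : ℝ) : ℂ) = 2 * mdlS2 := by
    have := mdlS2_mul_self
    calc ((Real.sqrt 2 : ℝ) : ℂ) = ((Real.sqrt 2 : ℝ) : ℂ) * (2 * (mdlS2 * mdlS2)) := by
          rw [this]; norm_num
      _ = 2 * mdlS2 * (((Real.sqrt 2 : ℝ) : ℂ) * mdlS2) := by ring
      _ = 2 * mdlS2 := by rw [hs, mul_one]
  have hp := sthPar_lt y
  have key : ∀ hx : sthPar x = 1 - sthPar y,
      ((1 + (sthPar x : ℤ) : ℤ) : ℂ) * (sthJ y : ℂ) = (sthJ x : ℂ) * (2 * mdlS2) := by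
    intro hx
    unfold sthJ
    rcases (by omega : sthPar y = 0 ∨ sthPar y = 1) with h | h
    · rw [hx, h]
      simp only [Nat.sub_zero, if_true]
      norm_num
      linear_combination (-2 : ℂ) * hs
    · rw [hx, h]
      simp only [Nat.sub_self, if_true]
      norm_num
      exact hs2
  by_cases h1 : 1 ≤ (y j : ℕ) ∧ Function.update y j (sthLow (y j)) = x
  · have hx : sthPar x = 1 - sthPar y := by rw [← h1.2]; exact sthPar_low h1.1
    have h2 : ¬ ((y j : ℕ) ≤ 1 ∧ Function.update y j (sthRaise (y j)) = x) := by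
      rintro ⟨h3, h4⟩
      have := congrFun (h1.2.trans h4.symm) j
      simp only [Function.update_self] at this
      have e1 := sthLow_val h1.1
      have e2 := sthRaise_val h3
      rw [this] at e1
      omega
    rw [if_pos h1, if_neg h2, if_pos h1, if_neg h2]
    have := key hx
    push_cast at this ⊢
    linear_combination this
  · by_cases h2 : (y j : ℕ) ≤ 1 ∧ Function.update y j (sthRaise (y j)) = x
    · have hx : sthPar x = 1 - sthPar y := by rw [← h2.2]; exact sthPar_raise h2.1
      rw [if_neg h1, if_pos h2, if_neg h1, if_pos h2]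
      have := key hx
      push_cast at this ⊢
      linear_combination this
    · rw [if_neg h1, if_neg h2, if_neg h1, if_neg h2]
      simp

theorem sth_chain_bulk_entry (x y : Fin (m + 1) → Fin 3) :
    (∑ i : Fin m, ∑ α : Fin 3,
      Claims.C0475.siteOp (Fin.castSucc i) (Claims.C0475.spinOne α) *
        Claims.C0475.siteOp (Fin.succ i) (Claims.C0475.spinOne α)) x y
      = (((∑ i : Fin m, sthBondZ i.castSucc i.succ) x y : ℤ) : ℂ) := by
  rw [Matrix.sum_apply, Matrix.sum_apply]
  push_cast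
  exact Finset.sum_congr rfl fun i _ => sth_bond_entry (Fin.castSucc_lt_succ).ne x y

/-- **The integer matrix is the similarity transform of `c₀ - μ H`.** -/
theorem sthBmat_J (h : ℝ) (hμ : (μ : ℝ) * h = 2 * f) (x y : Fin (m + 1) → Fin 3) :
    ((sthBmat m μ cP cN f g x y : ℤ) : ℂ) * (sthJ y : ℂ)
      = (sthJ x : ℂ) * ((((cP : ℝ) - cN : ℝ) : ℂ) * (1 : Matrix _ _ ℂ) x y
          - (μ : ℂ) * sthH m g h x y) := by
  have hμ' : (μ : ℂ) * (h : ℂ) = 2 * f := by exact_mod_cast hμ
  have e1 : (((1 : Matrix (Fin (m + 1) → Fin 3) _ ℤ) x y : ℤ) : ℂ) * (sthJ y : ℂ)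
      = (sthJ x : ℂ) * (((1 : Matrix (Fin (m + 1) → Fin 3) _ ℤ) x y : ℤ) : ℂ) :=
    sthJ_comm _ fun hne => by
      by_cases hxy : x = y
      · rw [hxy]
      · simp [hxy] at hne
  have e1' : (((1 : Matrix (Fin (m + 1) → Fin 3) _ ℤ) x y : ℤ) : ℂ)
      = (1 : Matrix (Fin (m + 1) → Fin 3) _ ℂ) x y := by
    by_cases hxy : x = y
    · subst hxy; simp
    · simp [hxy]
  have e2 : (((∑ i : Fin m, sthBondZ i.castSucc i.succ) x y : ℤ) : ℂ) * (sthJ y : ℂ)
      = (sthJ x : ℂ) * (((∑ i : Fin m, sthBondZ i.castSucc i.succ) x y : ℤ) : ℂ) := by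
    rw [Matrix.sum_apply]
    push_cast
    rw [Finset.sum_mul, Finset.mul_sum]
    exact Finset.sum_congr rfl fun i _ =>
      sthJ_comm _ (sthBondZ_par (Fin.castSucc_lt_succ).ne x y)
  have e3 : ∀ j : Fin (m + 1), ((sthSzDiag j x y : ℤ) : ℂ) * (sthJ y : ℂ)
      = (sthJ x : ℂ) * Claims.C0475.siteOp j (Claims.C0475.spinOne 2) x y := by
    intro j
    rw [sth_siteZ_entry]
    exact sthJ_comm _ fun hne => by
      by_cases hxy : x = y
      · rw [hxy]
      · simp [sthSzDiag, hxy] at hne
  have e4 := sthXZ_J (Fin.last m) x y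
  have e5 := sth_chain_bulk_entry m x y
  rw [e1'] at e1
  unfold sthBmat sthH
  split_ifs with hg0 hg1
  · simp only [openChain, Matrix.add_apply, Matrix.sub_apply, Matrix.neg_apply, Matrix.smul_apply,
      smul_eq_mul, e5]
    push_cast
    rw [e1']
    linear_combination ((cP : ℂ) - cN) * e1 - (μ : ℂ) * e2 + (2 * (f : ℂ)) * e3 0
      - (2 * (f : ℂ)) * e3 (Fin.last m)
      - (sthJ x : ℂ) * Claims.C0475.siteOp 0 (Claims.C0475.spinOne 2) x y * hμ'
      + (sthJ x : ℂ) * Claims.C0475.siteOp (Fin.last m) (Claims.C0475.spinOne 2) x y * hμ'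
  · simp only [openChain, Matrix.add_apply, Matrix.sub_apply, Matrix.neg_apply, Matrix.smul_apply,
      smul_eq_mul, e5]
    push_cast
    rw [e1']
    linear_combination ((cP : ℂ) - cN) * e1 - (μ : ℂ) * e2 + (2 * (f : ℂ)) * e3 0
      + (2 * (f : ℂ)) * e3 (Fin.last m)
      - (sthJ x : ℂ) * Claims.C0475.siteOp 0 (Claims.C0475.spinOne 2) x y * hμ'
      - (sthJ x : ℂ) * Claims.C0475.siteOp (Fin.last m) (Claims.C0475.spinOne 2) x y * hμ'
  · simp only [openChainX, Matrix.add_apply, Matrix.sub_apply, Matrix.neg_apply, Matrix.smul_apply,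
      smul_eq_mul, e5]
    push_cast
    rw [e1']
    linear_combination ((cP : ℂ) - cN) * e1 - (μ : ℂ) * e2 + (2 * (f : ℂ)) * e3 0
      - (f : ℂ) * e4
      - (sthJ x : ℂ) * Claims.C0475.siteOp 0 (Claims.C0475.spinOne 2) x y * hμ'
      + (sthJ x : ℂ) * Claims.C0475.siteOp (Fin.last m) (Claims.C0475.spinOne 0) x y * hμ'

end Claimed.Agent.R297
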