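/-
Row 297 (spin-one Haldane gap), package D6 (helper193): the integer Clenshaw recurrence for an
integer matrix that is a diagonal similarity transform `J (2^s 2W) J⁻¹` of a Hermitian contraction.
-/
import Claimed.Agent.R297.ThermalCheb
import Claimed.Agent.R297.ThermalAnaInt

namespace Claimed.Agent.R297

open Matrix Finset

variable {ι : Type} [Fintype ι] [DecidableEq ι]

/-- the integer Clenshaw recurrence, in the order of the computation: `u 0 = u 1 = 0`,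
`u (t+2) = ⌊B u (t+1) / 2^s⌋ + c_t e - u t`. -/
def sthU (B : Matrix ι ι ℤ) (s : ℕ) (e : ι → ℕ) (c : ℕ → ℕ) : ℕ → ι → ℤ
  | 0 => 0
  | 1 => 0
  | t + 2 => fun x => (B *ᵥ sthU B s e c (t + 1)) x / 2 ^ s + (c t : ℤ) * (e x : ℤ) - sthU B s e c t x

omit [DecidableEq ι] in
theorem sthU_add_two (B : Matrix ι ι ℤ) (s : ℕ) (e : ι → ℕ) (c : ℕ → ℕ) (t : ℕ) (x : ι) :
    sthU B s e c (t + 2) x
      = (B *ᵥ sthU B s e c (t + 1)) x / 2 ^ s + (c t : ℤ) * (e x : ℤ) - sthU B s e c t x := rfl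

/-- indicator of a column. -/
def sthE (r : ι) : ι → ℕ := fun x => if x = r then 1 else 0

/-- **Weighted rounded Clenshaw run.** -/
theorem sth_close {W U : Matrix ι ι ℂ} {d : ι → ℝ} (h : thA_Diag W U d) (hd : ∀ i, |d i| ≤ 1)
    (B : Matrix ι ι ℤ) (s : ℕ) (J : ι → ℝ) (hJ : ∀ x, 0 < J x)
    (hB : ∀ x y, ((B x y : ℤ) : ℂ) * (J y : ℂ) = (J x : ℂ) * ((2 : ℂ) ^ s * (2 * W x y)))
    (r : ι) (ρ : ℝ) (hρ : ∀ x, J r / J x ≤ ρ) (q : ℕ → ℕ) (K : ℕ) :
    thA_nrm ((fun x => (((J r / J x : ℝ)) : ℂ) *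
          (((sthU B s (sthE r) (fun t => q (K - t)) (K + 2) x
            - sthU B s (sthE r) (fun t => q (K - t)) K x + (q 0 : ℤ) * (sthE r x : ℤ) : ℤ)) : ℂ))
        - (2 : ℂ) • ((∑ k ∈ range (K + 1), ((q k : ℕ) : ℂ) • thC_T W k) *ᵥ Pi.single r 1))
      ≤ (2 * K + 1) * (Real.sqrt (Fintype.card ι) * ρ) := by
  set u := sthU B s (sthE r) (fun t => q (K - t)) with hu
  set g : ι → ℂ := fun x => (((J r / J x : ℝ)) : ℂ) with hg
  set z : ℕ → ι → ℂ := fun k x => g x * ((u (K + 2 - k) x : ℤ) : ℂ) with hz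
  have hρ0 : 0 ≤ ρ := le_trans (div_pos (hJ r) (hJ r)).le (hρ r)
  have hge : ∀ x, g x * ((sthE r x : ℕ) : ℂ) = (Pi.single r 1 : ι → ℂ) x := by
    intro x
    by_cases hx : x = r
    · subst hx
      have : J x / J x = 1 := div_self (hJ x).ne'
      simp only [hg, sthE, this, if_true]
      simp
    · simp [sthE, hx]
  have hgn : ∀ x, ‖g x‖ ≤ ρ := by
    intro x
    rw [hg, Complex.norm_real, Real.norm_eq_abs, abs_of_pos (div_pos (hJ r) (hJ x))]
    exact hρ x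
  -- the matrix-vector product
  have hmv : ∀ (v : ι → ℤ) (x : ι), (2 : ℂ) * (W *ᵥ fun y => g y * ((v y : ℤ) : ℂ)) x
      = g x * ((((B *ᵥ v) x : ℤ) : ℂ) / (2 : ℂ) ^ s) := by
    intro v x
    have h2 : ((2 : ℂ) ^ s) ≠ 0 := pow_ne_zero _ two_ne_zero
    have hJx : ((J x : ℝ) : ℂ) ≠ 0 := by exact_mod_cast (hJ x).ne'
    rw [mul_div_assoc', eq_div_iff h2]
    simp only [mulVec, dotProduct, Int.cast_sum, Int.cast_mul, Finset.mul_sum, Finset.sum_mul]
    refine Finset.sum_congr rfl fun y _ => ?_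
    have hJy : ((J y : ℝ) : ℂ) ≠ 0 := by exact_mod_cast (hJ y).ne'
    have e1 := hB x y
    simp only [hg]
    push_cast
    field_simp
    linear_combination (-(J r : ℂ) * ((v y : ℤ) : ℂ)) * e1
  have key := thC_rounded_clenshaw h hd (Pi.single r 1) (fun k => ((q k : ℕ) : ℂ)) z
    (Real.sqrt (Fintype.card ι) * ρ) K
    (by funext x; simp [hz, hu, sthU])
    (by funext x; simp [hz, hu, sthU])
    (by
      intro k hk
      refine thA_nrm_le_of_coord_le _ ρ hρ0 fun x => ?_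
      obtain ⟨t, rfl⟩ : ∃ t, K = k + t := ⟨K - k, by omega⟩
      have i0 : k + t + 2 - k = t + 2 := by omega
      have i1 : k + t + 2 - (k + 1) = t + 1 := by omega
      have i2 : k + t + 2 - (k + 2) = t := by omega
      simp only [Pi.sub_apply, Pi.add_apply, Pi.smul_apply, smul_eq_mul, hz, i0, i1, i2]
      rw [hmv (u (t + 1)) x, ← hge x]
      have e0 : u (t + 2) x = (B *ᵥ u (t + 1)) x / 2 ^ s + (q k : ℤ) * (sthE r x : ℤ) - u t x := by
        rw [hu, sthU_add_two]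
        simp
      rw [e0]
      have herr := thA_floor_div_err ((B *ᵥ u (t + 1)) x) (2 ^ s) (by positivity)
      have e3 : g x * ((((B *ᵥ u (t + 1)) x / 2 ^ s + (q k : ℤ) * (sthE r x : ℤ) - u t x : ℤ)) : ℂ)
          - (((q k : ℕ) : ℂ) * (g x * ((sthE r x : ℕ) : ℂ))
              + g x * ((((B *ᵥ u (t + 1)) x : ℤ) : ℂ) / (2 : ℂ) ^ s) - g x * ((u t x : ℤ) : ℂ))
          = g x * (((((B *ᵥ u (t + 1)) x / 2 ^ s : ℤ)) : ℂ)
              - (((B *ᵥ u (t + 1)) x : ℤ) : ℂ) / (((2 ^ s : ℤ)) : ℂ)) := by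
        push_cast; ring
      rw [e3, norm_mul]
      calc ‖g x‖ * _ ≤ ρ * 1 := mul_le_mul (hgn x) herr (norm_nonneg _) hρ0
        _ = ρ := mul_one _)
  convert key using 2
  congr 1
  funext x
  simp only [Pi.sub_apply, Pi.add_apply, Pi.smul_apply, smul_eq_mul, hz]
  rw [← hge x]
  have i0 : K + 2 - 0 = K + 2 := by omega
  have i2 : K + 2 - 2 = K := by omega
  rw [i0, i2]
  have hgx : (((J r / J x : ℝ)) : ℂ) = g x := rfl
  rw [hgx]
  push_cast
  ring

end Claimed.Agent.R297
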