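/-
Row 297 (spin-one Haldane gap), package D6 (helper193): specification of the integer Clenshaw run
on coefficient lists (feeding order: top coefficient first), output of a column, weighted total.
-/
import Claimed.Agent.R297.SThermalClose
import Claimed.Agent.R297.SThermalChain

namespace Claimed.Agent.R297

open Matrix Finset

section generic

variable {ι : Type} [Fintype ι]

/-- the integer Clenshaw run on a list of coefficients (top coefficient first), started from the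
states `z1` (current) and `z2` (previous); the output is `z₀ - z₂ + q₀ e`. -/
def sthV (B : Matrix ι ι ℤ) (s : ℕ) (e : ι → ℕ) : List ℕ → (ι → ℤ) → (ι → ℤ) → ι → ℤ
  | [], _, _ => 0
  | c :: cs, z1, z2 =>
    match cs with
    | [] => fun x => ((B *ᵥ z1) x / 2 ^ s + (c : ℤ) * (e x : ℤ) - z2 x) - z2 x + (c : ℤ) * (e x : ℤ)
    | _ :: _ => sthV B s e cs (fun x => (B *ᵥ z1) x / 2 ^ s + (c : ℤ) * (e x : ℤ) - z2 x) z1

theorem sthV_single (B : Matrix ι ι ℤ) (s : ℕ) (e : ι → ℕ) (c : ℕ) (z1 z2 : ι → ℤ) :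
    sthV B s e [c] z1 z2
      = fun x => ((B *ᵥ z1) x / 2 ^ s + (c : ℤ) * (e x : ℤ) - z2 x) - z2 x + (c : ℤ) * (e x : ℤ) :=
  rfl

theorem sthV_cons (B : Matrix ι ι ℤ) (s : ℕ) (e : ι → ℕ) (c c' : ℕ) (cs : List ℕ)
    (z1 z2 : ι → ℤ) :
    sthV B s e (c :: c' :: cs) z1 z2
      = sthV B s e (c' :: cs) (fun x => (B *ᵥ z1) x / 2 ^ s + (c : ℤ) * (e x : ℤ) - z2 x) z1 :=
  rfl

variable [DecidableEq ι]

/-- output of the run for the column `r`; `q` is degree-indexed (`q = [q_0, …, q_K]`). -/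
def sthY (B : Matrix ι ι ℤ) (s : ℕ) (q : List ℕ) (r : ι) : ι → ℤ :=
  sthV B s (sthE r) q.reverse 0 0

end generic

/-- the weighted total of the squares of all columns: `2 ∑_r ∑_x (J_r / J_x)² Y_r(x)²`. -/
def sthTot (m g cP cN : ℕ) (q : List ℕ) : ℤ :=
  ∑ r : Fin (m + 1) → Fin 3, ∑ x : Fin (m + 1) → Fin 3,
    (1 + (sthPar r : ℤ)) * (2 - (sthPar x : ℤ)) * sthY (sthBmat m 30 cP cN 9 g) 7 q r x ^ 2

end Claimed.Agent.R297
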