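/-
Row 297 (spin-one Haldane gap), package D6 (helper193): several columns in one packed number.
Product layout `ι × Fin M` (block `j` = lanes `N j .. N j + N - 1`), lifted moves (replicated masks),
block structure of the integer run.
-/
import Claimed.Agent.R297.LanesLayout
import Claimed.Agent.R297.SThermalSpec

namespace Claimed.Agent.R297

open Matrix Finset

/-- a packed vector of `N M` lanes is a packed vector of `M` blocks. -/
theorem lanePack_nest (w N : ℕ) (F : ℕ → ℕ) (M : ℕ) :
    lanePack w F (N * M)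
      = lanePack (w * N) (fun j => lanePack w (fun i => F (N * j + i)) N) M := by
  induction M with
  | zero => simp
  | succ M ih => rw [Nat.mul_succ, lanePack_split, ih, lanePack_succ, mul_assoc]

theorem lanePack_periodic {w N : ℕ} (hw : 0 < w) (hN : 0 < N) (f : ℕ → ℕ) (M : ℕ) :
    lanePack w (fun i => f (i % N)) (N * M) = laneConst (w * N) M (lanePack w f N) := by
  rw [lanePack_nest, laneConst_eq (Nat.mul_pos hw hN)]
  refine lanePack_congr fun j _ => lanePack_congr fun i hi => ?_
  rw [Nat.mul_add_mod, Nat.mod_eq_of_lt hi]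

theorem sth_sum_range_nest {α : Type} [AddCommMonoid α] (N : ℕ) (G : ℕ → α) (M : ℕ) :
    ∑ i ∈ range (N * M), G i = ∑ j ∈ range M, ∑ i ∈ range N, G (N * j + i) := by
  induction M with
  | zero => simp
  | succ M ih => rw [Nat.mul_succ, Finset.sum_range_add, ih, Finset.sum_range_succ]

variable {ι : Type} {N : ℕ}

/-- the product layout. -/
def sthProd (L : LaneLayout ι N) (M : ℕ) : LaneLayout (ι × Fin (M + 1)) (N * (M + 1)) where
  code p := N * p.2.val + L.code p.1
  dec i := (L.dec (i % N), ⟨i / N % (M + 1), Nat.mod_lt _ (Nat.succ_pos M)⟩)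
  S p := L.S p.1
  dec_mem i hi := by
    have hN : 0 < N := Nat.pos_of_ne_zero fun h => by simp [h] at hi
    exact L.dec_mem _ (Nat.mod_lt _ hN)
  code_dec i hi := by
    have hN : 0 < N := Nat.pos_of_ne_zero fun h => by simp [h] at hi
    have h1 : i / N < M + 1 := Nat.div_lt_of_lt_mul hi
    show N * (i / N % (M + 1)) + L.code (L.dec (i % N)) = i
    rw [L.code_dec _ (Nat.mod_lt _ hN), Nat.mod_eq_of_lt h1, Nat.div_add_mod]
  dec_code p hp := by
    have hc := L.code_lt p.1 hp
    have hN : 0 < N := by omega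
    have e1 : (N * p.2.val + L.code p.1) % N = L.code p.1 := by
      rw [Nat.mul_add_mod, Nat.mod_eq_of_lt hc]
    have e2 : (N * p.2.val + L.code p.1) / N = p.2.val := by
      rw [Nat.mul_add_div hN, Nat.div_eq_of_lt hc, add_zero]
    refine Prod.ext ?_ (Fin.ext ?_)
    · show L.dec ((N * p.2.val + L.code p.1) % N) = p.1
      rw [e1, L.dec_code _ hp]
    · show (N * p.2.val + L.code p.1) / N % (M + 1) = p.2.val
      rw [e2, Nat.mod_eq_of_lt p.2.isLt]
  code_lt p hp := by
    have hc := L.code_lt p.1 hp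
    have h2 : p.2.val + 1 ≤ M + 1 := p.2.isLt
    calc N * p.2.val + L.code p.1 < N * p.2.val + N := by omega
      _ = N * (p.2.val + 1) := by ring
      _ ≤ N * (M + 1) := Nat.mul_le_mul_left _ h2

theorem sthProd_dec (L : LaneLayout ι N) (M : ℕ) {i j : ℕ} (hi : i < N) (hj : j < M + 1) :
    (sthProd L M).dec (N * j + i) = (L.dec i, ⟨j, hj⟩) := by
  have hN : 0 < N := by omega
  refine Prod.ext ?_ (Fin.ext ?_)
  · show L.dec ((N * j + i) % N) = L.dec i
    rw [Nat.mul_add_mod, Nat.mod_eq_of_lt hi]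
  · show (N * j + i) / N % (M + 1) = j
    rw [Nat.mul_add_div hN, Nat.div_eq_of_lt hi, add_zero, Nat.mod_eq_of_lt hj]

/-- a move acting in every block. -/
def SiteOp.lift (w N M : ℕ) (op : SiteOp ι) : SiteOp (ι × Fin (M + 1)) :=
  ⟨fun p => op.D p.1, fun p => (op.σ p.1, p.2), laneConst (w * N) (M + 1) op.m, op.up, op.sh,
    op.coef⟩

theorem SiteOp.Valid.lift {w : ℕ} (hw : 0 < w) (hN : 0 < N) {L : LaneLayout ι N} {op : SiteOp ι}
    (h : op.Valid w L) (M : ℕ) : (op.lift w N M).Valid w (sthProd L M) where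
  mask := by
    show laneConst (w * N) (M + 1) op.m = _
    rw [h.mask]
    exact (lanePack_periodic hw hN (fun i => if op.D (L.dec i) then 2 ^ w - 1 else 0) (M + 1)).symm
  mem := fun p hp hD => h.mem p.1 hp hD
  mem' := fun p hD hp => h.mem' p.1 hD hp
  shift := fun p hp hD => by
    have h1 := h.shift p.1 hp hD
    show (if op.up = true then N * p.2.val + L.code (op.σ p.1) = N * p.2.val + L.code p.1 + op.sh
      else N * p.2.val + L.code (op.σ p.1) + op.sh = N * p.2.val + L.code p.1)
    split_ifs with hu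
    · rw [if_pos hu] at h1; omega
    · rw [if_neg hu] at h1; omega

section mat

variable [Fintype ι] [DecidableEq ι]

theorem SiteOp.lift_mulVec (w N M : ℕ) (op : SiteOp ι) (z : ι × Fin (M + 1) → ℤ) (x : ι)
    (j : Fin (M + 1)) :
    ((op.lift w N M).mat *ᵥ z) (x, j) = (op.mat *ᵥ fun y => z (y, j)) x := by
  unfold Matrix.mulVec dotProduct SiteOp.mat
  rw [Fintype.sum_prod_type]
  refine Finset.sum_congr rfl fun y _ => ?_
  rw [Finset.sum_eq_single j]
  · show (if op.D y = true ∧ (op.σ y, j) = (x, j) then (op.coef : ℤ) else 0) * z (y, j) = _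
    have : ((op.σ y, j) = (x, j)) ↔ op.σ y = x := by simp
    simp only [this]
  · intro j' _ hj'
    show (if op.D y = true ∧ (op.σ y, j') = (x, j) then (op.coef : ℤ) else 0) * z (y, j') = 0
    rw [if_neg, zero_mul]
    rintro ⟨-, h2⟩
    exact hj' (Prod.ext_iff.1 h2).2
  · intro h; exact absurd (Finset.mem_univ j) h

theorem siteSum_lift_mulVec (w N M : ℕ) (ops : List (SiteOp ι)) (z : ι × Fin (M + 1) → ℤ) (x : ι)
    (j : Fin (M + 1)) :
    ((((ops.map (SiteOp.lift w N M)).map SiteOp.mat).sum) *ᵥ z) (x, j)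
      = (((ops.map SiteOp.mat).sum) *ᵥ fun y => z (y, j)) x := by
  induction ops with
  | nil => simp
  | cons op ops ih =>
    simp only [List.map_cons, List.sum_cons, add_mulVec, Pi.add_apply]
    rw [SiteOp.lift_mulVec]
    simp only [List.map_map] at ih ⊢
    rw [ih]

theorem siteMat_lift_mulVec (w N M : ℕ) (pos neg : List (SiteOp ι)) (z : ι × Fin (M + 1) → ℤ)
    (x : ι) (j : Fin (M + 1)) :
    (siteMat (pos.map (SiteOp.lift w N M)) (neg.map (SiteOp.lift w N M)) *ᵥ z) (x, j)
      = (siteMat pos neg *ᵥ fun y => z (y, j)) x := by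
  unfold siteMat
  rw [sub_mulVec, sub_mulVec, Pi.sub_apply, Pi.sub_apply, siteSum_lift_mulVec, siteSum_lift_mulVec]

omit [DecidableEq ι] in
/-- the run of a block matrix is the family of the runs of the blocks. -/
theorem sthV_block {M : ℕ} (B' : Matrix (ι × Fin (M + 1)) (ι × Fin (M + 1)) ℤ) (B : Matrix ι ι ℤ)
    (hB : ∀ z x j, (B' *ᵥ z) (x, j) = (B *ᵥ fun y => z (y, j)) x) (s : ℕ)
    (e' : ι × Fin (M + 1) → ℕ) (qs : List ℕ) :
    ∀ (z1 z2 : ι × Fin (M + 1) → ℤ) (x : ι) (j : Fin (M + 1)),
      sthV B' s e' qs z1 z2 (x, j)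
        = sthV B s (fun y => e' (y, j)) qs (fun y => z1 (y, j)) (fun y => z2 (y, j)) x := by
  induction qs with
  | nil => intro z1 z2 x j; rfl
  | cons c cs ih =>
    intro z1 z2 x j
    cases cs with
    | nil => simp only [sthV_single, hB]
    | cons c' cs =>
      rw [sthV_cons, sthV_cons, ih]
      simp only [hB]

end mat

end Claimed.Agent.R297
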