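/-
Row 297 (spin-one Haldane gap), package D6 (helper193): the packed Clenshaw run (fold of helper81's
`laneStep`), its output, and the packed weighted sum of squares (helper159's `lsqSum`).
-/
import Claimed.Agent.R297.LanesSq
import Claimed.Agent.R297.SThermalProd

namespace Claimed.Agent.R297

open Matrix Finset

/-- the packed run; `none` if a range check fails.  Output: the packed `z₀ - z₂ + q₀ e`. -/
def sthRun (w N o a g : ℕ) (pos neg : List LaneOp) (s Ev : ℕ) : List ℕ → ℕ → ℕ → Option ℕ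
  | [], _, _ => none
  | c :: cs, X1, X2 =>
    match laneStep w N o a g pos neg s c Ev X1 X2 with
    | none => none
    | some X0 =>
      match cs with
      | [] => some ((X0 + laneConst w N (2 ^ o) + c * Ev) - X2)
      | _ :: _ => sthRun w N o a g pos neg s Ev cs X0 X1

/-- the last combination, on lanes. -/
theorem sth_lane_out {w N o a : ℕ} (hw : 0 < w) (hao : a + 3 ≤ o) {X0 X2 Ev c : ℕ}
    {z0 z2 : ℕ → ℤ} {e : ℕ → ℕ} (h0 : LaneRep w N o a X0 z0) (h2 : LaneRep w N o a X2 z2)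
    (hEv : Ev = lanePack w e N) (he : ∀ i, i < N → e i ≤ 1) (hc : c ≤ 2 ^ a) :
    LaneRep w N o (a + 2) ((X0 + laneConst w N (2 ^ o) + c * Ev) - X2)
      (fun i => z0 i - z2 i + (c : ℤ) * (e i : ℤ)) := by
  obtain ⟨f0, rfl, hf0⟩ := h0
  obtain ⟨f2, rfl, hf2⟩ := h2
  have p1 : (2 : ℤ) ^ (a + 3) ≤ 2 ^ o := pow_le_pow_right₀ (by norm_num) hao
  have p2 : (2 : ℤ) ^ (a + 3) = 8 * 2 ^ a := by ring
  have p3 : (2 : ℤ) ^ (a + 2) = 4 * 2 ^ a := by ring
  have p4 : (0 : ℤ) < 2 ^ a := by positivity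
  have hc' : (c : ℤ) ≤ 2 ^ a := by exact_mod_cast hc
  have hce : ∀ i, i < N → 0 ≤ (c : ℤ) * (e i : ℤ) ∧ (c : ℤ) * (e i : ℤ) ≤ 2 ^ a := by
    intro i hi
    have h1 : (e i : ℤ) ≤ 1 := by exact_mod_cast he i hi
    have h0 : (0 : ℤ) ≤ (e i : ℤ) := by positivity
    have hc0 : (0 : ℤ) ≤ (c : ℤ) := by positivity
    constructor
    · positivity
    · nlinarith
  have hle : ∀ i, i < N → f2 i ≤ f0 i + 2 ^ o + c * e i := by
    intro i hi
    have a0 := hf0 i hi
    have a2 := hf2 i hi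
    have a3 := hce i hi
    have : (f2 i : ℤ) ≤ ((f0 i + 2 ^ o + c * e i : ℕ) : ℤ) := by
      push_cast
      linarith [a0.1, a0.2.1, a2.1, a2.2.2, a3.1]
    exact_mod_cast this
  rw [laneConst_eq hw, hEv, lanePack_mul_left, lanePack_add, lanePack_add, lanePack_sub hle]
  refine ⟨_, rfl, fun i hi => ?_⟩
  have a0 := hf0 i hi
  have a2 := hf2 i hi
  have a3 := hce i hi
  rw [Nat.cast_sub (hle i hi)]
  push_cast
  refine ⟨by linarith [a0.1, a2.1], by linarith [a0.2.1, a2.2.2, a3.1], ?_⟩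
  linarith [a0.2.2, a2.2.1, a3.2]

section site

variable {ι : Type} {N : ℕ} [Fintype ι] [DecidableEq ι]

/-- **The packed run computes `sthV`.** -/
theorem sthRun_spec {w o a g : ℕ} {L : LaneLayout ι N} {pos neg : List (SiteOp ι)}
    (hP : LaneParams w N o a g (pos.map (SiteOp.toLane L)) (neg.map (SiteOp.toLane L)))
    (hpos : ∀ op ∈ pos, op.Valid w L) (hneg : ∀ op ∈ neg, op.Valid w L)
    {s Ev : ℕ} {e : ι → ℕ} (hs : s + 1 ≤ g)
    (hRs : (laneWeight (pos.map (SiteOp.toLane L)) + laneWeight (neg.map (SiteOp.toLane L)))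
      * 2 ^ a + 2 ^ s * (2 ^ a + 1) ≤ 2 ^ (o + s))
    (hEv : Ev = lanePack w (fun i => e (L.dec i)) N) (he : ∀ x, e x ≤ 1)
    (he0 : ∀ y, ¬ L.S y → e y = 0) (hao : a + 3 ≤ o) (qs : List ℕ) :
    ∀ (_ : ∀ c ∈ qs, c ≤ 2 ^ a) {X1 X2 Y : ℕ} {z1 z2 : ι → ℤ} (_ : SiteRep w o a L X1 z1)
      (_ : SiteRep w o a L X2 z2)
      (_ : sthRun w N o a g (pos.map (SiteOp.toLane L)) (neg.map (SiteOp.toLane L)) s Ev qs X1 X2
        = some Y),
      SiteRep w o (a + 2) L Y (sthV (siteMat pos neg) s e qs z1 z2) := by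
  induction qs with
  | nil => intro _ X1 X2 Y z1 z2 _ _ h; simp [sthRun] at h
  | cons c cs ih =>
    intro hq X1 X2 Y z1 z2 h1 h2 h
    have hc : c ≤ 2 ^ a := hq c List.mem_cons_self
    unfold sthRun at h
    cases hstep : laneStep w N o a g (pos.map (SiteOp.toLane L)) (neg.map (SiteOp.toLane L)) s c Ev
        X1 X2 with
    | none => rw [hstep] at h; simp at h
    | some X0 =>
      rw [hstep] at h
      have h0 := siteStep_spec hP hpos hneg hs hRs hc hEv he he0 h1 h2 hstep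
      cases cs with
      | nil =>
        simp only [Option.some.injEq] at h
        subst h
        rw [sthV_single]
        refine ⟨?_, fun y hy => ?_⟩
        · exact sth_lane_out hP.hw hao h0.1 h2.1 hEv (fun i _ => he _) hc
        · have e1 := h0.2 y hy
          simp only at e1
          show (siteMat pos neg *ᵥ z1) y / 2 ^ s + (c : ℤ) * (e y : ℤ) - z2 y - z2 y
            + (c : ℤ) * (e y : ℤ) = 0
          rw [e1, h2.2 y hy, he0 y hy]
          simp
      | cons c' cs =>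
        simp only at h
        rw [sthV_cons]
        exact ih (fun c'' hc'' => hq c'' (List.mem_cons_of_mem _ hc'')) h0 h1 h

omit [Fintype ι] [DecidableEq ι] in
/-- the zero state. -/
theorem sth_zero_rep {w o a : ℕ} (hw : 0 < w) (L : LaneLayout ι N) :
    SiteRep w o a L (laneConst w N (2 ^ o)) 0 := by
  refine ⟨⟨fun _ => 2 ^ o, laneConst_eq hw N _, fun i _ => ?_⟩, fun _ _ => rfl⟩
  have : (0 : ℤ) < 2 ^ a := by positivity
  refine ⟨by simp, ?_, ?_⟩ <;> simp only [Pi.zero_apply] <;> linarith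

end site

/-- run + weighted sum of squares. -/
def sthSq (w N o a g : ℕ) (pos neg : List LaneOp) (s : ℕ) (ws : List LsqW) (h : ℕ) (qr : List ℕ)
    (Ev : ℕ) : Option ℕ :=
  match sthRun w N o a g pos neg s Ev qr (laneConst w N (2 ^ o)) (laneConst w N (2 ^ o)) with
  | none => none
  | some Y => some (lsqSum w N o (a + 3) h ws Y)

section site2

variable {ι : Type} {N : ℕ} [Fintype ι] [DecidableEq ι]

theorem sthSq_spec {w o a g : ℕ} {L : LaneLayout ι N} {pos neg : List (SiteOp ι)}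
    (hP : LaneParams w N o a g (pos.map (SiteOp.toLane L)) (neg.map (SiteOp.toLane L)))
    (hpos : ∀ op ∈ pos, op.Valid w L) (hneg : ∀ op ∈ neg, op.Valid w L)
    {s Ev : ℕ} {e : ι → ℕ} (hs : s + 1 ≤ g)
    (hRs : (laneWeight (pos.map (SiteOp.toLane L)) + laneWeight (neg.map (SiteOp.toLane L)))
      * 2 ^ a + 2 ^ s * (2 ^ a + 1) ≤ 2 ^ (o + s))
    (hEv : Ev = lanePack w (fun i => e (L.dec i)) N) (he : ∀ x, e x ≤ 1)
    (he0 : ∀ y, ¬ L.S y → e y = 0) (hao : a + 3 ≤ o) {qs : List ℕ} (hq : ∀ c ∈ qs, c ≤ 2 ^ a)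
    {ws : List LsqW} {h : ℕ} (hhw : 2 * h ≤ w) (hcap : lsqCap ws * 2 ^ (a + 2) < 2 ^ (2 * h))
    (hN : N * 2 ^ h < 2 ^ w - 1)
    (hws : ∀ p ∈ ws, p.m = lanePack w (fun i => if p.μ i then 2 ^ w - 1 else 0) N) {T : ℕ}
    (hT : sthSq w N o a g (pos.map (SiteOp.toLane L)) (neg.map (SiteOp.toLane L)) s ws h qs Ev
      = some T) :
    (T : ℤ) = ∑ i ∈ range N, (lsqWt ws i : ℤ) * sthV (siteMat pos neg) s e qs 0 0 (L.dec i) ^ 2 := by
  unfold sthSq at hT
  cases hrun : sthRun w N o a g (pos.map (SiteOp.toLane L)) (neg.map (SiteOp.toLane L)) s Ev qs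
      (laneConst w N (2 ^ o)) (laneConst w N (2 ^ o)) with
  | none => rw [hrun] at hT; simp at hT
  | some Y =>
    rw [hrun] at hT
    simp only [Option.some.injEq] at hT
    have hY := sthRun_spec hP hpos hneg hs hRs hEv he he0 hao qs hq (sth_zero_rep hP.hw L)
      (sth_zero_rep hP.hw L) hrun
    have how : o + 1 ≤ w := by have := hP.hogw; omega
    rw [← hT]
    exact lsqSum_cast (a := a + 2) (by omega) how hhw hcap hN hws hY.1

end site2

end Claimed.Agent.R297
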