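/-
Row 297 (spin-one Haldane gap), package D6 (helper193): `M + 1` columns `lo, lo + 2, …` of the same
parity in one packed run.
-/
import Claimed.Agent.R297.SThermalRun

namespace Claimed.Agent.R297

open Matrix Finset

/-- replace the masks of a program by the numbers of a list. -/
def laneRemask : List LaneOp → List ℕ → List LaneOp
  | op :: ops, m :: ms => ⟨op.μ, m, op.up, op.sh, op.coef⟩ :: laneRemask ops ms
  | _, _ => []

theorem laneRemask_eq (ops : List LaneOp) : laneRemask ops (ops.map LaneOp.m) = ops := by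
  induction ops with
  | nil => rfl
  | cons op ops ih => simp only [List.map_cons, laneRemask, ih]

theorem lanePack_single (w : ℕ) {N r : ℕ} (hr : r < N) :
    lanePack w (fun i => if i = r then 1 else 0) N = 2 ^ (w * r) := by
  unfold lanePack
  rw [Finset.sum_eq_single r]
  · simp
  · intro i _ hi; simp [hi]
  · intro h; exact absurd (Finset.mem_range.2 hr) h

/-- packed start vector: block `j` holds the unit vector of the lane `lo + 2 j`. -/
def sthEv (w N lo : ℕ) : ℕ → ℕ
  | 0 => 0
  | M + 1 => sthEv w N lo M + 2 ^ (w * (N * M + (lo + 2 * M)))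

theorem sthEv_eq (w N lo : ℕ) (M : ℕ) (hlo : lo + 2 * M ≤ N + 1) :
    sthEv w N lo M = lanePack w (fun i => if i % N = lo + 2 * (i / N) then 1 else 0) (N * M) := by
  induction M with
  | zero => simp [sthEv]
  | succ M ih =>
    have hr : lo + 2 * M < N := by omega
    have hN : 0 < N := by omega
    rw [sthEv, ih (by omega), Nat.mul_succ, lanePack_split]
    congr 1
    have : lanePack w (fun i => if (N * M + i) % N = lo + 2 * ((N * M + i) / N) then 1 else 0) N
        = lanePack w (fun i => if i = lo + 2 * M then 1 else 0) N := by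
      refine lanePack_congr fun i hi => ?_
      rw [Nat.mul_add_mod, Nat.mod_eq_of_lt hi, Nat.mul_add_div hN, Nat.div_eq_of_lt hi, add_zero]
    rw [this, lanePack_single w hr, ← pow_add]
    congr 1
    ring

/-- the weights `2 - parity of the lane inside its block`. -/
def sthWs (w N M : ℕ) : List LsqW :=
  [⟨fun _ => true, laneConst w (N * (M + 1)) (2 ^ w - 1), 1⟩,
   ⟨fun i => i % N % 2 == 0, laneConst (w * N) (M + 1) (sthMask w (fun i => i % 2 == 0) N), 1⟩]

theorem sthWs_valid {w N : ℕ} (hw : 0 < w) (hN : 0 < N) (M : ℕ) :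
    ∀ p ∈ sthWs w N M, p.m = lanePack w (fun i => if p.μ i then 2 ^ w - 1 else 0) (N * (M + 1)) := by
  intro p hp
  simp only [sthWs, List.mem_cons, List.not_mem_nil, or_false] at hp
  rcases hp with rfl | rfl
  · simp only [if_true]
    exact laneConst_eq hw _ _
  · show laneConst (w * N) (M + 1) (sthMask w (fun i => i % 2 == 0) N) = _
    rw [sthMask_eq]
    exact (lanePack_periodic hw hN (fun i => if (i % 2 == 0) = true then 2 ^ w - 1 else 0)
      (M + 1)).symm

theorem sthWs_wt (w N M i : ℕ) : (lsqWt (sthWs w N M) i : ℤ) = 2 - ((i % N % 2 : ℕ) : ℤ) := by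
  unfold lsqWt sthWs
  simp only [List.map_cons, List.map_nil, List.sum_cons, List.sum_nil, if_true, add_zero]
  rcases Nat.mod_two_eq_zero_or_one (i % N) with h | h <;> simp [h]

theorem sthWs_cap (w N M : ℕ) : lsqCap (sthWs w N M) = 2 := rfl

section site

variable {ι : Type} {N : ℕ} [Fintype ι] [DecidableEq ι]

omit [Fintype ι] [DecidableEq ι] in
theorem sth_laneWeight_lift (w M : ℕ) (L : LaneLayout ι N) (ops : List (SiteOp ι)) :
    laneWeight ((ops.map (SiteOp.lift w N M)).map (SiteOp.toLane (sthProd L M)))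
      = (ops.map SiteOp.coef).sum := by
  unfold laneWeight
  rw [List.map_map, List.map_map]
  rfl

omit [Fintype ι] [DecidableEq ι] in
theorem sth_masks_lift (w M : ℕ) (L : LaneLayout ι N) (ops : List (SiteOp ι)) :
    ((ops.map (SiteOp.lift w N M)).map (SiteOp.toLane (sthProd L M))).map LaneOp.m
      = (ops.map SiteOp.m).map (laneConst (w * N) (M + 1)) := by
  rw [List.map_map, List.map_map, List.map_map]
  rfl

/-- **`M + 1` columns in one packed run.** -/
theorem sthPack_spec {w o a g : ℕ} {L : LaneLayout ι N} (hS : ∀ x, L.S x)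
    {pos neg : List (SiteOp ι)} (hw : 0 < w) (hogw : o + g + 1 ≤ w) (hao : a + 3 ≤ o)
    (hpos : ∀ op ∈ pos, op.Valid w L) (hneg : ∀ op ∈ neg, op.Valid w L)
    (hwt : (pos.map SiteOp.coef).sum ≤ 2 ^ g)
    (hR : ((pos.map SiteOp.coef).sum + (neg.map SiteOp.coef).sum) * 2 ^ a < 2 ^ (o + g))
    {s : ℕ} (hs : s + 1 ≤ g)
    (hRs : ((pos.map SiteOp.coef).sum + (neg.map SiteOp.coef).sum) * 2 ^ a + 2 ^ s * (2 ^ a + 1)
      ≤ 2 ^ (o + s))
    {qs : List ℕ} (hq : ∀ c ∈ qs, c ≤ 2 ^ a) {h : ℕ} (hhw : 2 * h ≤ w)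
    (hcap : 2 * 2 ^ (a + 2) < 2 ^ (2 * h)) {M lo : ℕ} (hN : N * (M + 1) * 2 ^ h < 2 ^ w - 1)
    (hlo : lo + 2 * (M + 1) ≤ N + 1)
    {mp mn : List ℕ} (hmp : mp = pos.map SiteOp.m) (hmn : mn = neg.map SiteOp.m) {T : ℕ}
    (hT : sthSq w (N * (M + 1)) o a g
      (laneRemask ((pos.map (SiteOp.lift w N M)).map (SiteOp.toLane (sthProd L M)))
        (mp.map (laneConst (w * N) (M + 1))))
      (laneRemask ((neg.map (SiteOp.lift w N M)).map (SiteOp.toLane (sthProd L M)))
        (mn.map (laneConst (w * N) (M + 1))))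
      s (sthWs w N M) h qs (sthEv w N lo (M + 1)) = some T) :
    (T : ℤ) = ∑ j ∈ range (M + 1), ∑ i ∈ range N, (2 - ((i % 2 : ℕ) : ℤ)) *
      sthV (siteMat pos neg) s (sthE (L.dec (lo + 2 * j))) qs 0 0 (L.dec i) ^ 2 := by
  have hN0 : 0 < N := by omega
  rw [hmp, hmn, ← sth_masks_lift, ← sth_masks_lift, laneRemask_eq, laneRemask_eq] at hT
  have hpos' : ∀ op ∈ pos.map (SiteOp.lift w N M), op.Valid w (sthProd L M) := by
    intro op hop
    obtain ⟨op0, h0, rfl⟩ := List.mem_map.1 hop
    exact (hpos op0 h0).lift hw hN0 M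
  have hneg' : ∀ op ∈ neg.map (SiteOp.lift w N M), op.Valid w (sthProd L M) := by
    intro op hop
    obtain ⟨op0, h0, rfl⟩ := List.mem_map.1 hop
    exact (hneg op0 h0).lift hw hN0 M
  have hP : LaneParams w (N * (M + 1)) o a g
      ((pos.map (SiteOp.lift w N M)).map (SiteOp.toLane (sthProd L M)))
      ((neg.map (SiteOp.lift w N M)).map (SiteOp.toLane (sthProd L M))) :=
    { hw := hw
      hogw := hogw
      hao := by omega
      hpos := by
        intro op hop
        obtain ⟨op0, h0, rfl⟩ := List.mem_map.1 hop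
        exact (hpos' op0 h0).toLane
      hneg := by
        intro op hop
        obtain ⟨op0, h0, rfl⟩ := List.mem_map.1 hop
        exact (hneg' op0 h0).toLane
      hwt := by rw [sth_laneWeight_lift]; exact hwt
      hR := by rw [sth_laneWeight_lift, sth_laneWeight_lift]; exact hR }
  set e' : ι × Fin (M + 1) → ℕ := fun p => sthE (L.dec (lo + 2 * p.2.val)) p.1 with he'
  have hEv : sthEv w N lo (M + 1)
      = lanePack w (fun i => e' ((sthProd L M).dec i)) (N * (M + 1)) := by
    rw [sthEv_eq w N lo (M + 1) hlo]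
    refine lanePack_congr fun i hi => ?_
    have h1 : i / N < M + 1 := Nat.div_lt_of_lt_mul hi
    have h2 : i % N < N := Nat.mod_lt _ hN0
    have h3 : lo + 2 * (i / N) < N := by omega
    show _ = sthE (L.dec (lo + 2 * (i / N % (M + 1)))) (L.dec (i % N))
    rw [Nat.mod_eq_of_lt h1]
    unfold sthE
    by_cases hc : i % N = lo + 2 * (i / N)
    · rw [if_pos hc, hc, if_pos rfl]
    · rw [if_neg hc, if_neg]
      intro hd
      apply hc
      rw [← L.code_dec _ h2, hd, L.code_dec _ h3]
  have key := sthSq_spec hP hpos' hneg' hs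
    (by rw [sth_laneWeight_lift, sth_laneWeight_lift]; exact hRs) hEv
    (fun p => by simp only [he', sthE]; split_ifs <;> omega)
    (fun p hp => absurd (hS p.1) hp) hao hq hhw (by rw [sthWs_cap]; exact hcap) hN
    (sthWs_valid hw hN0 M) hT
  rw [key, sth_sum_range_nest]
  refine Finset.sum_congr rfl fun j hj => Finset.sum_congr rfl fun i hi => ?_
  have hj' := Finset.mem_range.1 hj
  have hi' := Finset.mem_range.1 hi
  rw [sthProd_dec L M hi' hj', sthWs_wt, Nat.mul_add_mod, Nat.mod_eq_of_lt hi',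
    sthV_block _ _ (siteMat_lift_mulVec w N M pos neg)]
  rfl

end site

end Claimed.Agent.R297
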