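/-
Row 297 (spin-one Haldane gap), package D6 (helper193): the kernel-evaluated batch function for the
short open chains, its meaning, and the total over all columns.
Fixed parameters: `w = 64`, `o = 50`, `a = 46`, `g = 10`, `s = 7`, `μ = 30`, `f = 9`.
-/
import Claimed.Agent.R297.SThermalPack

namespace Claimed.Agent.R297

open Matrix Finset

/-! ### fast masks (checked against the slow ones by evaluation) -/

/-- lanes whose digit `k` is `d`. -/
def sthDm (w n k d : ℕ) : ℕ :=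
  laneConst (w * 3 ^ (k + 1)) (3 ^ (n - k - 1)) (laneConst w (3 ^ k) (2 ^ w - 1) <<< (w * 3 ^ k * d))

/-- lanes of parity `r`. -/
def sthPm (w n r : ℕ) : ℕ :=
  bif r == 0 then laneConst (2 * w) ((3 ^ n + 1) / 2) (2 ^ w - 1)
  else laneConst (2 * w) (3 ^ n / 2) ((2 ^ w - 1) <<< w)

def sthFastConst (w n c : ℕ) : List ℕ := if c = 0 then [] else [laneConst w (3 ^ n) (2 ^ w - 1)]

def sthFastPos (w m g cP : ℕ) : List ℕ :=
  sthFastConst w (m + 1) cP ++
  ((List.range m).map fun i =>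
      (sthDm w (m + 1) i 0 &&& sthDm w (m + 1) (i + 1) 2)
        ||| (sthDm w (m + 1) i 2 &&& sthDm w (m + 1) (i + 1) 0)) ++
  [sthDm w (m + 1) 0 0] ++
  (if g = 0 then [sthDm w (m + 1) m 2] else if g = 1 then [sthDm w (m + 1) m 0] else [])

def sthFastNeg (w m g cN : ℕ) : List ℕ :=
  sthFastConst w (m + 1) cN ++
  ((List.range m).map fun i =>
      (sthDm w (m + 1) i 1 ||| sthDm w (m + 1) i 2)
        &&& (sthDm w (m + 1) (i + 1) 0 ||| sthDm w (m + 1) (i + 1) 1)) ++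
  ((List.range m).map fun i =>
      (sthDm w (m + 1) (i + 1) 1 ||| sthDm w (m + 1) (i + 1) 2)
        &&& (sthDm w (m + 1) i 0 ||| sthDm w (m + 1) i 1)) ++
  ((List.range m).map fun i =>
      (sthDm w (m + 1) i 0 &&& sthDm w (m + 1) (i + 1) 0)
        ||| (sthDm w (m + 1) i 2 &&& sthDm w (m + 1) (i + 1) 2)) ++
  [sthDm w (m + 1) 0 2] ++
  (if g = 0 then [sthDm w (m + 1) m 0] else if g = 1 then [sthDm w (m + 1) m 2] else
    [(sthDm w (m + 1) m 1 ||| sthDm w (m + 1) m 2) &&& sthPm w (m + 1) 0,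
     (sthDm w (m + 1) m 1 ||| sthDm w (m + 1) m 2) &&& sthPm w (m + 1) 1,
     (sthDm w (m + 1) m 0 ||| sthDm w (m + 1) m 1) &&& sthPm w (m + 1) 0,
     (sthDm w (m + 1) m 0 ||| sthDm w (m + 1) m 1) &&& sthPm w (m + 1) 1])

/-! ### the batch -/

/-- the columns `lo, lo + 2, …, lo + 2 M` in one packed run: `∑_j ∑_x (2 - par x) Y_{lo+2j}(x)²`. -/
def sthB (m g cP cN : ℕ) (q : List ℕ) (lo M : ℕ) : Option ℕ :=
  sthSq 64 (3 ^ (m + 1) * (M + 1)) 50 46 10
    (laneRemask (((sthPos 64 m 30 cP 9 g).map (SiteOp.lift 64 (3 ^ (m + 1)) M)).map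
        (SiteOp.toLane (sthProd (sthLayout (m + 1)) M)))
      ((sthFastPos 64 m g cP).map (laneConst (64 * 3 ^ (m + 1)) (M + 1))))
    (laneRemask (((sthNeg 64 m 30 cN 9 g).map (SiteOp.lift 64 (3 ^ (m + 1)) M)).map
        (SiteOp.toLane (sthProd (sthLayout (m + 1)) M)))
      ((sthFastNeg 64 m g cN).map (laneConst (64 * 3 ^ (m + 1)) (M + 1))))
    7 (sthWs 64 (3 ^ (m + 1)) M) 32 q.reverse (sthEv 64 (3 ^ (m + 1)) lo (M + 1))

/-- contribution of the column with lane index `r` to `sthTot`. -/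
def sthF (m g cP cN : ℕ) (q : List ℕ) (r : ℕ) : ℤ :=
  (1 + ((r % 2 : ℕ) : ℤ)) * ∑ i ∈ range (3 ^ (m + 1)), (2 - ((i % 2 : ℕ) : ℤ)) *
    sthY (sthBmat m 30 cP cN 9 g) 7 q (sthDec (m + 1) r) (sthDec (m + 1) i) ^ 2

/-- the closed side conditions of a chain (all by `decide +kernel`). -/
structure SthOK (m g cP cN : ℕ) (q : List ℕ) : Prop where
  mp : sthFastPos 64 m g cP = (sthPos 64 m 30 cP 9 g).map SiteOp.m
  mn : sthFastNeg 64 m g cN = (sthNeg 64 m 30 cN 9 g).map SiteOp.m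
  wt : ((sthPos 64 m 30 cP 9 g).map SiteOp.coef).sum + ((sthNeg 64 m 30 cN 9 g).map SiteOp.coef).sum
    ≤ 1000
  q : ∀ c ∈ q, c ≤ 2 ^ 46

theorem sthB_spec {m g cP cN : ℕ} {q : List ℕ} (hok : SthOK m g cP cN q) {lo M T : ℕ}
    (hN : 3 ^ (m + 1) * (M + 1) * 2 ^ 32 < 2 ^ 64 - 1) (hlo : lo + 2 * (M + 1) ≤ 3 ^ (m + 1) + 1)
    (hT : sthB m g cP cN q lo M = some T) :
    (((1 + lo % 2) * T : ℕ) : ℤ) = ∑ j ∈ range (M + 1), sthF m g cP cN q (lo + 2 * j) := by
  have hwt := hok.wt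
  generalize hA : ((sthPos 64 m 30 cP 9 g).map SiteOp.coef).sum = A at hwt
  generalize hC : ((sthNeg 64 m 30 cN 9 g).map SiteOp.coef).sum = C at hwt
  have c1 : A ≤ 2 ^ 10 := by norm_num; omega
  have c2 : (A + C) * 2 ^ 46 < 2 ^ (50 + 10) := by
    calc (A + C) * 2 ^ 46 ≤ 1000 * 2 ^ 46 := Nat.mul_le_mul_right _ hwt
      _ < 2 ^ (50 + 10) := by norm_num
  have c3 : (A + C) * 2 ^ 46 + 2 ^ 7 * (2 ^ 46 + 1) ≤ 2 ^ (50 + 7) := by
    calc (A + C) * 2 ^ 46 + 2 ^ 7 * (2 ^ 46 + 1) ≤ 1000 * 2 ^ 46 + 2 ^ 7 * (2 ^ 46 + 1) :=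
          Nat.add_le_add_right (Nat.mul_le_mul_right _ hwt) _
      _ ≤ 2 ^ (50 + 7) := by norm_num
  have key := sthPack_spec (L := sthLayout (m + 1)) (fun _ => trivial) (w := 64) (o := 50) (a := 46)
    (g := 10) (s := 7) (h := 32) (by norm_num) (by norm_num) (by norm_num)
    (sthPos_valid 64 m 30 cP 9 g) (sthNeg_valid 64 m 30 cN 9 g) (hA ▸ c1) (hA ▸ hC ▸ c2)
    (by norm_num) (hA ▸ hC ▸ c3) (qs := q.reverse)
    (fun c hc => hok.q c (List.mem_reverse.1 hc)) (by norm_num) (by norm_num) hN hlo hok.mp hok.mn hT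
  rw [sth_siteMat_eq] at key
  push_cast
  rw [key, Finset.mul_sum]
  refine Finset.sum_congr rfl fun j _ => ?_
  unfold sthF
  have : (lo + 2 * j) % 2 = lo % 2 := by omega
  rw [this]
  rfl

/-! ### the total -/

theorem sth_sum_config {n : ℕ} (f : (Fin n → Fin 3) → ℤ) :
    ∑ x, f x = ∑ i ∈ range (3 ^ n), f (sthDec n i) := by
  rw [← Fin.sum_univ_eq_sum_range (fun i => f (sthDec n i)) (3 ^ n)]
  exact (Equiv.sum_comp finFunctionFinEquiv.symm f).symm

theorem sthTot_eq (m g cP cN : ℕ) (q : List ℕ) :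
    sthTot m g cP cN q = ∑ r ∈ range (3 ^ (m + 1)), sthF m g cP cN q r := by
  unfold sthTot sthF
  rw [sth_sum_config]
  refine Finset.sum_congr rfl fun r hr => ?_
  rw [sth_sum_config, Finset.mul_sum]
  refine Finset.sum_congr rfl fun i hi => ?_
  have h1 : sthPar (sthDec (m + 1) r) = r % 2 := by
    unfold sthPar; rw [sthCode_dec (Finset.mem_range.1 hr)]
  have h2 : sthPar (sthDec (m + 1) i) = i % 2 := by
    unfold sthPar; rw [sthCode_dec (Finset.mem_range.1 hi)]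
  rw [h1, h2]
  ring

theorem sth_list_sum_range (F : ℕ → ℤ) (n : ℕ) :
    ((List.range n).map F).sum = ∑ i ∈ range n, F i := by
  induction n with
  | zero => simp
  | succ n ih => rw [List.range_succ, List.map_append, List.sum_append, ih, sum_range_succ]; simp

/-- the total of a schedule `[(lo, M, T), …]`. -/
def sthSched (bs : List (ℕ × ℕ × ℕ)) : ℕ := (bs.map fun b => (1 + b.1 % 2) * b.2.2).sum

/-- the batches of a schedule are consecutive (stride `2`), from `lo` to `hi`. -/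
def sthConsec : ℕ → List (ℕ × ℕ × ℕ) → ℕ → Bool
  | lo, [], hi => lo == hi
  | lo, b :: bs, hi => b.1 == lo && sthConsec (lo + 2 * (b.2.1 + 1)) bs hi

theorem sth_consec_sum (F : ℕ → ℤ) (bs : List (ℕ × ℕ × ℕ)) :
    ∀ (lo hi : ℕ), sthConsec lo bs hi = true → ∃ n, hi = lo + 2 * n ∧
      (bs.map fun b => ∑ j ∈ range (b.2.1 + 1), F (b.1 + 2 * j)).sum
        = ∑ j ∈ range n, F (lo + 2 * j) := by
  induction bs with
  | nil =>
    intro lo hi h
    simp only [sthConsec, beq_iff_eq] at h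
    exact ⟨0, by omega, by rw [List.map_nil, List.sum_nil, Finset.sum_range_zero]⟩
  | cons b bs ih =>
    intro lo hi h
    simp only [sthConsec, Bool.and_eq_true, beq_iff_eq] at h
    obtain ⟨n', h1, h2⟩ := ih _ _ h.2
    refine ⟨b.2.1 + 1 + n', by omega, ?_⟩
    rw [List.map_cons, List.sum_cons, h2,
      Finset.sum_range_add (fun j => F (lo + 2 * j)) (b.2.1 + 1) n', h.1]
    have : ∀ j, lo + 2 * (b.2.1 + 1) + 2 * j = lo + 2 * (b.2.1 + 1 + j) := fun j => by ring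
    simp only [this]

theorem sth_sum_even_odd (F : ℕ → ℤ) (A : ℕ) :
    ∑ r ∈ range (2 * A + 1), F r
      = ∑ j ∈ range (A + 1), F (0 + 2 * j) + ∑ j ∈ range A, F (1 + 2 * j) := by
  induction A with
  | zero => simp
  | succ A ih =>
    have e : 2 * (A + 1) + 1 = 2 * A + 1 + 1 + 1 := by ring
    have e1 : 0 + 2 * (A + 1) = 2 * A + 1 + 1 := by ring
    have e2 : 1 + 2 * A = 2 * A + 1 := by ring
    rw [e, Finset.sum_range_succ, Finset.sum_range_succ, ih,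
      Finset.sum_range_succ (fun j => F (0 + 2 * j)) (A + 1),
      Finset.sum_range_succ (fun j => F (1 + 2 * j)) A, e1, e2]
    ring

theorem sth_sched_sum {m g cP cN : ℕ} {q : List ℕ} (hok : SthOK m g cP cN q)
    (bs : List (ℕ × ℕ × ℕ))
    (hsz : ∀ b ∈ bs, 3 ^ (m + 1) * (b.2.1 + 1) * 2 ^ 32 < 2 ^ 64 - 1
      ∧ b.1 + 2 * (b.2.1 + 1) ≤ 3 ^ (m + 1) + 1)
    (hb : ∀ b ∈ bs, sthB m g cP cN q b.1 b.2.1 = some b.2.2) :
    ((sthSched bs : ℕ) : ℤ)
      = (bs.map fun b => ∑ j ∈ range (b.2.1 + 1), sthF m g cP cN q (b.1 + 2 * j)).sum := by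
  unfold sthSched
  induction bs with
  | nil => simp
  | cons b bs ih =>
    rw [List.map_cons, List.sum_cons, List.map_cons, List.sum_cons, Nat.cast_add,
      ih (fun b' hb' => hsz b' (List.mem_cons_of_mem _ hb'))
        (fun b' hb' => hb b' (List.mem_cons_of_mem _ hb')),
      sthB_spec hok (hsz b List.mem_cons_self).1 (hsz b List.mem_cons_self).2
        (hb b List.mem_cons_self)]

/-- **Total of a trace from its batches** (`bE`: even columns, `bO`: odd columns). -/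
theorem sth_total {m g cP cN : ℕ} {q : List ℕ} (hok : SthOK m g cP cN q)
    (bE bO : List (ℕ × ℕ × ℕ)) (hE : sthConsec 0 bE (3 ^ (m + 1) + 1) = true)
    (hO : sthConsec 1 bO (3 ^ (m + 1)) = true)
    (hsz : ∀ b ∈ bE ++ bO, 3 ^ (m + 1) * (b.2.1 + 1) * 2 ^ 32 < 2 ^ 64 - 1
      ∧ b.1 + 2 * (b.2.1 + 1) ≤ 3 ^ (m + 1) + 1)
    (hb : ∀ b ∈ bE ++ bO, sthB m g cP cN q b.1 b.2.1 = some b.2.2) :
    sthTot m g cP cN q = ((sthSched (bE ++ bO) : ℕ) : ℤ) := by
  rw [sth_sched_sum hok _ hsz hb, List.map_append, List.sum_append, sthTot_eq]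
  obtain ⟨nE, h1, h2⟩ := sth_consec_sum (sthF m g cP cN q) bE _ _ hE
  obtain ⟨nO, h3, h4⟩ := sth_consec_sum (sthF m g cP cN q) bO _ _ hO
  rw [h2, h4]
  have e1 : 3 ^ (m + 1) = 2 * nO + 1 := by omega
  have e2 : nE = nO + 1 := by omega
  rw [e1, e2]
  exact sth_sum_even_odd _ _

end Claimed.Agent.R297
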