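/-
Row 297 (spin-one Haldane gap), package D1b (numeric wrappers of the thermal error analysis),
owner helper128 (handed over by helper204).  Prefix `thN_`.

1. the conditioned Poisson weights `thA_pois t J j` for natural `t` as integer ratios, a Boolean
   checker for coefficient tables and the canonical floor table;
2. numeric bounds of the Poisson tail;
3. rational enclosures of `Real.exp` (Boolean checker over `ℚ`) and the instances used by the tables;
4. one-call wrappers: from the integer `T` to `|Zring a n R b - centre| ≤ tol`.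
-/
import Mathlib
import Claimed.Agent.R297.ThermalAnaInt
import Claimed.Agent.R297.TransferDefs

namespace Claimed.Agent.R297

open Matrix Finset

/-! ### 1. conditioned Poisson weights as integer ratios -/

/-- integer numerators `N_j = t^j J!/j!` of the conditioned Poisson weights. -/
def thN_num (t J j : ℕ) : ℕ := t ^ j * (J.factorial / j.factorial)

/-- partial sums of the numerators. -/
def thN_denAux (t J : ℕ) : ℕ → ℕ
  | 0 => 0
  | k + 1 => thN_denAux t J k + thN_num t J k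

/-- the common denominator `S = ∑_{j ≤ J} N_j`. -/
def thN_den (t J : ℕ) : ℕ := thN_denAux t J (J + 1)

theorem thN_denAux_eq (t J k : ℕ) : thN_denAux t J k = ∑ j ∈ range k, thN_num t J j := by
  induction k with
  | zero => rfl
  | succ k ih => rw [thN_denAux, ih, Finset.sum_range_succ]

theorem thN_num_cast (t J j : ℕ) (hj : j ≤ J) :
    (thN_num t J j : ℝ) = (t : ℝ) ^ j / (j.factorial : ℝ) * (J.factorial : ℝ) := by
  unfold thN_num
  rw [Nat.cast_mul, Nat.cast_pow, Nat.cast_div (Nat.factorial_dvd_factorial hj)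
    (by exact_mod_cast j.factorial_ne_zero)]
  ring

theorem thN_den_cast (t J : ℕ) :
    (thN_den t J : ℝ) = thA_expSum (t : ℝ) J * (J.factorial : ℝ) := by
  unfold thN_den thA_expSum
  rw [thN_denAux_eq, Nat.cast_sum, Finset.sum_mul]
  refine Finset.sum_congr rfl fun j hj => ?_
  exact thN_num_cast t J j (by have := Finset.mem_range.1 hj; omega)

theorem thN_den_pos (t J : ℕ) : 0 < thN_den t J := by
  have h : (0 : ℝ) < (thN_den t J : ℝ) := by
    rw [thN_den_cast]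
    exact mul_pos (thA_expSum_pos (Nat.cast_nonneg t) J) (by exact_mod_cast J.factorial_pos)
  exact_mod_cast h

/-- the conditioned Poisson weight is the integer ratio `N_j / S`. -/
theorem thN_pois_eq (t J j : ℕ) (hj : j ≤ J) :
    thA_pois (t : ℝ) J j = (thN_num t J j : ℝ) / (thN_den t J : ℝ) := by
  unfold thA_pois
  rw [thN_num_cast t J j hj, thN_den_cast]
  have h1 : (J.factorial : ℝ) ≠ 0 := by exact_mod_cast J.factorial_ne_zero
  have h2 : thA_expSum (t : ℝ) J ≠ 0 := (thA_expSum_pos (Nat.cast_nonneg t) J).ne'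
  field_simp

/-- evaluate the natural number first, then continue (keeps kernel evaluation linear). -/
def thN_force (n : ℕ) (k : ℕ → Bool) : Bool :=
  match n with
  | 0 => k 0
  | m + 1 => k (m + 1)

theorem thN_force_eq (n : ℕ) (k : ℕ → Bool) : thN_force n k = k n := by
  cases n <;> rfl

/-- Boolean checker: `|q_j S - Q N_j| ≤ S` for all `j ≤ J`. -/
def thN_check (t J : ℕ) (Q : ℤ) (q : ℕ → ℤ) : Bool :=
  thN_force (thN_den t J) fun S =>
    (List.range (J + 1)).all fun j =>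
      decide (q j * (S : ℤ) - Q * (thN_num t J j : ℤ) ≤ (S : ℤ)) &&
        decide (Q * (thN_num t J j : ℤ) - q j * (S : ℤ) ≤ (S : ℤ))

theorem thN_close_of_int {t J j : ℕ} (hj : j ≤ J) {Q q : ℤ}
    (h1 : q * (thN_den t J : ℤ) - Q * (thN_num t J j : ℤ) ≤ (thN_den t J : ℤ))
    (h2 : Q * (thN_num t J j : ℤ) - q * (thN_den t J : ℤ) ≤ (thN_den t J : ℤ)) :
    |(q : ℝ) - (Q : ℝ) * thA_pois (t : ℝ) J j| ≤ 1 := by
  rw [thN_pois_eq t J j hj]
  have hS : (0 : ℝ) < (thN_den t J : ℝ) := by exact_mod_cast thN_den_pos t J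
  have h1' : (q : ℝ) * (thN_den t J : ℝ) - (Q : ℝ) * (thN_num t J j : ℝ) ≤ (thN_den t J : ℝ) := by
    exact_mod_cast h1
  have h2' : (Q : ℝ) * (thN_num t J j : ℝ) - (q : ℝ) * (thN_den t J : ℝ) ≤ (thN_den t J : ℝ) := by
    exact_mod_cast h2
  have h3 : (q : ℝ) - (Q : ℝ) * ((thN_num t J j : ℝ) / (thN_den t J : ℝ))
      = ((q : ℝ) * (thN_den t J : ℝ) - (Q : ℝ) * (thN_num t J j : ℝ)) / (thN_den t J : ℝ) := by
    field_simp
  rw [h3, abs_div, abs_of_pos hS, div_le_one hS, abs_le]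
  constructor <;> linarith

/-- **Coefficient tables.**  A table accepted by the checker satisfies hypothesis `hq` of
`thA_zHorner_close` / `thA_wHorner_close` with `p = thA_pois t J`. -/
theorem thN_hq_of_check {t J : ℕ} {Q : ℤ} {q : ℕ → ℤ} (h : thN_check t J Q q = true) :
    ∀ j ≤ J, |(q j : ℝ) - (Q : ℝ) * thA_pois (t : ℝ) J j| ≤ 1 := by
  intro j hj
  unfold thN_check at h
  rw [thN_force_eq, List.all_eq_true] at h
  have h1 := h j (List.mem_range.2 (by omega))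
  rw [Bool.and_eq_true, decide_eq_true_eq, decide_eq_true_eq] at h1
  exact thN_close_of_int hj h1.1 h1.2

/-- the same with real parameters (`tr = 84`, `Qr = 2 ^ 52`, ... : discharge by `norm_num`). -/
theorem thN_hq_of_check' {t J : ℕ} {Q : ℤ} {q : ℕ → ℤ} (h : thN_check t J Q q = true)
    {tr Qr : ℝ} (ht : tr = (t : ℝ)) (hQ : Qr = (Q : ℝ)) :
    ∀ j ≤ J, |(q j : ℝ) - Qr * thA_pois tr J j| ≤ 1 := by
  subst ht hQ
  exact thN_hq_of_check h

/-- the canonical table `q_j = ⌊Q N_j / S⌋`. -/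
def thN_q (t J : ℕ) (Q : ℤ) (j : ℕ) : ℤ := Q * (thN_num t J j : ℤ) / (thN_den t J : ℤ)

theorem thN_q_close (t J : ℕ) (Q : ℤ) :
    ∀ j ≤ J, |(thN_q t J Q j : ℝ) - (Q : ℝ) * thA_pois (t : ℝ) J j| ≤ 1 := by
  intro j hj
  have hS : (0 : ℤ) < (thN_den t J : ℤ) := by exact_mod_cast thN_den_pos t J
  have h1 := Int.mul_ediv_add_emod (Q * (thN_num t J j : ℤ)) (thN_den t J : ℤ)
  have h2 := Int.emod_nonneg (Q * (thN_num t J j : ℤ)) hS.ne'
  have h3 := Int.emod_lt_of_pos (Q * (thN_num t J j : ℤ)) hS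
  refine thN_close_of_int hj ?_ ?_ <;> unfold thN_q <;> nlinarith

theorem thN_q_close' (t J : ℕ) (Q : ℤ) {tr Qr : ℝ} (ht : tr = (t : ℝ)) (hQ : Qr = (Q : ℝ)) :
    ∀ j ≤ J, |(thN_q t J Q j : ℝ) - Qr * thA_pois tr J j| ≤ 1 := by
  subst ht hQ
  exact thN_q_close t J Q

/-! ### 2. numeric bounds of the Poisson tail -/

theorem thN_exp_nat_le (t : ℕ) : Real.exp (t : ℝ) ≤ 3 ^ t := by
  have h : Real.exp 1 ≤ 3 := by
    have := Real.exp_one_lt_d9
    linarith
  calc Real.exp (t : ℝ) = Real.exp 1 ^ t := by rw [← Real.exp_nat_mul, mul_one]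
    _ ≤ 3 ^ t := pow_le_pow_left₀ (Real.exp_pos _).le h t

theorem thN_tail_le (t J : ℕ) : thA_tail (t : ℝ) J ≤ 3 ^ t / 2 ^ (J + 1) :=
  (thA_tail_le (Nat.cast_nonneg t) J).trans
    (div_le_div_of_nonneg_right (thN_exp_nat_le t) (by positivity))

theorem thN_tail_le' {tr : ℝ} {t : ℕ} (ht : tr = (t : ℝ)) (J : ℕ) :
    thA_tail tr J ≤ 3 ^ t / 2 ^ (J + 1) := by
  subst ht
  exact thN_tail_le t J

theorem thN_tail_84_256 : thA_tail 84 256 ≤ 3 ^ 84 / 2 ^ 257 :=
  thN_tail_le' (t := 84) (by norm_num) 256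

theorem thN_tail_84_256' : thA_tail 84 256 ≤ 1 / 2 ^ 123 := by
  refine thN_tail_84_256.trans ?_
  rw [show (2 : ℝ) ^ 257 = 2 ^ 134 * 2 ^ 123 by rw [← pow_add], div_mul_eq_div_div]
  refine div_le_div_of_nonneg_right ?_ (by positivity)
  rw [div_le_one (by positivity)]
  norm_num

theorem thN_tail_49_192 : thA_tail 49 192 ≤ 3 ^ 49 / 2 ^ 193 :=
  thN_tail_le' (t := 49) (by norm_num) 192

theorem thN_tail_49_192' : thA_tail 49 192 ≤ 1 / 2 ^ 115 :=
  thN_tail_49_192.trans (by norm_num)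

/-! ### 3. rational enclosures of the exponential -/

/-- Taylor sums `∑_{m < N} y^m / m!` over `ℚ`. -/
def thN_taylor (y : ℚ) : ℕ → ℚ
  | 0 => 0
  | k + 1 => thN_taylor y k + y ^ k / (k.factorial : ℚ)

theorem thN_taylor_cast (y : ℚ) (N : ℕ) :
    ((thN_taylor y N : ℚ) : ℝ) = ∑ m ∈ range N, (y : ℝ) ^ m / (m.factorial : ℝ) := by
  induction N with
  | zero => simp [thN_taylor]
  | succ k ih =>
    rw [thN_taylor, Finset.sum_range_succ, ← ih]
    push_cast
    ring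

/-- Boolean checker for `xl ≤ exp (k y) ≤ xh`, `0 ≤ y ≤ 1`, by `N` Taylor terms of `exp y`. -/
def thN_expChk (y : ℚ) (N k : ℕ) (xl xh : ℚ) : Bool :=
  decide (0 ≤ y) && decide (y ≤ 1) && decide (0 < N) &&
    decide (xl ≤ thN_taylor y N ^ k) &&
    decide ((thN_taylor y N + y ^ N * ((N : ℚ) + 1) / ((N.factorial : ℚ) * (N : ℚ))) ^ k ≤ xh)

/-- **Enclosure of the exponential.** -/
theorem thN_exp_of_chk {y : ℚ} {N k : ℕ} {xl xh : ℚ} (h : thN_expChk y N k xl xh = true)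
    {x : ℝ} (hx : x = (k : ℝ) * (y : ℝ)) : (xl : ℝ) ≤ Real.exp x ∧ Real.exp x ≤ (xh : ℝ) := by
  unfold thN_expChk at h
  simp only [Bool.and_eq_true, decide_eq_true_eq] at h
  obtain ⟨⟨⟨⟨h0, h1⟩, hN⟩, hl⟩, hh⟩ := h
  have h0' : (0 : ℝ) ≤ (y : ℝ) := by exact_mod_cast h0
  have h1' : (y : ℝ) ≤ 1 := by exact_mod_cast h1
  have hl' : (xl : ℝ) ≤ ((thN_taylor y N : ℚ) : ℝ) ^ k := by exact_mod_cast hl
  have hh' : (((thN_taylor y N : ℚ) : ℝ)
      + (y : ℝ) ^ N * ((N : ℝ) + 1) / ((N.factorial : ℝ) * (N : ℝ))) ^ k ≤ (xh : ℝ) := by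
    exact_mod_cast hh
  rw [thN_taylor_cast] at hl' hh'
  have e1 : Real.exp x = Real.exp (y : ℝ) ^ k := by rw [hx, Real.exp_nat_mul]
  have hs0 : 0 ≤ ∑ m ∈ range N, (y : ℝ) ^ m / (m.factorial : ℝ) :=
    Finset.sum_nonneg fun m _ => by positivity
  rw [e1]
  constructor
  · exact hl'.trans (pow_le_pow_left₀ hs0 (Real.sum_le_exp_of_nonneg h0' N) k)
  · exact (pow_le_pow_left₀ (Real.exp_pos _).le (Real.exp_bound' h0' h1' hN) k).trans hh'

/-- enclosure of `exp (-x)`. -/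
theorem thN_exp_neg_of_chk {y : ℚ} {N k : ℕ} {xl xh : ℚ} (h : thN_expChk y N k xl xh = true)
    (hxl : 0 < xl) {x : ℝ} (hx : x = -((k : ℝ) * (y : ℝ))) :
    1 / (xh : ℝ) ≤ Real.exp x ∧ Real.exp x ≤ 1 / (xl : ℝ) := by
  obtain ⟨h1, h2⟩ := thN_exp_of_chk h (x := -x) (by rw [hx, neg_neg])
  have hxl' : (0 : ℝ) < (xl : ℝ) := by exact_mod_cast hxl
  have e : Real.exp x = 1 / Real.exp (-x) := by rw [Real.exp_neg, one_div, inv_inv]
  rw [e]
  exact ⟨one_div_le_one_div_of_le (Real.exp_pos _) h2, one_div_le_one_div_of_le hxl' h1⟩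

/-! #### the instances `x = (3/2 - a) b n`, `a = 700741/500000`, `b = 21/2`, `n = 4, …, 10` -/

theorem thN_exp_x4 :
    (626620499225 / 10000000000 : ℝ) ≤ Real.exp ((3 / 2 - 700741 / 500000) * (21 / 2) * 4) ∧
      Real.exp ((3 / 2 - 700741 / 500000) * (21 / 2) * 4) ≤ 626620499226 / 10000000000 := by
  have h : thN_expChk (1034439 / 4000000) 14 16 (626620499225 / 10000000000) (626620499226 / 10000000000) = true := by
    decide +kernel
  have h2 := thN_exp_of_chk h (x := (3 / 2 - 700741 / 500000) * (21 / 2) * 4) (by norm_num)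
  norm_num at h2 ⊢
  exact h2

theorem thN_exp_x5 :
    (1763013946436 / 10000000000 : ℝ) ≤ Real.exp ((3 / 2 - 700741 / 500000) * (21 / 2) * 5) ∧
      Real.exp ((3 / 2 - 700741 / 500000) * (21 / 2) * 5) ≤ 1763013946437 / 10000000000 := by
  have h : thN_expChk (1034439 / 3200000) 14 16 (1763013946436 / 10000000000) (1763013946437 / 10000000000) = true := by
    decide +kernel
  have h2 := thN_exp_of_chk h (x := (3 / 2 - 700741 / 500000) * (21 / 2) * 5) (by norm_num)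
  norm_num at h2 ⊢
  exact h2

theorem thN_exp_x6 :
    (4960288051808 / 10000000000 : ℝ) ≤ Real.exp ((3 / 2 - 700741 / 500000) * (21 / 2) * 6) ∧
      Real.exp ((3 / 2 - 700741 / 500000) * (21 / 2) * 6) ≤ 4960288051809 / 10000000000 := by
  have h : thN_expChk (3103317 / 8000000) 14 16 (4960288051808 / 10000000000) (4960288051809 / 10000000000) = true := by
    decide +kernel
  have h2 := thN_exp_of_chk h (x := (3 / 2 - 700741 / 500000) * (21 / 2) * 6) (by norm_num)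
  norm_num at h2 ⊢
  exact h2

theorem thN_exp_x7 :
    (13955906365147 / 10000000000 : ℝ) ≤ Real.exp ((3 / 2 - 700741 / 500000) * (21 / 2) * 7) ∧
      Real.exp ((3 / 2 - 700741 / 500000) * (21 / 2) * 7) ≤ 13955906365148 / 10000000000 := by
  have h : thN_expChk (7241073 / 16000000) 14 16 (13955906365147 / 10000000000) (13955906365148 / 10000000000) = true := by
    decide +kernel
  have h2 := thN_exp_of_chk h (x := (3 / 2 - 700741 / 500000) * (21 / 2) * 7) (by norm_num)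
  norm_num at h2 ⊢
  exact h2

theorem thN_exp_x8 :
    (39265325005016 / 10000000000 : ℝ) ≤ Real.exp ((3 / 2 - 700741 / 500000) * (21 / 2) * 8) ∧
      Real.exp ((3 / 2 - 700741 / 500000) * (21 / 2) * 8) ≤ 39265325005017 / 10000000000 := by
  have h : thN_expChk (1034439 / 2000000) 14 16 (39265325005016 / 10000000000) (39265325005017 / 10000000000) = true := by
    decide +kernel
  have h2 := thN_exp_of_chk h (x := (3 / 2 - 700741 / 500000) * (21 / 2) * 8) (by norm_num)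
  norm_num at h2 ⊢
  exact h2

theorem thN_exp_x9 :
    (110474067925810 / 10000000000 : ℝ) ≤ Real.exp ((3 / 2 - 700741 / 500000) * (21 / 2) * 9) ∧
      Real.exp ((3 / 2 - 700741 / 500000) * (21 / 2) * 9) ≤ 110474067925817 / 10000000000 := by
  have h : thN_expChk (9309951 / 16000000) 14 16 (110474067925810 / 10000000000) (110474067925817 / 10000000000) = true := by
    decide +kernel
  have h2 := thN_exp_of_chk h (x := (3 / 2 - 700741 / 500000) * (21 / 2) * 9) (by norm_num)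
  norm_num at h2 ⊢
  exact h2

theorem thN_exp_x10 :
    (310821817532791 / 10000000000 : ℝ) ≤ Real.exp ((3 / 2 - 700741 / 500000) * (21 / 2) * 10) ∧
      Real.exp ((3 / 2 - 700741 / 500000) * (21 / 2) * 10) ≤ 310821817532864 / 10000000000 := by
  have h : thN_expChk (1034439 / 1600000) 14 16 (310821817532791 / 10000000000) (310821817532864 / 10000000000) = true := by
    decide +kernel
  have h2 := thN_exp_of_chk h (x := (3 / 2 - 700741 / 500000) * (21 / 2) * 10) (by norm_num)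
  norm_num at h2 ⊢
  exact h2

/-! ### 4. one-call wrappers -/

section wrappers

variable {ι : Type} [Fintype ι] [DecidableEq ι]

omit [Fintype ι] [DecidableEq ι] in
/-- scalar core of the wrappers (`G` plays the role of `gibbsZ H b`). -/
theorem thN_close_core {G s b x sh T Q err r xl xh centre tol : ℝ} (hG : 0 ≤ G)
    (hQ : 0 < Q)
    (h : |Real.sqrt T / Q - Real.sqrt (Real.exp (-(b * s)) * G)| ≤ err)
    (hx : x - b * s = -sh)
    (hr0 : 0 ≤ r) (hr1 : r ^ 2 ≤ T) (hr2 : T ≤ (r + 1) ^ 2)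
    (hxl : xl ≤ Real.exp x) (hxh : Real.exp x ≤ xh)
    (herr : err ≤ r / Q)
    (h1 : centre - tol ≤ xl * (r / Q - err) ^ 2)
    (h2 : xh * ((r + 1) / Q + err) ^ 2 ≤ centre + tol) :
    |Real.exp (-sh) * G - centre| ≤ tol := by
  have e1 : r / Q * Q = r := by field_simp
  have e2 : (r + 1) / Q * Q = r + 1 := by field_simp
  have hG' : 0 ≤ Real.exp (-(b * s)) * G := mul_nonneg (Real.exp_pos _).le hG
  obtain ⟨h3, h4⟩ := thA_interval_of_sqrt_close (T := T) (G := Real.exp (-(b * s)) * G) (Q := Q)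
    (lo := r / Q) (hi := (r + 1) / Q) (err := err) hG' hQ h
    (by rw [e1]; exact hr1) (by rw [e2]; exact hr2) (by positivity) herr
  have h5 : Real.exp (-sh) * G = Real.exp x * (Real.exp (-(b * s)) * G) := by
    rw [← hx, sub_eq_add_neg, Real.exp_add]; ring
  have h6 : xl * (r / Q - err) ^ 2 ≤ Real.exp x * (Real.exp (-(b * s)) * G) :=
    mul_le_mul hxl h3 (by positivity) (Real.exp_pos _).le
  have h7 : Real.exp x * (Real.exp (-(b * s)) * G) ≤ xh * ((r + 1) / Q + err) ^ 2 :=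
    mul_le_mul hxh h4 hG' ((Real.exp_pos _).le.trans hxh)
  rw [h5, abs_le]
  constructor <;> linarith

/-- **Generic wrapper.**  `h` is the conclusion of `thA_gibbs_certificate` (or of
`thA_gibbs_certificate_of_diag`, any engine) weakened to a number `err`; `r` is the integer square
root of `T`; all other hypotheses are closed rational inequalities. -/
theorem thN_gibbs_close {H : Matrix ι ι ℂ} {s b x sh T Q err r xl xh centre tol : ℝ}
    (hQ : 0 < Q)
    (h : |Real.sqrt T / Q - Real.sqrt (Real.exp (-(b * s)) * gibbsZ H b)| ≤ err)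
    (hx : x - b * s = -sh)
    (hr0 : 0 ≤ r) (hr1 : r ^ 2 ≤ T) (hr2 : T ≤ (r + 1) ^ 2)
    (hxl : xl ≤ Real.exp x) (hxh : Real.exp x ≤ xh)
    (herr : err ≤ r / Q)
    (h1 : centre - tol ≤ xl * (r / Q - err) ^ 2)
    (h2 : xh * ((r + 1) / Q + err) ^ 2 ≤ centre + tol) :
    |Real.exp (-sh) * gibbsZ H b - centre| ≤ tol :=
  thN_close_core (thA_gibbsZ_nonneg b) hQ h hx hr0 hr1 hr2 hxl hxh herr h1 h2

/-- the same for the twisted ring. -/
theorem thN_Zring_close {n : ℕ} {R : Matrix (Fin 3) (Fin 3) ℝ}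
    {a s b x T Q err r xl xh centre tol : ℝ} (hQ : 0 < Q)
    (h : |Real.sqrt T / Q - Real.sqrt (Real.exp (-(b * s)) * gibbsZ (twistRing n R) b)| ≤ err)
    (hx : x - b * s = -(a * b * n))
    (hr0 : 0 ≤ r) (hr1 : r ^ 2 ≤ T) (hr2 : T ≤ (r + 1) ^ 2)
    (hxl : xl ≤ Real.exp x) (hxh : Real.exp x ≤ xh)
    (herr : err ≤ r / Q)
    (h1 : centre - tol ≤ xl * (r / Q - err) ^ 2)
    (h2 : xh * ((r + 1) / Q + err) ^ 2 ≤ centre + tol) :
    |Zring a n R b - centre| ≤ tol :=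
  thN_gibbs_close hQ h hx hr0 hr1 hr2 hxl hxh herr h1 h2

/-- the same for the chain of `m + 1` sites with endpoint fields along `z`. -/
theorem thN_Zopen_close {m : ℕ} {hL hR a s b x T Q err r xl xh centre tol : ℝ} (hQ : 0 < Q)
    (h : |Real.sqrt T / Q - Real.sqrt (Real.exp (-(b * s)) * gibbsZ (openChain m hL hR) b)| ≤ err)
    (hx : x - b * s = -(a * b * (m + 1 : ℕ)))
    (hr0 : 0 ≤ r) (hr1 : r ^ 2 ≤ T) (hr2 : T ≤ (r + 1) ^ 2)
    (hxl : xl ≤ Real.exp x) (hxh : Real.exp x ≤ xh)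
    (herr : err ≤ r / Q)
    (h1 : centre - tol ≤ xl * (r / Q - err) ^ 2)
    (h2 : xh * ((r + 1) / Q + err) ^ 2 ≤ centre + tol) :
    |Zopen a (m + 1) hL hR b - centre| ≤ tol :=
  thN_gibbs_close hQ h hx hr0 hr1 hr2 hxl hxh herr h1 h2

/-- the same with the right field along `x`. -/
theorem thN_ZopenX_close {m : ℕ} {hL hR a s b x T Q err r xl xh centre tol : ℝ} (hQ : 0 < Q)
    (h : |Real.sqrt T / Q - Real.sqrt (Real.exp (-(b * s)) * gibbsZ (openChainX m hL hR) b)| ≤ err)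
    (hx : x - b * s = -(a * b * (m + 1 : ℕ)))
    (hr0 : 0 ≤ r) (hr1 : r ^ 2 ≤ T) (hr2 : T ≤ (r + 1) ^ 2)
    (hxl : xl ≤ Real.exp x) (hxh : Real.exp x ≤ xh)
    (herr : err ≤ r / Q)
    (h1 : centre - tol ≤ xl * (r / Q - err) ^ 2)
    (h2 : xh * ((r + 1) / Q + err) ^ 2 ≤ centre + tol) :
    |ZopenX a (m + 1) hL hR b - centre| ≤ tol :=
  thN_gibbs_close hQ h hx hr0 hr1 hr2 hxl hxh herr h1 h2

theorem thN_card_conf (n : ℕ) : Fintype.card (Fin n → Fin 3) = 3 ^ n := by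
  simp

/-- `√(3^n) = 3^k` for `n = 2 k`. -/
theorem thN_sqrt_card {n k : ℕ} (h : n = 2 * k) :
    Real.sqrt ((Fintype.card (Fin n → Fin 3) : ℕ) : ℝ) = 3 ^ k := by
  rw [thN_card_conf, h, pow_mul']
  push_cast
  exact Real.sqrt_sq (by positivity)

theorem thN_sqrt_card_le (n : ℕ) :
    Real.sqrt ((Fintype.card (Fin n → Fin 3) : ℕ) : ℝ) ≤ 3 ^ n := by
  rw [thN_card_conf]
  push_cast
  rw [Real.sqrt_le_left (by positivity)]
  have h1 : (1 : ℝ) ≤ 3 ^ n := one_le_pow₀ (by norm_num)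
  nlinarith

omit [DecidableEq ι] in
/-- error term of `thA_gibbs_certificate` for natural `t = b c / 2`, any finite index type. -/
theorem thN_cert_err_le {tr : ℝ} {t : ℕ} (ht : tr = (t : ℝ)) (J : ℕ) {E Q d : ℝ}
    (hd : Real.sqrt ((Fintype.card ι : ℕ) : ℝ) ≤ d) :
    E / Q + Real.sqrt ((Fintype.card ι : ℕ) : ℝ) * (2 * thA_tail tr J)
      ≤ E / Q + d * (2 * (3 ^ t / 2 ^ (J + 1))) := by
  have h1 := thN_tail_le' ht J
  have h2 : 0 ≤ thA_tail tr J := by
    subst ht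
    exact thA_tail_nonneg (Nat.cast_nonneg t) J
  have h3 : 0 ≤ Real.sqrt ((Fintype.card ι : ℕ) : ℝ) := Real.sqrt_nonneg _
  have h4 : Real.sqrt ((Fintype.card ι : ℕ) : ℝ) * (2 * thA_tail tr J)
      ≤ d * (2 * (3 ^ t / 2 ^ (J + 1))) :=
    mul_le_mul hd (by linarith) (by positivity) (h3.trans hd)
  linarith

/-- **One call, conditioned Poisson engine, any Hermitian matrix.**  Hypotheses up to `hE` are those
of `thA_gibbs_certificate`; the remaining ones are closed rational (in)equalities. -/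
theorem thN_gibbs_poisson {H : Matrix ι ι ℂ} (hH : H.IsHermitian) (s c b : ℝ)
    (hc : 0 < c) (hb : 0 ≤ b)
    (hlo : ∀ k, -s ≤ hH.eigenvalues k) (hhi : ∀ k, hH.eigenvalues k ≤ 2 * c - s) (J : ℕ)
    {κ : Type} [Fintype κ] (m : κ → ℝ) (hm : ∀ c, 0 ≤ m c) (u y : κ → ι → ℂ)
    (horbit : ∑ c', m c' * thA_nsq (thA_PW (thA_W H s c) (b * c / 2) J *ᵥ u c')
      = ∑ r, thA_nsq (thA_PW (thA_W H s c) (b * c / 2) J *ᵥ Pi.single r 1))
    (Q : ℝ) (hQ : 0 < Q) (η : κ → ℝ)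
    (hy : ∀ c', thA_nrm (y c' - (Q : ℂ) • (thA_PW (thA_W H s c) (b * c / 2) J *ᵥ u c')) ≤ η c')
    (E : ℝ) (hE0 : 0 ≤ E) (hE : ∑ c, m c * η c ^ 2 ≤ E ^ 2)
    {T : ℝ} (hT : ∑ c, m c * thA_nsq (y c) = T)
    {t : ℕ} (ht : b * c / 2 = (t : ℝ)) {d : ℝ} (hd : Real.sqrt ((Fintype.card ι : ℕ) : ℝ) ≤ d)
    {err : ℝ} (herr0 : E / Q + d * (2 * (3 ^ t / 2 ^ (J + 1))) ≤ err)
    {x sh r xl xh centre tol : ℝ} (hx : x - b * s = -sh)
    (hr0 : 0 ≤ r) (hr1 : r ^ 2 ≤ T) (hr2 : T ≤ (r + 1) ^ 2)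
    (hxl : xl ≤ Real.exp x) (hxh : Real.exp x ≤ xh)
    (herr : err ≤ r / Q)
    (h1 : centre - tol ≤ xl * (r / Q - err) ^ 2)
    (h2 : xh * ((r + 1) / Q + err) ^ 2 ≤ centre + tol) :
    |Real.exp (-sh) * gibbsZ H b - centre| ≤ tol := by
  have h := thA_gibbs_certificate hH s c b hc hb hlo hhi J m hm u y horbit Q hQ η hy E hE0 hE
  rw [hT] at h
  exact thN_gibbs_close hQ (h.trans ((thN_cert_err_le ht J hd).trans herr0)) hx hr0 hr1 hr2
    hxl hxh herr h1 h2

omit [Fintype ι] [DecidableEq ι] in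
theorem thN_err84 {n : ℕ} {E Q err : ℝ} (h : E / Q + 3 ^ n * (2 * (1 / 2 ^ 123)) ≤ err) :
    E / Q + 3 ^ n * (2 * (3 ^ 84 / 2 ^ (256 + 1))) ≤ err := by
  have h1 : (3 : ℝ) ^ 84 / 2 ^ (256 + 1) ≤ 1 / 2 ^ 123 := by
    rw [show (2 : ℝ) ^ (256 + 1) = 2 ^ 134 * 2 ^ 123 by rw [← pow_add], div_mul_eq_div_div]
    refine div_le_div_of_nonneg_right ?_ (by positivity)
    rw [div_le_one (by positivity)]
    norm_num
  have h2 : (3 : ℝ) ^ n * (2 * (3 ^ 84 / 2 ^ (256 + 1))) ≤ 3 ^ n * (2 * (1 / 2 ^ 123)) :=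
    mul_le_mul_of_nonneg_left (mul_le_mul_of_nonneg_left h1 (by norm_num)) (by positivity)
  exact (add_le_add_right h2 _).trans h

/-- **One call for a ring entry of the table** (`b = 21/2`, `c = 16`, `s = 3 n / 2`, `t = 84`,
`J = 256`, `a = 700741/500000`). -/
theorem thN_Zring_poisson {n : ℕ} {R : Matrix (Fin 3) (Fin 3) ℝ}
    (hH : (twistRing n R).IsHermitian)
    (hlo : ∀ k, -(3 * (n : ℝ) / 2) ≤ hH.eigenvalues k)
    (hhi : ∀ k, hH.eigenvalues k ≤ 2 * 16 - 3 * (n : ℝ) / 2)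
    {κ : Type} [Fintype κ] (m : κ → ℝ) (hm : ∀ c, 0 ≤ m c) (u y : κ → (Fin n → Fin 3) → ℂ)
    (horbit : ∑ c', m c' * thA_nsq
        (thA_PW (thA_W (twistRing n R) (3 * (n : ℝ) / 2) 16) (21 / 2 * 16 / 2) 256 *ᵥ u c')
      = ∑ r, thA_nsq
        (thA_PW (thA_W (twistRing n R) (3 * (n : ℝ) / 2) 16) (21 / 2 * 16 / 2) 256 *ᵥ Pi.single r 1))
    (Q : ℝ) (hQ : 0 < Q) (η : κ → ℝ)
    (hy : ∀ c', thA_nrm (y c' - (Q : ℂ) •
      (thA_PW (thA_W (twistRing n R) (3 * (n : ℝ) / 2) 16) (21 / 2 * 16 / 2) 256 *ᵥ u c')) ≤ η c')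
    (E : ℝ) (hE0 : 0 ≤ E) (hE : ∑ c, m c * η c ^ 2 ≤ E ^ 2)
    {T : ℝ} (hT : ∑ c, m c * thA_nsq (y c) = T)
    {err : ℝ} (herr0 : E / Q + 3 ^ n * (2 * (1 / 2 ^ 123)) ≤ err)
    {r xl xh centre tol : ℝ}
    (hr0 : 0 ≤ r) (hr1 : r ^ 2 ≤ T) (hr2 : T ≤ (r + 1) ^ 2)
    (hxl : xl ≤ Real.exp ((3 / 2 - 700741 / 500000) * (21 / 2) * n))
    (hxh : Real.exp ((3 / 2 - 700741 / 500000) * (21 / 2) * n) ≤ xh)
    (herr : err ≤ r / Q)
    (h1 : centre - tol ≤ xl * (r / Q - err) ^ 2)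
    (h2 : xh * ((r + 1) / Q + err) ^ 2 ≤ centre + tol) :
    |Zring (700741 / 500000) n R (21 / 2) - centre| ≤ tol :=
  thN_gibbs_poisson hH (3 * (n : ℝ) / 2) 16 (21 / 2) (by norm_num) (by norm_num)
    hlo hhi 256 m hm u y horbit Q hQ η hy E hE0 hE hT (t := 84) (by norm_num)
    (thN_sqrt_card_le n) (thN_err84 herr0) (by ring) hr0 hr1 hr2 hxl hxh herr h1 h2

/-! #### Boolean form of the closing numeric step

`T` may be an unevaluated call of an engine: it is evaluated once. -/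

/-- closing check: `r = ⌊√T⌋`, `err ≤ r/Q`, and the enclosure lies in `[centre - tol, centre + tol]`. -/
def thN_finalChk (T r Q : ℕ) (err xl xh centre tol : ℚ) : Bool :=
  thN_force T fun T' =>
    decide (0 < Q) && decide (r ^ 2 ≤ T') && decide (T' ≤ (r + 1) ^ 2) &&
      decide (err ≤ (r : ℚ) / (Q : ℚ)) &&
      decide (centre - tol ≤ xl * ((r : ℚ) / (Q : ℚ) - err) ^ 2) &&
      decide (xh * (((r : ℚ) + 1) / (Q : ℚ) + err) ^ 2 ≤ centre + tol)

/-- **Generic wrapper, Boolean form.**  `hexp`, `hfin` by `decide +kernel`, `hx`, `hcen`, `htol` by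
`norm_num` / `ring`; `h` is the certificate of the engine. -/
theorem thN_gibbs_close_chk {H : Matrix ι ι ℂ} {s b sh : ℝ} {T r Q : ℕ}
    {err xl xh centre tol y : ℚ} {N k : ℕ}
    (hexp : thN_expChk y N k xl xh = true)
    (hfin : thN_finalChk T r Q err xl xh centre tol = true)
    (h : |Real.sqrt (T : ℝ) / (Q : ℝ) - Real.sqrt (Real.exp (-(b * s)) * gibbsZ H b)| ≤ (err : ℝ))
    (hx : (k : ℝ) * (y : ℝ) - b * s = -sh)
    {centreR tolR : ℝ} (hcen : centreR = (centre : ℝ)) (htol : tolR = (tol : ℝ)) :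
    |Real.exp (-sh) * gibbsZ H b - centreR| ≤ tolR := by
  subst hcen htol
  obtain ⟨hxl, hxh⟩ := thN_exp_of_chk hexp (x := (k : ℝ) * (y : ℝ)) rfl
  unfold thN_finalChk at hfin
  rw [thN_force_eq] at hfin
  simp only [Bool.and_eq_true, decide_eq_true_eq] at hfin
  obtain ⟨⟨⟨⟨⟨hQ, hr1⟩, hr2⟩, herr⟩, h1⟩, h2⟩ := hfin
  have herr' := (Rat.cast_le (K := ℝ)).2 herr
  have h1' := (Rat.cast_le (K := ℝ)).2 h1
  have h2' := (Rat.cast_le (K := ℝ)).2 h2
  push_cast at herr' h1' h2'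
  exact thN_gibbs_close (r := (r : ℝ)) (by exact_mod_cast hQ) h hx (Nat.cast_nonneg r)
    (by exact_mod_cast hr1) (by exact_mod_cast hr2) hxl hxh herr' h1' h2'

theorem thN_Zring_close_chk {n : ℕ} {R : Matrix (Fin 3) (Fin 3) ℝ} {a s b : ℝ} {T r Q : ℕ}
    {err xl xh centre tol y : ℚ} {N k : ℕ}
    (hexp : thN_expChk y N k xl xh = true)
    (hfin : thN_finalChk T r Q err xl xh centre tol = true)
    (h : |Real.sqrt (T : ℝ) / (Q : ℝ)
      - Real.sqrt (Real.exp (-(b * s)) * gibbsZ (twistRing n R) b)| ≤ (err : ℝ))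
    (hx : (k : ℝ) * (y : ℝ) - b * s = -(a * b * n))
    {centreR tolR : ℝ} (hcen : centreR = (centre : ℝ)) (htol : tolR = (tol : ℝ)) :
    |Zring a n R b - centreR| ≤ tolR :=
  thN_gibbs_close_chk hexp hfin h hx hcen htol

theorem thN_Zopen_close_chk {m : ℕ} {hL hR a s b : ℝ} {T r Q : ℕ}
    {err xl xh centre tol y : ℚ} {N k : ℕ}
    (hexp : thN_expChk y N k xl xh = true)
    (hfin : thN_finalChk T r Q err xl xh centre tol = true)
    (h : |Real.sqrt (T : ℝ) / (Q : ℝ)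
      - Real.sqrt (Real.exp (-(b * s)) * gibbsZ (openChain m hL hR) b)| ≤ (err : ℝ))
    (hx : (k : ℝ) * (y : ℝ) - b * s = -(a * b * (m + 1 : ℕ)))
    {centreR tolR : ℝ} (hcen : centreR = (centre : ℝ)) (htol : tolR = (tol : ℝ)) :
    |Zopen a (m + 1) hL hR b - centreR| ≤ tolR :=
  thN_gibbs_close_chk hexp hfin h hx hcen htol

theorem thN_ZopenX_close_chk {m : ℕ} {hL hR a s b : ℝ} {T r Q : ℕ}
    {err xl xh centre tol y : ℚ} {N k : ℕ}
    (hexp : thN_expChk y N k xl xh = true)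
    (hfin : thN_finalChk T r Q err xl xh centre tol = true)
    (h : |Real.sqrt (T : ℝ) / (Q : ℝ)
      - Real.sqrt (Real.exp (-(b * s)) * gibbsZ (openChainX m hL hR) b)| ≤ (err : ℝ))
    (hx : (k : ℝ) * (y : ℝ) - b * s = -(a * b * (m + 1 : ℕ)))
    {centreR tolR : ℝ} (hcen : centreR = (centre : ℝ)) (htol : tolR = (tol : ℝ)) :
    |ZopenX a (m + 1) hL hR b - centreR| ≤ tolR :=
  thN_gibbs_close_chk hexp hfin h hx hcen htol

end wrappers

end Claimed.Agent.R297
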