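/-
Row 297 (spin-one Haldane gap), package D1b (numeric wrappers), owner helper128.  Prefix `thN_`.
Closing numeric step for the Clenshaw-Chebyshev certificate `thC_gibbs_certificate` (helper46):
Poisson tails for rational `t`, the rational error bound, and one-call wrappers in Boolean form.
-/
import Mathlib
import Claimed.Agent.R297.ThermalAnaNum
import Claimed.Agent.R297.ThermalChebMain

namespace Claimed.Agent.R297

open Matrix Finset

/-- Poisson tail for real `0 ≤ tr ≤ t3`, `t3` natural. -/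
theorem thN_tail_le_of_le {tr : ℝ} {t3 : ℕ} (h0 : 0 ≤ tr) (h1 : tr ≤ (t3 : ℝ)) (J : ℕ) :
    thA_tail tr J ≤ 3 ^ t3 / 2 ^ (J + 1) :=
  (thA_tail_le h0 J).trans (div_le_div_of_nonneg_right
    ((Real.exp_le_exp.2 h1).trans (thN_exp_nat_le t3)) (by positivity))

/-- Poisson tail for rational `t = tn / td ≤ t3`. -/
theorem thN_tail_rat_le {tn td t3 : ℕ} (htd : 0 < td) (ht3 : tn ≤ t3 * td) (J : ℕ) :
    thA_tail ((tn : ℝ) / td) J ≤ 3 ^ t3 / 2 ^ (J + 1) := by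
  have htd' : (0 : ℝ) < td := by exact_mod_cast htd
  refine thN_tail_le_of_le (by positivity) ?_ J
  rw [div_le_iff₀ htd']
  exact_mod_cast ht3

/-- the rational error bound `En / Q2 + d (εn / εd + 2 · 3^t3 / 2^(J+1))`. -/
def thN_err (En Q2 d εn εd t3 J : ℕ) : ℚ :=
  (En : ℚ) / (Q2 : ℚ) + (d : ℚ) * ((εn : ℚ) / (εd : ℚ) + 2 * ((3 : ℚ) ^ t3 / (2 : ℚ) ^ (J + 1)))

theorem thN_sqrt_card_le_of_sq {ι : Type} [Fintype ι] {d : ℕ} (hd : Fintype.card ι ≤ d ^ 2) :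
    Real.sqrt ((Fintype.card ι : ℕ) : ℝ) ≤ (d : ℝ) := by
  rw [Real.sqrt_le_left (Nat.cast_nonneg d)]
  exact_mod_cast hd

/-- the right-hand side of `thC_gibbs_certificate` is at most `thN_err`. -/
theorem thN_cheb_err_le {ι : Type} [Fintype ι] {E : ℝ} {En Q2 d εn εd tn td t3 J : ℕ}
    (hE : E ≤ (En : ℝ)) (hd : Fintype.card ι ≤ d ^ 2) (htd : 0 < td) (ht3 : tn ≤ t3 * td) :
    E / (Q2 : ℝ) + Real.sqrt ((Fintype.card ι : ℕ) : ℝ)
        * ((εn : ℝ) / εd + 2 * thA_tail ((tn : ℝ) / td) J)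
      ≤ ((thN_err En Q2 d εn εd t3 J : ℚ) : ℝ) := by
  unfold thN_err
  push_cast
  have h1 := thN_tail_rat_le htd ht3 J
  have h2 : 0 ≤ thA_tail ((tn : ℝ) / td) J := thA_tail_nonneg (by positivity) J
  have h3 := thN_sqrt_card_le_of_sq hd
  have h4 : E / (Q2 : ℝ) ≤ (En : ℝ) / (Q2 : ℝ) :=
    div_le_div_of_nonneg_right hE (Nat.cast_nonneg Q2)
  have h5 : Real.sqrt ((Fintype.card ι : ℕ) : ℝ) * ((εn : ℝ) / εd + 2 * thA_tail ((tn : ℝ) / td) J)
      ≤ (d : ℝ) * ((εn : ℝ) / εd + 2 * (3 ^ t3 / 2 ^ (J + 1))) :=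
    mul_le_mul h3 (by linarith) (by positivity) (Nat.cast_nonneg d)
  linarith

section wrappers

variable {ι : Type} [Fintype ι] [DecidableEq ι]

/-- **Closing step for the Chebyshev certificate.**  `h` is literally the conclusion of
`thC_gibbs_certificate` after rewriting the weighted sum of squared norms as the natural number `T`.
`hexp`, `hfin` by `decide +kernel`; `hd`, `ht3` by `norm_num` / `decide`. -/
theorem thN_gibbs_close_cheb {H : Matrix ι ι ℂ} {s b sh E : ℝ}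
    {T r Q En d εn εd tn td t3 J : ℕ} {xl xh centre tol y : ℚ} {N k : ℕ}
    (h : |Real.sqrt (T : ℝ) / ((2 * Q : ℕ) : ℝ) - Real.sqrt (Real.exp (-(b * s)) * gibbsZ H b)|
      ≤ E / ((2 * Q : ℕ) : ℝ)
        + Real.sqrt (Fintype.card ι) * ((εn : ℝ) / εd + 2 * thA_tail ((tn : ℝ) / td) J))
    (hE : E ≤ (En : ℝ)) (hd : Fintype.card ι ≤ d ^ 2) (htd : 0 < td) (ht3 : tn ≤ t3 * td)
    (hexp : thN_expChk y N k xl xh = true)
    (hfin : thN_finalChk T r (2 * Q) (thN_err En (2 * Q) d εn εd t3 J) xl xh centre tol = true)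
    (hx : (k : ℝ) * (y : ℝ) - b * s = -sh)
    {centreR tolR : ℝ} (hcen : centreR = (centre : ℝ)) (htol : tolR = (tol : ℝ)) :
    |Real.exp (-sh) * gibbsZ H b - centreR| ≤ tolR :=
  thN_gibbs_close_chk hexp hfin (h.trans (thN_cheb_err_le hE hd htd ht3)) hx hcen htol

/-- **One call, Clenshaw-Chebyshev engine, any Hermitian matrix**: the hypotheses of
`thC_gibbs_certificate` plus closed checks. -/
theorem thN_gibbs_cheb {H : Matrix ι ι ℂ} (hH : H.IsHermitian) (s c b : ℝ) (hc : 0 < c)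
    (hlo : ∀ k, -s ≤ hH.eigenvalues k) (hhi : ∀ k, hH.eigenvalues k ≤ 2 * c - s)
    (tn td J : ℕ) (htd : 0 < td) (ht : b * c / 2 = (tn : ℝ) / td)
    (q : List ℕ) (hq : q ≠ []) (Q : ℕ) (hQ : 0 < Q) (εn εd : ℕ) (hεd : 0 < εd)
    (hcheck : thC_l1dist (q.map (· * thC_poisDen tn td J))
        ((thC_reexp (thC_poisList tn td J)).map (· * Q)) * εd ≤ εn * (Q * thC_poisDen tn td J))
    {κ : Type} [Fintype κ] (m : κ → ℝ) (hm : ∀ c', 0 ≤ m c') (u y : κ → ι → ℂ)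
    (horbit : ∑ c', m c' * thA_nsq (thC_A (thA_W H s c) q Q *ᵥ u c')
      = ∑ r, thA_nsq (thC_A (thA_W H s c) q Q *ᵥ Pi.single r 1))
    (η : κ → ℝ)
    (hy : ∀ c', thA_nrm (y c' - (((2 * Q : ℕ) : ℝ) : ℂ) • (thC_A (thA_W H s c) q Q *ᵥ u c'))
      ≤ η c')
    (En : ℕ) (hE : ∑ c', m c' * η c' ^ 2 ≤ (En : ℝ) ^ 2)
    {T : ℕ} (hT : ∑ c', m c' * thA_nsq (y c') = (T : ℝ))
    {r d t3 : ℕ} {xl xh centre tol yq : ℚ} {N k : ℕ}
    (hd : Fintype.card ι ≤ d ^ 2) (ht3 : tn ≤ t3 * td)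
    (hexp : thN_expChk yq N k xl xh = true)
    (hfin : thN_finalChk T r (2 * Q) (thN_err En (2 * Q) d εn εd t3 J) xl xh centre tol = true)
    {sh : ℝ} (hx : (k : ℝ) * (yq : ℝ) - b * s = -sh)
    {centreR tolR : ℝ} (hcen : centreR = (centre : ℝ)) (htol : tolR = (tol : ℝ)) :
    |Real.exp (-sh) * gibbsZ H b - centreR| ≤ tolR := by
  have h := thC_gibbs_certificate hH s c b hc hlo hhi tn td J htd ht q hq Q hQ εn εd hεd hcheck
    m hm u y horbit η hy (En : ℝ) (Nat.cast_nonneg En) hE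
  rw [hT] at h
  exact thN_gibbs_close_cheb h le_rfl hd htd ht3 hexp hfin hx hcen htol

end wrappers

end Claimed.Agent.R297
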