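/-
Row 297 (spin-one Haldane gap), package D6: from the weighted total of the integer runs to the
enclosure of the open-chain traces.  Skeleton: helper193; proofs: helper143 (leaf D6b).
-/
import Claimed.Agent.R297.SThermalSpec
import Claimed.Agent.R297.ThermalChebNum
import Claimed.Agent.R297.ModelEnergyOpen
import Claimed.Agent.R297.ModelHerm

namespace Claimed.Agent.R297

open Matrix Finset

section generic

variable {ι : Type} [Fintype ι] [DecidableEq ι]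

omit [DecidableEq ι] in
theorem sthV_cons_ne (B : Matrix ι ι ℤ) (s : ℕ) (e : ι → ℕ) (c : ℕ) (cs : List ℕ) (hcs : cs ≠ [])
    (z1 z2 : ι → ℤ) :
    sthV B s e (c :: cs) z1 z2
      = sthV B s e cs (fun x => (B *ᵥ z1) x / 2 ^ s + (c : ℤ) * (e x : ℤ) - z2 x) z1 := by
  cases cs with
  | nil => exact absurd rfl hcs
  | cons c' cs => rfl

omit [DecidableEq ι] in
theorem sthV_eq_sthU (B : Matrix ι ι ℤ) (s : ℕ) (e : ι → ℕ) (c : ℕ → ℕ) (n : ℕ) : ∀ t : ℕ,
    sthV B s e ((List.range (n + 1)).map fun i => c (t + i)) (sthU B s e c (t + 1)) (sthU B s e c t)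
      = fun x => sthU B s e c (t + n + 2) x - sthU B s e c (t + n) x + (c (t + n) : ℤ) * (e x : ℤ) := by
  induction n with
  | zero =>
    intro t
    simp only [zero_add, List.range_one, List.map_cons, List.map_nil, add_zero]
    rw [sthV_single]
    rfl
  | succ n ih =>
    intro t
    rw [List.range_succ_eq_map, List.map_cons, List.map_map, sthV_cons_ne _ _ _ _ _ (by simp)]
    have h1 : (fun x => (B *ᵥ sthU B s e c (t + 1)) x / 2 ^ s + (c (t + 0) : ℤ) * (e x : ℤ)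
        - sthU B s e c t x) = sthU B s e c (t + 1 + 1) := rfl
    rw [h1]
    have h2 : ((fun i => c (t + i)) ∘ Nat.succ) = fun i => c (t + 1 + i) := by
      funext i
      simp only [Function.comp, Nat.succ_eq_add_one]
      congr 1
      omega
    rw [h2, ih (t + 1)]
    have e1 : t + 1 + n + 2 = t + (n + 1) + 2 := by omega
    have e2 : t + 1 + n = t + (n + 1) := by omega
    rw [e1, e2]

theorem sth_reverse_eq (q : List ℕ) (hq : q ≠ []) :
    q.reverse = (List.range (q.length - 1 + 1)).map (fun i => q.getD (q.length - 1 - i) 0) := by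
  have hlen : q.length - 1 + 1 = q.length := by
    have := List.length_pos_iff.2 hq
    omega
  apply List.ext_getElem
  · simp [hlen]
  · intro i h1 h2
    simp only [List.getElem_reverse, List.getElem_map, List.getElem_range]
    rw [List.getD_eq_getElem]

/-- list form of `sth_close`. -/
theorem sthY_close {W U : Matrix ι ι ℂ} {d : ι → ℝ} (h : thA_Diag W U d) (hd : ∀ i, |d i| ≤ 1)
    (B : Matrix ι ι ℤ) (s : ℕ) (J : ι → ℝ) (hJ : ∀ x, 0 < J x)
    (hB : ∀ x y, ((B x y : ℤ) : ℂ) * (J y : ℂ) = (J x : ℂ) * ((2 : ℂ) ^ s * (2 * W x y)))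
    (r : ι) (ρ : ℝ) (hρ : ∀ x, J r / J x ≤ ρ) (q : List ℕ) (hq : q ≠ []) (Q : ℕ) (hQ : 0 < Q) :
    thA_nrm ((fun x => (((J r / J x : ℝ)) : ℂ) * ((sthY B s q r x : ℤ) : ℂ))
        - (((2 * Q : ℕ) : ℝ) : ℂ) • (thC_A W q Q *ᵥ Pi.single r 1))
      ≤ (2 * (q.length - 1 : ℕ) + 1) * (Real.sqrt (Fintype.card ι) * ρ) := by
  have key := sth_close h hd B s J hJ hB r ρ hρ (fun k => q.getD k 0) (q.length - 1)
  have h2 := thC_two_smul_sum W q Q hQ (Pi.single r 1)
  simp only [Int.cast_natCast] at h2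
  rw [h2] at key
  have hY : sthY B s q r = fun x =>
      sthU B s (sthE r) (fun t => q.getD (q.length - 1 - t) 0) (q.length - 1 + 2) x
        - sthU B s (sthE r) (fun t => q.getD (q.length - 1 - t) 0) (q.length - 1) x
        + (q.getD 0 0 : ℤ) * (sthE r x : ℤ) := by
    unfold sthY
    rw [sth_reverse_eq q hq]
    have := sthV_eq_sthU B s (sthE r) (fun t => q.getD (q.length - 1 - t) 0) (q.length - 1) 0
    simp only [zero_add, Nat.sub_self] at this
    exact this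
  rw [hY]
  exact key

end generic

theorem sthH_isHermitian (m g : ℕ) (h : ℝ) : (sthH m g h).IsHermitian := by
  unfold sthH
  split_ifs
  · exact mdl_openChain_isHermitian m h (-h)
  · exact mdl_openChain_isHermitian m h h
  · exact mdl_openChainX_isHermitian m h (-h)

theorem sthH_window (m g : ℕ) (hH : (sthH m g (3 / 5)).IsHermitian) (k : Fin (m + 1) → Fin 3) :
    -((mdlE_pairC m : ℝ) + 6 / 5) ≤ hH.eigenvalues k ∧ hH.eigenvalues k ≤ (m : ℝ) + 6 / 5 := by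
  have a1 : |(3 / 5 : ℝ)| = 3 / 5 := abs_of_pos (by norm_num)
  have a2 : |(-(3 / 5) : ℝ)| = 3 / 5 := by rw [abs_neg, a1]
  by_cases hg0 : g = 0
  · have e : sthH m g (3 / 5) = openChain m (3 / 5) (-(3 / 5)) := by unfold sthH; rw [if_pos hg0]
    revert hH k
    rw [e]
    intro hH k
    have h1 := mdlE_openChain_eig_ge m (3 / 5) (-(3 / 5)) hH k
    have h2 := mdlE_openChain_eig_le m (3 / 5) (-(3 / 5)) hH k
    unfold mdlE_openC at h1
    rw [a1, a2] at h1 h2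
    constructor <;> linarith
  · by_cases hg1 : g = 1
    · have e : sthH m g (3 / 5) = openChain m (3 / 5) (3 / 5) := by
        unfold sthH; rw [if_neg hg0, if_pos hg1]
      revert hH k
      rw [e]
      intro hH k
      have h1 := mdlE_openChain_eig_ge m (3 / 5) (3 / 5) hH k
      have h2 := mdlE_openChain_eig_le m (3 / 5) (3 / 5) hH k
      unfold mdlE_openC at h1
      rw [a1] at h1 h2
      constructor <;> linarith
    · have e : sthH m g (3 / 5) = openChainX m (3 / 5) (-(3 / 5)) := by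
        unfold sthH; rw [if_neg hg0, if_neg hg1]
      revert hH k
      rw [e]
      intro hH k
      have h1 := mdlE_openChainX_eig_ge m (3 / 5) (-(3 / 5)) hH k
      have h2 := mdlE_openChainX_eig_le m (3 / 5) (-(3 / 5)) hH k
      unfold mdlE_openC at h1
      rw [a1, a2] at h1 h2
      constructor <;> linarith

theorem sthJ_sq {n : ℕ} (y : Fin n → Fin 3) : sthJ y ^ 2 = 1 + (sthPar y : ℝ) := by
  unfold sthJ
  have := sthPar_lt y
  split_ifs with h
  · rw [h, Real.sq_sqrt (by norm_num)]; norm_num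
  · have h0 : sthPar y = 0 := by omega
    rw [h0]; norm_num

theorem sthJ_ratio_sq {n : ℕ} (r x : Fin n → Fin 3) :
    (sthJ r / sthJ x) ^ 2 = (1 + (sthPar r : ℝ)) * (2 - (sthPar x : ℝ)) / 2 := by
  rw [div_pow, sthJ_sq, sthJ_sq]
  have := sthPar_lt x
  have h : sthPar x = 0 ∨ sthPar x = 1 := by omega
  rcases h with h | h <;> rw [h] <;> norm_num

theorem sthJ_ratio_le {n : ℕ} (r x : Fin n → Fin 3) : sthJ r / sthJ x ≤ 3 / 2 := by
  have h0 : 0 ≤ sthJ r / sthJ x := (div_pos (sthJ_pos r) (sthJ_pos x)).le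
  have h1 := sthJ_ratio_sq r x
  have hr := sthPar_lt r
  have hr' : (sthPar r : ℝ) ≤ 1 := by exact_mod_cast (by omega : sthPar r ≤ 1)
  have hx' : (0 : ℝ) ≤ (sthPar x : ℝ) := Nat.cast_nonneg _
  have hr0 : (0 : ℝ) ≤ (sthPar r : ℝ) := Nat.cast_nonneg _
  have h2 : (sthJ r / sthJ x) ^ 2 ≤ (3 / 2) ^ 2 := by
    rw [h1]
    nlinarith
  exact abs_le_of_sq_le_sq' h2 (by norm_num) |>.2

/-- **Certificate for one trace.** -/
theorem sth_cert (m g cP cN : ℕ) (s0 : ℝ) (hc : (cP : ℝ) - cN = 256 - 30 * s0)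
    (hlo : (mdlE_pairC m : ℝ) + 6 / 5 ≤ s0) (hhi : (m : ℝ) + 6 / 5 ≤ 256 / 15 - s0)
    (J : ℕ) (q : List ℕ) (hq : q ≠ []) (Q : ℕ) (hQ : 0 < Q) (εn εd : ℕ) (hεd : 0 < εd)
    (hcheck : thC_l1dist (q.map (· * thC_poisDen 224 5 J))
        ((thC_reexp (thC_poisList 224 5 J)).map (· * Q)) * εd ≤ εn * (Q * thC_poisDen 224 5 J))
    (T2 : ℕ) (hT : sthTot m g cP cN q = (T2 : ℤ))
    (En d : ℕ) (hEn : (2 * (q.length - 1) + 1) * 3 ^ (m + 1) * 3 ≤ 2 * En)
    (hd : 3 ^ (m + 1) ≤ d ^ 2) :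
    |Real.sqrt ((2 * T2 : ℕ) : ℝ) / ((4 * Q : ℕ) : ℝ)
        - Real.sqrt (Real.exp (-(21 / 2 * s0)) * gibbsZ (sthH m g (3 / 5)) (21 / 2))|
      ≤ ((thN_err En (2 * Q) d εn εd 45 J : ℚ) : ℝ) := by
  set H := sthH m g (3 / 5) with hHdef
  have hH : H.IsHermitian := sthH_isHermitian m g (3 / 5)
  have hlo' : ∀ k, -s0 ≤ hH.eigenvalues k := fun k => by
    have := (sthH_window m g hH k).1
    linarith
  have hhi' : ∀ k, hH.eigenvalues k ≤ 2 * (128 / 15 : ℝ) - s0 := fun k => by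
    have := (sthH_window m g hH k).2
    linarith
  have hcard : Fintype.card (Fin (m + 1) → Fin 3) = 3 ^ (m + 1) := by
    simp [Fintype.card_fin]
  set B := sthBmat m 30 cP cN 9 g with hBdef
  set K := q.length - 1 with hK
  have hB : ∀ x y, ((B x y : ℤ) : ℂ) * (sthJ y : ℂ)
      = (sthJ x : ℂ) * ((2 : ℂ) ^ 7 * (2 * thA_W H s0 (128 / 15) x y)) := by
    intro x y
    have h1 := sthBmat_J m 30 cP cN 9 g (3 / 5) (by norm_num) x y
    rw [h1, hc]
    congr 1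
    unfold thA_W
    simp only [Matrix.sub_apply, Matrix.smul_apply, Matrix.add_apply, smul_eq_mul]
    push_cast
    ring
  have hcert := thC_gibbs_certificate hH s0 (128 / 15) (21 / 2) (by norm_num) hlo' hhi'
    224 5 J (by norm_num) (by norm_num) q hq Q hQ εn εd hεd hcheck
    (κ := Fin (m + 1) → Fin 3) (fun _ => 1) (fun _ => zero_le_one)
    (fun r => Pi.single r 1)
    (fun r x => (((sthJ r / sthJ x : ℝ)) : ℂ) * ((sthY B 7 q r x : ℤ) : ℂ))
    (by simp)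
    (fun _ => (2 * (K : ℕ) + 1) * (Real.sqrt (Fintype.card (Fin (m + 1) → Fin 3)) * (3 / 2)))
    (fun r => sthY_close (thA_W_diag hH s0 (128 / 15))
      (thA_W_abs_le hH s0 (128 / 15) (by norm_num) hlo' hhi') B 7 sthJ sthJ_pos hB r (3 / 2)
      (fun x => sthJ_ratio_le r x) q hq Q hQ)
    ((2 * (K : ℕ) + 1) * (3 : ℝ) ^ (m + 1) * (3 / 2)) (by positivity)
    (by
      simp only [one_mul, Finset.sum_const, Finset.card_univ, nsmul_eq_mul, hcard]
      rw [mul_pow, mul_pow, Real.sq_sqrt (by positivity)]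
      push_cast
      apply le_of_eq
      ring)
  have hsum : ∑ c' : Fin (m + 1) → Fin 3, (1 : ℝ) * thA_nsq
      (fun x => (((sthJ c' / sthJ x : ℝ)) : ℂ) * ((sthY B 7 q c' x : ℤ) : ℂ)) = (T2 : ℝ) / 2 := by
    have hT' : ((sthTot m g cP cN q : ℤ) : ℝ) = (T2 : ℝ) := by rw [hT]; simp
    rw [← hT']
    unfold sthTot thA_nsq
    push_cast
    rw [Finset.sum_div]
    refine Finset.sum_congr rfl fun r _ => ?_
    rw [one_mul, Finset.sum_div]
    refine Finset.sum_congr rfl fun x _ => ?_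
    rw [norm_mul, mul_pow, ← Complex.ofReal_div, Complex.norm_real, Real.norm_eq_abs, sq_abs,
      sthJ_ratio_sq, Complex.norm_intCast, sq_abs]
    ring
  rw [hsum] at hcert
  have hsq : Real.sqrt ((T2 : ℝ) / 2) / ((2 * Q : ℕ) : ℝ)
      = Real.sqrt ((2 * T2 : ℕ) : ℝ) / ((4 * Q : ℕ) : ℝ) := by
    have h4 : ((2 * T2 : ℕ) : ℝ) = (T2 : ℝ) / 2 * 2 ^ 2 := by push_cast; ring
    rw [h4, Real.sqrt_mul (by positivity), Real.sqrt_sq (by norm_num)]
    have hQ' : (Q : ℝ) ≠ 0 := by exact_mod_cast hQ.ne'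
    push_cast
    field_simp
    ring
  rw [hsq] at hcert
  refine hcert.trans ?_
  have hE : (2 * (K : ℕ) + 1) * (3 : ℝ) ^ (m + 1) * (3 / 2) ≤ (En : ℝ) := by
    have : (((2 * (q.length - 1) + 1) * 3 ^ (m + 1) * 3 : ℕ) : ℝ) ≤ ((2 * En : ℕ) : ℝ) := by
      exact_mod_cast hEn
    push_cast at this
    linarith
  exact thN_cheb_err_le hE (by rw [hcard]; exact hd) (by norm_num) (by norm_num)

theorem sthH_zero (m : ℕ) (h : ℝ) : sthH m 0 h = openChain m h (-h) := by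
  unfold sthH; rw [if_pos rfl]

theorem sthH_one (m : ℕ) (h : ℝ) : sthH m 1 h = openChain m h h := by
  unfold sthH; rw [if_neg (by norm_num), if_pos rfl]

theorem sthH_two (m : ℕ) (h : ℝ) : sthH m 2 h = openChainX m h (-h) := by
  unfold sthH; rw [if_neg (by norm_num), if_neg (by norm_num)]

/-- closing wrapper, opposite fields. -/
theorem sth_Zopen_opp (m cP cN : ℕ) (s0 : ℝ) (hc : (cP : ℝ) - cN = 256 - 30 * s0)
    (hlo : (mdlE_pairC m : ℝ) + 6 / 5 ≤ s0) (hhi : (m : ℝ) + 6 / 5 ≤ 256 / 15 - s0)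
    (J : ℕ) (q : List ℕ) (hq : q ≠ []) (Q : ℕ) (hQ : 0 < Q) (εn εd : ℕ) (hεd : 0 < εd)
    (hcheck : thC_l1dist (q.map (· * thC_poisDen 224 5 J))
        ((thC_reexp (thC_poisList 224 5 J)).map (· * Q)) * εd ≤ εn * (Q * thC_poisDen 224 5 J))
    (T2 : ℕ) (hT : sthTot m 0 cP cN q = (T2 : ℤ))
    (En d : ℕ) (hEn : (2 * (q.length - 1) + 1) * 3 ^ (m + 1) * 3 ≤ 2 * En)
    (hd : 3 ^ (m + 1) ≤ d ^ 2)
    {a : ℝ} {r : ℕ} {xl xh centre tol y : ℚ} {N k : ℕ}
    (hexp : thN_expChk y N k xl xh = true)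
    (hfin : thN_finalChk (2 * T2) r (4 * Q) (thN_err En (2 * Q) d εn εd 45 J) xl xh centre tol
      = true)
    (hx : (k : ℝ) * (y : ℝ) - 21 / 2 * s0 = -(a * (21 / 2) * (m + 1 : ℕ)))
    {centreR tolR : ℝ} (hcen : centreR = (centre : ℝ)) (htol : tolR = (tol : ℝ)) :
    |Zopen a (m + 1) (3 / 5) (-(3 / 5)) (21 / 2) - centreR| ≤ tolR := by
  have h := sth_cert m 0 cP cN s0 hc hlo hhi J q hq Q hQ εn εd hεd hcheck T2 hT En d hEn hd
  rw [sthH_zero] at h
  exact thN_Zopen_close_chk hexp hfin h hx hcen htol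

/-- closing wrapper, equal fields. -/
theorem sth_Zopen_same (m cP cN : ℕ) (s0 : ℝ) (hc : (cP : ℝ) - cN = 256 - 30 * s0)
    (hlo : (mdlE_pairC m : ℝ) + 6 / 5 ≤ s0) (hhi : (m : ℝ) + 6 / 5 ≤ 256 / 15 - s0)
    (J : ℕ) (q : List ℕ) (hq : q ≠ []) (Q : ℕ) (hQ : 0 < Q) (εn εd : ℕ) (hεd : 0 < εd)
    (hcheck : thC_l1dist (q.map (· * thC_poisDen 224 5 J))
        ((thC_reexp (thC_poisList 224 5 J)).map (· * Q)) * εd ≤ εn * (Q * thC_poisDen 224 5 J))
    (T2 : ℕ) (hT : sthTot m 1 cP cN q = (T2 : ℤ))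
    (En d : ℕ) (hEn : (2 * (q.length - 1) + 1) * 3 ^ (m + 1) * 3 ≤ 2 * En)
    (hd : 3 ^ (m + 1) ≤ d ^ 2)
    {a : ℝ} {r : ℕ} {xl xh centre tol y : ℚ} {N k : ℕ}
    (hexp : thN_expChk y N k xl xh = true)
    (hfin : thN_finalChk (2 * T2) r (4 * Q) (thN_err En (2 * Q) d εn εd 45 J) xl xh centre tol
      = true)
    (hx : (k : ℝ) * (y : ℝ) - 21 / 2 * s0 = -(a * (21 / 2) * (m + 1 : ℕ)))
    {centreR tolR : ℝ} (hcen : centreR = (centre : ℝ)) (htol : tolR = (tol : ℝ)) :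
    |Zopen a (m + 1) (3 / 5) (3 / 5) (21 / 2) - centreR| ≤ tolR := by
  have h := sth_cert m 1 cP cN s0 hc hlo hhi J q hq Q hQ εn εd hεd hcheck T2 hT En d hEn hd
  rw [sthH_one] at h
  exact thN_Zopen_close_chk hexp hfin h hx hcen htol

/-- closing wrapper, right field along `x`. -/
theorem sth_ZopenX (m cP cN : ℕ) (s0 : ℝ) (hc : (cP : ℝ) - cN = 256 - 30 * s0)
    (hlo : (mdlE_pairC m : ℝ) + 6 / 5 ≤ s0) (hhi : (m : ℝ) + 6 / 5 ≤ 256 / 15 - s0)
    (J : ℕ) (q : List ℕ) (hq : q ≠ []) (Q : ℕ) (hQ : 0 < Q) (εn εd : ℕ) (hεd : 0 < εd)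
    (hcheck : thC_l1dist (q.map (· * thC_poisDen 224 5 J))
        ((thC_reexp (thC_poisList 224 5 J)).map (· * Q)) * εd ≤ εn * (Q * thC_poisDen 224 5 J))
    (T2 : ℕ) (hT : sthTot m 2 cP cN q = (T2 : ℤ))
    (En d : ℕ) (hEn : (2 * (q.length - 1) + 1) * 3 ^ (m + 1) * 3 ≤ 2 * En)
    (hd : 3 ^ (m + 1) ≤ d ^ 2)
    {a : ℝ} {r : ℕ} {xl xh centre tol y : ℚ} {N k : ℕ}
    (hexp : thN_expChk y N k xl xh = true)
    (hfin : thN_finalChk (2 * T2) r (4 * Q) (thN_err En (2 * Q) d εn εd 45 J) xl xh centre tol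
      = true)
    (hx : (k : ℝ) * (y : ℝ) - 21 / 2 * s0 = -(a * (21 / 2) * (m + 1 : ℕ)))
    {centreR tolR : ℝ} (hcen : centreR = (centre : ℝ)) (htol : tolR = (tol : ℝ)) :
    |ZopenX a (m + 1) (3 / 5) (-(3 / 5)) (21 / 2) - centreR| ≤ tolR := by
  have h := sth_cert m 2 cP cN s0 hc hlo hhi J q hq Q hQ εn εd hεd hcheck T2 hT En d hEn hd
  rw [sthH_two] at h
  exact thN_ZopenX_close_chk hexp hfin h hx hcen htol

end Claimed.Agent.R297
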