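/-
Row 297 (spin-one Haldane gap), package D6 (helper193).  GENERATED FILE (exact integer data; every
statement is checked by the kernel).  Chebyshev coefficients, t = 224/5, J = 150, K = 42, Q = 2^42.
-/
import Claimed.Agent.R297.SThermalBatch
import Claimed.Agent.R297.SThermalCert

set_option Elab.async false

namespace Claimed.Agent.R297

/-- Chebyshev coefficients (scale `2^42`, degree-indexed) of the conditioned Poisson polynomial. -/
def sthQ : List ℕ :=
  [262879358266, 519857371399, 502550798166, 474986764420, 438936499360, 396605246677, 350408542512, 302745815647, 255800475123, 211388503103, 170867594412, 135108327026, 104519755247, 79115601001, 58604451095, 42487819066, 30152786542, 20950114393, 14253146154, 9496693377, 6197915165, 3962840551, 2482752148, 1524423264, 917496118, 541391709, 313264300, 177781360, 98974268, 54063526, 28981310, 15249271, 7877409, 3995829, 1990697, 974235, 468455, 221361, 102813, 46946, 21078, 9307, 4042]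

theorem sthQ_ne : sthQ ≠ [] := by
  unfold sthQ
  exact List.cons_ne_nil _ _

theorem sthQ_length : sthQ.length = 43 := by decide +kernel

theorem sthQ_le : ∀ c ∈ sthQ, c ≤ 2 ^ 46 := by decide +kernel

theorem sthQ_check :
    thC_l1dist (sthQ.map (· * thC_poisDen 224 5 150))
        ((thC_reexp (thC_poisList 224 5 150)).map (· * 2 ^ 42)) * 2 ^ 30
      ≤ 1 * (2 ^ 42 * thC_poisDen 224 5 150) := by
  decide +kernel

end Claimed.Agent.R297
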