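/-
Row 297 (spin-one Haldane gap), package D6 (helper193).  GENERATED FILE (exact integer data; every
statement is checked by the kernel).  Open chains of 2 sites.
-/
import Claimed.Agent.R297.SThermalTab
import Claimed.Agent.R297.Seed60Glue

set_option Elab.async false

namespace Claimed.Agent.R297

/-! ### `n = 2`, type `0` -/

theorem sthOK_2_0 : SthOK 1 0 160 0 sthQ :=
  ⟨by decide +kernel, by decide +kernel, by decide +kernel, sthQ_le⟩

theorem sthB_2_0_0 : sthB 1 0 160 0 sthQ 0 4 = some 421711665396512923126542 := by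
  decide +kernel

theorem sthB_2_0_1 : sthB 1 0 160 0 sthQ 1 3 = some 82268840927828114 := by
  decide +kernel

def sthE_2_0 : List (ℕ × ℕ × ℕ) :=
  [(0, 4, 421711665396512923126542)]

def sthO_2_0 : List (ℕ × ℕ × ℕ) :=
  [(1, 3, 82268840927828114)]

theorem sthTot_2_0 : sthTot 1 0 160 0 sthQ = ((421711829934194778782770 : ℕ) : ℤ) := by
  have h := sth_total sthOK_2_0 sthE_2_0 sthO_2_0 (by decide +kernel) (by decide +kernel)
    (by decide +kernel)
    (List.forall_mem_cons.2 ⟨sthB_2_0_0, List.forall_mem_cons.2 ⟨sthB_2_0_1, List.forall_mem_nil _⟩⟩)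
  have e : sthSched (sthE_2_0 ++ sthO_2_0) = 421711829934194778782770 := by decide +kernel
  rw [h, e]

theorem sthZ_2_0 : |Zopen seedShift 2 (3 / 5) (-(3 / 5)) (21 / 2) - (1761679 / 10000000)| ≤ 2 / 1000000 :=
  sth_Zopen_opp 1 160 0 (16 / 5) (by norm_num) (by norm_num [mdlE_pairC]) (by norm_num) 150 sthQ sthQ_ne
    (2 ^ 42) (by norm_num) 1 (2 ^ 30) (by norm_num) sthQ_check 421711829934194778782770 sthTot_2_0 1148 3
    (by rw [sthQ_length]; norm_num) (by norm_num)
    (r := 918380999296) (xl := (64642882089531 / 1000000000000)) (xh := (16160720522383 / 250000000000))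
    (centre := (1761679 / 10000000)) (tol := 2 / 1000000) (y := (2084439 / 8000000)) (N := 14) (k := 16)
    (by decide +kernel) (by decide +kernel) (by unfold seedShift; norm_num) (by norm_num)
    (by norm_num)

/-! ### `n = 2`, type `1` -/

theorem sthOK_2_1 : SthOK 1 1 160 0 sthQ :=
  ⟨by decide +kernel, by decide +kernel, by decide +kernel, sthQ_le⟩

theorem sthB_2_1_0 : sthB 1 1 160 0 sthQ 0 4 = some 521808507844724044948 := by
  decide +kernel

theorem sthB_2_1_1 : sthB 1 1 160 0 sthQ 1 3 = some 3912322591021617750 := by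
  decide +kernel

def sthE_2_1 : List (ℕ × ℕ × ℕ) :=
  [(0, 4, 521808507844724044948)]

def sthO_2_1 : List (ℕ × ℕ × ℕ) :=
  [(1, 3, 3912322591021617750)]

theorem sthTot_2_1 : sthTot 1 1 160 0 sthQ = ((529633153026767280448 : ℕ) : ℤ) := by
  have h := sth_total sthOK_2_1 sthE_2_1 sthO_2_1 (by decide +kernel) (by decide +kernel)
    (by decide +kernel)
    (List.forall_mem_cons.2 ⟨sthB_2_1_0, List.forall_mem_cons.2 ⟨sthB_2_1_1, List.forall_mem_nil _⟩⟩)
  have e : sthSched (sthE_2_1 ++ sthO_2_1) = 529633153026767280448 := by decide +kernel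
  rw [h, e]

theorem sthZ_2_1 : |Zopen seedShift 2 (3 / 5) (3 / 5) (21 / 2) - (2213 / 10000000)| ≤ 2 / 1000000 :=
  sth_Zopen_same 1 160 0 (16 / 5) (by norm_num) (by norm_num [mdlE_pairC]) (by norm_num) 150 sthQ sthQ_ne
    (2 ^ 42) (by norm_num) 1 (2 ^ 30) (by norm_num) sthQ_check 529633153026767280448 sthTot_2_1 1148 3
    (by rw [sthQ_length]; norm_num) (by norm_num)
    (r := 32546371626) (xl := (64642882089531 / 1000000000000)) (xh := (16160720522383 / 250000000000))
    (centre := (2213 / 10000000)) (tol := 2 / 1000000) (y := (2084439 / 8000000)) (N := 14) (k := 16)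
    (by decide +kernel) (by decide +kernel) (by unfold seedShift; norm_num) (by norm_num)
    (by norm_num)

/-! ### `n = 2`, type `2` -/

theorem sthOK_2_2 : SthOK 1 2 160 0 sthQ :=
  ⟨by decide +kernel, by decide +kernel, by decide +kernel, sthQ_le⟩

theorem sthB_2_2_0 : sthB 1 2 160 0 sthQ 0 4 = some 30764501685651219082668 := by
  decide +kernel

theorem sthB_2_2_1 : sthB 1 2 160 0 sthQ 1 3 = some 2794926642158444117349 := by
  decide +kernel

def sthE_2_2 : List (ℕ × ℕ × ℕ) :=
  [(0, 4, 30764501685651219082668)]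

def sthO_2_2 : List (ℕ × ℕ × ℕ) :=
  [(1, 3, 2794926642158444117349)]

theorem sthTot_2_2 : sthTot 1 2 160 0 sthQ = ((36354354969968107317366 : ℕ) : ℤ) := by
  have h := sth_total sthOK_2_2 sthE_2_2 sthO_2_2 (by decide +kernel) (by decide +kernel)
    (by decide +kernel)
    (List.forall_mem_cons.2 ⟨sthB_2_2_0, List.forall_mem_cons.2 ⟨sthB_2_2_1, List.forall_mem_nil _⟩⟩)
  have e : sthSched (sthE_2_2 ++ sthO_2_2) = 36354354969968107317366 := by decide +kernel
  rw [h, e]

theorem sthZ_2_2 : |ZopenX seedShift 2 (3 / 5) (-(3 / 5)) (21 / 2) - (37967 / 2500000)| ≤ 2 / 1000000 :=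
  sth_ZopenX 1 160 0 (16 / 5) (by norm_num) (by norm_num [mdlE_pairC]) (by norm_num) 150 sthQ sthQ_ne
    (2 ^ 42) (by norm_num) 1 (2 ^ 30) (by norm_num) sthQ_check 36354354969968107317366 sthTot_2_2 1148 3
    (by rw [sthQ_length]; norm_num) (by norm_num)
    (r := 269645526460) (xl := (64642882089531 / 1000000000000)) (xh := (16160720522383 / 250000000000))
    (centre := (37967 / 2500000)) (tol := 2 / 1000000) (y := (2084439 / 8000000)) (N := 14) (k := 16)
    (by decide +kernel) (by decide +kernel) (by unfold seedShift; norm_num) (by norm_num)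
    (by norm_num)

end Claimed.Agent.R297
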