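/-
Row 297 (spin-one Haldane gap), package D6 (helper193).  GENERATED FILE (exact integer data; every
statement is checked by the kernel).  Open chains of 3 sites.
-/
import Claimed.Agent.R297.SThermalTab
import Claimed.Agent.R297.Seed60Glue

set_option Elab.async false

namespace Claimed.Agent.R297

/-! ### `n = 3`, type `0` -/

theorem sthOK_3_0 : SthOK 2 0 127 0 sthQ :=
  ⟨by decide +kernel, by decide +kernel, by decide +kernel, sthQ_le⟩

theorem sthB_3_0_0 : sthB 2 0 127 0 sthQ 0 13 = some 879592396057042195372 := by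
  decide +kernel

theorem sthB_3_0_1 : sthB 2 0 127 0 sthQ 1 12 = some 2929882106472057475603 := by
  decide +kernel

def sthE_3_0 : List (ℕ × ℕ × ℕ) :=
  [(0, 13, 879592396057042195372)]

def sthO_3_0 : List (ℕ × ℕ × ℕ) :=
  [(1, 12, 2929882106472057475603)]

theorem sthTot_3_0 : sthTot 2 0 127 0 sthQ = ((6739356609001157146578 : ℕ) : ℤ) := by
  have h := sth_total sthOK_3_0 sthE_3_0 sthO_3_0 (by decide +kernel) (by decide +kernel)
    (by decide +kernel)
    (List.forall_mem_cons.2 ⟨sthB_3_0_0, List.forall_mem_cons.2 ⟨sthB_3_0_1, List.forall_mem_nil _⟩⟩)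
  have e : sthSched (sthE_3_0 ++ sthO_3_0) = 6739356609001157146578 := by decide +kernel
  rw [h, e]

theorem sthZ_3_0 : |Zopen seedShift 3 (3 / 5) (-(3 / 5)) (21 / 2) - (297 / 2500000)| ≤ 2 / 1000000 :=
  sth_Zopen_opp 2 127 0 (43 / 10) (by norm_num) (by norm_num [mdlE_pairC]) (by norm_num) 150 sthQ sthQ_ne
    (2 ^ 42) (by norm_num) 1 (2 ^ 30) (by norm_num) sthQ_check 6739356609001157146578 sthTot_3_0 3443 6
    (by rw [sthQ_length]; norm_num) (by norm_num)
    (r := 116097860522) (xl := (681828334941 / 250000000000)) (xh := (545462667953 / 200000000000))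
    (centre := (297 / 2500000)) (tol := 2 / 1000000) (y := (1003317 / 16000000)) (N := 14) (k := 16)
    (by decide +kernel) (by decide +kernel) (by unfold seedShift; norm_num) (by norm_num)
    (by norm_num)

/-! ### `n = 3`, type `1` -/

theorem sthOK_3_1 : SthOK 2 1 127 0 sthQ :=
  ⟨by decide +kernel, by decide +kernel, by decide +kernel, sthQ_le⟩

theorem sthB_3_1_0 : sthB 2 1 127 0 sthQ 0 13 = some 4655036572538284324507728 := by
  decide +kernel

theorem sthB_3_1_1 : sthB 2 1 127 0 sthQ 1 12 = some 272268000558578038502 := by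
  decide +kernel

def sthE_3_1 : List (ℕ × ℕ × ℕ) :=
  [(0, 13, 4655036572538284324507728)]

def sthO_3_1 : List (ℕ × ℕ × ℕ) :=
  [(1, 12, 272268000558578038502)]

theorem sthTot_3_1 : sthTot 2 1 127 0 sthQ = ((4655581108539401480584732 : ℕ) : ℤ) := by
  have h := sth_total sthOK_3_1 sthE_3_1 sthO_3_1 (by decide +kernel) (by decide +kernel)
    (by decide +kernel)
    (List.forall_mem_cons.2 ⟨sthB_3_1_0, List.forall_mem_cons.2 ⟨sthB_3_1_1, List.forall_mem_nil _⟩⟩)
  have e : sthSched (sthE_3_1 ++ sthO_3_1) = 4655581108539401480584732 := by decide +kernel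
  rw [h, e]

theorem sthZ_3_1 : |Zopen seedShift 3 (3 / 5) (3 / 5) (21 / 2) - (820539 / 10000000)| ≤ 2 / 1000000 :=
  sth_Zopen_same 2 127 0 (43 / 10) (by norm_num) (by norm_num [mdlE_pairC]) (by norm_num) 150 sthQ sthQ_ne
    (2 ^ 42) (by norm_num) 1 (2 ^ 30) (by norm_num) sthQ_check 4655581108539401480584732 sthTot_3_1 3443 6
    (by rw [sthQ_length]; norm_num) (by norm_num)
    (r := 3051419705166) (xl := (681828334941 / 250000000000)) (xh := (545462667953 / 200000000000))
    (centre := (820539 / 10000000)) (tol := 2 / 1000000) (y := (1003317 / 16000000)) (N := 14) (k := 16)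
    (by decide +kernel) (by decide +kernel) (by unfold seedShift; norm_num) (by norm_num)
    (by norm_num)

/-! ### `n = 3`, type `2` -/

theorem sthOK_3_2 : SthOK 2 2 127 0 sthQ :=
  ⟨by decide +kernel, by decide +kernel, by decide +kernel, sthQ_le⟩

theorem sthB_3_2_0 : sthB 2 2 127 0 sthQ 0 13 = some 383367094539746002998434 := by
  decide +kernel

theorem sthB_3_2_1 : sthB 2 2 127 0 sthQ 1 12 = some 86134571847592956658918 := by
  decide +kernel

def sthE_3_2 : List (ℕ × ℕ × ℕ) :=
  [(0, 13, 383367094539746002998434)]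

def sthO_3_2 : List (ℕ × ℕ × ℕ) :=
  [(1, 12, 86134571847592956658918)]

theorem sthTot_3_2 : sthTot 2 2 127 0 sthQ = ((555636238234931916316270 : ℕ) : ℤ) := by
  have h := sth_total sthOK_3_2 sthE_3_2 sthO_3_2 (by decide +kernel) (by decide +kernel)
    (by decide +kernel)
    (List.forall_mem_cons.2 ⟨sthB_3_2_0, List.forall_mem_cons.2 ⟨sthB_3_2_1, List.forall_mem_nil _⟩⟩)
  have e : sthSched (sthE_3_2 ++ sthO_3_2) = 555636238234931916316270 := by decide +kernel
  rw [h, e]

theorem sthZ_3_2 : |ZopenX seedShift 3 (3 / 5) (-(3 / 5)) (21 / 2) - (9793 / 1000000)| ≤ 2 / 1000000 :=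
  sth_ZopenX 2 127 0 (43 / 10) (by norm_num) (by norm_num [mdlE_pairC]) (by norm_num) 150 sthQ sthQ_ne
    (2 ^ 42) (by norm_num) 1 (2 ^ 30) (by norm_num) sthQ_check 555636238234931916316270 sthTot_3_2 3443 6
    (by rw [sthQ_length]; norm_num) (by norm_num)
    (r := 1054169092920) (xl := (681828334941 / 250000000000)) (xh := (545462667953 / 200000000000))
    (centre := (9793 / 1000000)) (tol := 2 / 1000000) (y := (1003317 / 16000000)) (N := 14) (k := 16)
    (by decide +kernel) (by decide +kernel) (by unfold seedShift; norm_num) (by norm_num)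
    (by norm_num)

end Claimed.Agent.R297
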