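/-
Row 297 (spin-one Haldane gap), package D6 (helper193).  GENERATED FILE (exact integer data; every
statement is checked by the kernel).  Open chains of 4 sites.
-/
import Claimed.Agent.R297.SThermalTab
import Claimed.Agent.R297.Seed60Glue

set_option Elab.async false

namespace Claimed.Agent.R297

/-! ### `n = 4`, type `0` -/

theorem sthOK_4_0 : SthOK 3 0 70 0 sthQ :=
  ⟨by decide +kernel, by decide +kernel, by decide +kernel, sthQ_le⟩

theorem sthB_4_0_0 : sthB 3 0 70 0 sthQ 0 40 = some 21620733607046001031996 := by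
  decide +kernel

theorem sthB_4_0_1 : sthB 3 0 70 0 sthQ 1 39 = some 458516760411185600 := by
  decide +kernel

def sthE_4_0 : List (ℕ × ℕ × ℕ) :=
  [(0, 40, 21620733607046001031996)]

def sthO_4_0 : List (ℕ × ℕ × ℕ) :=
  [(1, 39, 458516760411185600)]

theorem sthTot_4_0 : sthTot 3 0 70 0 sthQ = ((21621650640566823403196 : ℕ) : ℤ) := by
  have h := sth_total sthOK_4_0 sthE_4_0 sthO_4_0 (by decide +kernel) (by decide +kernel)
    (by decide +kernel)
    (List.forall_mem_cons.2 ⟨sthB_4_0_0, List.forall_mem_cons.2 ⟨sthB_4_0_1, List.forall_mem_nil _⟩⟩)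
  have e : sthSched (sthE_4_0 ++ sthO_4_0) = 21621650640566823403196 := by decide +kernel
  rw [h, e]

theorem sthZ_4_0 : |Zopen seedShift 4 (3 / 5) (-(3 / 5)) (21 / 2) - (357497 / 5000000)| ≤ 2 / 1000000 :=
  sth_Zopen_opp 3 70 0 (31 / 5) (by norm_num) (by norm_num [mdlE_pairC]) (by norm_num) 150 sthQ sthQ_ne
    (2 ^ 42) (by norm_num) 1 (2 ^ 30) (by norm_num) sthQ_check 21621650640566823403196 sthTot_4_0 10328 9
    (by rw [sthQ_length]; norm_num) (by norm_num)
    (r := 207950237511) (xl := (5117089467377 / 10000000000)) (xh := (511708946737701 / 1000000000000))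
    (centre := (357497 / 5000000)) (tol := 2 / 1000000) (y := (1559439 / 4000000)) (N := 14) (k := 16)
    (by decide +kernel) (by decide +kernel) (by unfold seedShift; norm_num) (by norm_num)
    (by norm_num)

/-! ### `n = 4`, type `1` -/

theorem sthOK_4_1 : SthOK 3 1 70 0 sthQ :=
  ⟨by decide +kernel, by decide +kernel, by decide +kernel, sthQ_le⟩

theorem sthB_4_1_0 : sthB 3 1 70 0 sthQ 0 40 = some 38320092182513105082 := by
  decide +kernel

theorem sthB_4_1_1 : sthB 3 1 70 0 sthQ 1 39 = some 40172214043050222286 := by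
  decide +kernel

def sthE_4_1 : List (ℕ × ℕ × ℕ) :=
  [(0, 40, 38320092182513105082)]

def sthO_4_1 : List (ℕ × ℕ × ℕ) :=
  [(1, 39, 40172214043050222286)]

theorem sthTot_4_1 : sthTot 3 1 70 0 sthQ = ((118664520268613549654 : ℕ) : ℤ) := by
  have h := sth_total sthOK_4_1 sthE_4_1 sthO_4_1 (by decide +kernel) (by decide +kernel)
    (by decide +kernel)
    (List.forall_mem_cons.2 ⟨sthB_4_1_0, List.forall_mem_cons.2 ⟨sthB_4_1_1, List.forall_mem_nil _⟩⟩)
  have e : sthSched (sthE_4_1 ++ sthO_4_1) = 118664520268613549654 := by decide +kernel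
  rw [h, e]

theorem sthZ_4_1 : |Zopen seedShift 4 (3 / 5) (3 / 5) (21 / 2) - (981 / 2500000)| ≤ 2 / 1000000 :=
  sth_Zopen_same 3 70 0 (31 / 5) (by norm_num) (by norm_num [mdlE_pairC]) (by norm_num) 150 sthQ sthQ_ne
    (2 ^ 42) (by norm_num) 1 (2 ^ 30) (by norm_num) sthQ_check 118664520268613549654 sthTot_4_1 10328 9
    (by rw [sthQ_length]; norm_num) (by norm_num)
    (r := 15405487351) (xl := (5117089467377 / 10000000000)) (xh := (511708946737701 / 1000000000000))
    (centre := (981 / 2500000)) (tol := 2 / 1000000) (y := (1559439 / 4000000)) (N := 14) (k := 16)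
    (by decide +kernel) (by decide +kernel) (by unfold seedShift; norm_num) (by norm_num)
    (by norm_num)

/-! ### `n = 4`, type `2` -/

theorem sthOK_4_2 : SthOK 3 2 70 0 sthQ :=
  ⟨by decide +kernel, by decide +kernel, by decide +kernel, sthQ_le⟩

theorem sthB_4_2_0 : sthB 3 2 70 0 sthQ 0 40 = some 2877699076813177667147 := by
  decide +kernel

theorem sthB_4_2_1 : sthB 3 2 70 0 sthQ 1 39 = some 543363111923968485821 := by
  decide +kernel

def sthE_4_2 : List (ℕ × ℕ × ℕ) :=
  [(0, 40, 2877699076813177667147)]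

def sthO_4_2 : List (ℕ × ℕ × ℕ) :=
  [(1, 39, 543363111923968485821)]

theorem sthTot_4_2 : sthTot 3 2 70 0 sthQ = ((3964425300661114638789 : ℕ) : ℤ) := by
  have h := sth_total sthOK_4_2 sthE_4_2 sthO_4_2 (by decide +kernel) (by decide +kernel)
    (by decide +kernel)
    (List.forall_mem_cons.2 ⟨sthB_4_2_0, List.forall_mem_cons.2 ⟨sthB_4_2_1, List.forall_mem_nil _⟩⟩)
  have e : sthSched (sthE_4_2 ++ sthO_4_2) = 3964425300661114638789 := by decide +kernel
  rw [h, e]

theorem sthZ_4_2 : |ZopenX seedShift 4 (3 / 5) (-(3 / 5)) (21 / 2) - (131097 / 10000000)| ≤ 2 / 1000000 :=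
  sth_ZopenX 3 70 0 (31 / 5) (by norm_num) (by norm_num [mdlE_pairC]) (by norm_num) 150 sthQ sthQ_ne
    (2 ^ 42) (by norm_num) 1 (2 ^ 30) (by norm_num) sthQ_check 3964425300661114638789 sthTot_4_2 10328 9
    (by rw [sthQ_length]; norm_num) (by norm_num)
    (r := 89044093579) (xl := (5117089467377 / 10000000000)) (xh := (511708946737701 / 1000000000000))
    (centre := (131097 / 10000000)) (tol := 2 / 1000000) (y := (1559439 / 4000000)) (N := 14) (k := 16)
    (by decide +kernel) (by decide +kernel) (by unfold seedShift; norm_num) (by norm_num)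
    (by norm_num)

end Claimed.Agent.R297
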