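/-
Row 297 (spin-one Haldane gap), package D6 (helper193).  GENERATED FILE (exact integer data; every
statement is checked by the kernel).  Open chains of 5 sites.
-/
import Claimed.Agent.R297.SThermalTab
import Claimed.Agent.R297.Seed60Glue

set_option Elab.async false

namespace Claimed.Agent.R297

/-! ### `n = 5`, type `0` -/

theorem sthOK_5_0 : SthOK 4 0 40 0 sthQ :=
  ⟨by decide +kernel, by decide +kernel, by decide +kernel, sthQ_le⟩

theorem sthB_5_0_0 : sthB 4 0 40 0 sthQ 0 60 = some 329987824782737990190 := by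
  decide +kernel

theorem sthB_5_0_1 : sthB 4 0 40 0 sthQ 122 60 = some 473640887361126304230 := by
  decide +kernel

theorem sthB_5_0_2 : sthB 4 0 40 0 sthQ 1 60 = some 653900264067851793655 := by
  decide +kernel

theorem sthB_5_0_3 : sthB 4 0 40 0 sthQ 123 59 = some 8280519394851160419628 := by
  decide +kernel

def sthE_5_0 : List (ℕ × ℕ × ℕ) :=
  [(0, 60, 329987824782737990190), (122, 60, 473640887361126304230)]

def sthO_5_0 : List (ℕ × ℕ × ℕ) :=
  [(1, 60, 653900264067851793655), (123, 59, 8280519394851160419628)]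

theorem sthTot_5_0 : sthTot 4 0 40 0 sthQ = ((18672468029981888720986 : ℕ) : ℤ) := by
  have h := sth_total sthOK_5_0 sthE_5_0 sthO_5_0 (by decide +kernel) (by decide +kernel)
    (by decide +kernel)
    (List.forall_mem_cons.2 ⟨sthB_5_0_0, List.forall_mem_cons.2 ⟨sthB_5_0_1, List.forall_mem_cons.2 ⟨sthB_5_0_2, List.forall_mem_cons.2 ⟨sthB_5_0_3, List.forall_mem_nil _⟩⟩⟩⟩)
  have e : sthSched (sthE_5_0 ++ sthO_5_0) = 18672468029981888720986 := by decide +kernel
  rw [h, e]

theorem sthZ_5_0 : |Zopen seedShift 5 (3 / 5) (-(3 / 5)) (21 / 2) - (2279 / 2500000)| ≤ 2 / 1000000 :=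
  sth_Zopen_opp 4 40 0 (36 / 5) (by norm_num) (by norm_num [mdlE_pairC]) (by norm_num) 150 sthQ sthQ_ne
    (2 ^ 42) (by norm_num) 1 (2 ^ 30) (by norm_num) sthQ_check 18672468029981888720986 sthTot_5_0 30983 16
    (by rw [sthQ_length]; norm_num) (by norm_num)
    (r := 193248379191) (xl := (944361216263 / 125000000000)) (xh := (1510977946021 / 200000000000))
    (centre := (2279 / 2500000)) (tol := 2 / 1000000) (y := (404439 / 3200000)) (N := 14) (k := 16)
    (by decide +kernel) (by decide +kernel) (by unfold seedShift; norm_num) (by norm_num)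
    (by norm_num)

/-! ### `n = 5`, type `1` -/

theorem sthOK_5_1 : SthOK 4 1 40 0 sthQ :=
  ⟨by decide +kernel, by decide +kernel, by decide +kernel, sthQ_le⟩

theorem sthB_5_1_0 : sthB 4 1 40 0 sthQ 0 60 = some 1047330001903877787655370 := by
  decide +kernel

theorem sthB_5_1_1 : sthB 4 1 40 0 sthQ 122 60 = some 14506615972084104366582 := by
  decide +kernel

theorem sthB_5_1_2 : sthB 4 1 40 0 sthQ 1 60 = some 167637484616803197182 := by
  decide +kernel

theorem sthB_5_1_3 : sthB 4 1 40 0 sthQ 123 59 = some 113551142947597145903 := by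
  decide +kernel

def sthE_5_1 : List (ℕ × ℕ × ℕ) :=
  [(0, 60, 1047330001903877787655370), (122, 60, 14506615972084104366582)]

def sthO_5_1 : List (ℕ × ℕ × ℕ) :=
  [(1, 60, 167637484616803197182), (123, 59, 113551142947597145903)]

theorem sthTot_5_1 : sthTot 4 1 40 0 sthQ = ((1062398995131090692708122 : ℕ) : ℤ) := by
  have h := sth_total sthOK_5_1 sthE_5_1 sthO_5_1 (by decide +kernel) (by decide +kernel)
    (by decide +kernel)
    (List.forall_mem_cons.2 ⟨sthB_5_1_0, List.forall_mem_cons.2 ⟨sthB_5_1_1, List.forall_mem_cons.2 ⟨sthB_5_1_2, List.forall_mem_cons.2 ⟨sthB_5_1_3, List.forall_mem_nil _⟩⟩⟩⟩)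
  have e : sthSched (sthE_5_1 ++ sthO_5_1) = 1062398995131090692708122 := by decide +kernel
  rw [h, e]

theorem sthZ_5_1 : |Zopen seedShift 5 (3 / 5) (3 / 5) (21 / 2) - (16209 / 312500)| ≤ 2 / 1000000 :=
  sth_Zopen_same 4 40 0 (36 / 5) (by norm_num) (by norm_num [mdlE_pairC]) (by norm_num) 150 sthQ sthQ_ne
    (2 ^ 42) (by norm_num) 1 (2 ^ 30) (by norm_num) sthQ_check 1062398995131090692708122 sthTot_5_1 30983 16
    (by rw [sthQ_length]; norm_num) (by norm_num)
    (r := 1457668683296) (xl := (944361216263 / 125000000000)) (xh := (1510977946021 / 200000000000))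
    (centre := (16209 / 312500)) (tol := 2 / 1000000) (y := (404439 / 3200000)) (N := 14) (k := 16)
    (by decide +kernel) (by decide +kernel) (by unfold seedShift; norm_num) (by norm_num)
    (by norm_num)

/-! ### `n = 5`, type `2` -/

theorem sthOK_5_2 : SthOK 4 2 40 0 sthQ :=
  ⟨by decide +kernel, by decide +kernel, by decide +kernel, sthQ_le⟩

theorem sthB_5_2_0 : sthB 4 2 40 0 sthQ 0 60 = some 152832517093609644941269 := by
  decide +kernel

theorem sthB_5_2_1 : sthB 4 2 40 0 sthQ 122 60 = some 10701312713267206976767 := by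
  decide +kernel

theorem sthB_5_2_2 : sthB 4 2 40 0 sthQ 1 60 = some 7199059076495193806819 := by
  decide +kernel

theorem sthB_5_2_3 : sthB 4 2 40 0 sthQ 123 59 = some 38621988367378949212200 := by
  decide +kernel

def sthE_5_2 : List (ℕ × ℕ × ℕ) :=
  [(0, 60, 152832517093609644941269), (122, 60, 10701312713267206976767)]

def sthO_5_2 : List (ℕ × ℕ × ℕ) :=
  [(1, 60, 7199059076495193806819), (123, 59, 38621988367378949212200)]

theorem sthTot_5_2 : sthTot 4 2 40 0 sthQ = ((255175924694625137956074 : ℕ) : ℤ) := by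
  have h := sth_total sthOK_5_2 sthE_5_2 sthO_5_2 (by decide +kernel) (by decide +kernel)
    (by decide +kernel)
    (List.forall_mem_cons.2 ⟨sthB_5_2_0, List.forall_mem_cons.2 ⟨sthB_5_2_1, List.forall_mem_cons.2 ⟨sthB_5_2_2, List.forall_mem_cons.2 ⟨sthB_5_2_3, List.forall_mem_nil _⟩⟩⟩⟩)
  have e : sthSched (sthE_5_2 ++ sthO_5_2) = 255175924694625137956074 := by decide +kernel
  rw [h, e]

theorem sthZ_5_2 : |ZopenX seedShift 5 (3 / 5) (-(3 / 5)) (21 / 2) - (124583 / 10000000)| ≤ 2 / 1000000 :=
  sth_ZopenX 4 40 0 (36 / 5) (by norm_num) (by norm_num [mdlE_pairC]) (by norm_num) 150 sthQ sthQ_ne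
    (2 ^ 42) (by norm_num) 1 (2 ^ 30) (by norm_num) sthQ_check 255175924694625137956074 sthTot_5_2 30983 16
    (by rw [sthQ_length]; norm_num) (by norm_num)
    (r := 714389144226) (xl := (944361216263 / 125000000000)) (xh := (1510977946021 / 200000000000))
    (centre := (124583 / 10000000)) (tol := 2 / 1000000) (y := (404439 / 3200000)) (N := 14) (k := 16)
    (by decide +kernel) (by decide +kernel) (by unfold seedShift; norm_num) (by norm_num)
    (by norm_num)

end Claimed.Agent.R297
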