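/-
Row 297 (spin-one Haldane gap), package D6 (helper193): the two inequalities (D3) on the short open
chains at `b₀ = 21/2`, from the fifteen certified enclosures.
-/
import Claimed.Agent.R297.SThermalD2
import Claimed.Agent.R297.SThermalD3
import Claimed.Agent.R297.SThermalD4
import Claimed.Agent.R297.SThermalD5
import Claimed.Agent.R297.SThermalD60
import Claimed.Agent.R297.SThermalD61
import Claimed.Agent.R297.SThermalD62
import Claimed.Agent.R297.BInitLevel0

namespace Claimed.Agent.R297

/-- **(D3)** -/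
theorem sth_thermalCert : BInitThermalCert := by
  have a20 := abs_le.1 sthZ_2_0
  have a21 := abs_le.1 sthZ_2_1
  have a22 := abs_le.1 sthZ_2_2
  have a30 := abs_le.1 sthZ_3_0
  have a31 := abs_le.1 sthZ_3_1
  have a32 := abs_le.1 sthZ_3_2
  have a40 := abs_le.1 sthZ_4_0
  have a41 := abs_le.1 sthZ_4_1
  have a42 := abs_le.1 sthZ_4_2
  have a50 := abs_le.1 sthZ_5_0
  have a51 := abs_le.1 sthZ_5_1
  have a52 := abs_le.1 sthZ_5_2
  have a60 := abs_le.1 sthZ_6_0
  have a61 := abs_le.1 sthZ_6_1
  have a62 := abs_le.1 sthZ_6_2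
  unfold BInitThermalCert binitI
  constructor
  · linarith [a60.2]
  · linarith [a20.1, a20.2, a21.1, a21.2, a22.1, a22.2, a30.1, a30.2, a31.1, a31.2, a32.1, a32.2,
      a40.1, a40.2, a41.1, a41.2, a42.1, a42.2, a50.1, a50.2, a51.1, a51.2, a52.1, a52.2,
      a60.1, a60.2, a61.1, a61.2, a62.1, a62.2]

end Claimed.Agent.R297
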