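import Claimed.Agent.R297.SectorTools

/-!
# Row 297: the group algebra identities behind the sector splitting (owner helper156)

`a b t` are elements of a complex algebra with the relations of the alternating group on four
letters: `a² = b² = 1`, `ab = ba`, `t³ = 1`, `ta = bt`, `tb = abt`.
-/

set_option linter.unusedSimpArgs false
set_option linter.unusedSectionVars false

namespace Claimed.Agent.R297

section alg

variable {R : Type*} [Ring R] [Algebra ℂ R]

/-- The relations of the rotation group generated by `D₂` and the cyclic rotation. -/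
structure SectorRel (a b t : R) : Prop where
  haa : a * a = 1
  hbb : b * b = 1
  hba : b * a = a * b
  httt : t * (t * t) = 1
  hta : t * a = b * t
  htb : t * b = a * (b * t)

namespace SectorRel

variable {a b t : R} (h : SectorRel a b t)

include h

theorem haa' (x : R) : a * (a * x) = x := by rw [← mul_assoc, h.haa, one_mul]
theorem hbb' (x : R) : b * (b * x) = x := by rw [← mul_assoc, h.hbb, one_mul]
theorem hba' (x : R) : b * (a * x) = a * (b * x) := by
  rw [← mul_assoc, h.hba, mul_assoc]
theorem httt' (x : R) : t * (t * (t * x)) = x := by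
  rw [← mul_assoc, ← mul_assoc, mul_assoc t t t, h.httt, one_mul]
theorem hta' (x : R) : t * (a * x) = b * (t * x) := by
  rw [← mul_assoc, h.hta, mul_assoc]
theorem htb' (x : R) : t * (b * x) = a * (b * (t * x)) := by
  rw [← mul_assoc, h.htb, mul_assoc, mul_assoc]

end SectorRel

/-- The four character projections of `D₂`. -/
noncomputable def sectorQ0 (a b : R) : R := (1 / 4 : ℂ) • (1 + a + b + a * b)
noncomputable def sectorQ1 (a b : R) : R := (1 / 4 : ℂ) • (1 + a - b - a * b)
noncomputable def sectorQ2 (a b : R) : R := (1 / 4 : ℂ) • (1 - a + b - a * b)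
noncomputable def sectorQ3 (a b : R) : R := (1 / 4 : ℂ) • (1 - a - b + a * b)

/-- The spectral projection of `t` for the cube root of unity `z`. -/
noncomputable def sectorE (t : R) (z : ℂ) : R := (1 / 3 : ℂ) • (1 + z ^ 2 • t + z • (t * t))

variable {a b t : R} (h : SectorRel a b t)

include h

theorem sectorQ0_idem : sectorQ0 a b * sectorQ0 a b = sectorQ0 a b := by
  simp only [sectorQ0, smul_mul_assoc, mul_smul_comm, mul_add, add_mul, mul_sub, sub_mul, mul_one,
    one_mul, mul_assoc, h.haa, h.hbb, h.hba, h.haa', h.hbb', h.hba']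
  module

theorem sectorQ1_idem : sectorQ1 a b * sectorQ1 a b = sectorQ1 a b := by
  simp only [sectorQ1, smul_mul_assoc, mul_smul_comm, mul_add, add_mul, mul_sub, sub_mul, mul_one,
    one_mul, mul_assoc, h.haa, h.hbb, h.hba, h.haa', h.hbb', h.hba']
  module

theorem sectorQ2_idem : sectorQ2 a b * sectorQ2 a b = sectorQ2 a b := by
  simp only [sectorQ2, smul_mul_assoc, mul_smul_comm, mul_add, add_mul, mul_sub, sub_mul, mul_one,
    one_mul, mul_assoc, h.haa, h.hbb, h.hba, h.haa', h.hbb', h.hba']
  module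

theorem sectorQ3_idem : sectorQ3 a b * sectorQ3 a b = sectorQ3 a b := by
  simp only [sectorQ3, smul_mul_assoc, mul_smul_comm, mul_add, add_mul, mul_sub, sub_mul, mul_one,
    one_mul, mul_assoc, h.haa, h.hbb, h.hba, h.haa', h.hbb', h.hba']
  module

theorem sectorQ12 : sectorQ1 a b * sectorQ2 a b = 0 := by
  simp only [sectorQ1, sectorQ2, smul_mul_assoc, mul_smul_comm, mul_add, add_mul, mul_sub, sub_mul,
    mul_one, one_mul, mul_assoc, h.haa, h.hbb, h.hba, h.haa', h.hbb', h.hba']
  module

theorem sectorQ23 : sectorQ2 a b * sectorQ3 a b = 0 := by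
  simp only [sectorQ3, sectorQ2, smul_mul_assoc, mul_smul_comm, mul_add, add_mul, mul_sub, sub_mul,
    mul_one, one_mul, mul_assoc, h.haa, h.hbb, h.hba, h.haa', h.hbb', h.hba']
  module

theorem sectorQ31 : sectorQ3 a b * sectorQ1 a b = 0 := by
  simp only [sectorQ3, sectorQ1, smul_mul_assoc, mul_smul_comm, mul_add, add_mul, mul_sub, sub_mul,
    mul_one, one_mul, mul_assoc, h.haa, h.hbb, h.hba, h.haa', h.hbb', h.hba']
  module

theorem sector_t_Q0 : t * sectorQ0 a b = sectorQ0 a b * t := by
  simp only [sectorQ0, smul_mul_assoc, mul_smul_comm, mul_add, add_mul, mul_sub, sub_mul, mul_one,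
    one_mul, mul_assoc, h.haa, h.hbb, h.hba, h.haa', h.hbb', h.hba', h.hta, h.htb, h.hta', h.htb']
  module

theorem sector_t_Q1 : t * sectorQ1 a b = sectorQ2 a b * t := by
  simp only [sectorQ1, sectorQ2, smul_mul_assoc, mul_smul_comm, mul_add, add_mul, mul_sub, sub_mul,
    mul_one,
    one_mul, mul_assoc, h.haa, h.hbb, h.hba, h.haa', h.hbb', h.hba', h.hta, h.htb, h.hta', h.htb']
  module

theorem sector_t_Q2 : t * sectorQ2 a b = sectorQ3 a b * t := by
  simp only [sectorQ3, sectorQ2, smul_mul_assoc, mul_smul_comm, mul_add, add_mul, mul_sub, sub_mul,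
    mul_one,
    one_mul, mul_assoc, h.haa, h.hbb, h.hba, h.haa', h.hbb', h.hba', h.hta, h.htb, h.hta', h.htb']
  module

theorem sector_t_Q3 : t * sectorQ3 a b = sectorQ1 a b * t := by
  simp only [sectorQ3, sectorQ1, smul_mul_assoc, mul_smul_comm, mul_add, add_mul, mul_sub, sub_mul,
    mul_one,
    one_mul, mul_assoc, h.haa, h.hbb, h.hba, h.haa', h.hbb', h.hba', h.hta, h.htb, h.hta', h.htb']
  module

omit h in
theorem sectorQ_sum : sectorQ0 a b + sectorQ1 a b + sectorQ2 a b + sectorQ3 a b = 1 := by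
  simp only [sectorQ0, sectorQ1, sectorQ2, sectorQ3]
  module

omit h in
theorem sectorQ_a : sectorQ0 a b + sectorQ1 a b - sectorQ2 a b - sectorQ3 a b = a := by
  simp only [sectorQ0, sectorQ1, sectorQ2, sectorQ3]
  module

theorem sector_t_E (z : ℂ) (hz : z ^ 3 = 1) : t * sectorE t z = z • sectorE t z := by
  simp only [sectorE, mul_smul_comm, mul_add, mul_one, h.httt, smul_add, smul_smul]
  have e1 : z * (1 / 3 * z ^ 2) = 1 / 3 := by linear_combination (1 / 3 : ℂ) * hz
  rw [e1]
  module

theorem sector_E_t (z : ℂ) (hz : z ^ 3 = 1) : sectorE t z * t = z • sectorE t z := by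
  have e0 : t * t * t = 1 := by rw [mul_assoc, h.httt]
  simp only [sectorE, smul_mul_assoc, add_mul, one_mul, e0, smul_add, smul_smul]
  have e1 : z * (1 / 3 * z ^ 2) = 1 / 3 := by linear_combination (1 / 3 : ℂ) * hz
  rw [e1]
  module

theorem sectorE_idem (z : ℂ) (hz : z ^ 3 = 1) : sectorE t z * sectorE t z = sectorE t z := by
  have h1 := sector_t_E h z hz
  have h2 : t * t * sectorE t z = (z * z) • sectorE t z := by
    rw [mul_assoc, h1, mul_smul_comm, h1, smul_smul]
  conv_lhs => lhs; unfold sectorE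
  rw [smul_mul_assoc, add_mul, add_mul, one_mul, smul_mul_assoc, smul_mul_assoc, h1, h2, smul_smul,
    smul_smul]
  have e1 : z ^ 2 * z = 1 := by linear_combination hz
  have e2 : z * (z * z) = 1 := by linear_combination hz
  rw [e1, e2]
  module

omit h in
theorem sectorE_sum (w : ℂ) (hw : w ^ 2 + w + 1 = 0) :
    sectorE t 1 + sectorE t w + sectorE t (w ^ 2) = 1 := by
  have e4 : (w ^ 2) ^ 2 = w := by linear_combination (w ^ 2 - w) * hw
  simp only [sectorE, e4, one_pow, one_smul]
  have key : (1 / 3 : ℂ) • (1 + t + t * t) + (1 / 3 : ℂ) • (1 + w ^ 2 • t + w • (t * t)) +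
      (1 / 3 : ℂ) • (1 + w • t + w ^ 2 • (t * t)) =
      1 + ((1 / 3 : ℂ) * (w ^ 2 + w + 1)) • t + ((1 / 3 : ℂ) * (w ^ 2 + w + 1)) • (t * t) := by
    module
  rw [key, hw]
  simp

end alg

end Claimed.Agent.R297
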