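import Claimed.Agent.R297.SectorMain

/-!
# Row 297: the sector decomposition in the shape of leaf C4 of package C (owner helper156)

`sector_decomp_aux` is the statement `sector_decomp` of `TrSectors.lean` with the fields of its
hypothesis structure unbundled.  Dictionary: `a = P3`, `b = P1`, `t = C`.
-/

set_option linter.unusedSimpArgs false
set_option linter.unusedSectionVars false
set_option linter.unusedVariables false

namespace Claimed.Agent.R297

open Matrix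

variable {ι : Type*} [Fintype ι] [DecidableEq ι]

theorem sectorQ_b {R : Type*} [Ring R] [Algebra ℂ R] {a b : R} :
    sectorQ0 a b - sectorQ1 a b + sectorQ2 a b - sectorQ3 a b = b := by
  simp only [sectorQ0, sectorQ1, sectorQ2, sectorQ3]
  module

namespace SectorHypC

variable {X a b t : Matrix ι ι ℂ} (h : SectorHypC X a b t)

include h

theorem b_eq : b = sectorQ0 a b * sectorE t 1 +
    sectorQ0 a b * sectorE t sectorOmega + sectorQ0 a b * sectorE t (sectorOmega ^ 2) -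
    sectorQ1 a b + sectorQ2 a b - sectorQ3 a b := by
  rw [← mul_add, ← mul_add, sectorE_sum sectorOmega sectorOmega_rel, mul_one, sectorQ_b]

theorem Q2_mulVec {v : ι → ℂ} (hv : a *ᵥ v = v) : sectorQ2 a b *ᵥ v = 0 := by
  have e : (a * b) *ᵥ v = b *ᵥ v := by
    rw [← h.rel.hba, ← mulVec_mulVec, hv]
  simp only [sectorQ2, smul_mulVec, add_mulVec, sub_mulVec, one_mulVec, hv, e]
  simp

theorem Q3_mulVec {v : ι → ℂ} (hv : a *ᵥ v = v) : sectorQ3 a b *ᵥ v = 0 := by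
  have e : (a * b) *ᵥ v = b *ᵥ v := by
    rw [← h.rel.hba, ← mulVec_mulVec, hv]
  simp only [sectorQ3, smul_mulVec, add_mulVec, sub_mulVec, one_mulVec, hv, e]
  simp

theorem qd_Q2 {v : ι → ℂ} (hv : a *ᵥ v = v) (n : ℕ) : sectorQuad (X ^ n * sectorQ2 a b) v = 0 := by
  rw [sectorQuad, ← mulVec_mulVec, h.Q2_mulVec hv, mulVec_zero, dotProduct_zero]

theorem qd_Q3 {v : ι → ℂ} (hv : a *ᵥ v = v) (n : ℕ) : sectorQuad (X ^ n * sectorQ3 a b) v = 0 := by
  rw [sectorQuad, ← mulVec_mulVec, h.Q3_mulVec hv, mulVec_zero, dotProduct_zero]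

theorem qd_O'_eq (v : ι → ℂ) (n : ℕ) :
    sectorQuad (X ^ n * (sectorQ0 a b * sectorE t (sectorOmega ^ 2))) v =
      sectorQuad (X ^ n * (sectorQ0 a b * sectorE t sectorOmega)) (star v) := by
  rw [h.qd_O', h.qd_O]

theorem decomp :
    ∃ AI AO AN : Matrix ι ι ℂ, AI.IsHermitian ∧ AO.IsHermitian ∧ AN.IsHermitian ∧
      (∀ n : ℕ, 1 ≤ n →
        trace (AI ^ n) = (trace (X ^ n) + 3 * trace (X ^ n * a) + 8 * trace (X ^ n * t)) / 12 ∧
        trace (AO ^ n) = (trace (X ^ n) + 3 * trace (X ^ n * a) - 4 * trace (X ^ n * t)) / 12 ∧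
        trace (AN ^ n) = (trace (X ^ n) - trace (X ^ n * a)) / 4) ∧
      (trace (AI ^ 2)).re ≤ (trace (X ^ 2)).re ∧
      (trace (AO ^ 2)).re ≤ (trace (X ^ 2)).re ∧
      (trace (AN ^ 2)).re ≤ (trace (X ^ 2)).re ∧
      (∀ v : ι → ℂ, a *ᵥ v = v → b *ᵥ v = star v → ∀ n : ℕ, 1 ≤ n →
        star v ⬝ᵥ ((X ^ n) *ᵥ v)
          = star v ⬝ᵥ ((AI ^ n) *ᵥ v) + star v ⬝ᵥ ((AO ^ n) *ᵥ v)
            + v ⬝ᵥ ((AO ^ n) *ᵥ star v) + star v ⬝ᵥ ((AN ^ n) *ᵥ v) ∧
        star v ⬝ᵥ ((X ^ n) *ᵥ star v)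
          = star v ⬝ᵥ ((AI ^ n) *ᵥ v) + star v ⬝ᵥ ((AO ^ n) *ᵥ v)
            + v ⬝ᵥ ((AO ^ n) *ᵥ star v) - star v ⬝ᵥ ((AN ^ n) *ᵥ v)) := by
  have sI : ∀ n : ℕ, 0 ≤ ∑ i, h.lamI i ^ 2 := fun _ => Finset.sum_nonneg fun i _ => sq_nonneg _
  have sO : 0 ≤ ∑ i, h.lamO i ^ 2 := Finset.sum_nonneg fun i _ => sq_nonneg _
  have sN : 0 ≤ ∑ i, h.lamN i ^ 2 := Finset.sum_nonneg fun i _ => sq_nonneg _
  refine ⟨X * (sectorQ0 a b * sectorE t 1), X * (sectorQ0 a b * sectorE t sectorOmega),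
    X * sectorQ1 a b, h.projI.herm, h.projO.herm, h.projN.herm, ?_, ?_, ?_, ?_, ?_⟩
  · intro n hn
    rw [h.projI.mul_pow' n hn, h.projO.mul_pow' n hn, h.projN.mul_pow' n hn, h.tr_I n hn,
      h.tr_O n hn, h.tr_N1 n hn, h.trace_one n hn, h.trace_a n hn, h.trace_t n hn]
    push_cast
    refine ⟨by ring, by ring, by ring⟩
  · rw [h.projI.mul_pow' 2 (by norm_num), h.tr_I 2 (by norm_num), h.trace_one 2 (by norm_num),
      Complex.ofReal_re, Complex.ofReal_re]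
    linarith [sI 0]
  · rw [h.projO.mul_pow' 2 (by norm_num), h.tr_O 2 (by norm_num), h.trace_one 2 (by norm_num),
      Complex.ofReal_re, Complex.ofReal_re]
    linarith [sI 0]
  · rw [h.projN.mul_pow' 2 (by norm_num), h.tr_N1 2 (by norm_num), h.trace_one 2 (by norm_num),
      Complex.ofReal_re, Complex.ofReal_re]
    linarith [sI 0]
  · intro v hav hbv n hn
    rw [h.projI.mul_pow' n hn, h.projO.mul_pow' n hn, h.projN.mul_pow' n hn]
    have hO : v ⬝ᵥ ((X ^ n * (sectorQ0 a b * sectorE t sectorOmega)) *ᵥ star v) =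
        sectorQuad (X ^ n * (sectorQ0 a b * sectorE t sectorOmega)) (star v) := by
      rw [sectorQuad, star_star]
    rw [hO, ← h.qd_O'_eq]
    constructor
    · change sectorQuad (X ^ n) v = sectorQuad _ v + sectorQuad _ v + _ + sectorQuad _ v
      conv_lhs => rw [← mul_one (X ^ n), h.one_eq]
      simp only [mul_add, sectorQuad_add]
      rw [h.qd_Q2 hav, h.qd_Q3 hav]
      ring
    · have e : star v ⬝ᵥ ((X ^ n) *ᵥ star v) = sectorQuad (X ^ n * b) v := by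
        rw [sectorQuad, ← mulVec_mulVec, hbv]
      rw [e]
      change sectorQuad (X ^ n * b) v = sectorQuad _ v + sectorQuad _ v + _ - sectorQuad _ v
      conv_lhs => rw [h.b_eq]
      simp only [mul_add, mul_sub, sectorQuad_add, sectorQuad_sub]
      rw [h.qd_Q2 hav, h.qd_Q3 hav]
      ring

end SectorHypC

/-- The statement `sector_decomp` of `TrSectors.lean`, hypotheses unbundled. -/
theorem sector_decomp_aux {X P1 P2 P3 C : Matrix ι ι ℂ}
    (X_herm : X.IsHermitian) (X_real : X.map star = X)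
    (P1_herm : P1.IsHermitian) (P3_herm : P3.IsHermitian)
    (P1_real : P1.map star = P1) (P3_real : P3.map star = P3)
    (P1_sq : P1 * P1 = 1) (P3_sq : P3 * P3 = 1)
    (P12 : P1 * P2 = P3) (P21 : P2 * P1 = P3)
    (C_real : C.map star = C) (C_unit : Cᴴ * C = 1) (C_cube : C * C * C = 1)
    (CP1 : C * P1 = P2 * C) (CP3 : C * P3 = P1 * C)
    (XP1 : X * P1 = P1 * X) (XP3 : X * P3 = P3 * X) (XC : X * C = C * X) :
    ∃ AI AO AN : Matrix ι ι ℂ, AI.IsHermitian ∧ AO.IsHermitian ∧ AN.IsHermitian ∧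
      (∀ n : ℕ, 1 ≤ n →
        trace (AI ^ n) = (trace (X ^ n) + 3 * trace (X ^ n * P3) + 8 * trace (X ^ n * C)) / 12 ∧
        trace (AO ^ n) = (trace (X ^ n) + 3 * trace (X ^ n * P3) - 4 * trace (X ^ n * C)) / 12 ∧
        trace (AN ^ n) = (trace (X ^ n) - trace (X ^ n * P3)) / 4) ∧
      (trace (AI ^ 2)).re ≤ (trace (X ^ 2)).re ∧
      (trace (AO ^ 2)).re ≤ (trace (X ^ 2)).re ∧
      (trace (AN ^ 2)).re ≤ (trace (X ^ 2)).re ∧
      (∀ v : ι → ℂ, P3 *ᵥ v = v → P1 *ᵥ v = star v → ∀ n : ℕ, 1 ≤ n →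
        star v ⬝ᵥ ((X ^ n) *ᵥ v)
          = star v ⬝ᵥ ((AI ^ n) *ᵥ v) + star v ⬝ᵥ ((AO ^ n) *ᵥ v)
            + v ⬝ᵥ ((AO ^ n) *ᵥ star v) + star v ⬝ᵥ ((AN ^ n) *ᵥ v) ∧
        star v ⬝ᵥ ((X ^ n) *ᵥ star v)
          = star v ⬝ᵥ ((AI ^ n) *ᵥ v) + star v ⬝ᵥ ((AO ^ n) *ᵥ v)
            + v ⬝ᵥ ((AO ^ n) *ᵥ star v) - star v ⬝ᵥ ((AN ^ n) *ᵥ v)) := by
  have e13 : P1 * P3 = P2 := by rw [← P12, ← mul_assoc, P1_sq, one_mul]
  have e31 : P3 * P1 = P2 := by rw [← P21, mul_assoc, P1_sq, mul_one]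
  have H : SectorHypC X P3 P1 C :=
    { rel :=
        { haa := P3_sq
          hbb := P1_sq
          hba := by rw [e13, e31]
          httt := by rw [← mul_assoc, C_cube]
          hta := CP3
          htb := by rw [← mul_assoc, e31, CP1] }
      hX := X_herm
      ha := P3_herm
      hb := P1_herm
      ht := by
        calc Cᴴ = Cᴴ * (C * C * C) := by rw [C_cube, mul_one]
          _ = (Cᴴ * C) * (C * C) := by simp only [mul_assoc]
          _ = C * C := by rw [C_unit, one_mul]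
      hXa := XP3
      hXb := XP1
      hXt := XC
      rX := X_real
      ra := P3_real
      rb := P1_real
      rt := C_real }
  exact H.decomp

end Claimed.Agent.R297
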