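import Claimed.Agent.R297.SectorDecomp

/-!
# Row 297: the sector decomposition in the shape of leaf C4 (version 2) of package C
(owner helper156)

`sector_decomp_aux2` is the statement `sector_decomp` of `TrSectors.lean` (interface v2) with the
fields of its hypothesis structure unbundled.  Dictionary: `a = P3`, `b = P1`, `t = C`.
-/

set_option linter.unusedSimpArgs false
set_option linter.unusedSectionVars false
set_option linter.unusedVariables false

namespace Claimed.Agent.R297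

open Matrix

variable {ι : Type*} [Fintype ι] [DecidableEq ι]

theorem sectorQuad_one (u : ι → ℂ) : sectorQuad 1 u = ((∑ i, ‖u i‖ ^ 2 : ℝ) : ℂ) := by
  simp only [sectorQuad, one_mulVec, dotProduct, Pi.star_apply]
  push_cast
  refine Finset.sum_congr rfl fun i _ => ?_
  rw [Complex.star_def, Complex.conj_mul']

theorem sectorQuad_smul (c : ℂ) (M : Matrix ι ι ℂ) (v : ι → ℂ) :
    sectorQuad (c • M) v = c * sectorQuad M v := by
  simp [sectorQuad, smul_mulVec, dotProduct_smul]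

theorem SectorProj.quad_sandwich {X P : Matrix ι ι ℂ} (h : SectorProj X P) (v : ι → ℂ) (n : ℕ) :
    sectorQuad (X ^ n * P) v = sectorQuad ((X * P) ^ n) (P *ᵥ v) := by
  rw [← h.sandwich n, sectorQuad_conj]

namespace SectorHypC

variable {X a b t : Matrix ι ι ℂ} (h : SectorHypC X a b t)

include h

theorem Q2_herm : (sectorQ2 a b).IsHermitian := by
  unfold Matrix.IsHermitian sectorQ2
  rw [conjTranspose_smul, conjTranspose_sub, conjTranspose_add, conjTranspose_sub,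
    conjTranspose_one, h.ha.eq, h.hb.eq, h.hab_herm]
  congr 1
  simp

theorem Q0_b : sectorQ0 a b * b = sectorQ0 a b := by
  simp only [sectorQ0, smul_mul_assoc, add_mul, one_mul, mul_assoc, h.rel.hbb, mul_one]
  module

/-- `Π_ω (star v) = Π_ω v` when `b v = star v`. -/
theorem PO_star {v : ι → ℂ} (hbv : b *ᵥ v = star v) (z : ℂ) :
    (sectorQ0 a b * sectorE t z) *ᵥ star v = (sectorQ0 a b * sectorE t z) *ᵥ v := by
  rw [(h.Q0_E z).eq, ← hbv, mulVec_mulVec, mul_assoc, h.Q0_b]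

theorem qd_O_star {v : ι → ℂ} (hbv : b *ᵥ v = star v) (n : ℕ) :
    sectorQuad (X ^ n * (sectorQ0 a b * sectorE t sectorOmega)) (star v) =
      sectorQuad (X ^ n * (sectorQ0 a b * sectorE t sectorOmega)) v := by
  rw [h.projO.quad_sandwich, h.projO.quad_sandwich, h.PO_star hbv]

theorem qd_tQ1 {v : ι → ℂ} (hv : a *ᵥ v = v) (n : ℕ) :
    sectorQuad (X ^ n * (t * sectorQ1 a b)) v = 0 := by
  have e : X ^ n * (t * sectorQ1 a b) = (sectorQ2 a b)ᴴ * (X ^ n * t) := by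
    rw [sector_t_Q1 h.rel, h.Q2_herm.eq, ← mul_assoc, (h.X_Q2.pow_left n).eq, mul_assoc]
  rw [e, sectorQuad, ← mulVec_mulVec, dotProduct_mulVec, ← star_mulVec, h.Q2_mulVec hv, star_zero,
    zero_dotProduct]

theorem qd_tQ2 {v : ι → ℂ} (hv : a *ᵥ v = v) (n : ℕ) :
    sectorQuad (X ^ n * (t * sectorQ2 a b)) v = 0 := by
  rw [sectorQuad, ← mul_assoc, ← mulVec_mulVec, h.Q2_mulVec hv, mulVec_zero, dotProduct_zero]

theorem qd_tQ3 {v : ι → ℂ} (hv : a *ᵥ v = v) (n : ℕ) :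
    sectorQuad (X ^ n * (t * sectorQ3 a b)) v = 0 := by
  rw [sectorQuad, ← mul_assoc, ← mulVec_mulVec, h.Q3_mulVec hv, mulVec_zero, dotProduct_zero]

/-- the three basic quadratic forms, all `n ≥ 0`. -/
theorem quad3 {v : ι → ℂ} (hav : a *ᵥ v = v) (hbv : b *ᵥ v = star v) (n : ℕ) :
    sectorQuad (X ^ n) v =
        sectorQuad (X ^ n * (sectorQ0 a b * sectorE t 1)) v +
        2 * sectorQuad (X ^ n * (sectorQ0 a b * sectorE t sectorOmega)) v +
        sectorQuad (X ^ n * sectorQ1 a b) v ∧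
    sectorQuad (X ^ n * b) v =
        sectorQuad (X ^ n * (sectorQ0 a b * sectorE t 1)) v +
        2 * sectorQuad (X ^ n * (sectorQ0 a b * sectorE t sectorOmega)) v -
        sectorQuad (X ^ n * sectorQ1 a b) v ∧
    sectorQuad (X ^ n * t) v =
        sectorQuad (X ^ n * (sectorQ0 a b * sectorE t 1)) v -
        sectorQuad (X ^ n * (sectorQ0 a b * sectorE t sectorOmega)) v := by
  have hO' := (h.qd_O'_eq v n).trans (h.qd_O_star hbv n)
  refine ⟨?_, ?_, ?_⟩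
  · conv_lhs => rw [← mul_one (X ^ n), h.one_eq]
    simp only [mul_add, sectorQuad_add]
    rw [h.qd_Q2 hav, h.qd_Q3 hav, hO']
    ring
  · conv_lhs => rw [h.b_eq]
    simp only [mul_add, mul_sub, sectorQuad_add, sectorQuad_sub]
    rw [h.qd_Q2 hav, h.qd_Q3 hav, hO']
    ring
  · conv_lhs => rw [h.t_eq]
    simp only [mul_add, sectorQuad_add, mul_smul_comm, sectorQuad_smul]
    rw [h.qd_tQ1 hav, h.qd_tQ2 hav, h.qd_tQ3 hav, hO']
    linear_combination
      (sectorQuad (X ^ n * (sectorQ0 a b * sectorE t sectorOmega)) v) * sectorOmega_rel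

theorem decomp2 :
    ∃ AI AO AN : Matrix ι ι ℂ, AI.IsHermitian ∧ AO.IsHermitian ∧ AN.IsHermitian ∧
      (∀ n : ℕ, 1 ≤ n →
        trace (AI ^ n) = (trace (X ^ n) + 3 * trace (X ^ n * a) + 8 * trace (X ^ n * t)) / 12 ∧
        trace (AO ^ n) = (trace (X ^ n) + 3 * trace (X ^ n * a) - 4 * trace (X ^ n * t)) / 12 ∧
        trace (AN ^ n) = (trace (X ^ n) - trace (X ^ n * a)) / 4) ∧
      (trace (AI ^ 2)).re ≤ (trace (X ^ 2)).re ∧
      (trace (AO ^ 2)).re ≤ (trace (X ^ 2)).re ∧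
      (trace (AN ^ 2)).re ≤ (trace (X ^ 2)).re ∧
      (∀ v : ι → ℂ, a *ᵥ v = v → b *ᵥ v = star v →
        ∃ vI vO vN : ι → ℂ,
          (∑ i, ‖vI i‖ ^ 2 + 2 * ∑ i, ‖vO i‖ ^ 2 + ∑ i, ‖vN i‖ ^ 2 = ∑ i, ‖v i‖ ^ 2) ∧
          ∀ n : ℕ,
            star v ⬝ᵥ ((X ^ n) *ᵥ v)
              = star vI ⬝ᵥ ((AI ^ n) *ᵥ vI) + 2 * (star vO ⬝ᵥ ((AO ^ n) *ᵥ vO))
                + star vN ⬝ᵥ ((AN ^ n) *ᵥ vN) ∧
            star v ⬝ᵥ ((X ^ n) *ᵥ star v)
              = star vI ⬝ᵥ ((AI ^ n) *ᵥ vI) + 2 * (star vO ⬝ᵥ ((AO ^ n) *ᵥ vO))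
                - star vN ⬝ᵥ ((AN ^ n) *ᵥ vN) ∧
            star v ⬝ᵥ ((X ^ n) *ᵥ (t *ᵥ v))
              = star vI ⬝ᵥ ((AI ^ n) *ᵥ vI) - star vO ⬝ᵥ ((AO ^ n) *ᵥ vO)) := by
  have sI : 0 ≤ ∑ i, h.lamI i ^ 2 := Finset.sum_nonneg fun i _ => sq_nonneg _
  have sO : 0 ≤ ∑ i, h.lamO i ^ 2 := Finset.sum_nonneg fun i _ => sq_nonneg _
  have sN : 0 ≤ ∑ i, h.lamN i ^ 2 := Finset.sum_nonneg fun i _ => sq_nonneg _
  refine ⟨X * (sectorQ0 a b * sectorE t 1), X * (sectorQ0 a b * sectorE t sectorOmega),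
    X * sectorQ1 a b, h.projI.herm, h.projO.herm, h.projN.herm, ?_, ?_, ?_, ?_, ?_⟩
  · intro n hn
    rw [h.projI.mul_pow' n hn, h.projO.mul_pow' n hn, h.projN.mul_pow' n hn, h.tr_I n hn,
      h.tr_O n hn, h.tr_N1 n hn, h.trace_one n hn, h.trace_a n hn, h.trace_t n hn]
    push_cast
    refine ⟨by ring, by ring, by ring⟩
  · rw [h.projI.mul_pow' 2 (by norm_num), h.tr_I 2 (by norm_num), h.trace_one 2 (by norm_num),
      Complex.ofReal_re, Complex.ofReal_re]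
    linarith
  · rw [h.projO.mul_pow' 2 (by norm_num), h.tr_O 2 (by norm_num), h.trace_one 2 (by norm_num),
      Complex.ofReal_re, Complex.ofReal_re]
    linarith
  · rw [h.projN.mul_pow' 2 (by norm_num), h.tr_N1 2 (by norm_num), h.trace_one 2 (by norm_num),
      Complex.ofReal_re, Complex.ofReal_re]
    linarith
  · intro v hav hbv
    refine ⟨(sectorQ0 a b * sectorE t 1) *ᵥ v, (sectorQ0 a b * sectorE t sectorOmega) *ᵥ v,
      sectorQ1 a b *ᵥ v, ?_, ?_⟩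
    · have h0 := (h.quad3 hav hbv 0).1
      rw [h.projI.quad_sandwich, h.projO.quad_sandwich, h.projN.quad_sandwich] at h0
      simp only [pow_zero, sectorQuad_one] at h0
      exact_mod_cast h0.symm
    · intro n
      obtain ⟨h1, h2, h3⟩ := h.quad3 hav hbv n
      rw [h.projI.quad_sandwich, h.projO.quad_sandwich, h.projN.quad_sandwich] at h1 h2
      rw [h.projI.quad_sandwich, h.projO.quad_sandwich] at h3
      refine ⟨h1, ?_, ?_⟩
      · have e : star v ⬝ᵥ ((X ^ n) *ᵥ star v) = sectorQuad (X ^ n * b) v := by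
          rw [sectorQuad, ← mulVec_mulVec, hbv]
        rw [e]; exact h2
      · have e : star v ⬝ᵥ ((X ^ n) *ᵥ (t *ᵥ v)) = sectorQuad (X ^ n * t) v := by
          rw [sectorQuad, ← mulVec_mulVec]
        rw [e]; exact h3

end SectorHypC

/-- The statement `sector_decomp` of `TrSectors.lean` (interface v2), hypotheses unbundled; the
boundary identities are even proved for all `n ≥ 0`. -/
theorem sector_decomp_aux2 {X P1 P2 P3 C : Matrix ι ι ℂ}
    (X_herm : X.IsHermitian) (X_real : X.map star = X)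
    (P1_herm : P1.IsHermitian) (P3_herm : P3.IsHermitian)
    (P1_real : P1.map star = P1) (P3_real : P3.map star = P3)
    (P1_sq : P1 * P1 = 1) (P3_sq : P3 * P3 = 1)
    (P12 : P1 * P2 = P3) (P21 : P2 * P1 = P3)
    (C_real : C.map star = C) (C_unit : Cᴴ * C = 1) (C_cube : C * C * C = 1)
    (CP1 : C * P1 = P2 * C) (CP3 : C * P3 = P1 * C)
    (XP1 : X * P1 = P1 * X) (XP3 : X * P3 = P3 * X) (XC : X * C = C * X) :
    ∃ AI AO AN : Matrix ι ι ℂ, AI.IsHermitian ∧ AO.IsHermitian ∧ AN.IsHermitian ∧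
      (∀ n : ℕ, 1 ≤ n →
        trace (AI ^ n) = (trace (X ^ n) + 3 * trace (X ^ n * P3) + 8 * trace (X ^ n * C)) / 12 ∧
        trace (AO ^ n) = (trace (X ^ n) + 3 * trace (X ^ n * P3) - 4 * trace (X ^ n * C)) / 12 ∧
        trace (AN ^ n) = (trace (X ^ n) - trace (X ^ n * P3)) / 4) ∧
      (trace (AI ^ 2)).re ≤ (trace (X ^ 2)).re ∧
      (trace (AO ^ 2)).re ≤ (trace (X ^ 2)).re ∧
      (trace (AN ^ 2)).re ≤ (trace (X ^ 2)).re ∧
      (∀ v : ι → ℂ, P3 *ᵥ v = v → P1 *ᵥ v = star v →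
        ∃ vI vO vN : ι → ℂ,
          (∑ i, ‖vI i‖ ^ 2 + 2 * ∑ i, ‖vO i‖ ^ 2 + ∑ i, ‖vN i‖ ^ 2 = ∑ i, ‖v i‖ ^ 2) ∧
          ∀ n : ℕ,
            star v ⬝ᵥ ((X ^ n) *ᵥ v)
              = star vI ⬝ᵥ ((AI ^ n) *ᵥ vI) + 2 * (star vO ⬝ᵥ ((AO ^ n) *ᵥ vO))
                + star vN ⬝ᵥ ((AN ^ n) *ᵥ vN) ∧
            star v ⬝ᵥ ((X ^ n) *ᵥ star v)
              = star vI ⬝ᵥ ((AI ^ n) *ᵥ vI) + 2 * (star vO ⬝ᵥ ((AO ^ n) *ᵥ vO))
                - star vN ⬝ᵥ ((AN ^ n) *ᵥ vN) ∧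
            star v ⬝ᵥ ((X ^ n) *ᵥ (C *ᵥ v))
              = star vI ⬝ᵥ ((AI ^ n) *ᵥ vI) - star vO ⬝ᵥ ((AO ^ n) *ᵥ vO)) := by
  have e13 : P1 * P3 = P2 := by rw [← P12, ← mul_assoc, P1_sq, one_mul]
  have e31 : P3 * P1 = P2 := by rw [← P21, mul_assoc, P1_sq, mul_one]
  have H : SectorHypC X P3 P1 C :=
    { rel :=
        { haa := P3_sq
          hbb := P1_sq
          hba := by rw [e13, e31]
          httt := by rw [← mul_assoc, C_cube]
          hta := CP3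
          htb := by rw [← mul_assoc, e31, CP1] }
      hX := X_herm
      ha := P3_herm
      hb := P1_herm
      ht := by
        calc Cᴴ = Cᴴ * (C * C * C) := by rw [C_cube, mul_one]
          _ = (Cᴴ * C) * (C * C) := by simp only [mul_assoc]
          _ = C * C := by rw [C_unit, one_mul]
      hXa := XP3
      hXb := XP1
      hXt := XC
      rX := X_real
      ra := P3_real
      rb := P1_real
      rt := C_real }
  exact H.decomp2

end Claimed.Agent.R297
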