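import Claimed.Agent.R297.Sector

/-!
# Row 297: the sector splitting, final statements (owner helper156)

Main result: `sector_split` (real symmetric `X`, real orthogonal `a b t`).
-/

set_option linter.unusedSimpArgs false
set_option linter.unusedSectionVars false

namespace Claimed.Agent.R297

open Matrix

variable {ι : Type*} [Fintype ι] [DecidableEq ι]

/-- conjugation invariance of `M ↦ trace (Y * M)` when `Y` commutes with `A` and `B * A = 1`. -/
theorem sector_trace_conj {Y A B : Matrix ι ι ℂ} (M : Matrix ι ι ℂ) (hY : Commute Y A)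
    (hBA : B * A = 1) : (Y * (A * M * B)).trace = (Y * M).trace := by
  have : Y * (A * M * B) = A * (Y * M * B) := by
    rw [mul_assoc A M B, ← mul_assoc Y A, hY.eq, mul_assoc, mul_assoc]
  rw [this, trace_mul_comm, mul_assoc, hBA, mul_one]

/-- vanishing of an off-diagonal block. -/
theorem sector_trace_off {Y P Q T : Matrix ι ι ℂ} (hY : Commute Y P) (hPP : P * P = P)
    (hTP : T * P = Q * T) (hPQ : P * Q = 0) : (Y * (T * P)).trace = 0 := by
  have e1 : Y * (T * P) = (Y * (Q * T)) * P := by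
    rw [mul_assoc, ← hTP, mul_assoc T, hPP]
  rw [e1, trace_mul_comm, ← mul_assoc, ← hY.eq, mul_assoc, ← mul_assoc P, hPQ, zero_mul, mul_zero,
    trace_zero]

namespace SectorHypC

variable {X a b t : Matrix ι ι ℂ} (h : SectorHypC X a b t)

include h

theorem X_Q2 : Commute X (sectorQ2 a b) := by
  unfold sectorQ2
  exact ((((Commute.one_right X).sub_right h.hXa).add_right h.hXb).sub_right h.X_ab).smul_right _

theorem X_Q3 : Commute X (sectorQ3 a b) := by
  unfold sectorQ3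
  exact ((((Commute.one_right X).sub_right h.hXa).sub_right h.hXb).add_right h.X_ab).smul_right _

noncomputable def lamI : ι → ℝ := h.projI.lam
noncomputable def lamO : ι → ℝ := h.projO.lam
noncomputable def lamN : ι → ℝ := h.projN.lam

theorem tr_I (n : ℕ) (hn : 1 ≤ n) :
    (X ^ n * (sectorQ0 a b * sectorE t 1)).trace = ((∑ i, h.lamI i ^ n : ℝ) : ℂ) :=
  h.projI.trace_eq n hn

theorem tr_O (n : ℕ) (hn : 1 ≤ n) :
    (X ^ n * (sectorQ0 a b * sectorE t sectorOmega)).trace = ((∑ i, h.lamO i ^ n : ℝ) : ℂ) :=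
  h.projO.trace_eq n hn

theorem tr_O' (n : ℕ) (hn : 1 ≤ n) :
    (X ^ n * (sectorQ0 a b * sectorE t (sectorOmega ^ 2))).trace =
      ((∑ i, h.lamO i ^ n : ℝ) : ℂ) := by
  rw [← h.map_PO n]
  have : ∀ M : Matrix ι ι ℂ, (M.map (starRingEnd ℂ)).trace = starRingEnd ℂ M.trace := by
    intro M
    simp [Matrix.trace, map_sum]
  rw [this, h.tr_O n hn, Complex.conj_ofReal]

theorem tr_N1 (n : ℕ) (hn : 1 ≤ n) :
    (X ^ n * sectorQ1 a b).trace = ((∑ i, h.lamN i ^ n : ℝ) : ℂ) :=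
  h.projN.trace_eq n hn

theorem tr_N2 (n : ℕ) (hn : 1 ≤ n) :
    (X ^ n * sectorQ2 a b).trace = ((∑ i, h.lamN i ^ n : ℝ) : ℂ) := by
  rw [h.Q2_eq, h.tt_herm, sector_trace_conj _ (h.hXt.pow_left n) (by rw [mul_assoc, h.rel.httt]),
    h.tr_N1 n hn]

theorem tr_N3 (n : ℕ) (hn : 1 ≤ n) :
    (X ^ n * sectorQ3 a b).trace = ((∑ i, h.lamN i ^ n : ℝ) : ℂ) := by
  rw [h.Q3_eq, h.ht, sector_trace_conj _ ((h.hXt.mul_right h.hXt).pow_left n) h.rel.httt,
    h.tr_N1 n hn]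

theorem trace_one (n : ℕ) (hn : 1 ≤ n) :
    (X ^ n).trace =
      ((∑ i, h.lamI i ^ n + 2 * ∑ i, h.lamO i ^ n + 3 * ∑ i, h.lamN i ^ n : ℝ) : ℂ) := by
  conv_lhs => rw [← mul_one (X ^ n), h.one_eq]
  simp only [mul_add, trace_add]
  rw [h.tr_I n hn, h.tr_O n hn, h.tr_O' n hn, h.tr_N1 n hn, h.tr_N2 n hn, h.tr_N3 n hn]
  push_cast
  ring

theorem trace_a (n : ℕ) (hn : 1 ≤ n) :
    (X ^ n * a).trace =
      ((∑ i, h.lamI i ^ n + 2 * ∑ i, h.lamO i ^ n - ∑ i, h.lamN i ^ n : ℝ) : ℂ) := by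
  conv_lhs => rw [h.a_eq]
  simp only [mul_add, mul_sub, trace_add, trace_sub]
  rw [h.tr_I n hn, h.tr_O n hn, h.tr_O' n hn, h.tr_N1 n hn, h.tr_N2 n hn, h.tr_N3 n hn]
  push_cast
  ring

theorem trace_t (n : ℕ) (hn : 1 ≤ n) :
    (X ^ n * t).trace = ((∑ i, h.lamI i ^ n - ∑ i, h.lamO i ^ n : ℝ) : ℂ) := by
  conv_lhs => rw [h.t_eq]
  simp only [mul_add, trace_add, mul_smul_comm, trace_smul]
  rw [h.tr_I n hn, h.tr_O n hn, h.tr_O' n hn,
    sector_trace_off (h.X_Q1.pow_left n) (sectorQ1_idem h.rel) (sector_t_Q1 h.rel)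
      (sectorQ12 h.rel),
    sector_trace_off (h.X_Q2.pow_left n) (sectorQ2_idem h.rel) (sector_t_Q2 h.rel)
      (sectorQ23 h.rel),
    sector_trace_off (h.X_Q3.pow_left n) (sectorQ3_idem h.rel) (sector_t_Q3 h.rel)
      (sectorQ31 h.rel)]
  push_cast
  simp only [smul_eq_mul]
  linear_combination (∑ i, (h.lamO i : ℂ) ^ n) * sectorOmega_rel

/-! ### boundary weights -/

noncomputable def cI (v : ι → ℂ) : ι → ℝ := h.projI.wt v
noncomputable def cO (v : ι → ℂ) : ι → ℝ := fun i => h.projO.wt v i + h.projO.wt (star v) i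
noncomputable def cN (v : ι → ℂ) : ι → ℝ := fun i =>
  h.projN.wt v i + h.projN.wt ((t * t) *ᵥ v) i + h.projN.wt (t *ᵥ v) i
noncomputable def cN' (v : ι → ℂ) : ι → ℝ := fun i =>
  h.projN.wt v i - h.projN.wt ((t * t) *ᵥ v) i - h.projN.wt (t *ᵥ v) i

theorem cI_nonneg (v : ι → ℂ) (i : ι) : 0 ≤ h.cI v i := h.projI.wt_nonneg v i
theorem cO_nonneg (v : ι → ℂ) (i : ι) : 0 ≤ h.cO v i :=
  add_nonneg (h.projO.wt_nonneg _ i) (h.projO.wt_nonneg _ i)
theorem cN_nonneg (v : ι → ℂ) (i : ι) : 0 ≤ h.cN v i :=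
  add_nonneg (add_nonneg (h.projN.wt_nonneg _ i) (h.projN.wt_nonneg _ i)) (h.projN.wt_nonneg _ i)
theorem cN'_le (v : ι → ℂ) (i : ι) : |h.cN' v i| ≤ h.cN v i := by
  have h1 := h.projN.wt_nonneg v i
  have h2 := h.projN.wt_nonneg ((t * t) *ᵥ v) i
  have h3 := h.projN.wt_nonneg (t *ᵥ v) i
  unfold cN cN'
  rw [abs_le]
  constructor <;> linarith

theorem qd_I (v : ι → ℂ) (n : ℕ) :
    sectorQuad (X ^ n * (sectorQ0 a b * sectorE t 1)) v =
      ((∑ i, h.projI.wt v i * h.lamI i ^ n : ℝ) : ℂ) :=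
  h.projI.quad_eq v n

theorem qd_O (v : ι → ℂ) (n : ℕ) :
    sectorQuad (X ^ n * (sectorQ0 a b * sectorE t sectorOmega)) v =
      ((∑ i, h.projO.wt v i * h.lamO i ^ n : ℝ) : ℂ) :=
  h.projO.quad_eq v n

theorem qd_O' (v : ι → ℂ) (n : ℕ) :
    sectorQuad (X ^ n * (sectorQ0 a b * sectorE t (sectorOmega ^ 2))) v =
      ((∑ i, h.projO.wt (star v) i * h.lamO i ^ n : ℝ) : ℂ) := by
  rw [← h.map_PO n, sectorQuad_map, h.qd_O, Complex.conj_ofReal]

theorem qd_N1 (v : ι → ℂ) (n : ℕ) :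
    sectorQuad (X ^ n * sectorQ1 a b) v = ((∑ i, h.projN.wt v i * h.lamN i ^ n : ℝ) : ℂ) :=
  h.projN.quad_eq v n

theorem qd_N2 (v : ι → ℂ) (n : ℕ) :
    sectorQuad (X ^ n * sectorQ2 a b) v =
      ((∑ i, h.projN.wt ((t * t) *ᵥ v) i * h.lamN i ^ n : ℝ) : ℂ) := by
  have e : X ^ n * sectorQ2 a b = (t * t)ᴴ * (X ^ n * sectorQ1 a b) * (t * t) := by
    have e1 := (h.hXt.pow_left n).eq
    rw [h.Q2_eq, h.tt_herm]
    calc X ^ n * (t * sectorQ1 a b * (t * t)) = (X ^ n * t) * sectorQ1 a b * (t * t) := by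
          simp only [mul_assoc]
      _ = t * (X ^ n * sectorQ1 a b) * (t * t) := by rw [e1]; simp only [mul_assoc]
  rw [e, sectorQuad_conj, h.qd_N1]

theorem qd_N3 (v : ι → ℂ) (n : ℕ) :
    sectorQuad (X ^ n * sectorQ3 a b) v =
      ((∑ i, h.projN.wt (t *ᵥ v) i * h.lamN i ^ n : ℝ) : ℂ) := by
  have e : X ^ n * sectorQ3 a b = tᴴ * (X ^ n * sectorQ1 a b) * t := by
    rw [h.Q3_eq, h.ht, ← mul_assoc, ← mul_assoc,
      ((h.hXt.mul_right h.hXt).pow_left n).eq, mul_assoc (t * t)]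
  rw [e, sectorQuad_conj, h.qd_N1]

theorem quad_one (v : ι → ℂ) (n : ℕ) :
    sectorQuad (X ^ n) v =
      ((∑ i, h.cI v i * h.lamI i ^ n + ∑ i, h.cO v i * h.lamO i ^ n +
        ∑ i, h.cN v i * h.lamN i ^ n : ℝ) : ℂ) := by
  conv_lhs => rw [← mul_one (X ^ n), h.one_eq]
  simp only [mul_add, sectorQuad_add]
  rw [h.qd_I, h.qd_O, h.qd_O', h.qd_N1, h.qd_N2, h.qd_N3]
  simp only [cI, cO, cN, add_mul, Finset.sum_add_distrib]
  push_cast
  ring

theorem quad_a (v : ι → ℂ) (n : ℕ) :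
    sectorQuad (X ^ n * a) v =
      ((∑ i, h.cI v i * h.lamI i ^ n + ∑ i, h.cO v i * h.lamO i ^ n +
        ∑ i, h.cN' v i * h.lamN i ^ n : ℝ) : ℂ) := by
  conv_lhs => rw [h.a_eq]
  simp only [mul_add, mul_sub, sectorQuad_add, sectorQuad_sub]
  rw [h.qd_I, h.qd_O, h.qd_O', h.qd_N1, h.qd_N2, h.qd_N3]
  simp only [cI, cO, cN', add_mul, sub_mul, Finset.sum_add_distrib, Finset.sum_sub_distrib]
  push_cast
  ring

end SectorHypC

/-- Hypotheses of the sector splitting, real form: `X` real symmetric, `a = U_{P_x}`,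
`b = U_{P_y}`, `t = U_C` real orthogonal with the relations of the rotation group, all commuting
with `X`. -/
structure SectorHypR (X a b t : Matrix ι ι ℝ) : Prop where
  hX : Xᵀ = X
  ha : aᵀ = a
  hb : bᵀ = b
  ht : tᵀ * t = 1
  haa : a * a = 1
  hbb : b * b = 1
  hab : a * b = b * a
  httt : t * t * t = 1
  hta : t * a = b * t
  htb : t * b = a * b * t
  hXa : X * a = a * X
  hXb : X * b = b * X
  hXt : X * t = t * X

/-- complexification of a real matrix -/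
noncomputable def sectorC (M : Matrix ι ι ℝ) : Matrix ι ι ℂ := Complex.ofRealHom.mapMatrix M

theorem sectorC_mul (M N : Matrix ι ι ℝ) : sectorC (M * N) = sectorC M * sectorC N :=
  map_mul _ _ _

theorem sectorC_pow (M : Matrix ι ι ℝ) (n : ℕ) : sectorC (M ^ n) = sectorC M ^ n :=
  map_pow _ _ _

theorem sectorC_one : sectorC (1 : Matrix ι ι ℝ) = 1 := map_one _

theorem sectorC_conjTranspose (M : Matrix ι ι ℝ) : (sectorC M)ᴴ = sectorC Mᵀ := by
  ext i j
  simp [sectorC, conjTranspose_apply]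

theorem sectorC_map (M : Matrix ι ι ℝ) : (sectorC M).map (starRingEnd ℂ) = sectorC M := by
  ext i j
  simp [sectorC]

theorem sectorC_trace (M : Matrix ι ι ℝ) : (sectorC M).trace = ((M.trace : ℝ) : ℂ) := by
  simp [sectorC, Matrix.trace]

theorem SectorHypR.toC {X a b t : Matrix ι ι ℝ} (h : SectorHypR X a b t) :
    SectorHypC (sectorC X) (sectorC a) (sectorC b) (sectorC t) where
  rel :=
    { haa := by rw [← sectorC_mul, h.haa, sectorC_one]
      hbb := by rw [← sectorC_mul, h.hbb, sectorC_one]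
      hba := by rw [← sectorC_mul, ← sectorC_mul, h.hab]
      httt := by rw [← sectorC_mul, ← sectorC_mul, ← mul_assoc, h.httt, sectorC_one]
      hta := by rw [← sectorC_mul, ← sectorC_mul, h.hta]
      htb := by rw [← sectorC_mul, ← sectorC_mul, ← sectorC_mul, h.htb, mul_assoc] }
  hX := by unfold Matrix.IsHermitian; rw [sectorC_conjTranspose, h.hX]
  ha := by unfold Matrix.IsHermitian; rw [sectorC_conjTranspose, h.ha]
  hb := by unfold Matrix.IsHermitian; rw [sectorC_conjTranspose, h.hb]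
  ht := by
    have : tᵀ = t * t := by
      calc tᵀ = tᵀ * (t * t * t) := by rw [h.httt, mul_one]
        _ = (tᵀ * t) * (t * t) := by simp only [mul_assoc]
        _ = t * t := by rw [h.ht, one_mul]
    rw [sectorC_conjTranspose, this, sectorC_mul]
  hXa := by unfold Commute SemiconjBy; rw [← sectorC_mul, ← sectorC_mul, h.hXa]
  hXb := by unfold Commute SemiconjBy; rw [← sectorC_mul, ← sectorC_mul, h.hXb]
  hXt := by unfold Commute SemiconjBy; rw [← sectorC_mul, ← sectorC_mul, h.hXt]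
  rX := sectorC_map X
  ra := sectorC_map a
  rb := sectorC_map b
  rt := sectorC_map t

/-- **Sector splitting** (paper 1, Lemma "Sector moments"; with the boundary weights of paper 2).
The three lists are indexed by `ι` itself (they are padded by zeros), so the trace identities hold
for `n ≥ 1`; the boundary identities hold for all `n` (with `0 ^ 0 = 1`), in particular
`n = 0` gives `∑ cI + ∑ cO + ∑ cN = ‖v‖²`. -/
theorem sector_split {X a b t : Matrix ι ι ℝ} (h : SectorHypR X a b t) :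
    ∃ lamI lamO lamN : ι → ℝ,
      (∀ n : ℕ, 1 ≤ n → (X ^ n).trace =
        ∑ i, lamI i ^ n + 2 * ∑ i, lamO i ^ n + 3 * ∑ i, lamN i ^ n) ∧
      (∀ n : ℕ, 1 ≤ n → (X ^ n * a).trace =
        ∑ i, lamI i ^ n + 2 * ∑ i, lamO i ^ n - ∑ i, lamN i ^ n) ∧
      (∀ n : ℕ, 1 ≤ n → (X ^ n * t).trace = ∑ i, lamI i ^ n - ∑ i, lamO i ^ n) ∧
      ∀ v : ι → ℂ, ∃ cI cO cN cN' : ι → ℝ,
        (∀ i, 0 ≤ cI i) ∧ (∀ i, 0 ≤ cO i) ∧ (∀ i, 0 ≤ cN i) ∧ (∀ i, |cN' i| ≤ cN i) ∧
        (∀ n : ℕ, star v ⬝ᵥ ((X ^ n).map Complex.ofReal *ᵥ v) =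
          ((∑ i, cI i * lamI i ^ n + ∑ i, cO i * lamO i ^ n + ∑ i, cN i * lamN i ^ n : ℝ) : ℂ)) ∧
        (∀ n : ℕ, star v ⬝ᵥ ((X ^ n * a).map Complex.ofReal *ᵥ v) =
          ((∑ i, cI i * lamI i ^ n + ∑ i, cO i * lamO i ^ n + ∑ i, cN' i * lamN i ^ n : ℝ) : ℂ)) := by
  have H := h.toC
  refine ⟨H.lamI, H.lamO, H.lamN, ?_, ?_, ?_, ?_⟩
  · intro n hn
    have := H.trace_one n hn
    rw [← sectorC_pow, sectorC_trace] at this
    exact_mod_cast this
  · intro n hn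
    have := H.trace_a n hn
    rw [← sectorC_pow, ← sectorC_mul, sectorC_trace] at this
    exact_mod_cast this
  · intro n hn
    have := H.trace_t n hn
    rw [← sectorC_pow, ← sectorC_mul, sectorC_trace] at this
    exact_mod_cast this
  · intro v
    refine ⟨H.cI v, H.cO v, H.cN v, H.cN' v, H.cI_nonneg v, H.cO_nonneg v, H.cN_nonneg v,
      H.cN'_le v, ?_, ?_⟩
    · intro n
      have := H.quad_one v n
      rw [← sectorC_pow] at this
      exact this
    · intro n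
      have := H.quad_a v n
      rw [← sectorC_pow, ← sectorC_mul] at this
      exact this

end Claimed.Agent.R297
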