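import Claimed.Agent.R297.SectorAlg

/-!
# Row 297: lists attached to a Hermitian projection commuting with `X` (owner helper156)
-/

set_option linter.unusedSimpArgs false
set_option linter.unusedSectionVars false

namespace Claimed.Agent.R297

open Matrix

variable {ι : Type*} [Fintype ι] [DecidableEq ι]

/-- The quadratic form `⟨v, M v⟩`. -/
def sectorQuad (M : Matrix ι ι ℂ) (v : ι → ℂ) : ℂ := star v ⬝ᵥ (M *ᵥ v)

theorem sectorQuad_add (M N : Matrix ι ι ℂ) (v : ι → ℂ) :
    sectorQuad (M + N) v = sectorQuad M v + sectorQuad N v := by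
  simp [sectorQuad, add_mulVec, dotProduct_add]

theorem sectorQuad_sub (M N : Matrix ι ι ℂ) (v : ι → ℂ) :
    sectorQuad (M - N) v = sectorQuad M v - sectorQuad N v := by
  simp [sectorQuad, sub_mulVec, dotProduct_sub]

theorem sectorQuad_conj (A M : Matrix ι ι ℂ) (v : ι → ℂ) :
    sectorQuad (Aᴴ * M * A) v = sectorQuad M (A *ᵥ v) := by
  simp only [sectorQuad]
  rw [← mulVec_mulVec, ← mulVec_mulVec, dotProduct_mulVec, star_mulVec]

theorem sectorQuad_map (M : Matrix ι ι ℂ) (v : ι → ℂ) :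
    sectorQuad (M.map (starRingEnd ℂ)) v = starRingEnd ℂ (sectorQuad M (star v)) := by
  simp only [sectorQuad, dotProduct, mulVec, map_sum, map_mul, Matrix.map_apply, Pi.star_apply,
    Complex.star_def, Complex.conj_conj]

/-- A Hermitian projection commuting with the Hermitian matrix `X`. -/
structure SectorProj (X P : Matrix ι ι ℂ) : Prop where
  hX : X.IsHermitian
  hP : P.IsHermitian
  idem : P * P = P
  comm : Commute X P

namespace SectorProj

variable {X P : Matrix ι ι ℂ} (h : SectorProj X P)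

include h

theorem herm : (X * P).IsHermitian := (h.hX.commute_iff h.hP).1 h.comm

theorem pow_P (n : ℕ) : P ^ (n + 1) = P :=
  IsIdempotentElem.pow_succ_eq n h.idem

theorem mul_pow' (n : ℕ) (hn : 1 ≤ n) : (X * P) ^ n = X ^ n * P := by
  obtain ⟨m, rfl⟩ : ∃ m, n = m + 1 := ⟨n - 1, by omega⟩
  rw [h.comm.mul_pow, h.pow_P]

theorem sandwich (n : ℕ) : Pᴴ * (X * P) ^ n * P = X ^ n * P := by
  rw [h.hP.eq, h.comm.mul_pow, ← mul_assoc, ← (h.comm.pow_left n).eq, mul_assoc, mul_assoc,
    ← pow_succ, ← pow_succ', h.pow_P]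

/-- The eigenvalue list of `X` on the range of `P` (padded by zeros). -/
noncomputable def lam : ι → ℝ := h.herm.eigenvalues

/-- The weights of `v` on the eigenvectors of `X` in the range of `P`. -/
noncomputable def wt (v : ι → ℂ) : ι → ℝ := sectorWeight h.herm (P *ᵥ v)

theorem wt_nonneg (v : ι → ℂ) (i : ι) : 0 ≤ h.wt v i := sectorWeight_nonneg _ _ _

theorem trace_eq (n : ℕ) (hn : 1 ≤ n) :
    (X ^ n * P).trace = ((∑ i, h.lam i ^ n : ℝ) : ℂ) := by
  rw [← h.mul_pow' n hn, sector_trace_pow h.herm n]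
  rfl

theorem quad_eq (v : ι → ℂ) (n : ℕ) :
    sectorQuad (X ^ n * P) v = ((∑ i, h.wt v i * h.lam i ^ n : ℝ) : ℂ) := by
  rw [← h.sandwich n, sectorQuad_conj, sectorQuad, sector_quad_pow h.herm]
  rfl

end SectorProj

end Claimed.Agent.R297
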