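import Mathlib

/-!
# Row 297: generic Hermitian tools (owner helper156)

For a Hermitian complex matrix `A`:
* `sector_herm_pow`      : `A ^ n = U * diagonal (eig ^ n) * star U`
* `sector_trace_pow`     : `trace (A ^ n) = ∑ eig ^ n`
* `sector_quad_pow`      : `star v ⬝ᵥ (A ^ n *ᵥ v) = ∑ eig ^ n * ‖(star U *ᵥ v) i‖ ^ 2`
-/

namespace Claimed.Agent.R297

open Matrix

variable {ι : Type*} [Fintype ι] [DecidableEq ι]

theorem sector_herm_pow {A : Matrix ι ι ℂ} (hA : A.IsHermitian) (n : ℕ) :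
    A ^ n = (hA.eigenvectorUnitary : Matrix ι ι ℂ) *
      diagonal (fun i => ((hA.eigenvalues i : ℂ)) ^ n) *
      star (hA.eigenvectorUnitary : Matrix ι ι ℂ) := by
  conv_lhs => rw [hA.spectral_theorem]
  rw [← map_pow, diagonal_pow, Unitary.conjStarAlgAut_apply]
  rfl

theorem sector_trace_pow {A : Matrix ι ι ℂ} (hA : A.IsHermitian) (n : ℕ) :
    (A ^ n).trace = ((∑ i, (hA.eigenvalues i) ^ n : ℝ) : ℂ) := by
  rw [sector_herm_pow hA n, trace_mul_cycle, Unitary.coe_star_mul_self, one_mul, trace_diagonal]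
  push_cast
  rfl

/-- The weights of a vector in the eigenbasis of a Hermitian matrix. -/
noncomputable def sectorWeight {A : Matrix ι ι ℂ} (hA : A.IsHermitian) (v : ι → ℂ) (i : ι) : ℝ :=
  ‖(star (hA.eigenvectorUnitary : Matrix ι ι ℂ) *ᵥ v) i‖ ^ 2

theorem sectorWeight_nonneg {A : Matrix ι ι ℂ} (hA : A.IsHermitian) (v : ι → ℂ) (i : ι) :
    0 ≤ sectorWeight hA v i := by
  unfold sectorWeight; positivity

theorem sector_quad_pow {A : Matrix ι ι ℂ} (hA : A.IsHermitian) (v : ι → ℂ) (n : ℕ) :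
    star v ⬝ᵥ (A ^ n *ᵥ v) =
      ((∑ i, sectorWeight hA v i * (hA.eigenvalues i) ^ n : ℝ) : ℂ) := by
  rw [sector_herm_pow hA n]
  set U : Matrix ι ι ℂ := (hA.eigenvectorUnitary : Matrix ι ι ℂ) with hU
  have h1 : star v ⬝ᵥ ((U * diagonal (fun i => ((hA.eigenvalues i : ℂ)) ^ n) * star U) *ᵥ v)
      = star (star U *ᵥ v) ⬝ᵥ (diagonal (fun i => ((hA.eigenvalues i : ℂ)) ^ n) *ᵥ (star U *ᵥ v)) := by
    rw [← mulVec_mulVec, ← mulVec_mulVec, dotProduct_mulVec, star_mulVec, star_eq_conjTranspose,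
      conjTranspose_conjTranspose]
  rw [h1]
  simp only [dotProduct, mulVec_diagonal, Pi.star_apply, sectorWeight]
  push_cast
  refine Finset.sum_congr rfl fun i _ => ?_
  have : (star ((star U *ᵥ v) i)) * ((star U *ᵥ v) i) = ((‖(star U *ᵥ v) i‖ : ℂ)) ^ 2 := by
    rw [Complex.star_def, Complex.conj_mul']
  rw [← this]
  ring

end Claimed.Agent.R297
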