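import Mathlib

/-!
# R297 / SeedTools : parameter-free analysis tools for the seed propositions

Families are arbitrary `l : ι → ℝ` (finite or infinite index type), sums are `tsum`.
-/

namespace Claimed.Agent.R297

variable {ι : Type*}

/-! ## 1. Elementary power inequalities -/

/-- The increment `(x+δ)^r - x^r` is monotone in `x ≥ 0`. -/
theorem seedT_pow_incr_mono (r : ℕ) {d x δ : ℝ} (hd : 0 ≤ d) (hdx : d ≤ x) (hδ : 0 ≤ δ) :
    (d + δ) ^ r - d ^ r ≤ (x + δ) ^ r - x ^ r := by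
  induction r with
  | zero => simp
  | succ r ih =>
    have hx : 0 ≤ x := hd.trans hdx
    have h1 : 0 ≤ (d + δ) ^ r - d ^ r := by
      have : d ^ r ≤ (d + δ) ^ r := pow_le_pow_left₀ hd (by linarith) r
      linarith
    have h2 : d ^ r ≤ x ^ r := pow_le_pow_left₀ hd hdx r
    have e1 : (d + δ) ^ (r + 1) - d ^ (r + 1) = (d + δ) * ((d + δ) ^ r - d ^ r) + δ * d ^ r := by
      ring
    have e2 : (x + δ) ^ (r + 1) - x ^ (r + 1) = (x + δ) * ((x + δ) ^ r - x ^ r) + δ * x ^ r := by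
      ring
    rw [e1, e2]
    have h3 : (d + δ) * ((d + δ) ^ r - d ^ r) ≤ (x + δ) * ((x + δ) ^ r - x ^ r) :=
      mul_le_mul (by linarith) ih h1 (by linarith)
    have h4 : δ * d ^ r ≤ δ * x ^ r := mul_le_mul_of_nonneg_left h2 hδ
    linarith

/-- Superadditivity of powers. -/
theorem seedT_pow_add_le (r : ℕ) (hr : 1 ≤ r) {x y : ℝ} (hx : 0 ≤ x) (hy : 0 ≤ y) :
    x ^ r + y ^ r ≤ (x + y) ^ r := by
  have h := seedT_pow_incr_mono r (d := 0) (x := x) (δ := y) le_rfl hx hy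
  have h0 : (0 : ℝ) ^ r = 0 := zero_pow (by omega)
  rw [h0] at h
  simp only [zero_add, sub_zero] at h
  linarith

/-- Two-point majorisation: moving mass to the cap increases the power sum. -/
theorem seedT_pow_transfer (r : ℕ) {x y h : ℝ} (hxh : x ≤ h) (hyh : y ≤ h)
    (hxy : h ≤ x + y) : x ^ r + y ^ r ≤ h ^ r + (x + y - h) ^ r := by
  have hh := seedT_pow_incr_mono r (d := x + y - h) (x := x) (δ := h - x)
    (by linarith) (by linarith) (by linarith)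
  have e1 : x + y - h + (h - x) = y := by ring
  have e2 : x + (h - x) = h := by ring
  rw [e1, e2] at hh
  linarith

/-! ## 2. Capped and uncapped masses -/

/-- Capped masses, finite form (paper 1, Lemma "Capped masses"). -/
theorem seedT_capped_finset (r : ℕ) (hr : 1 ≤ r) {t : ι → ℝ} {h : ℝ}
    (s : Finset ι) (h0 : ∀ i ∈ s, 0 ≤ t i) (hcap : ∀ i ∈ s, t i ≤ h) :
    ∀ (k : ℕ) (m : ℝ), ∑ i ∈ s, t i ≤ m → (k : ℝ) * h ≤ m → m ≤ ((k : ℝ) + 1) * h →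
      ∑ i ∈ s, t i ^ r ≤ (k : ℝ) * h ^ r + (m - k * h) ^ r := by
  classical
  induction s using Finset.induction_on with
  | empty =>
    intro k m _ hk1 hk2
    simp only [Finset.sum_empty]
    have hh : 0 ≤ h := by nlinarith
    have : 0 ≤ h ^ r := pow_nonneg hh r
    have h2 : 0 ≤ (m - k * h) ^ r := pow_nonneg (by linarith) r
    positivity
  | insert a s ha ih =>
    intro k m hm hk1 hk2
    rw [Finset.sum_insert ha] at hm ⊢
    have h0a : 0 ≤ t a := h0 a (Finset.mem_insert_self a s)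
    have hca : t a ≤ h := hcap a (Finset.mem_insert_self a s)
    have h0s : ∀ i ∈ s, 0 ≤ t i := fun i hi => h0 i (Finset.mem_insert_of_mem hi)
    have hcs : ∀ i ∈ s, t i ≤ h := fun i hi => hcap i (Finset.mem_insert_of_mem hi)
    have ih' := ih h0s hcs
    have hsum0 : 0 ≤ ∑ i ∈ s, t i := Finset.sum_nonneg h0s
    by_cases hc : (k : ℝ) * h ≤ m - t a
    · have h1 := ih' k (m - t a) (by linarith) hc (by linarith)
      have h2 := seedT_pow_add_le r hr (x := m - t a - k * h) (y := t a) (by linarith) h0a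
      have e : m - t a - k * h + t a = m - k * h := by ring
      rw [e] at h2
      linarith
    · push Not at hc
      obtain _ | k := k
      · simp only [Nat.cast_zero, zero_mul] at hc
        linarith
      · have hk : ((k + 1 : ℕ) : ℝ) = (k : ℝ) + 1 := by push_cast; ring
        rw [hk] at hc hk1 hk2 ⊢
        have h1 := ih' k (m - t a) (by linarith) (by nlinarith) (by linarith)
        have h2 := seedT_pow_transfer r (x := m - t a - k * h) (y := t a) (h := h)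
          (by nlinarith) hca (by nlinarith)
        have e : m - t a - k * h + t a - h = m - (k + 1) * h := by ring
        rw [e] at h2
        have e3 : ((k : ℝ) + 1) * h ^ r = k * h ^ r + h ^ r := by ring
        rw [e3]
        linarith

/-- Each term of a nonnegative summable family is at most the sum. -/
theorem seedT_le_tsum {f : ι → ℝ} (h0 : ∀ i, 0 ≤ f i) (hs : Summable f) (i : ι) :
    f i ≤ ∑' j, f j :=
  hs.le_tsum i (fun j _ => h0 j)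

/-- Powers of a nonnegative summable family are summable. -/
theorem seedT_summable_pow_nonneg {t : ι → ℝ} (h0 : ∀ i, 0 ≤ t i) (hs : Summable t)
    (r : ℕ) (hr : 1 ≤ r) : Summable fun i => t i ^ r := by
  obtain ⟨r, rfl⟩ : ∃ r', r = r' + 1 := ⟨r - 1, by omega⟩
  refine Summable.of_nonneg_of_le (fun i => pow_nonneg (h0 i) _) (fun i => ?_)
    (hs.mul_right ((∑' j, t j) ^ r))
  rw [pow_succ, mul_comm]
  exact mul_le_mul_of_nonneg_left (pow_le_pow_left₀ (h0 i) (seedT_le_tsum h0 hs i) r) (h0 i)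

/-- Uncapped masses: `∑ t^r ≤ (∑ t)^r`. -/
theorem seedT_tsum_pow_le {t : ι → ℝ} (h0 : ∀ i, 0 ≤ t i) (hs : Summable t)
    (r : ℕ) (hr : 1 ≤ r) : ∑' i, t i ^ r ≤ (∑' i, t i) ^ r := by
  have hsr := seedT_summable_pow_nonneg h0 hs r hr
  obtain ⟨r, rfl⟩ : ∃ r', r = r' + 1 := ⟨r - 1, by omega⟩
  have h1 : ∑' i, t i ^ (r + 1) ≤ ∑' i, t i * (∑' j, t j) ^ r := by
    refine hsr.tsum_le_tsum (fun i => ?_) (hs.mul_right _)
    rw [pow_succ, mul_comm]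
    exact mul_le_mul_of_nonneg_left (pow_le_pow_left₀ (h0 i) (seedT_le_tsum h0 hs i) r) (h0 i)
  rw [tsum_mul_right] at h1
  rw [pow_succ, mul_comm]
  exact h1

/-- Uncapped masses with an upper bound on the mass. -/
theorem seedT_uncapped {t : ι → ℝ} (h0 : ∀ i, 0 ≤ t i) (hs : Summable t)
    (r : ℕ) (hr : 1 ≤ r) {m : ℝ} (hm : ∑' i, t i ≤ m) : ∑' i, t i ^ r ≤ m ^ r :=
  (seedT_tsum_pow_le h0 hs r hr).trans (pow_le_pow_left₀ (tsum_nonneg h0) hm r)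

/-- Capped masses (paper 1, Lemma "Capped masses"), `k = ⌊m/h⌋` supplied by the user. -/
theorem seedT_capped {t : ι → ℝ} {h : ℝ} (h0 : ∀ i, 0 ≤ t i) (hcap : ∀ i, t i ≤ h)
    (hs : Summable t) (r : ℕ) (hr : 1 ≤ r) (k : ℕ) {m : ℝ} (hm : ∑' i, t i ≤ m)
    (hk1 : (k : ℝ) * h ≤ m) (hk2 : m ≤ ((k : ℝ) + 1) * h) :
    ∑' i, t i ^ r ≤ (k : ℝ) * h ^ r + (m - k * h) ^ r := by
  refine (seedT_summable_pow_nonneg h0 hs r hr).tsum_le_of_sum_le (fun s => ?_)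
  exact seedT_capped_finset r hr s (fun i _ => h0 i) (fun i _ => hcap i) k m
    ((hs.sum_le_tsum s (fun i _ => h0 i)).trans hm) hk1 hk2

/-- Two-piece capped masses. -/
theorem seedT_capped_two {t : ι → ℝ} {h : ℝ} (h0 : ∀ i, 0 ≤ t i) (hcap : ∀ i, t i ≤ h)
    (hs : Summable t) (r : ℕ) (hr : 1 ≤ r) {m : ℝ} (hm : ∑' i, t i ≤ m)
    (hk1 : h ≤ m) (hk2 : m ≤ 2 * h) :
    ∑' i, t i ^ r ≤ h ^ r + (m - h) ^ r := by
  have := seedT_capped h0 hcap hs r hr 1 hm (by simpa using hk1) (by norm_num; linarith)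
  simpa using this

/-! ## 3. Signed eigenvalue lists -/

/-- All powers `k ≥ 2` of a square-summable real family are summable. -/
theorem seedT_summable_pow {l : ι → ℝ} (hs : Summable fun i => l i ^ 2) {k : ℕ} (hk : 2 ≤ k) :
    Summable fun i => l i ^ k := by
  obtain ⟨k, rfl⟩ : ∃ k', k = 2 + k' := ⟨k - 2, by omega⟩
  set S := ∑' j, l j ^ 2 with hS
  have hb : ∀ i, |l i| ≤ 1 + S := fun i => by
    have h1 : l i ^ 2 ≤ S := seedT_le_tsum (fun j => sq_nonneg (l j)) hs i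
    have h2 : |l i| ^ 2 = l i ^ 2 := sq_abs (l i)
    nlinarith [abs_nonneg (l i), sq_nonneg (|l i| - 1)]
  refine Summable.of_norm_bounded (hs.mul_right ((1 + S) ^ k)) (fun i => ?_)
  rw [Real.norm_eq_abs, abs_pow, pow_add, sq_abs]
  exact mul_le_mul_of_nonneg_left (pow_le_pow_left₀ (abs_nonneg _) (hb i) k) (sq_nonneg _)

/-- Capped masses for a signed list: from a modulus cap `U` and a bound `m` on the `p`-th moment
(`p` even) to a bound on the `p*r`-th moment. -/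
theorem seedT_list_capped_two {l : ι → ℝ} (hs : Summable fun i => l i ^ 2) {U m : ℝ}
    {p : ℕ} (hp : Even p) (hp2 : 2 ≤ p) (hU : ∀ i, |l i| ≤ U) (hm : ∑' i, l i ^ p ≤ m)
    (h1 : U ^ p ≤ m) (h2 : m ≤ 2 * U ^ p) (r : ℕ) (hr : 1 ≤ r) :
    ∑' i, l i ^ (p * r) ≤ U ^ (p * r) + (m - U ^ p) ^ r := by
  have h := seedT_capped_two (t := fun i => l i ^ p) (h := U ^ p) (fun i => hp.pow_nonneg _)
    (fun i => by
      rw [← hp.pow_abs]
      exact pow_le_pow_left₀ (abs_nonneg _) (hU i) p)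
    (seedT_summable_pow hs hp2) r hr hm h1 h2
  simpa only [← pow_mul] using h

/-- Uncapped masses for a signed list. -/
theorem seedT_list_uncapped {l : ι → ℝ} (hs : Summable fun i => l i ^ 2) {m : ℝ}
    {p : ℕ} (hp : Even p) (hp2 : 2 ≤ p) (hm : ∑' i, l i ^ p ≤ m) (r : ℕ) (hr : 1 ≤ r) :
    ∑' i, l i ^ (p * r) ≤ m ^ r := by
  have h := seedT_uncapped (t := fun i => l i ^ p) (fun i => hp.pow_nonneg _)
    (seedT_summable_pow hs hp2) r hr hm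
  simpa only [← pow_mul] using h

/-! ## 4. Polynomial filters -/

/-- General filter (paper 1, Lemma "Polynomial filter"). -/
theorem seedT_filter_general {l : ι → ℝ} {F : ℝ → ℝ} {B U : ℝ} (hF : ∀ x, 0 ≤ F x)
    (hs : Summable fun i => F (l i)) (hB : ∑' i, F (l i) ≤ B)
    (hout : ∀ x, U ≤ |x| → B < F x) (i : ι) : |l i| < U := by
  by_contra hc
  push Not at hc
  have h1 := hout (l i) hc
  have h2 := seedT_le_tsum (fun j => hF (l j)) hs i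
  linarith

/-- Monotonicity of the filter `x^6 (c0 + c1 x^2)^2` beyond its endpoint. -/
theorem seedT_filter_mono {c0 c1 U x : ℝ} (hU : 0 ≤ U) (hc1 : 0 ≤ c1)
    (hc : 0 ≤ c0 + c1 * U ^ 2) (hx : U ≤ |x|) :
    U ^ 6 * (c0 + c1 * U ^ 2) ^ 2 ≤ x ^ 6 * (c0 + c1 * x ^ 2) ^ 2 := by
  have h2 : U ^ 2 ≤ x ^ 2 := by
    rw [← sq_abs x]
    exact pow_le_pow_left₀ hU hx 2
  have h6 : U ^ 6 ≤ x ^ 6 := by
    have : |x| ^ 6 = x ^ 6 := (by decide : Even 6).pow_abs x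
    rw [← this]
    exact pow_le_pow_left₀ hU hx 6
  have h3 : c0 + c1 * U ^ 2 ≤ c0 + c1 * x ^ 2 := by nlinarith
  exact mul_le_mul h6 (pow_le_pow_left₀ hc h3 2) (sq_nonneg _) ((pow_nonneg hU 6).trans h6)

/-- The filter `x^6 (c0 + c1 x^2)^2` applied to a square-summable list, in terms of the moments
of orders `6, 8, 10`. -/
theorem seedT_filter_6810 {l : ι → ℝ} (hs : Summable fun i => l i ^ 2) {c0 c1 U B : ℝ}
    (hU : 0 ≤ U) (hc1 : 0 ≤ c1) (hc : 0 ≤ c0 + c1 * U ^ 2)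
    (hB : c0 ^ 2 * ∑' i, l i ^ 6 + 2 * c0 * c1 * ∑' i, l i ^ 8 + c1 ^ 2 * ∑' i, l i ^ 10 ≤ B)
    (hBU : B < U ^ 6 * (c0 + c1 * U ^ 2) ^ 2) (i : ι) : |l i| < U := by
  have s6 := seedT_summable_pow hs (k := 6) (by norm_num)
  have s8 := seedT_summable_pow hs (k := 8) (by norm_num)
  have s10 := seedT_summable_pow hs (k := 10) (by norm_num)
  have hfun : (fun i => (l i) ^ 6 * (c0 + c1 * (l i) ^ 2) ^ 2)
      = fun i => c0 ^ 2 * l i ^ 6 + 2 * c0 * c1 * l i ^ 8 + c1 ^ 2 * l i ^ 10 := by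
    funext i; ring
  have hsum : Summable fun i => (l i) ^ 6 * (c0 + c1 * (l i) ^ 2) ^ 2 := by
    rw [hfun]
    exact ((s6.mul_left _).add (s8.mul_left _)).add (s10.mul_left _)
  have hts : ∑' i, (l i) ^ 6 * (c0 + c1 * (l i) ^ 2) ^ 2
      = c0 ^ 2 * ∑' i, l i ^ 6 + 2 * c0 * c1 * ∑' i, l i ^ 8 + c1 ^ 2 * ∑' i, l i ^ 10 := by
    rw [hfun, Summable.tsum_add ((s6.mul_left _).add (s8.mul_left _)) (s10.mul_left _),
      Summable.tsum_add (s6.mul_left _) (s8.mul_left _), tsum_mul_left, tsum_mul_left,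
      tsum_mul_left]
  refine seedT_filter_general (F := fun x => x ^ 6 * (c0 + c1 * x ^ 2) ^ 2) (B := B)
    (fun x => mul_nonneg ((by decide : Even 6).pow_nonneg x) (sq_nonneg _)) hsum
    (by rw [hts]; exact hB) (fun x hx => ?_) i
  exact lt_of_lt_of_le hBU (seedT_filter_mono hU hc1 hc hx)

/-! ## 5. Temperature raise and the physical seed -/

section finite

variable {κ : Type*} [Fintype κ]

/-- finite form of the uncapped bound. -/
theorem seedT_sum_pow_le (t : κ → ℝ) (h0 : ∀ k, 0 ≤ t k) (r : ℕ) (hr : 1 ≤ r) :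
    ∑ k, t k ^ r ≤ (∑ k, t k) ^ r := by
  have h := seedT_tsum_pow_le h0 (Summable.of_finite) r hr
  simpa only [tsum_fintype] using h

/-- `(∑ β^5)^2 ≤ (∑ β^2)^5` : raising the inverse temperature by the factor `5/2`. -/
theorem seedT_raise (β : κ → ℝ) : (∑ k, β k ^ 5) ^ 2 ≤ (∑ k, β k ^ 2) ^ 5 := by
  have h1 : (∑ k, β k * β k ^ 4) ^ 2 ≤ (∑ k, β k ^ 2) * (∑ k, (β k ^ 4) ^ 2) :=
    Finset.sum_mul_sq_le_sq_mul_sq Finset.univ _ _
  have h2 : ∑ k, (β k ^ 2) ^ 4 ≤ (∑ k, β k ^ 2) ^ 4 :=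
    seedT_sum_pow_le (fun k => β k ^ 2) (fun k => sq_nonneg _) 4 (by norm_num)
  have e1 : ∑ k, β k * β k ^ 4 = ∑ k, β k ^ 5 := Finset.sum_congr rfl fun k _ => by ring
  have e2 : ∑ k, (β k ^ 4) ^ 2 = ∑ k, (β k ^ 2) ^ 4 := Finset.sum_congr rfl fun k _ => by ring
  rw [e1, e2] at h1
  have h3 : 0 ≤ ∑ k, β k ^ 2 := Finset.sum_nonneg fun k _ => sq_nonneg _
  calc (∑ k, β k ^ 5) ^ 2 ≤ (∑ k, β k ^ 2) * (∑ k, (β k ^ 2) ^ 4) := h1
    _ ≤ (∑ k, β k ^ 2) * (∑ k, β k ^ 2) ^ 4 := mul_le_mul_of_nonneg_left h2 h3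
    _ = (∑ k, β k ^ 2) ^ 5 := by ring

/-- Boltzmann form of `seedT_raise`. -/
theorem seedT_raise_exp (e : κ → ℝ) (b0 : ℝ) :
    (∑ k, Real.exp (-(5 / 2 * b0) * e k)) ^ 2 ≤ (∑ k, Real.exp (-b0 * e k)) ^ 5 := by
  have h := seedT_raise (fun k => Real.exp (-(b0 / 2) * e k))
  have e5 : ∀ k, Real.exp (-(b0 / 2) * e k) ^ 5 = Real.exp (-(5 / 2 * b0) * e k) := fun k => by
    rw [← Real.exp_nat_mul]; congr 1; push_cast; ring
  have e2 : ∀ k, Real.exp (-(b0 / 2) * e k) ^ 2 = Real.exp (-b0 * e k) := fun k => by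
    rw [← Real.exp_nat_mul]; congr 1; push_cast; ring
  simpa only [e5, e2] using h

/-- Physical purity from one Boltzmann factor `≥ 1` and a bound `q` on the total mass. -/
theorem seedT_phys (β : κ → ℝ) (k0 : κ) (h0 : 1 ≤ β k0) {q Rq : ℝ}
    (hq : ∑ k, β k ^ 2 ≤ q) (hRq : 0 ≤ Rq) (hR : (q - 1) ^ 5 ≤ Rq ^ 2) :
    (∑ k, β k ^ 5) ^ 2 ≤ (1 + Rq) ^ 2 * ∑ k, β k ^ 10 := by
  classical
  set γ : κ → ℝ := fun k => if k = k0 then 0 else β k with hγ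
  have split : ∀ p : ℕ, 1 ≤ p → ∑ k, β k ^ p = β k0 ^ p + ∑ k, γ k ^ p := by
    intro p hp
    rw [← Finset.add_sum_erase Finset.univ _ (Finset.mem_univ k0)]
    congr 1
    rw [← Finset.add_sum_erase Finset.univ (fun k => γ k ^ p) (Finset.mem_univ k0)]
    have : γ k0 ^ p = 0 := by simp [hγ, show p ≠ 0 by omega]
    rw [this, zero_add]
    refine Finset.sum_congr rfl fun k hk => ?_
    have hk' : k ≠ k0 := Finset.ne_of_mem_erase hk
    simp [hγ, hk']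
  have hr := seedT_raise γ
  have s2 := split 2 (by norm_num)
  have s5 := split 5 (by norm_num)
  have s10 := split 10 (by norm_num)
  have g2 : 0 ≤ ∑ k, γ k ^ 2 := Finset.sum_nonneg fun k _ => sq_nonneg _
  have g10 : 0 ≤ ∑ k, γ k ^ 10 :=
    Finset.sum_nonneg fun k _ => (by decide : Even 10).pow_nonneg _
  have hb2 : 1 ≤ β k0 ^ 2 := one_le_pow₀ h0
  have hq0 : 0 ≤ q := by nlinarith
  have h1 : ∑ k, γ k ^ 2 ≤ (q - 1) * β k0 ^ 2 := by nlinarith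
  have h2 : (∑ k, γ k ^ 5) ^ 2 ≤ (Rq * β k0 ^ 5) ^ 2 := by
    calc (∑ k, γ k ^ 5) ^ 2 ≤ (∑ k, γ k ^ 2) ^ 5 := hr
      _ ≤ ((q - 1) * β k0 ^ 2) ^ 5 := pow_le_pow_left₀ g2 h1 5
      _ = (q - 1) ^ 5 * (β k0 ^ 5) ^ 2 := by ring
      _ ≤ Rq ^ 2 * (β k0 ^ 5) ^ 2 := mul_le_mul_of_nonneg_right hR (sq_nonneg _)
      _ = (Rq * β k0 ^ 5) ^ 2 := by ring
  have hb5 : 0 ≤ β k0 ^ 5 := pow_nonneg (by linarith) 5
  have h3 : |∑ k, γ k ^ 5| ≤ Rq * β k0 ^ 5 :=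
    abs_le_of_sq_le_sq h2 (mul_nonneg hRq hb5)
  have h4 : |∑ k, β k ^ 5| ≤ (1 + Rq) * β k0 ^ 5 := by
    rw [s5]
    calc |β k0 ^ 5 + ∑ k, γ k ^ 5| ≤ |β k0 ^ 5| + |∑ k, γ k ^ 5| := abs_add_le _ _
      _ ≤ β k0 ^ 5 + Rq * β k0 ^ 5 := by rw [abs_of_nonneg hb5]; linarith
      _ = (1 + Rq) * β k0 ^ 5 := by ring
  calc (∑ k, β k ^ 5) ^ 2 = |∑ k, β k ^ 5| ^ 2 := (sq_abs _).symm
    _ ≤ ((1 + Rq) * β k0 ^ 5) ^ 2 := pow_le_pow_left₀ (abs_nonneg _) h4 2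
    _ = (1 + Rq) ^ 2 * β k0 ^ 10 := by ring
    _ ≤ (1 + Rq) ^ 2 * ∑ k, β k ^ 10 := by
        refine mul_le_mul_of_nonneg_left ?_ (sq_nonneg _)
        rw [s10]; linarith

/-- Boltzmann form of `seedT_phys`: energies `e`, one of them `≤ 0`, `b0 ≥ 0`. -/
theorem seedT_phys_exp (e : κ → ℝ) (k0 : κ) (h0 : e k0 ≤ 0) {b0 : ℝ} (hb0 : 0 ≤ b0) {q Rq : ℝ}
    (hq : ∑ k, Real.exp (-b0 * e k) ≤ q) (hRq : 0 ≤ Rq) (hR : (q - 1) ^ 5 ≤ Rq ^ 2) :
    (∑ k, Real.exp (-(5 / 2 * b0) * e k)) ^ 2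
      ≤ (1 + Rq) ^ 2 * ∑ k, Real.exp (-(2 * (5 / 2 * b0)) * e k) := by
  have e5 : ∀ k, Real.exp (-(b0 / 2) * e k) ^ 5 = Real.exp (-(5 / 2 * b0) * e k) := fun k => by
    rw [← Real.exp_nat_mul]; congr 1; push_cast; ring
  have e2 : ∀ k, Real.exp (-(b0 / 2) * e k) ^ 2 = Real.exp (-b0 * e k) := fun k => by
    rw [← Real.exp_nat_mul]; congr 1; push_cast; ring
  have e10 : ∀ k, Real.exp (-(b0 / 2) * e k) ^ 10 = Real.exp (-(2 * (5 / 2 * b0)) * e k) :=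
    fun k => by rw [← Real.exp_nat_mul]; congr 1; push_cast; ring
  have h := seedT_phys (fun k => Real.exp (-(b0 / 2) * e k)) k0
    (Real.one_le_exp (by nlinarith)) (q := q) (Rq := Rq) (by simpa only [e2] using hq) hRq hR
  simpa only [e5, e10] using h

end finite

/-! ## 6. The dominant spatial weight -/

/-- `∑ t^(r+1) ≤ c^r ∑ t` for a family capped by `c`. -/
theorem seedT_tsum_pow_le_cap {t : ι → ℝ} (h0 : ∀ i, 0 ≤ t i) (hs : Summable t) {c : ℝ}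
    (hc : ∀ i, t i ≤ c) (r : ℕ) : ∑' i, t i ^ (r + 1) ≤ c ^ r * ∑' i, t i := by
  rw [← tsum_mul_left]
  refine (seedT_summable_pow_nonneg h0 hs (r + 1) (by omega)).tsum_le_tsum (fun i => ?_)
    (hs.mul_left _)
  rw [pow_succ]
  exact mul_le_mul_of_nonneg_right (pow_le_pow_left₀ (h0 i) (hc i) r) (h0 i)

/-- Splitting one index off a nonnegative summable family, for all the power sums at once. -/
theorem seedT_split_off {w : ι → ℝ} (h0 : ∀ i, 0 ≤ w i) (hs : Summable w) (i0 : ι) :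
    ∃ w' : ι → ℝ, (∀ i, 0 ≤ w' i) ∧ Summable w' ∧
      ∀ p : ℕ, 1 ≤ p → ∑' i, w i ^ p = w i0 ^ p + ∑' i, w' i ^ p := by
  classical
  refine ⟨fun i => if i = i0 then 0 else w i, fun i => ?_, ?_, fun p hp => ?_⟩
  · by_cases h : i = i0 <;> simp [h, h0 i]
  · refine Summable.of_nonneg_of_le (fun i => ?_) (fun i => ?_) hs
    · by_cases h : i = i0 <;> simp [h, h0 i]
    · by_cases h : i = i0
      · simp [h, h0 i0]
      · simp [h]
  · rw [(seedT_summable_pow_nonneg h0 hs p hp).tsum_eq_add_tsum_ite i0]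
    congr 1
    refine tsum_congr fun i => ?_
    by_cases h : i = i0
    · simp [h, show p ≠ 0 by omega]
    · simp [h]

/-- second and fourth moments of a nonnegative summable family. -/
theorem seedT_sq_bounds {t : ι → ℝ} (h0 : ∀ i, 0 ≤ t i) (hs : Summable t) :
    0 ≤ ∑' i, t i ^ 2 ∧ ∑' i, t i ^ 2 ≤ (∑' i, t i) ^ 2 ∧ 0 ≤ ∑' i, t i ^ 4 ∧
      ∑' i, t i ^ 4 ≤ (∑' i, t i ^ 2) ^ 2 := by
  refine ⟨tsum_nonneg fun i => sq_nonneg _, seedT_tsum_pow_le h0 hs 2 (by norm_num),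
    tsum_nonneg fun i => pow_nonneg (h0 i) 4, ?_⟩
  have h := seedT_tsum_pow_le (t := fun i => t i ^ 2) (fun i => sq_nonneg _)
    (seedT_summable_pow_nonneg h0 hs 2 (by norm_num)) 2 (by norm_num)
  simpa only [← pow_mul] using h

section dominant

variable {ιI ιO ιN : Type*} {wI : ιI → ℝ} {wO : ιO → ℝ} {wN : ιN → ℝ}

/-- Existence of a dominant weight, necessarily in the sector of multiplicity one. -/
theorem seedT_dom_exists (hI : ∀ i, 0 ≤ wI i) (hO : ∀ i, 0 ≤ wO i) (hN : ∀ i, 0 ≤ wN i)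
    (sI : Summable wI) (sO : Summable wO) (sN : Summable wN) {D c : ℝ}
    (hD : ∑' i, wI i + 2 * ∑' i, wO i + 3 * ∑' i, wN i ≤ D) (hc : D / 2 ≤ c)
    (hcD : c ^ 3 * D ≤ 1)
    (h1 : 1 < ∑' i, wI i ^ 4 + 2 * ∑' i, wO i ^ 4 + 3 * ∑' i, wN i ^ 4) :
    ∃ i0, c < wI i0 := by
  by_contra hcon
  push Not at hcon
  have a0 : 0 ≤ ∑' i, wI i := tsum_nonneg hI
  have o0 : 0 ≤ ∑' i, wO i := tsum_nonneg hO
  have n0 : 0 ≤ ∑' i, wN i := tsum_nonneg hN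
  have hOc : ∀ i, wO i ≤ c := fun i => by
    have := seedT_le_tsum hO sO i
    linarith
  have hNc : ∀ i, wN i ≤ c := fun i => by
    have := seedT_le_tsum hN sN i
    linarith
  have b1 := seedT_tsum_pow_le_cap hI sI hcon 3
  have b2 := seedT_tsum_pow_le_cap hO sO hOc 3
  have b3 := seedT_tsum_pow_le_cap hN sN hNc 3
  have hc0 : 0 ≤ c := by linarith
  have hc3 : 0 ≤ c ^ 3 := pow_nonneg hc0 3
  have : c ^ 3 * (∑' i, wI i + 2 * ∑' i, wO i + 3 * ∑' i, wN i) ≤ c ^ 3 * D :=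
    mul_le_mul_of_nonneg_left hD hc3
  norm_num at b1 b2 b3
  nlinarith

/-- Decomposition of the weighted second and fourth moments around a chosen weight of the
sector `I`.  `x` is the remaining `I` mass; the full `O`-pair mass is `2 ∑ wO` and the full
`N`-triple mass is `3 ∑ wN`. -/
theorem seedT_dom_decomp (hI : ∀ i, 0 ≤ wI i) (hO : ∀ i, 0 ≤ wO i) (hN : ∀ i, 0 ≤ wN i)
    (sI : Summable wI) (sO : Summable wO) (sN : Summable wN) (i0 : ιI) :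
    ∃ x ρ2 ρ4 : ℝ, 0 ≤ x ∧ ∑' i, wI i = wI i0 + x ∧
      ∑' i, wI i ^ 2 + 2 * ∑' i, wO i ^ 2 + 3 * ∑' i, wN i ^ 2 = wI i0 ^ 2 + ρ2 ∧
      ∑' i, wI i ^ 4 + 2 * ∑' i, wO i ^ 4 + 3 * ∑' i, wN i ^ 4 = wI i0 ^ 4 + ρ4 ∧
      0 ≤ ρ2 ∧ ρ2 ≤ x ^ 2 + (2 * ∑' i, wO i) ^ 2 / 2 + (3 * ∑' i, wN i) ^ 2 / 3 ∧
      0 ≤ ρ4 ∧ ρ4 ≤ ρ2 ^ 2 := by
  obtain ⟨w', hw0, hws, hsplit⟩ := seedT_split_off hI sI i0
  obtain ⟨a1, a2, a3, a4⟩ := seedT_sq_bounds hw0 hws
  obtain ⟨o1, o2, o3, o4⟩ := seedT_sq_bounds hO sO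
  obtain ⟨n1, n2, n3, n4⟩ := seedT_sq_bounds hN sN
  refine ⟨∑' i, w' i, ∑' i, w' i ^ 2 + 2 * ∑' i, wO i ^ 2 + 3 * ∑' i, wN i ^ 2,
    ∑' i, w' i ^ 4 + 2 * ∑' i, wO i ^ 4 + 3 * ∑' i, wN i ^ 4, tsum_nonneg hw0, ?_, ?_, ?_,
    by positivity, ?_, by positivity, ?_⟩
  · simpa using hsplit 1 le_rfl
  · rw [hsplit 2 (by norm_num)]; ring
  · rw [hsplit 4 (by norm_num)]; ring
  · nlinarith
  · nlinarith [mul_nonneg a1 o1, mul_nonneg a1 n1, mul_nonneg o1 n1, sq_nonneg (∑' i, wO i ^ 2),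
      sq_nonneg (∑' i, wN i ^ 2)]

end dominant

/-- A convex quadratic on `[0, L]` is bounded by its endpoint values. -/
theorem seedT_convex_quad {α β γ L u R : ℝ} (hα : 0 ≤ α) (hu : 0 ≤ u) (huL : u ≤ L)
    (h0 : γ ≤ R) (hL : α * L ^ 2 + β * L + γ ≤ R) : α * u ^ 2 + β * u + γ ≤ R := by
  have h1 : α * u ^ 2 ≤ α * (u * L) := by
    refine mul_le_mul_of_nonneg_left ?_ hα
    nlinarith
  by_cases hs : α * L + β ≤ 0
  · nlinarith
  · push Not at hs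
    nlinarith

/-- The residual quadratic on the polygon (paper 1, eq. residual-R): vertex checks suffice. -/
theorem seedT_polygon {x y z X Y W R : ℝ} (hx : 0 ≤ x) (hy : 0 ≤ y) (hz : 0 ≤ z)
    (hxX : x ≤ X) (hxy : x + y ≤ Y) (hxyz : x + y + z ≤ W)
    (v1 : W ^ 2 / 3 ≤ R) (v2 : X ^ 2 + (W - X) ^ 2 / 3 ≤ R)
    (v3 : X ^ 2 + (Y - X) ^ 2 / 2 + (W - Y) ^ 2 / 3 ≤ R) (v4 : Y ^ 2 / 2 + (W - Y) ^ 2 / 3 ≤ R) :
    x ^ 2 + y ^ 2 / 2 + z ^ 2 / 3 ≤ R := by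
  have hz2 : z ^ 2 ≤ (W - x - y) ^ 2 := pow_le_pow_left₀ hz (by linarith) 2
  -- the two edges `y = 0` and `y = Y - x`
  have e0 : x ^ 2 + (W - x) ^ 2 / 3 ≤ R := by
    have := seedT_convex_quad (α := 4 / 3) (β := -(2 / 3) * W) (γ := W ^ 2 / 3) (L := X) (u := x)
      (R := R) (by norm_num) hx hxX v1 (by nlinarith)
    nlinarith
  have e1 : x ^ 2 + (Y - x) ^ 2 / 2 + (W - Y) ^ 2 / 3 ≤ R := by
    have := seedT_convex_quad (α := 3 / 2) (β := -Y) (γ := Y ^ 2 / 2 + (W - Y) ^ 2 / 3) (L := X)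
      (u := x) (R := R) (by norm_num) hx hxX v4 (by nlinarith)
    nlinarith
  have := seedT_convex_quad (α := 5 / 6) (β := -(2 / 3) * (W - x))
    (γ := x ^ 2 + (W - x) ^ 2 / 3) (L := Y - x) (u := y) (R := R) (by norm_num) hy (by linarith)
    e0 (by nlinarith)
  nlinarith

/-- Arithmetic core of the spatial seed at length sixty (paper 1, Prop. seed60), with the paper's
constants `D = 1.45`, `τ = 1.225`, `τ₀ = 1.264`. -/
theorem seedT_dom_arith {t x y z ρ2 ρ4 : ℝ} (ht : 88 / 100 < t) (hx : 0 ≤ x) (hy : 0 ≤ y)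
    (hz : 0 ≤ z) (hτ : t + x ≤ 1225 / 1000) (hτ0 : t + x + y ≤ 1264 / 1000)
    (hD : t + x + y + z ≤ 1450 / 1000) (h20 : 0 ≤ ρ2)
    (h2 : ρ2 ≤ x ^ 2 + y ^ 2 / 2 + z ^ 2 / 3) (h40 : 0 ≤ ρ4) (h4 : ρ4 ≤ ρ2 ^ 2)
    (h1 : 1 < t ^ 4 + ρ4) : 8756 / 10000 * (t ^ 2 + ρ2) ^ 2 < t ^ 4 + ρ4 := by
  have step : ∀ T R : ℝ, T ≤ t →
      (1450 / 1000 - T) ^ 2 / 3 ≤ R →
      (1225 / 1000 - T) ^ 2 + (1450 / 1000 - 1225 / 1000) ^ 2 / 3 ≤ R →
      (1225 / 1000 - T) ^ 2 + (1264 / 1000 - 1225 / 1000) ^ 2 / 2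
        + (1450 / 1000 - 1264 / 1000) ^ 2 / 3 ≤ R →
      (1264 / 1000 - T) ^ 2 / 2 + (1450 / 1000 - 1264 / 1000) ^ 2 / 3 ≤ R → ρ2 ≤ R := by
    intro T R hT v1 v2 v3 v4
    refine h2.trans (seedT_polygon (X := 1225 / 1000 - T) (Y := 1264 / 1000 - T)
      (W := 1450 / 1000 - T) hx hy hz (by linarith) (by linarith) (by linarith) v1 ?_ ?_ ?_)
    · have : 1450 / 1000 - T - (1225 / 1000 - T) = 1450 / 1000 - 1225 / 1000 := by ring
      rw [this]; exact v2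
    · have e1 : 1264 / 1000 - T - (1225 / 1000 - T) = 1264 / 1000 - 1225 / 1000 := by ring
      have e2 : 1450 / 1000 - T - (1264 / 1000 - T) = 1450 / 1000 - 1264 / 1000 := by ring
      rw [e1, e2]; exact v3
    · have e2 : 1450 / 1000 - T - (1264 / 1000 - T) = 1450 / 1000 - 1264 / 1000 := by ring
      rw [e2]; exact v4
  have up : ∀ R T' : ℝ, 0 ≤ T' → ρ2 ≤ R → T' ^ 4 + R ^ 2 ≤ 1 → T' < t := by
    intro R T' hT' hR hc
    by_contra hcon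
    push Not at hcon
    have h5 : t ^ 4 ≤ T' ^ 4 := pow_le_pow_left₀ (by linarith) hcon 4
    have h6 : ρ2 ^ 2 ≤ R ^ 2 := pow_le_pow_left₀ h20 hR 2
    linarith
  have r1 : ρ2 ≤ 1359 / 10000 := step (88 / 100) _ ht.le (by norm_num) (by norm_num)
    (by norm_num) (by norm_num)
  have t1 : 99 / 100 < t := up _ _ (by norm_num) r1 (by norm_num)
  have r2 : ρ2 ≤ 721 / 10000 := step (99 / 100) _ t1.le (by norm_num) (by norm_num)
    (by norm_num) (by norm_num)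
  have t2 : 998 / 1000 < t := up _ _ (by norm_num) r2 (by norm_num)
  have r3 : ρ2 ≤ 68404 / 1000000 := step (998 / 1000) _ t2.le (by norm_num) (by norm_num)
    (by norm_num) (by norm_num)
  have ht2 : 996004 / 1000000 ≤ t ^ 2 := by nlinarith
  have h7 : t ^ 2 + ρ2 ≤ (1 + 68404 / 996004) * t ^ 2 := by nlinarith
  have h8 : (t ^ 2 + ρ2) ^ 2 ≤ ((1 + 68404 / 996004) * t ^ 2) ^ 2 :=
    pow_le_pow_left₀ (by positivity) h7 2
  have h9 : 0 < t ^ 4 := by positivity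
  nlinarith

/-- **Spatial seed, list form** (paper 1, Prop. seed60, second half of the spatial argument).
Three square-summable sector lists with multiplicities `1, 2, 3`; bounds on the thirtieth moments
and `1 <` the 120-th moment give the purity `S(60) > 0.8756`. -/
theorem seedT_spatial_seed {ιI ιO ιN : Type*} {lI : ιI → ℝ} {lO : ιO → ℝ} {lN : ιN → ℝ}
    (sI : Summable fun i => lI i ^ 2) (sO : Summable fun i => lO i ^ 2)
    (sN : Summable fun i => lN i ^ 2)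
    (hD : ∑' i, lI i ^ 30 + 2 * ∑' i, lO i ^ 30 + 3 * ∑' i, lN i ^ 30 ≤ 1450 / 1000)
    (hτ : ∑' i, lI i ^ 30 ≤ 1225 / 1000)
    (hτ0 : ∑' i, lI i ^ 30 + 2 * ∑' i, lO i ^ 30 ≤ 1264 / 1000)
    (h1 : 1 < ∑' i, lI i ^ 120 + 2 * ∑' i, lO i ^ 120 + 3 * ∑' i, lN i ^ 120) :
    8756 / 10000 * (∑' i, lI i ^ 60 + 2 * ∑' i, lO i ^ 60 + 3 * ∑' i, lN i ^ 60) ^ 2
      < ∑' i, lI i ^ 120 + 2 * ∑' i, lO i ^ 120 + 3 * ∑' i, lN i ^ 120 := by
  have ev : Even 30 := by decide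
  have pI : ∀ i, 0 ≤ lI i ^ 30 := fun i => ev.pow_nonneg _
  have pO : ∀ i, 0 ≤ lO i ^ 30 := fun i => ev.pow_nonneg _
  have pN : ∀ i, 0 ≤ lN i ^ 30 := fun i => ev.pow_nonneg _
  have qI := seedT_summable_pow sI (k := 30) (by norm_num)
  have qO := seedT_summable_pow sO (k := 30) (by norm_num)
  have qN := seedT_summable_pow sN (k := 30) (by norm_num)
  have h1' : 1 < ∑' i, (lI i ^ 30) ^ 4 + 2 * ∑' i, (lO i ^ 30) ^ 4 + 3 * ∑' i, (lN i ^ 30) ^ 4 := by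
    simpa only [← pow_mul] using h1
  obtain ⟨i0, hi0⟩ := seedT_dom_exists pI pO pN qI qO qN hD (c := 88 / 100) (by norm_num)
    (by norm_num) h1'
  obtain ⟨x, ρ2, ρ4, hx, ea, e2, e4, h20, h2, h40, h4⟩ := seedT_dom_decomp pI pO pN qI qO qN i0
  simp only [← pow_mul] at e2 e4
  norm_num at e2 e4
  rw [e2, e4]
  rw [e4] at h1
  have o0 : 0 ≤ ∑' i, lO i ^ 30 := tsum_nonneg pO
  have n0 : 0 ≤ ∑' i, lN i ^ 30 := tsum_nonneg pN
  have e60 : (lI i0 ^ 60 : ℝ) = (lI i0 ^ 30) ^ 2 := by rw [← pow_mul]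
  have e120 : (lI i0 ^ 120 : ℝ) = (lI i0 ^ 30) ^ 4 := by rw [← pow_mul]
  rw [e60, e120]
  rw [e120] at h1
  exact seedT_dom_arith hi0 hx (y := 2 * ∑' i, lO i ^ 30) (z := 3 * ∑' i, lN i ^ 30)
    (by positivity) (by positivity) (by linarith) (by linarith) (by linarith) h20 h2 h40 h4 h1

end Claimed.Agent.R297
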