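/-
Row 297 (spin-one Haldane gap), package D5 (helper159): the ONE coefficient table of all thermal ring
runs.  Window `s = 3 n / 2`, `c = 16`, `W = 1 - (H + s) / 16`, `t = b c / 2 = 84` (`b = 21/2`),
Poisson cut-off `J = 256`, degree `K = 60`, scale `Q = 2^48`, coefficient error `2^-33`.
Generated by exact rational arithmetic; every statement is checked by the kernel.
-/
import Claimed.Agent.R297.ThermalChebMain

set_option Elab.async false

namespace Claimed.Agent.R297

/-- Chebyshev coefficients (scale `2^48`) of the conditioned Poisson polynomial, `t = 84`. -/
def thr_q : List ℕ :=
  [12270446936531, 24394377097234, 23960075370747, 23253421127198, 22299116718805,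
   21129695725407, 19783676751494, 18303456189479, 16733100719914, 15116198909496,
   13493915239308, 11903361947756, 10376368062515, 8938685358466, 7609632118228, 6402141319056,
   5323153075708, 4374273480692, 3552613809713, 2851724705100, 2262547871692, 1774320956675,
   1375387393354, 1053879941109, 798262663699, 597729847566, 442471087767, 323819174187,
   234301618647, 167618095089, 118565314895, 82928584449, 57356121611, 39228682270, 26533585542,
   17749113021, 11742658024, 7683977572, 4973439687, 3184198807, 2016683652, 1263547710,
   783220411, 480327300, 291456746, 174991661, 103965681, 61124487, 35564470, 20479379,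
   11671861, 6584306, 3676632, 2032285, 1112083, 602464, 323141, 171610, 90242, 46990, 24231]

theorem thr_q_ne : thr_q ≠ [] := by
  unfold thr_q
  exact List.cons_ne_nil _ _

theorem thr_q_length : thr_q.length = 61 := by
  decide +kernel

theorem thr_q_le : ∀ d ∈ thr_q, d ≤ 2 ^ 52 := by
  decide +kernel

/-- the closed coefficient check (hypothesis `hcheck` of `thC_gibbs_certificate`). -/
theorem thr_hcheck :
    thC_l1dist (thr_q.map (· * thC_poisDen 84 1 256))
        ((thC_reexp (thC_poisList 84 1 256)).map (· * 2 ^ 48)) * 2 ^ 33
      ≤ 1 * (2 ^ 48 * thC_poisDen 84 1 256) := by
  decide +kernel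

/-- The lemmas that are written on demand are cited here once, so that no two downstream files hold
their own copies (RULES.md, rule 6). -/
theorem thRunCoef_eqns_cited : True := by
  have := @thr_q.eq_1; have := @thr_q.eq_def; have := @thr_q.congr_simp
  trivial

end Claimed.Agent.R297
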