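/-
Row 297 (spin-one Haldane gap), package D5 (helper159): one complete thermal run of the ring in the
class layout (packed Clenshaw run of helper81 + packed weighted sum of squares), and its meaning:
the SPEC-level quantity `thM_runSq` of helper134.
-/
import Claimed.Agent.R297.LanesRing
import Claimed.Agent.R297.LanesSector

namespace Claimed.Agent.R297

open Matrix

/-! ### codes, lanes, digit sums -/

theorem thr_code_eq_tern {k : ℕ} (x : Fin k → Fin 3) : tsym_code x = ternCode x := rfl

theorem thr_code_mod {k : ℕ} (x : Fin (k + 1) → Fin 3) : tsym_code x % 3 ^ k = clsCode x := by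
  rw [tsym_code_castSucc, clsCode_eq, Nat.add_mul_mod_self_right, thr_code_eq_tern,
    Nat.mod_eq_of_lt (ternCode_lt _)]

theorem thr_sec_eq {n : ℕ} (x : Fin n → Fin 3) : (tsym_sec n x : ℕ) = digSum x := rfl

theorem thr_dsumF_code {n : ℕ} (x : Fin n → Fin 3) : tsym_dsumF n (tsym_code x) = digSum x :=
  tsym_dsumF_code x

/-- the list of (digit sum, multiplicity) of a run. -/
def thrWts (n : ℕ) (run : List ℕ) : List (ℕ × ℕ) :=
  run.map fun r => (tsym_dsumF n r, tsym_mult n r)

theorem thr_secWt (n : ℕ) (run : List ℕ) (M : ℕ) : secWt (thrWts n run) M = tsym_wtF n run M := by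
  induction run with
  | nil => rfl
  | cons c cs ih =>
    have h : tsym_wtF n (c :: cs) M = Bool.rec (motive := fun _ => ℕ) (tsym_wtF n cs M)
        (tsym_mult n c + tsym_wtF n cs M) (Nat.beq (tsym_dsumF n c) M) := rfl
    have h2 : secWt (thrWts n (c :: cs)) M
        = (if M = tsym_dsumF n c then tsym_mult n c else 0) + secWt (thrWts n cs) M := by
      simp [secWt, thrWts]
    rw [h, h2, ih]
    cases hb : Nat.beq (tsym_dsumF n c) M
    · have : tsym_dsumF n c ≠ M := Nat.ne_of_beq_eq_false hb
      rw [if_neg (fun e => this e.symm), zero_add]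
    · have : tsym_dsumF n c = M := Nat.eq_of_beq_eq_true hb
      rw [if_pos this.symm]

/-- kernel check of a run for the class layout: codes in range, digit sums in the class, lanes
pairwise distinct, total weight small. -/
def thrRunOK (k c : ℕ) (run : List ℕ) : Bool :=
  (run.all fun r => decide (r < 3 ^ (k + 1)) && decide (tsym_dsumF (k + 1) r % 3 = c % 3))
    && decide (run.map (· % 3 ^ k)).Nodup
    && decide (((thrWts (k + 1) run).map Prod.snd).sum < 1024)

/-- the start vector of a run as a natural-number valued function. -/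
def thrE (n : ℕ) (run : List ℕ) (x : Fin n → Fin 3) : ℕ := if tsym_code x ∈ run then 1 else 0

theorem thrE_cast (n : ℕ) (run : List ℕ) :
    (fun x => (thrE n run x : ℤ)) = tsym_start n run := by
  funext x
  unfold thrE tsym_start
  split <;> simp

theorem thrE_le (n : ℕ) (run : List ℕ) (x : Fin n → Fin 3) : thrE n run x ≤ 1 := by
  unfold thrE
  split <;> simp

theorem thr_start_eq {w k c : ℕ} {run : List ℕ} (hlt : ∀ r ∈ run, r < 3 ^ (k + 1))
    (hcls : ∀ r ∈ run, tsym_dsumF (k + 1) r % 3 = c % 3) (hnd : (run.map (· % 3 ^ k)).Nodup) :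
    laneStart w (run.map (· % 3 ^ k))
      = lanePack w (fun i => thrE (k + 1) run ((clsLayout k c).dec i)) (3 ^ k) := by
  rw [laneStart_eq hnd (N := 3 ^ k) (fun r hr => by
    obtain ⟨r', -, rfl⟩ := List.mem_map.1 hr
    exact Nat.mod_lt _ (by positivity))]
  refine lanePack_congr fun i hi => ?_
  unfold thrE
  have key : i ∈ run.map (· % 3 ^ k) ↔ tsym_code ((clsLayout k c).dec i) ∈ run := by
    constructor
    · intro h
      obtain ⟨r, hr, rfl⟩ := List.mem_map.1 h
      have hS : (clsLayout k c).S (tsym_word (k + 1) r) := by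
        show digSum (tsym_word (k + 1) r) % 3 = c % 3
        rw [← thr_dsumF_code, tsym_code_word (hlt r hr)]
        exact hcls r hr
      have hcode : (clsLayout k c).code (tsym_word (k + 1) r) = r % 3 ^ k := by
        show clsCode (tsym_word (k + 1) r) = _
        rw [← thr_code_mod, tsym_code_word (hlt r hr)]
      have := (clsLayout k c).dec_code _ hS
      rw [hcode] at this
      show tsym_code ((clsLayout k c).dec (r % 3 ^ k)) ∈ run
      rw [this, tsym_code_word (hlt r hr)]
      exact hr
    · intro h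
      refine List.mem_map.2 ⟨_, h, ?_⟩
      show tsym_code ((clsLayout k c).dec i) % 3 ^ k = i
      rw [thr_code_mod]
      exact (clsLayout k c).code_dec i hi
  simp only [key]

/-! ### the run -/

/-- the lane programs of the ring in the class layout, lane width `64`. -/
def thrPos (k c αp β mode : ℕ) : List LaneOp :=
  (ringPos (clsWgt k) (clsSiteMask 64 k c) 64 (3 ^ k) αp β mode).map (SiteOp.toLane (clsLayout k c))

def thrNeg (k c αn β mode : ℕ) : List LaneOp :=
  (ringNeg (clsWgt k) (clsSiteMask 64 k c) 64 (3 ^ k) αn β mode).map (SiteOp.toLane (clsLayout k c))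

/-- **One complete run** (`k + 1` sites, class `c`): lane width `64`, bias `2^56`, range `2^52`,
guard `6`, division by `2^3`. -/
def thrRun (k c αp αn β mode : ℕ) (q run : List ℕ) : Option ℕ :=
  match thrRunOK k c run with
  | false => none
  | true =>
    match laneFull 64 (3 ^ k) 56 52 6 (thrPos k c αp β mode) (thrNeg k c αn β mode) 3
        (laneStart 64 (run.map (· % 3 ^ k))) q with
    | none => none
    | some Y => some (lsqSum 64 (3 ^ k) 56 55 32 (secWs 64 k c (thrWts (k + 1) run)) Y)

/-- the numerical side conditions on the programs (closed kernel check for concrete `k`). -/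
def thrOpsOK (k c αp αn β mode : ℕ) : Bool :=
  decide (laneWeight (thrPos k c αp β mode) ≤ 64)
    && decide (laneWeight (thrPos k c αp β mode) + laneWeight (thrNeg k c αn β mode) ≤ 100)

theorem thr_siteParams {k c αp αn β mode : ℕ} (hk : 1 ≤ k)
    (hops : thrOpsOK k c αp αn β mode = true) :
    SiteParams 64 56 52 6 3 (clsLayout k c)
      (ringPos (clsWgt k) (clsSiteMask 64 k c) 64 (3 ^ k) αp β mode)
      (ringNeg (clsWgt k) (clsSiteMask 64 k c) 64 (3 ^ k) αn β mode) := by
  unfold thrOpsOK at hops
  rw [Bool.and_eq_true, decide_eq_true_eq, decide_eq_true_eq] at hops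
  obtain ⟨h1, h2⟩ := hops
  have hpos := ringPos_valid (clsWgt k) (clsSiteMask 64 k c) 64 (3 ^ k) (by norm_num) hk
    (clsLayout_isW k c) (clsSiteMask_is (by norm_num) k c) αp β mode
  have hneg := ringNeg_valid (clsWgt k) (clsSiteMask 64 k c) 64 (3 ^ k) (by norm_num) hk
    (clsLayout_isW k c) (clsSiteMask_is (by norm_num) k c) αn β mode
  refine ⟨⟨by norm_num, by norm_num, by norm_num, ?_, ?_, h1, ?_⟩, hpos, hneg, by norm_num, ?_⟩
  · intro op hop
    obtain ⟨op', hop', rfl⟩ := List.mem_map.1 hop
    exact (hpos op' hop').toLane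
  · intro op hop
    obtain ⟨op', hop', rfl⟩ := List.mem_map.1 hop
    exact (hneg op' hop').toLane
  · calc _ ≤ 100 * 2 ^ 52 := Nat.mul_le_mul_right _ h2
      _ < _ := by norm_num
  · calc _ ≤ 100 * 2 ^ 52 + 2 ^ 3 * (2 ^ 52 + 1) :=
          Nat.add_le_add_right (Nat.mul_le_mul_right _ h2) _
      _ ≤ _ := by norm_num

/-- **Correctness of a run.** -/
theorem thrRun_spec {k c αp αn β mode : ℕ} (hk : 1 ≤ k) (hk' : k ≤ 19)
    (hops : thrOpsOK k c αp αn β mode = true) {q : List ℕ} (hq : ∀ d ∈ q, d ≤ 2 ^ 52)
    {run : List ℕ} {T : ℕ} (h : thrRun k c αp αn β mode q run = some T) :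
    thM_runSq (k + 1) (thM_B (k + 1) (ringZ mode) ((αp : ℤ) - αn) β) 8 q run = (T : ℤ) := by
  unfold thrRun at h
  cases hok : thrRunOK k c run with
  | false => rw [hok] at h; simp at h
  | true =>
    rw [hok] at h
    simp only at h
    unfold thrRunOK at hok
    rw [Bool.and_eq_true, Bool.and_eq_true, decide_eq_true_eq, decide_eq_true_eq,
      List.all_eq_true] at hok
    obtain ⟨⟨hall, hnd⟩, hcap⟩ := hok
    have hlt : ∀ r ∈ run, r < 3 ^ (k + 1) := fun r hr => by
      have := hall r hr
      rw [Bool.and_eq_true, decide_eq_true_eq] at this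
      exact this.1
    have hcls : ∀ r ∈ run, tsym_dsumF (k + 1) r % 3 = c % 3 := fun r hr => by
      have := hall r hr
      rw [Bool.and_eq_true, decide_eq_true_eq, decide_eq_true_eq] at this
      exact this.2
    cases hY : laneFull 64 (3 ^ k) 56 52 6 (thrPos k c αp β mode) (thrNeg k c αn β mode) 3
        (laneStart 64 (run.map (· % 3 ^ k))) q with
    | none => rw [hY] at h; simp at h
    | some Y =>
      rw [hY] at h
      simp only [Option.some.injEq] at h
      have hrep := siteFull_spec (thr_siteParams hk hops) (e := thrE (k + 1) run)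
        (thr_start_eq hlt hcls hnd) (thrE_le _ _) (fun y hy => by
          unfold thrE
          rw [if_neg]
          intro hmem
          apply hy
          show digSum y % 3 = c % 3
          rw [← thr_dsumF_code]
          exact hcls _ hmem) hq hY
      rw [ring_siteMat _ _ _ _ hk, thrE_cast] at hrep
      have hsum := secSum_cls (h := 32) (wts := thrWts (k + 1) run) (by norm_num) (by norm_num)
        (by norm_num)
        (by
          calc _ < 1024 * 2 ^ (52 + 2) := Nat.mul_lt_mul_of_pos_right hcap (by positivity)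
            _ = _ := by norm_num)
        (by
          calc 3 ^ k * 2 ^ 32 ≤ 3 ^ 19 * 2 ^ 32 :=
                Nat.mul_le_mul_right _ (Nat.pow_le_pow_right (by norm_num) hk')
            _ < _ := by norm_num)
        (fun p hp => by
          obtain ⟨r, hr, rfl⟩ := List.mem_map.1 hp
          exact hcls r hr) hrep
      rw [← h]
      unfold thM_runSq
      rw [show ((8 : ℤ)) = 2 ^ 3 by norm_num]
      rw [hsum]
      refine Finset.sum_congr rfl fun x _ => ?_
      rw [thr_secWt, thr_sec_eq]

/-- the same with the arguments in the form used by the table. -/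
theorem thrRun_spec' {n k c αp αn β mode : ℕ} {z α β' : ℤ} (hn : n = k + 1) (hk : 1 ≤ k)
    (hk' : k ≤ 19) (hz : z = ringZ mode) (hα : α = (αp : ℤ) - αn) (hβ : β' = (β : ℤ))
    (hops : thrOpsOK k c αp αn β mode = true) {q : List ℕ} (hq : ∀ d ∈ q, d ≤ 2 ^ 52)
    {run : List ℕ} {T : ℕ} (h : thrRun k c αp αn β mode q run = some T) :
    thM_runSq n (thM_B n z α β') 8 q run = (T : ℤ) := by
  subst hn hz hα hβ
  exact thrRun_spec hk hk' hops hq h

/-! ### totals -/

theorem thr_total_nil (n : ℕ) (B : Matrix (thM_Cfg n) (thM_Cfg n) ℤ) (D : ℤ) (q : List ℕ) :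
    thM_total n B D q [] = ((0 : ℕ) : ℤ) := rfl

theorem thr_total_cons {n : ℕ} {B : Matrix (thM_Cfg n) (thM_Cfg n) ℤ} {D : ℤ} {q : List ℕ}
    {run : List ℕ} {runs : List (List ℕ)} {t T : ℕ} (h1 : thM_runSq n B D q run = (t : ℤ))
    (h2 : thM_total n B D q runs = (T : ℤ)) :
    thM_total n B D q (run :: runs) = ((t + T : ℕ) : ℤ) := by
  unfold thM_total at h2 ⊢
  rw [List.map_cons, List.sum_cons, h1, h2]
  push_cast
  rfl

theorem thr_total_append {n : ℕ} {B : Matrix (thM_Cfg n) (thM_Cfg n) ℤ} {D : ℤ} {q : List ℕ}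
    {r1 r2 : List (List ℕ)} {T1 T2 : ℕ} (h1 : thM_total n B D q r1 = (T1 : ℤ))
    (h2 : thM_total n B D q r2 = (T2 : ℤ)) :
    thM_total n B D q (r1 ++ r2) = ((T1 + T2 : ℕ) : ℤ) := by
  unfold thM_total at h1 h2 ⊢
  rw [List.map_append, List.sum_append, h1, h2]
  push_cast
  rfl

/-- The lemmas that are written on demand are cited here once, so that no two downstream files hold
their own copies (RULES.md, rule 6). -/
theorem thRunDefs_eqns_cited : True := by
  have := @thrWts.eq_1; have := @thrWts.eq_def; have := @thrWts.congr_simp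
  have := @thrRunOK.eq_1; have := @thrRunOK.eq_def; have := @thrRunOK.congr_simp
  have := @thrE.eq_1; have := @thrE.eq_def; have := @thrE.congr_simp
  have := @thrPos.eq_1; have := @thrPos.eq_def; have := @thrPos.congr_simp
  have := @thrNeg.eq_1; have := @thrNeg.eq_def; have := @thrNeg.congr_simp
  have := @thrRun.eq_1; have := @thrRun.eq_def; have := @thrRun.congr_simp
  have := @thrOpsOK.eq_1; have := @thrOpsOK.eq_def; have := @thrOpsOK.congr_simp
  trivial

end Claimed.Agent.R297
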