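/-
Row 297 (spin-one Haldane gap), package D5 (helper159).  GENERATED FILE (scratch/thr/gen.py).
The schedule of the thermal runs of the ring of 10 sites, its kernel checks, the parameter record.
-/
import Claimed.Agent.R297.ThRunDefs
import Claimed.Agent.R297.ThRunCoef

set_option Elab.async false

namespace Claimed.Agent.R297

/-- chunk 0 (class 1). -/
def thr_s10_0 : List (List ℕ) :=
  [[1, 8, 53, 242, 2915, 10934], [16, 107, 404, 3401, 15308], [32, 131, 458, 3643, 13118], [38,
  143, 476, 9233, 29888], [56, 151, 482, 4367, 12878], [88, 179, 484, 8261, 17252], [94, 197, 566,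
  9719, 17492], [110, 269, 620, 3563, 31832], [164, 293, 638, 4129, 13040], [250, 305, 644, 9395,
  17414], [256, 313, 674, 5099, 17486], [272, 319, 692, 4049, 31994], [280, 347, 944, 4361,
  19358], [328, 359, 962, 9881, 19520], [740, 367, 968, 10199, 30590], [758, 373, 1106, 10913,
  32048], [766, 385, 1124, 10915, 18944], [812, 413, 1130, 10367, 32534], [820, 421, 1132, 13061,
  32696], [2272, 437, 1160, 10447, 36926], [2440, 461, 1178, 4211], [509, 1184, 5669], [527, 1186,
  11657], [545, 1196, 6155], [581, 1202, 2159], [773, 1204, 7991], [781, 1208, 5075], [797, 1210,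
  8009], [803, 1268, 3635], [827, 1286, 8477], [835, 1292, 5561], [851, 1294, 10123], [857, 1322,
  10687]]

/-- chunk 1 (class 1). -/
def thr_s10_1 : List (List ℕ) :=
  [[869, 1340, 12377], [875, 1346, 10195], [883, 1348, 6047], [905, 1358, 11581], [911, 1364,
  10901], [923, 1366, 11417], [929, 1370, 9959], [937, 1394, 5813], [949, 1400, 4265], [995, 1402,
  4337], [1007, 1412, 10097], [1015, 1418, 12143], [1021, 1424, 11555], [1033, 1436, 11651],
  [1039, 1610, 6209], [1067, 1616, 12067], [1073, 1646, 10895], [1085, 1664, 13001], [1091, 1670,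
  29537], [1109, 1682, 10871], [1141, 1688, 10877], [1163, 1694, 6371], [1229, 1772, 12553],
  [1235, 1778, 12203], [1249, 1808, 12947], [1271, 1826, 12689], [1307, 1832, 10771], [1379, 1844,
  8693], [1493, 1850, 10151], [1505, 1880, 11609], [1523, 1886, 6263], [1553, 1898, 15011], [1571,
  1970, 16469]]

/-- chunk 2 (class 1). -/
def thr_s10_2 : List (List ℕ) :=
  [[1625, 1988, 10799], [1733, 2006, 4121], [2291, 2042, 4289], [2303, 2420, 9953], [2311, 2582,
  10847], [2317, 2588, 11411], [2329, 2636, 11635], [2357, 2642, 10439], [2369, 2644, 11897],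
  [2447, 2654, 8657], [2465, 2660, 10115], [2473, 2662, 12305], [2479, 2744, 11573], [2491, 2750,
  11633], [2497, 2798, 5747], [2519, 2804, 10601], [2527, 2806, 14975], [2533, 2816, 12059],
  [2545, 2822, 16433], [2551, 2824, 10121], [2567, 2828, 10679], [2575, 2830, 12329], [2599, 2852,
  12335], [2605, 2858, 12359], [2621, 2860, 12139], [2687, 2870, 12607], [2693, 2876, 10835],
  [2705, 2878, 12821], [2711, 3122, 16439], [2719, 3128, 15047], [2731, 3140, 12707], [2761, 3146,
  12227], [2767, 3284, 10769]]

/-- chunk 3 (class 1). -/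
def thr_s10_3 : List (List ℕ) :=
  [[2785, 3290, 5795], [2957, 3292, 10825], [2963, 3302, 11627], [3011, 3308, 12283], [3017, 3310,
  10823], [3029, 3314, 12785], [3035, 3316, 29609], [3053, 3338, 12137], [3083, 3344, 12779],
  [3089, 3346, 16511], [3107, 3356, 10817], [3175, 3362, 15191], [3191, 3364, 12767], [3197, 3368,
  29771], [3215, 3370, 12761], [3251, 3380, 18593], [3701, 3382, 12605], [4547, 3388, 12293],
  [4655, 3446, 10661], [7387, 3452, 15035], [7403, 3454, 12299], [7409, 3464, 29615], [7463, 3470,
  12281], [7571, 3472, 29777], [7591, 3476, 17141], [7627, 3478, 30281], [3500], [3506], [3508],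
  [3518], [3524], [3526], [3530]]

/-- chunk 4 (class 1). -/
def thr_s10_4 : List (List ℕ) :=
  [[3532], [3542], [3544], [3548], [3572], [3578], [3580], [3584], [3598], [3776], [3788], [3794],
  [3796], [3800], [3824], [3830], [3832], [3842], [3848], [3850], [3854], [3866], [3868], [3872],
  [3938], [3940], [3950], [3956], [3958], [3962], [3986], [3992], [3994]]

/-- chunk 5 (class 1). -/
def thr_s10_5 : List (List ℕ) :=
  [[4004], [4010], [4012], [4016], [4028], [4034], [4058], [4064], [4070], [4082], [4088], [4148],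
  [4154], [4156], [4172], [4178], [4196], [4586], [4598], [4748], [4760], [4766], [4802], [4814],
  [4820], [4826], [4910], [4922], [4928], [4934], [4964], [4976], [4982]]

/-- chunk 6 (class 1). -/
def thr_s10_6 : List (List ℕ) :=
  [[4988], [5000], [5030], [5036], [5234], [5252], [5288], [5300], [5306], [5324], [5396], [5414],
  [5450], [5462], [5468], [5516], [5612], [5624], [7502], [7664], [7682], [7684], [7718], [7736],
  [7738], [7742], [7744], [7826], [7844], [7846], [7880], [7898], [7900]]

/-- chunk 7 (class 1). -/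
def thr_s10_7 : List (List ℕ) :=
  [[7904], [7916], [8168], [8204], [8222], [8228], [8330], [8366], [8384], [9140], [9194], [9196],
  [9302], [9356], [9680], [9842], [9844], [9848], [9850], [9860], [9862], [9868], [9896], [9898],
  [9902], [9904], [9916], [9922], [10004], [10006], [10010], [10012], [10024]]

/-- chunk 8 (class 1). -/
def thr_s10_8 : List (List ℕ) :=
  [[10028], [10030], [10060], [10066], [10334], [10336], [10346], [10348], [10352], [10384],
  [10388], [10390], [10402], [10406], [10492], [10498], [10510], [11356], [11360], [11374],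
  [11468], [11482], [11486], [11518], [14762], [29524]]

/-- chunk 9 (class 2). -/
def thr_s10_9 : List (List ℕ) :=
  [[2, 17, 80, 485, 2186, 13121, 59048], [4, 23, 134, 971, 3644, 17495], [10, 35, 152, 2429, 8018,
  30617], [28, 41, 158, 647, 4372, 18953], [82, 43, 160, 1133, 5102, 32075], [244, 47, 188, 2591,
  9476, 19439], [59, 206, 2911, 4130, 32561], [89, 212, 1213, 8504, 36935], [95, 224, 1619, 4370,
  19601], [97, 296, 3077, 5588, 32723], [101, 314, 7451, 9962, 37097], [103, 320, 2671, 10204,
  37151], [113, 322, 4349, 10928, 38609], [115, 350, 3157, 10930], [119, 368, 1451, 11420], [121,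
  374, 1295, 13106], [137, 376, 2753, 11662], [167, 386, 2909, 6074], [173, 392, 1781, 10448],
  [251, 394, 3239, 14822], [257, 398, 7613, 11906], [259, 400, 4697, 4292], [263, 422, 3725,
  8666], [265, 428, 701, 4364], [275, 430, 1187, 5750], [277, 440, 2645, 10124], [281, 446, 2905,
  10690], [283, 448, 1375, 12386], [289, 452, 1673, 10924], [299, 464, 3131, 11582], [301, 470,
  7505, 13088], [329, 512, 2833, 11660], [331, 530, 4589, 10202], [335, 536, 3155, 5828]]

/-- chunk 10 (class 2). -/
def thr_s10_10 : List (List ℕ) :=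
  [[337, 548, 2669, 6236], [353, 554, 1697, 10610], [407, 560, 1211, 12148], [491, 584, 1349,
  14984], [497, 590, 2807, 10922], [743, 602, 2903, 12068], [745, 608, 1445, 13082], [749, 656,
  1835, 16442], [761, 782, 3293, 29564], [763, 800, 7667, 10916], [767, 806, 3319, 12554], [769,
  808, 4751, 13076], [775, 836, 9125, 13064], [785, 854, 7693, 12634], [787, 860, 3395, 6398],
  [793, 862, 3397, 10772], [815, 872, 3779, 15146], [817, 878, 8153, 12230], [821, 880, 4331,
  16604], [823, 884, 5237, 12716], [829, 886, 9611, 4346], [839, 908, 9151, 8720], [841, 914,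
  7769, 5804], [847, 916, 7771, 10178], [893, 926, 3623, 10852], [895, 932, 3629, 12872], [977,
  934, 3625, 10906], [983, 938, 1205, 11636], [985, 940, 1997, 13034], [1001, 950, 3455, 11654],
  [1003, 952, 7829, 10196], [1055, 956, 3805, 5822], [1487, 958, 4913, 6290], [2273, 964, 9287,
  10664]]

/-- chunk 11 (class 2). -/
def thr_s10_11 : List (List ℕ) :=
  [[2279, 998, 8003, 12310], [2281, 1016, 4853, 15038], [2287, 1022, 3941, 10904], [2297, 1024,
  8315, 12122], [2299, 1034, 4325, 13028], [2441, 1040, 5399, 16496], [2443, 1042, 9773, 29618],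
  [2459, 1046, 9637, 10688], [2461, 1048, 9227, 12374], [2467, 1070, 7997, 12380], [2515, 1076,
  7855, 12382], [7381, 1078, 1367, 12608], [1088, 1373, 13022], [1094, 4301, 16982], [1096, 4307,
  16520], [1100, 4313, 15062], [1102, 1403, 12632], [1112, 3967, 12146], [1114, 3481, 6452],
  [1118, 1421, 10826], [1120, 1427, 12796], [1142, 1429, 15200], [1148, 1439, 10898], [1150, 2861,
  12284], [1154, 2897, 13010], [1156, 1889, 16658], [1166, 3347, 29780], [1168, 7721, 16748],
  [1172, 4805, 16754], [1190, 9179, 12770], [1232, 3881, 13004], [1238, 3833, 17144], [1240, 8207,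
  30266], [1250, 5291, 18602]]

/-- chunk 12 (class 2). -/
def thr_s10_12 : List (List ℕ) :=
  [[1256, 9665, 10880], [1258, 8255, 12932], [1262, 5081, 12986], [1274, 1691, 12950], [1276,
  2051, 12956], [1280, 3509, 12958], [1304, 7883, 15254], [1310, 4967, 12338], [1312, 9341,
  16712], [1316, 3995, 18170], [1328, 8369, 12824], [1334, 5453, 17198], [1352, 9827, 6308],
  [1382, 1853, 10682], [1388, 1859, 12364], [1406, 5939, 15056], [1484, 1907, 10850], [1502, 1913,
  12140], [1508, 1925, 12866], [1520, 4157, 16514], [1526, 5615, 29636], [1532, 2015, 12860],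
  [1556, 2069, 12626], [1562, 2663, 17000], [1574, 2887, 10844], [1580, 3149, 12850], [1586, 7523,
  15218], [1598, 4607, 12302], [1604, 2825, 12848], [1628, 2885, 16676], [1634, 3311, 29798],
  [1640, 7685, 12308], [1652, 3373, 17234], [1718, 4769, 16736]]

/-- chunk 13 (class 2). -/
def thr_s10_13 : List (List ℕ) :=
  [[1724, 9143, 12362], [1736, 7747, 12788], [1742, 3557, 12842], [1760, 3559, 17162], [1790,
  3797, 30284], [1796, 8171, 16682], [2294, 4277, 18620], [1952, 5255, 30290], [2456, 9629,
  29804], [2312, 9205, 12356], [2318, 7931, 17324], [2320, 7765, 17378], [2330, 4109, 17396],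
  [2336, 4115, 17330], [2338, 3877, 17168], [2342, 3391, 12794], [2366, 3473, 16730], [2372, 7847,
  29852], [2384, 3859, 18188], [2390, 4931, 17216], [2474, 9305, 30338], [2480, 7985, 18674],
  [2482, 5015, 31796], [2492, 3611, 30500], [2498, 3959, 17222], [2500, 8333, 30344], [2504, 4271,
  31802], [2506, 5417, 31964], [2528, 9791], [2534, 9635], [2536, 9311], [2546, 9149], [2552,
  8339], [2554, 8177]]

/-- chunk 14 (class 2). -/
def thr_s10_14 : List (List ℕ) :=
  [[2558, 7853], [2560, 7691], [2570, 2831], [2572, 5759], [2576, 5423], [2578, 5261], [2584,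
  4937], [2600, 4775], [2606, 3965], [2608, 3803], [2612, 3479], [2614, 3317], [2624, 2879],
  [2626, 3365], [2630, 7739], [2632, 3535], [2638, 4823], [2648, 9197], [2650, 7909], [2656,
  4043], [2690, 3607], [2696, 3851], [2698, 8225], [2708, 4259], [2714, 5309], [2716, 9683],
  [2720, 9221], [2722, 8249], [2732, 7763], [2734, 5333], [2738, 4847], [2740, 3875], [2746,
  3389], [2762, 3527]]

/-- chunk 15 (class 2). -/
def thr_s10_15 : List (List ℕ) :=
  [[2768, 7901], [2770, 4021], [2774, 4985], [2776, 9359], [2786, 7979], [2788, 5063], [2792,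
  3605], [2794, 4013], [2800, 8387], [2810, 4253], [2812, 5471], [2840, 9845], [2842, 9853],
  [2846, 9875], [2848, 9877], [2864, 9941], [2866, 9947], [2960, 9943], [2966, 9949], [2968,
  5957], [2978, 10139], [2984, 10157], [3014, 10145], [3020, 10163], [3022, 10141], [3032, 10159],
  [3038, 10147], [3040, 3371], [3044, 3383], [3046, 4175], [3056, 8549], [3058, 4247], [3062,
  5633], [3064, 10007]]

/-- chunk 16 (class 2). -/
def thr_s10_16 : List (List ℕ) :=
  [[3086, 10339], [3092, 10751], [3094, 10805], [3098, 10739], [3100, 10793], [3110, 10757],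
  [3112, 6119], [3116, 10493], [3118, 10789], [3134, 10753], [3136, 10525], [3176, 10363], [3182,
  10039], [3194, 3533], [3200, 7757], [3202, 3545], [3206, 3551], [3208, 3553], [3218, 3581],
  [3220, 3599], [3224, 3587], [3226, 3589], [3248, 7955], [3254, 4183], [3256, 5039], [3260,
  9413], [3262, 7973], [3272, 5057], [3274, 4067], [3278, 8441], [3280, 4235], [3296, 5525],
  [3326, 9899], [3328, 10015]]

/-- chunk 17 (class 2). -/
def thr_s10_17 : List (List ℕ) :=
  [[3332, 10361], [3350, 11357], [3416, 11405], [3418, 11401], [3422, 6011], [3424, 10385], [3434,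
  11473], [3436, 12575], [3440, 11843], [3458, 10433], [3488, 3857], [3490, 4841], [3494, 3869],
  [3512, 4229], [3692, 8603], [3704, 5687], [3706, 10061], [3710, 10501], [3740, 11819], [3742,
  11519], [3746, 11365], [3758, 10547], [3760, 10393], [3764, 10069], [3782, 9907], [3818, 4019],
  [3836, 9215], [3904, 4031], [3908, 4037], [3920, 4039], [3926, 7961], [3944, 4073], [3980,
  4075], [7388, 7963]]

/-- chunk 18 (class 2). -/
def thr_s10_18 : List (List ℕ) :=
  [[4544, 4085], [4550, 4091], [4556, 4097], [4568, 4193], [4652, 4181], [4658, 4199], [4664,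
  4205], [4676, 8243], [4682, 5327], [4712, 9701], [4718, 7919], [4730, 5003], [4736, 9377],
  [4880, 5045], [4892, 8405], [5198, 5489], [5216, 9863], [7406, 10037], [7568, 10427], [7394,
  10429], [7412, 5975], [7414, 10349], [7418, 11603], [7420, 11599], [7430, 4829], [7432, 8567],
  [7436, 5651], [7466, 10025], [7472, 11495], [7484, 11483], [7574, 10511], [7576, 10523], [7580,
  4991], [7582, 5009]]

/-- chunk 19 (class 2). -/
def thr_s10_19 : List (List ℕ) :=
  [[7592, 8459], [7594, 5543], [7598, 9917], [7600, 11375], [7628, 10403], [7630, 5315], [7634,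
  5705], [7636, 10079], [7646, 5477], [7648, 5495], [7652, 5531], [7654, 5639], [7706, 7745],
  [7808, 9203], [7810, 7927], [7814, 8231], [7868, 9689], [8120, 7907], [8132, 9365], [8138,
  7925], [9086, 8393], [9088, 9851], [9092, 9871], [9104, 9929], [9106, 9931], [9110, 10103],
  [9112, 10109], [9272, 10105], [9596, 10111], [9598, 10337], [9760, 10643], [10631], [10649],
  [10627]]

/-- chunk 20 (class 2). -/
def thr_s10_20 : List (List ℕ) :=
  [[10645], [10417], [10013], [10357], [11387], [11471], [12251], [11567], [10499], [11815],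
  [11491], [10519], [10033], [8447], [9905], [10415], [11363], [11563], [10391], [14765], [11849],
  [10067], [11525], [10553], [8411], [9869], [9925], [10091], [10093], [10589], [10595], [10591],
  [10355], [11383]]

/-- chunk 21 (class 2). -/
def thr_s10_21 : List (List ℕ) :=
  [[12089], [11813], [10411], [10031], [11549], [11489], [10517], [9923], [10087], [10577],
  [10579], [11381], [12053], [11545], [10409], [14783], [11867], [10085], [10573], [12035],
  [11543], [10571], [12031], [14945], [12029], [16403], [29525]]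

/-- the schedule: 725 runs. -/
def thr_sched10 : List (List ℕ) :=
  thr_s10_0 ++ (thr_s10_1 ++ (thr_s10_2 ++ (thr_s10_3 ++ (thr_s10_4 ++ (thr_s10_5 ++ (thr_s10_6 ++ (thr_s10_7 ++ (thr_s10_8 ++ (thr_s10_9 ++ (thr_s10_10 ++ (thr_s10_11 ++ (thr_s10_12 ++ (thr_s10_13 ++ (thr_s10_14 ++ (thr_s10_15 ++ (thr_s10_16 ++ (thr_s10_17 ++ (thr_s10_18 ++ (thr_s10_19 ++ (thr_s10_20 ++ (thr_s10_21)))))))))))))))))))))

theorem thr_sched10_cert : tsym_cert 10 thr_sched10.flatten = true := by
  decide +kernel

theorem thr_sched10_sec : tsym_secOK 10 thr_sched10 = true := by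
  decide +kernel

theorem thr_sched10_length : thr_sched10.length = 725 := by
  decide +kernel

theorem thr_ops_z10_1 : thrOpsOK 9 1 1 0 1 0 = true := by
  decide +kernel

theorem thr_ops_z10_2 : thrOpsOK 9 2 1 0 1 0 = true := by
  decide +kernel

theorem thr_spec_z10_1 {run : List ℕ} {T : ℕ}
    (h : thrRun 9 1 1 0 1 0 thr_q run = some T) :
    thM_runSq 10 (thM_B 10 1 1 1) 8 thr_q run = (T : ℤ) :=
  thrRun_spec' rfl (by norm_num) (by norm_num) (by simp [ringZ]) (by norm_num) (by norm_num)
    thr_ops_z10_1 thr_q_le h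

theorem thr_spec_z10_2 {run : List ℕ} {T : ℕ}
    (h : thrRun 9 2 1 0 1 0 thr_q run = some T) :
    thM_runSq 10 (thM_B 10 1 1 1) 8 thr_q run = (T : ℤ) :=
  thrRun_spec' rfl (by norm_num) (by norm_num) (by simp [ringZ]) (by norm_num) (by norm_num)
    thr_ops_z10_2 thr_q_le h

theorem thr_ops_p10_1 : thrOpsOK 9 1 1 0 1 1 = true := by
  decide +kernel

theorem thr_ops_p10_2 : thrOpsOK 9 2 1 0 1 1 = true := by
  decide +kernel

theorem thr_spec_p10_1 {run : List ℕ} {T : ℕ}
    (h : thrRun 9 1 1 0 1 1 thr_q run = some T) :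
    thM_runSq 10 (thM_B 10 (-1) 1 1) 8 thr_q run = (T : ℤ) :=
  thrRun_spec' rfl (by norm_num) (by norm_num) (by simp [ringZ]) (by norm_num) (by norm_num)
    thr_ops_p10_1 thr_q_le h

theorem thr_spec_p10_2 {run : List ℕ} {T : ℕ}
    (h : thrRun 9 2 1 0 1 1 thr_q run = some T) :
    thM_runSq 10 (thM_B 10 (-1) 1 1) 8 thr_q run = (T : ℤ) :=
  thrRun_spec' rfl (by norm_num) (by norm_num) (by simp [ringZ]) (by norm_num) (by norm_num)
    thr_ops_p10_2 thr_q_le h

/-- The lemmas that are written on demand are cited here once, so that no two downstream files hold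
their own copies (RULES.md, rule 6). -/
theorem thRunSched10_eqns_cited : True := by
  have := @thr_s10_0.eq_1; have := @thr_s10_0.eq_def
  have := @thr_s10_1.eq_1; have := @thr_s10_1.eq_def
  have := @thr_s10_2.eq_1; have := @thr_s10_2.eq_def
  have := @thr_s10_3.eq_1; have := @thr_s10_3.eq_def
  have := @thr_s10_4.eq_1; have := @thr_s10_4.eq_def
  have := @thr_s10_5.eq_1; have := @thr_s10_5.eq_def
  have := @thr_s10_6.eq_1; have := @thr_s10_6.eq_def
  have := @thr_s10_7.eq_1; have := @thr_s10_7.eq_def
  have := @thr_s10_8.eq_1; have := @thr_s10_8.eq_def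
  have := @thr_s10_9.eq_1; have := @thr_s10_9.eq_def
  have := @thr_s10_10.eq_1; have := @thr_s10_10.eq_def
  have := @thr_s10_11.eq_1; have := @thr_s10_11.eq_def
  have := @thr_s10_12.eq_1; have := @thr_s10_12.eq_def
  have := @thr_s10_13.eq_1; have := @thr_s10_13.eq_def
  have := @thr_s10_14.eq_1; have := @thr_s10_14.eq_def
  have := @thr_s10_15.eq_1; have := @thr_s10_15.eq_def
  have := @thr_s10_16.eq_1; have := @thr_s10_16.eq_def
  have := @thr_s10_17.eq_1; have := @thr_s10_17.eq_def
  have := @thr_s10_18.eq_1; have := @thr_s10_18.eq_def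
  have := @thr_s10_19.eq_1; have := @thr_s10_19.eq_def
  have := @thr_s10_20.eq_1; have := @thr_s10_20.eq_def
  have := @thr_s10_21.eq_1; have := @thr_s10_21.eq_def
  have := @thr_sched10.eq_1; have := @thr_sched10.eq_def
  trivial

end Claimed.Agent.R297
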