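/-
Row 297, package D3 (symmetry reduction of the thermal column sums), owner helper199.
Part S6: a priori bounds: every orbit has at most `4 n` members, hence every sector weight of a run
with at most one start code per sector is at most `4 n` (no kernel check of the weights is needed).
-/
import Claimed.Agent.R297.ThermSymSector

namespace Claimed.Agent.R297

theorem tsym_cyc_length (p d k cur : ℕ) (acc : List ℕ) :
    (tsym_cyc p d k cur acc).length ≤ acc.length + k := by
  induction k generalizing cur acc with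
  | zero => exact le_rfl
  | succ k ih =>
    rw [tsym_cyc_succ]
    cases Nat.beq (tsym_rotF p cur) d
    · have := ih (tsym_rotF p cur) (cur :: acc)
      rw [List.length_cons] at this
      show (tsym_cyc p d k (tsym_rotF p cur) (cur :: acc)).length ≤ _
      omega
    · show (cur :: acc).length ≤ _
      rw [List.length_cons]
      omega

theorem tsym_addCyc_length (p n d : ℕ) (acc : List ℕ) :
    (tsym_addCyc p n d acc).length ≤ acc.length + n := by
  unfold tsym_addCyc
  cases tsym_memF d acc
  · exact tsym_cyc_length p d n d acc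
  · exact Nat.le_add_right _ _

/-- an orbit has at most `4 n` members. -/
theorem tsym_mult_le (n c : ℕ) : tsym_mult n c ≤ 4 * n := by
  rw [tsym_mult, tsym_len_eq]
  unfold tsym_orbit tsym_orbitF
  have h1 := tsym_cyc_length (Nat.pow 3 (Nat.sub n 1)) c n c []
  have h2 := tsym_addCyc_length (Nat.pow 3 (Nat.sub n 1)) n (tsym_revF n c)
    (tsym_cyc (Nat.pow 3 (Nat.sub n 1)) c n c [])
  have h3 := tsym_addCyc_length (Nat.pow 3 (Nat.sub n 1)) n (Nat.sub (Nat.sub (Nat.pow 3 n) 1) c)
    (tsym_addCyc (Nat.pow 3 (Nat.sub n 1)) n (tsym_revF n c)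
      (tsym_cyc (Nat.pow 3 (Nat.sub n 1)) c n c []))
  have h4 := tsym_addCyc_length (Nat.pow 3 (Nat.sub n 1)) n
    (Nat.sub (Nat.sub (Nat.pow 3 n) 1) (tsym_revF n c))
    (tsym_addCyc (Nat.pow 3 (Nat.sub n 1)) n (Nat.sub (Nat.sub (Nat.pow 3 n) 1) c)
      (tsym_addCyc (Nat.pow 3 (Nat.sub n 1)) n (tsym_revF n c)
        (tsym_cyc (Nat.pow 3 (Nat.sub n 1)) c n c [])))
  rw [List.length_nil] at h1
  omega

theorem tsym_wtF_cons (n c : ℕ) (cs : List ℕ) (M : ℕ) :
    tsym_wtF n (c :: cs) M = Bool.rec (motive := fun _ => ℕ) (tsym_wtF n cs M)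
      (tsym_mult n c + tsym_wtF n cs M) (Nat.beq (tsym_dsumF n c) M) := rfl

/-- no start code in the sector: weight `0`. -/
theorem tsym_wtF_eq_zero (n : ℕ) (run : List ℕ) (M : ℕ) (h : M ∉ run.map (tsym_dsumF n)) :
    tsym_wtF n run M = 0 := by
  induction run with
  | nil => rfl
  | cons c cs ih =>
    rw [List.map_cons, List.mem_cons, not_or] at h
    rw [tsym_wtF_cons]
    cases hb : Nat.beq (tsym_dsumF n c) M
    · exact ih h.2
    · exact absurd (Nat.eq_of_beq_eq_true hb).symm h.1

/-- at most one start code per sector: every weight is at most `4 n`. -/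
theorem tsym_wtF_le_of_nodup (n : ℕ) (run : List ℕ) (h : (run.map (tsym_dsumF n)).Nodup) (M : ℕ) :
    tsym_wtF n run M ≤ 4 * n := by
  induction run with
  | nil => exact Nat.zero_le _
  | cons c cs ih =>
    rw [List.map_cons, List.nodup_cons] at h
    rw [tsym_wtF_cons]
    cases hb : Nat.beq (tsym_dsumF n c) M
    · exact ih h.2
    · have hM : tsym_dsumF n c = M := Nat.eq_of_beq_eq_true hb
      have h0 := tsym_wtF_eq_zero n cs M (by rw [← hM]; exact h.1)
      show tsym_mult n c + tsym_wtF n cs M ≤ 4 * n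
      rw [h0, add_zero]
      exact tsym_mult_le n c

/-- **All sector weights of a checked schedule are at most `4 n`.** -/
theorem tsym_wtF_le (n : ℕ) (runs : List (List ℕ)) (hok : tsym_secOK n runs = true)
    {run : List ℕ} (hrun : run ∈ runs) (M : ℕ) : tsym_wtF n run M ≤ 4 * n :=
  tsym_wtF_le_of_nodup n run (tsym_secOK_spec n runs hok run hrun) M

end Claimed.Agent.R297
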