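/-
Row 297 (spin-one Haldane gap), package D (thermal ring table), owner helper134.
From a checked schedule to the probe family consumed by `thC_gibbs_certificate` / `thN_gibbs_cheb`.
Engine independent, twist independent.  Uses `tsym_horbit_dsum`, `tsym_gen_blk` (helper199) and
`thA_packed_runs`, `thA_sum_nsq_restr` (helper204).
-/
import Claimed.Agent.R297.ThermalTableDefs
import Claimed.Agent.R297.ThermalAnaInt
import Claimed.Agent.R297.ThermSymBound

namespace Claimed.Agent.R297

open Matrix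

/-- **Probes of a schedule.**  `A` is generated from the ring; `zc run` is the (complex) output of
a run, within `η0` of `Q2 • A (start run)`.  Then the restrictions of the outputs to the sectors
form a probe family for the Hilbert-Schmidt norm of `A`, with total squared error
`≤ 4 n * #runs * η0²`, and their weighted sum of squared norms is the sum over the runs of
`∑ x, weight (sector of x) * ‖zc run x‖²`. -/
theorem thM_probes {n : ℕ} (hn : 2 ≤ n) (ζ : Circle) {A : Matrix (thM_Cfg n) (thM_Cfg n) ℂ}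
    (hA : tsym_Gen (tsym_ring n (tsym_seam n ζ)) A) (runs : List (List ℕ))
    (hcert : tsym_cert n runs.flatten = true) (hok : tsym_secOK n runs = true)
    (Q2 η0 : ℝ) (zc : List ℕ → thM_Cfg n → ℂ)
    (hz : ∀ run ∈ runs, thA_nrm (zc run - (Q2 : ℂ) • (A *ᵥ thA_cz (tsym_start n run))) ≤ η0) :
    ∃ (κ : Type) (_ : Fintype κ) (m : κ → ℝ) (u y : κ → thM_Cfg n → ℂ) (η : κ → ℝ),
      (∀ c, 0 ≤ m c) ∧
      (∑ c, m c * thA_nsq (A *ᵥ u c) = ∑ r, thA_nsq (A *ᵥ Pi.single r 1)) ∧
      (∀ c, thA_nrm (y c - (Q2 : ℂ) • (A *ᵥ u c)) ≤ η c) ∧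
      (∑ c, m c * η c ^ 2 ≤ ((4 * n : ℕ) : ℝ) * runs.length * η0 ^ 2) ∧
      (∑ c, m c * thA_nsq (y c)
        = (runs.map fun run => ∑ x, (tsym_wtF n run (tsym_sec n x) : ℝ) * ‖zc run x‖ ^ 2).sum) := by
  have hblk := tsym_gen_blk n hn (tsym_seam n ζ) hA
  obtain ⟨h1, h2⟩ := thA_packed_runs (ρ := Fin runs.length) (tsym_sec n) A hblk Q2
    (fun r => thA_cz (tsym_start n (runs.get r))) (fun r => zc (runs.get r)) η0
    (fun r => hz _ (List.get_mem runs r))
    (fun c => (tsym_wtF n (runs.get c.1) c.2 : ℝ)) ((4 * n : ℕ) : ℝ)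
    (fun c => by exact_mod_cast tsym_wtF_le n runs hok (List.get_mem runs c.1) c.2)
    (Nat.cast_nonneg _)
  refine ⟨Fin runs.length × Fin (2 * n + 1), inferInstance,
    fun c => (tsym_wtF n (runs.get c.1) c.2 : ℝ),
    fun c => thA_restr (tsym_sec n) c.2 (thA_cz (tsym_start n (runs.get c.1))),
    fun c => thA_restr (tsym_sec n) c.2 (zc (runs.get c.1)),
    fun c => thA_nrm (thA_restr (tsym_sec n) c.2
      (zc (runs.get c.1) - (Q2 : ℂ) • (A *ᵥ thA_cz (tsym_start n (runs.get c.1))))),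
    fun c => Nat.cast_nonneg _, tsym_horbit_dsum n hn ζ hA runs hcert hok, h1, ?_, ?_⟩
  · simpa using h2
  · rw [Fintype.sum_prod_type]
    have h3 : ∀ r : Fin runs.length,
        ∑ M : Fin (2 * n + 1), (tsym_wtF n (runs.get r) M : ℝ)
          * thA_nsq (thA_restr (tsym_sec n) M (zc (runs.get r)))
        = ∑ x, (tsym_wtF n (runs.get r) (tsym_sec n x) : ℝ) * ‖zc (runs.get r) x‖ ^ 2 :=
      fun r => thA_sum_nsq_restr (tsym_sec n) (fun M => (tsym_wtF n (runs.get r) M : ℝ)) _
    simp only [h3]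
    exact Fin.sum_univ_fun_getElem runs
      (fun run => ∑ x, (tsym_wtF n run (tsym_sec n x) : ℝ) * ‖zc run x‖ ^ 2)

end Claimed.Agent.R297
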