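/-
Row 297, package D3 (symmetry reduction of the thermal column sums), owner helper199.
Bridge: the entry-level ring `tsym_ring n (tsym_seam n ζ)` is helper150's weight-basis ring
`mdlPhaseRing n ζ (conj ζ)`; hence it is `twistRing n 1`, `twistRing n rotP`, and it has the Gibbs sums
of `twistRing n rotC`, for `ζ = 1, -1, ω²`.
-/
import Claimed.Agent.R297.ModelTwist
import Claimed.Agent.R297.ThermSymSector

namespace Claimed.Agent.R297

open Matrix

theorem tsym_bond_UDZ (ζ : Circle) (a b a' b' : Fin 3) :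
    (mdlWZ a a' * mdlWZ b b' + (ζ : ℂ) * (mdlWU a a' * mdlWD b b')
        + (starRingEnd ℂ) (ζ : ℂ) * (mdlWD a a' * mdlWU b b') : ℂ)
      = (tsym_bond a b a' b' : ℂ) * ((ζ ^ (tsym_sz b' - tsym_sz b) : Circle) : ℂ) := by
  have h2 : (starRingEnd ℂ) (ζ : ℂ) = (ζ : ℂ)⁻¹ := by
    rw [← Circle.coe_inv_eq_conj, Circle.coe_inv]
  fin_cases a <;> fin_cases b <;> fin_cases a' <;> fin_cases b' <;>
    simp [mdlWU, mdlWD, mdlWZ, tsym_bond, tsym_sz, h2]

theorem tsym_phaseRing_eq {n : ℕ} (hn : 2 ≤ n) (ζ : Circle) :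
    mdlPhaseRing n (ζ : ℂ) ((starRingEnd ℂ) (ζ : ℂ)) = tsym_ring n (tsym_seam n ζ) := by
  ext x y
  rw [tsym_ring_apply, mdlPhaseRing, Matrix.sum_apply]
  refine Finset.sum_congr rfl fun j _ => ?_
  have hj := tsym_ne_rot n hn j
  rw [Matrix.add_apply, Matrix.add_apply, Matrix.smul_apply, Matrix.smul_apply,
    mdlSite_mul_apply_of_ne hj, mdlSite_mul_apply_of_ne hj, mdlSite_mul_apply_of_ne hj]
  unfold tsym_term
  have hc1 : (if (j : ℕ) + 1 = n then (ζ : ℂ) else 1) = ((tsym_seam n ζ j : Circle) : ℂ) := by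
    unfold tsym_seam
    split_ifs <;> simp
  have hc2 : (if (j : ℕ) + 1 = n then (starRingEnd ℂ) (ζ : ℂ) else 1)
      = (starRingEnd ℂ) ((tsym_seam n ζ j : Circle) : ℂ) := by
    unfold tsym_seam
    split_ifs <;> simp
  rw [hc1, hc2]
  split_ifs with h
  · rw [← tsym_bond_UDZ]
    simp only [smul_eq_mul]
  · simp

/-- every weight-basis ring with conjugate unimodular seam coefficients is a `tsym_ring`. -/
theorem tsym_phaseRing_exists {n : ℕ} (hn : 2 ≤ n) {z w : ℂ} (hz : ‖z‖ = 1)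
    (hw : w = (starRingEnd ℂ) z) :
    ∃ ζ : Circle, mdlPhaseRing n z w = tsym_ring n (tsym_seam n ζ) := by
  refine ⟨⟨z, mem_sphere_zero_iff_norm.2 hz⟩, ?_⟩
  rw [hw]
  exact tsym_phaseRing_eq hn ⟨z, mem_sphere_zero_iff_norm.2 hz⟩

/-- **The orbit identity for packed runs** (hypothesis `horbit` of `thC_gibbs_certificate` and
`thA_gibbs_certificate`, index `κ = ρ × σ` as in `thA_packed_runs`), for every matrix generated from
`mdlPhaseRing n z w`, `|z| = 1`, `w = conj z`. -/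
theorem tsym_horbit_phase (n : ℕ) (hn : 2 ≤ n) {z w : ℂ} (hz : ‖z‖ = 1)
    (hw : w = (starRingEnd ℂ) z) {A : Matrix (Fin n → Fin 3) (Fin n → Fin 3) ℂ}
    (hA : tsym_Gen (mdlPhaseRing n z w) A) (runs : List (List ℕ))
    (hcert : tsym_cert n runs.flatten = true) (hok : tsym_secOK n runs = true) :
    ∑ c : Fin runs.length × Fin (2 * n + 1), (tsym_wtF n (runs.get c.1) c.2 : ℝ)
        * thA_nsq (A *ᵥ thA_restr (tsym_sec n) c.2 (thA_cz (tsym_start n (runs.get c.1))))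
      = ∑ r, thA_nsq (A *ᵥ Pi.single r 1) := by
  obtain ⟨ζ, hζ⟩ := tsym_phaseRing_exists hn hz hw
  rw [hζ] at hA
  exact tsym_horbit_dsum n hn ζ hA runs hcert hok

/-- block structure (hypothesis `hA` of `thA_packed_runs`). -/
theorem tsym_blk_phase (n : ℕ) (hn : 2 ≤ n) {z w : ℂ} (hz : ‖z‖ = 1)
    (hw : w = (starRingEnd ℂ) z) {A : Matrix (Fin n → Fin 3) (Fin n → Fin 3) ℂ}
    (hA : tsym_Gen (mdlPhaseRing n z w) A) :
    ∀ x y, tsym_sec n x ≠ tsym_sec n y → A x y = 0 := by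
  obtain ⟨ζ, hζ⟩ := tsym_phaseRing_exists hn hz hw
  rw [hζ] at hA
  exact tsym_gen_blk n hn _ hA

/-- the flat form: all columns from representatives. -/
theorem tsym_nsq_reps_phase (n : ℕ) (hn : 2 ≤ n) {z w : ℂ} (hz : ‖z‖ = 1)
    (hw : w = (starRingEnd ℂ) z) {A : Matrix (Fin n → Fin 3) (Fin n → Fin 3) ℂ}
    (hA : tsym_Gen (mdlPhaseRing n z w) A) (reps : List ℕ) (hcert : tsym_cert n reps = true) :
    ∑ x, thA_nsq (A *ᵥ Pi.single x 1)
      = (reps.map fun r => (tsym_mult n r : ℝ) * thA_nsq (A *ᵥ Pi.single (tsym_word n r) 1)).sum := by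
  obtain ⟨ζ, hζ⟩ := tsym_phaseRing_exists hn hz hw
  rw [hζ] at hA
  exact tsym_nsq_reps n hn ζ hA reps hcert

/-- the side conditions for the three twists. -/
theorem tsym_side_one : ‖(1 : ℂ)‖ = 1 ∧ (1 : ℂ) = (starRingEnd ℂ) 1 := by simp

theorem tsym_side_neg_one : ‖(-1 : ℂ)‖ = 1 ∧ (-1 : ℂ) = (starRingEnd ℂ) (-1) := by simp

theorem tsym_side_omega {om : ℂ} (hre : om.re = -1 / 2) (him : om.im ^ 2 = 3 / 4) :
    ‖om ^ 2‖ = 1 ∧ om = (starRingEnd ℂ) (om ^ 2) := by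
  have hs := mdl_omega_star hre him
  constructor
  · have h1 : Complex.normSq om = 1 := by
      rw [Complex.normSq_apply, hre]
      nlinarith
    have h2 : ‖om‖ = 1 := by
      have h3 : ‖om‖ ^ 2 = 1 := by rw [← Complex.normSq_eq_norm_sq, h1]
      have h4 : 0 ≤ ‖om‖ := norm_nonneg _
      nlinarith
    rw [norm_pow, h2, one_pow]
  · rw [← hs, Complex.conj_conj]

end Claimed.Agent.R297
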