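/-
Row 297 (spin-one Haldane gap), package D (thermal ring table), owner helper134.
The Clenshaw approximant of the phase ring is generated from helper199's entry-level ring.
The bridge `tsym_phaseRing_eq` is due to helper199 (ThermSymBridge).
-/
import Claimed.Agent.R297.ThermalTableDefs
import Claimed.Agent.R297.ThermSymBridge

namespace Claimed.Agent.R297

open Matrix

/-- BRIDGE between the operator form (helper150) and the entry form (helper199) of the ring. -/
theorem thM_ring_eq_tsym (n : ℕ) (hn : 2 ≤ n) (ζ : Circle) :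
    mdlPhaseRing n (ζ : ℂ) ((starRingEnd ℂ) (ζ : ℂ)) = tsym_ring n (tsym_seam n ζ) :=
  tsym_phaseRing_eq hn ζ

/-- the approximant is generated from the entry-level ring. -/
theorem thM_gen_A (n : ℕ) (hn : 2 ≤ n) (z w : ℂ) (hz : Complex.normSq z = 1)
    (hw : w = (starRingEnd ℂ) z) (s c : ℝ) (q : List ℕ) (Q : ℕ) :
    ∃ ζ : Circle, tsym_Gen (tsym_ring n (tsym_seam n ζ))
      (thC_A (thA_W (mdlPhaseRing n z w) s c) q Q) := by
  have hz' : ‖z‖ = 1 := by
    have h := Complex.normSq_eq_norm_sq z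
    rw [hz] at h
    nlinarith [norm_nonneg z]
  obtain ⟨ζ, hζ⟩ : ∃ ζ : Circle, (ζ : ℂ) = z :=
    ⟨(⟨z, (mem_sphere_zero_iff_norm.2 hz' : z ∈ Submonoid.unitSphere ℂ)⟩ :
      Submonoid.unitSphere ℂ), rfl⟩
  refine ⟨ζ, ?_⟩
  rw [← thM_ring_eq_tsym n hn, hw, hζ]
  exact (tsym_gen_thA_W _ s c).trans (tsym_gen_thC_A _ q Q)

end Claimed.Agent.R297
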