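/-
Row 297 (spin-one Haldane gap), package D (thermal ring table), owner helper134.
ASSEMBLY, part 1: one entry of the thermal table from
* the parameter record `thM_Params` and its closed checks `thM_ParamsOK` (shared by the twists),
* the SPEC-level total of the integer Clenshaw runs (`thM_total` / `thM_totalW`), and
* the closing rational check `thN_finalChk`.
-/
import Claimed.Agent.R297.ThermalTableSym
import Claimed.Agent.R297.ThermalTableProbe
import Claimed.Agent.R297.ThermalTableModel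
import Claimed.Agent.R297.ThermalChebNum
import Claimed.Agent.R297.Seed60Glue

namespace Claimed.Agent.R297

open Matrix

/-- all parameters of the thermal computation for one ring length. -/
structure thM_Params where
  /-- `2 W = (α - β H) / D` -/
  α : ℤ
  β : ℤ
  D : ℤ
  /-- scale `c = cn / cd`, `W = 1 - (H + 3n/2) / c` -/
  cn : ℕ
  cd : ℕ
  /-- `t = b c / 2 = tn / td`, Poisson cut-off `J` -/
  tn : ℕ
  td : ℕ
  J : ℕ
  /-- Chebyshev coefficients `q_k / Q`, degree indexed -/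
  q : List ℕ
  Q : ℕ
  /-- coefficient error `εn / εd` -/
  εn : ℕ
  εd : ℕ
  /-- schedule (list of runs; a run = list of start codes, at most one per digit sum) -/
  sched : List (List ℕ)
  /-- rounding error bound, `√(3^n) ≤ d`, `t ≤ t3` -/
  En : ℕ
  d : ℕ
  t3 : ℕ
  /-- enclosure `xl ≤ exp (k y) ≤ xh`, `N` Taylor terms -/
  y : ℚ
  xl : ℚ
  xh : ℚ
  N : ℕ
  k : ℕ

/-- the closed checks on the parameters (`b = 21/2`, `s = 3n/2`, shift `a = 700741/500000`). -/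
structure thM_ParamsOK (n : ℕ) (P : thM_Params) : Prop where
  hD : 0 < P.D
  hcn : 0 < P.cn
  hcd : 0 < P.cd
  hβ : P.β * P.cn = 2 * P.D * P.cd
  hα : P.α * P.cn = 2 * P.D * P.cn - 3 * n * P.D * P.cd
  hwin : 5 * n * P.cd ≤ 4 * P.cn
  htd : 0 < P.td
  ht : 21 * P.cn * P.td = 4 * P.cd * P.tn
  hq : P.q ≠ []
  hQ : 0 < P.Q
  hεd : 0 < P.εd
  hcheck : thC_l1dist (P.q.map (· * thC_poisDen P.tn P.td P.J))
      ((thC_reexp (thC_poisList P.tn P.td P.J)).map (· * P.Q)) * P.εd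
    ≤ P.εn * (P.Q * thC_poisDen P.tn P.td P.J)
  hcert : tsym_cert n P.sched.flatten = true
  hsec : tsym_secOK n P.sched = true
  hEn : 4 * n * P.sched.length * ((2 * (P.q.length - 1) + 1) ^ 2 * 3 ^ n) ≤ P.En ^ 2
  hd : 3 ^ n ≤ P.d ^ 2
  ht3 : P.tn ≤ P.t3 * P.td
  hexp : thN_expChk P.y P.N P.k P.xl P.xh = true
  hx : (P.k : ℚ) * P.y = 21 / 2 * (3 / 2 - 700741 / 500000) * n

theorem thM_card (n : ℕ) : Fintype.card (thM_Cfg n) = 3 ^ n := by
  simp [thM_Cfg]

/-- common part of the two entry theorems. -/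
theorem thM_entry_core {n : ℕ} (hn : 2 ≤ n) (P : thM_Params) (hP : thM_ParamsOK n P)
    {H : Matrix (thM_Cfg n) (thM_Cfg n) ℂ} (hH : H.IsHermitian)
    (hwin : ∀ k, -(3 * n / 2 : ℝ) ≤ hH.eigenvalues k ∧ hH.eigenvalues k ≤ (n : ℝ))
    (hgen : ∃ ζ : Circle, tsym_Gen (tsym_ring n (tsym_seam n ζ))
      (thC_A (thA_W H (3 * n / 2) ((P.cn : ℝ) / P.cd)) P.q P.Q))
    (zc : List ℕ → thM_Cfg n → ℂ)
    (hz : ∀ run, thA_nrm (zc run - (((2 * P.Q : ℕ) : ℝ) : ℂ) •
        (thC_A (thA_W H (3 * n / 2) ((P.cn : ℝ) / P.cd)) P.q P.Q *ᵥ thA_cz (tsym_start n run)))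
      ≤ (2 * (P.q.length - 1 : ℕ) + 1) * Real.sqrt (Fintype.card (thM_Cfg n)))
    (T r : ℕ)
    (hT : (P.sched.map fun run =>
      ∑ x, (tsym_wtF n run (tsym_sec n x) : ℝ) * ‖zc run x‖ ^ 2).sum = (T : ℝ))
    (centre : ℚ)
    (hfin : thN_finalChk T r (2 * P.Q) (thN_err P.En (2 * P.Q) P.d P.εn P.εd P.t3 P.J)
      P.xl P.xh centre (1 / 10000) = true) :
    |Real.exp (-(seedShift * (21 / 2) * n)) * gibbsZ H (21 / 2) - (centre : ℝ)| ≤ 1 / 10000 := by
  have hcn : (0 : ℝ) < P.cn := by exact_mod_cast hP.hcn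
  have hcd : (0 : ℝ) < P.cd := by exact_mod_cast hP.hcd
  have htd : (0 : ℝ) < P.td := by exact_mod_cast hP.htd
  have hc : (0 : ℝ) < (P.cn : ℝ) / P.cd := div_pos hcn hcd
  set A := thC_A (thA_W H (3 * n / 2) ((P.cn : ℝ) / P.cd)) P.q P.Q with hA
  set η0 : ℝ := (2 * (P.q.length - 1 : ℕ) + 1) * Real.sqrt (Fintype.card (thM_Cfg n)) with hη0
  obtain ⟨ζ, hgen⟩ := hgen
  obtain ⟨κ, iκ, m, u, y, η, hm, horbit, hy, hE, hsum⟩ :=
    thM_probes hn ζ hgen P.sched hP.hcert hP.hsec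
      (((2 * P.Q : ℕ) : ℝ)) η0 zc (fun run _ => hz run)
  have hη0sq : η0 ^ 2 = (((2 * (P.q.length - 1) + 1) ^ 2 * 3 ^ n : ℕ) : ℝ) := by
    rw [hη0, mul_pow, Real.sq_sqrt (Nat.cast_nonneg _), thM_card]
    push_cast
    ring
  have hE' : ∑ c, m c * η c ^ 2 ≤ (P.En : ℝ) ^ 2 := by
    refine hE.trans ?_
    rw [hη0sq]
    exact_mod_cast hP.hEn
  have hwin2 : (n : ℝ) ≤ 2 * ((P.cn : ℝ) / P.cd) - 3 * n / 2 := by
    have h : (5 * n * P.cd : ℝ) ≤ 4 * P.cn := by exact_mod_cast hP.hwin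
    have h2 : (5 * n / 4 : ℝ) ≤ (P.cn : ℝ) / P.cd := by
      rw [le_div_iff₀ hcd]; linarith
    linarith
  have ht : (21 / 2 : ℝ) * ((P.cn : ℝ) / P.cd) / 2 = (P.tn : ℝ) / P.td := by
    have h : (21 * P.cn * P.td : ℝ) = 4 * P.cd * P.tn := by exact_mod_cast hP.ht
    field_simp
    linarith
  have hx : (P.k : ℝ) * (P.y : ℝ) - 21 / 2 * (3 * n / 2) = -(seedShift * (21 / 2) * n) := by
    have h : ((P.k : ℚ) * P.y : ℚ) = 21 / 2 * (3 / 2 - 700741 / 500000) * n := hP.hx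
    have h' : (P.k : ℝ) * (P.y : ℝ) = 21 / 2 * (3 / 2 - 700741 / 500000) * n := by
      have h2 := congrArg (fun t : ℚ => (t : ℝ)) h
      simpa using h2
    rw [h']
    unfold seedShift
    ring
  exact thN_gibbs_cheb hH (3 * n / 2) ((P.cn : ℝ) / P.cd) (21 / 2) hc
    (fun k => by have := (hwin k).1; linarith) (fun k => ((hwin k).2).trans hwin2)
    P.tn P.td P.J hP.htd ht P.q hP.hq P.Q hP.hQ P.εn P.εd hP.hεd hP.hcheck m hm u y horbit η hy
    P.En hE' (hsum.trans hT) (by rw [thM_card]; exact hP.hd) hP.ht3 hP.hexp hfin hx rfl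
    (by norm_num)

theorem thM_cast_list_sum {α : Type} (l : List α) (f : α → ℤ) :
    (((l.map f).sum : ℤ) : ℝ) = (l.map fun a => ((f a : ℤ) : ℝ)).sum := by
  induction l with
  | nil => simp
  | cons a l ih => simp [ih]

theorem thM_params_real {n : ℕ} {P : thM_Params} (hP : thM_ParamsOK n P) :
    (0 : ℝ) < (P.cn : ℝ) / P.cd ∧ (P.β : ℝ) * ((P.cn : ℝ) / P.cd) = 2 * P.D ∧
      (P.α : ℝ) * ((P.cn : ℝ) / P.cd) = 2 * P.D * ((P.cn : ℝ) / P.cd - 3 * n / 2) ∧
      (n : ℝ) ≤ 2 * ((P.cn : ℝ) / P.cd) - 3 * n / 2 := by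
  have hcn : (0 : ℝ) < P.cn := by exact_mod_cast hP.hcn
  have hcd : (0 : ℝ) < P.cd := by exact_mod_cast hP.hcd
  have hβ : (P.β : ℝ) * P.cn = 2 * P.D * P.cd := by exact_mod_cast hP.hβ
  have hα : (P.α : ℝ) * P.cn = 2 * P.D * P.cn - 3 * n * P.D * P.cd := by exact_mod_cast hP.hα
  refine ⟨div_pos hcn hcd, ?_, ?_, ?_⟩
  · field_simp
    linarith
  · field_simp
    linarith
  · have h : (5 * n * P.cd : ℝ) ≤ 4 * P.cn := by exact_mod_cast hP.hwin
    have h2 : (5 * n / 4 : ℝ) ≤ (P.cn : ℝ) / P.cd := by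
      rw [le_div_iff₀ hcd]; linarith
    linarith

/-- **One entry of the table, real seam sign.** -/
theorem thM_entry_real {n : ℕ} (hn : 3 ≤ n) (P : thM_Params) (hP : thM_ParamsOK n P) (z : ℤ)
    {R : Matrix (Fin 3) (Fin 3) ℝ} (hR : mdlE_IsRot R)
    (hz : Complex.normSq (z : ℂ) = 1) (hzR : mdlPhaseRing n (z : ℂ) (z : ℂ) = twistRing n R)
    (T r : ℕ)
    (hT : thM_total n (thM_B n z P.α P.β) P.D P.q P.sched = (T : ℤ)) (centre : ℚ)
    (hfin : thN_finalChk T r (2 * P.Q) (thN_err P.En (2 * P.Q) P.d P.εn P.εd P.t3 P.J)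
      P.xl P.xh centre (1 / 10000) = true) :
    |Zring seedShift n R (21 / 2) - (centre : ℝ)| ≤ 1 / 10000 := by
  obtain ⟨hc, hβ, hα, hwin2⟩ := thM_params_real hP
  have hconj : (z : ℂ) = (starRingEnd ℂ) (z : ℂ) := (map_intCast _ z).symm
  have hH : (mdlPhaseRing n (z : ℂ) (z : ℂ)).IsHermitian := by
    rw [hzR]; exact mdl_twistRing_isHermitian (by omega) R
  have hwin := thM_window_of_eq hn hR hH hzR
  have key := thM_entry_core (by omega) P hP hH hwin
    (thM_gen_A n (by omega) (z : ℂ) (z : ℂ) hz hconj _ _ _ _)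
    (fun run => thA_cz (thC_zRun (thM_B n z P.α P.β) P.D P.q (tsym_start n run)))
    (fun run => thC_zRun_close (thA_W_diag hH _ _)
      (thA_W_abs_le hH _ _ hc (fun k => (hwin k).1) (fun k => ((hwin k).2).trans hwin2))
      _ _ hP.hD (thM_hB_real n z P.α P.β P.D _ _ hc hβ hα) P.q P.Q hP.hQ _) T r ?_
    centre hfin
  · unfold Zring
    rw [← hzR]
    exact key
  · have h1 : ((thM_total n (thM_B n z P.α P.β) P.D P.q P.sched : ℤ) : ℝ) = (T : ℝ) := by
      rw [hT]; simp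
    rw [← h1]
    unfold thM_total
    rw [thM_cast_list_sum]
    congr 1
    refine List.map_congr_left fun run _ => ?_
    simp only [thM_runSq, thA_cz, Int.cast_sum, Int.cast_mul,
      Int.cast_natCast, Int.cast_pow, Complex.norm_intCast, sq_abs]

/-- **One entry of the table, cyclic twist (seam coefficients `ω², ω`).** -/
theorem thM_entry_omega {n : ℕ} (hn : 3 ≤ n) (P : thM_Params) (hP : thM_ParamsOK n P) (T r : ℕ)
    (hT : thM_totalW n (thM_B0 n P.α P.β) (thM_B1 n P.β) P.D P.q P.sched = (T : ℤ)) (centre : ℚ)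
    (hfin : thN_finalChk T r (2 * P.Q) (thN_err P.En (2 * P.Q) P.d P.εn P.εd P.t3 P.J)
      P.xl P.xh centre (1 / 10000) = true) :
    |Zring seedShift n rotC (21 / 2) - (centre : ℝ)| ≤ 1 / 10000 := by
  obtain ⟨hc, hβ, hα, hwin2⟩ := thM_params_real hP
  have ho : thA_IsOmega mdlOmega := ⟨mdlOmega_re, mdlOmega_im⟩
  set om := mdlOmega with hom
  have hstar : (starRingEnd ℂ) om = om ^ 2 := mdl_omega_star ho.re ho.im
  have hnorm : Complex.normSq om = 1 := by
    rw [Complex.normSq_apply, ho.re]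
    have := ho.im
    nlinarith
  have hnorm2 : Complex.normSq (om ^ 2) = 1 := by
    rw [map_pow, hnorm, one_pow]
  have hconj : om = (starRingEnd ℂ) (om ^ 2) := by
    rw [← hstar, Complex.conj_conj]
  have hzR := mdlPhaseRing_omega_eq_twistRing ho.re ho.im n
  have hH : (mdlPhaseRing n (om ^ 2) om).IsHermitian := by
    rw [hzR]; exact mdl_twistRing_isHermitian (by omega) _
  have hwin := thM_window_of_eq hn (mdl_isRot_omega ho.re ho.im) hH hzR
  have key := thM_entry_core (by omega) P hP hH hwin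
    (thM_gen_A n (by omega) (om ^ 2) om hnorm2 hconj _ _ _ _)
    (fun run => thA_cw om (thC_wRun (thM_B0 n P.α P.β) (thM_B1 n P.β) P.D P.q (tsym_start n run)))
    (fun run => thC_wRun_close ho (thA_W_diag hH _ _)
      (thA_W_abs_le hH _ _ hc (fun k => (hwin k).1) (fun k => ((hwin k).2).trans hwin2))
      _ _ _ hP.hD (thM_hB_omega ho n P.α P.β P.D _ _ hc hβ hα) P.q P.Q hP.hQ _) T r ?_
    centre hfin
  · unfold Zring
    rw [mdl_gibbsZ_twistRing_rotC ho.re ho.im (by omega)]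
    exact key
  · have h1 : ((thM_totalW n (thM_B0 n P.α P.β) (thM_B1 n P.β) P.D P.q P.sched : ℤ) : ℝ)
        = (T : ℝ) := by
      rw [hT]; simp
    rw [← h1]
    unfold thM_totalW
    rw [thM_cast_list_sum]
    congr 1
    refine List.map_congr_left fun run _ => ?_
    simp only [thM_runSqW, thA_cw, Int.cast_sum, Int.cast_mul,
      Int.cast_natCast]
    refine Finset.sum_congr rfl fun x _ => ?_
    congr 1
    have := ho.norm_sq
      ((thC_wRun (thM_B0 n P.α P.β) (thM_B1 n P.β) P.D P.q (tsym_start n run)).1 x)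
      ((thC_wRun (thM_B0 n P.α P.β) (thM_B1 n P.β) P.D P.q (tsym_start n run)).2 x)
    push_cast at this ⊢
    exact this

end Claimed.Agent.R297
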