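/-
Row 297 (spin-one Haldane gap), package D (thermal ring table), owner helper134.
ASSEMBLY, part 2: the CONTRACT of the production side (`thM_RealCert`, `thM_OmegaCert`) and the
derivation of one field of `Table60` from it.
-/
import Claimed.Agent.R297.ThermalTableEntry

namespace Claimed.Agent.R297

open Matrix

/-- what production has to deliver for the ring of `n` sites with real seam sign `z`. -/
def thM_RealCert (n : ℕ) (z : ℤ) (centre : ℚ) : Prop :=
  ∃ (P : thM_Params) (T r : ℕ), thM_ParamsOK n P ∧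
    thM_total n (thM_B n z P.α P.β) P.D P.q P.sched = (T : ℤ) ∧
    thN_finalChk T r (2 * P.Q) (thN_err P.En (2 * P.Q) P.d P.εn P.εd P.t3 P.J)
      P.xl P.xh centre (1 / 10000) = true

/-- what production has to deliver for the ring of `n` sites with the cyclic twist. -/
def thM_OmegaCert (n : ℕ) (centre : ℚ) : Prop :=
  ∃ (P : thM_Params) (T r : ℕ), thM_ParamsOK n P ∧
    thM_totalW n (thM_B0 n P.α P.β) (thM_B1 n P.β) P.D P.q P.sched = (T : ℤ) ∧
    thN_finalChk T r (2 * P.Q) (thN_err P.En (2 * P.Q) P.d P.εn P.εd P.t3 P.J)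
      P.xl P.xh centre (1 / 10000) = true

theorem thM_Zring_one {n : ℕ} (hn : 3 ≤ n) {centre : ℚ} (h : thM_RealCert n 1 centre)
    {cR : ℝ} (hc : cR = (centre : ℝ)) :
    |Zring seedShift n 1 (21 / 2) - cR| ≤ 1 / 10000 := by
  obtain ⟨P, T, r, hP, hT, hfin⟩ := h
  rw [hc]
  exact thM_entry_real hn P hP 1 mdlE_isRot_one (by simp)
    (by rw [mdl_twistRing_one]; simp) T r hT centre hfin

theorem thM_Zring_rotP {n : ℕ} (hn : 3 ≤ n) {centre : ℚ} (h : thM_RealCert n (-1) centre)
    {cR : ℝ} (hc : cR = (centre : ℝ)) :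
    |Zring seedShift n rotP (21 / 2) - cR| ≤ 1 / 10000 := by
  obtain ⟨P, T, r, hP, hT, hfin⟩ := h
  rw [hc]
  exact thM_entry_real hn P hP (-1) mdlE_isRot_rotP (by simp)
    (by rw [mdl_twistRing_rotP]; simp) T r hT centre hfin

theorem thM_Zring_rotC {n : ℕ} (hn : 3 ≤ n) {centre : ℚ} (h : thM_OmegaCert n centre)
    {cR : ℝ} (hc : cR = (centre : ℝ)) :
    |Zring seedShift n rotC (21 / 2) - cR| ≤ 1 / 10000 := by
  obtain ⟨P, T, r, hP, hT, hfin⟩ := h
  rw [hc]
  exact thM_entry_omega hn P hP T r hT centre hfin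

end Claimed.Agent.R297
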