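/-
Row 297 (spin-one Haldane gap), package D5 (helper159).  GENERATED FILE (scratch/thr/gen.py).
The parameter record of the thermal runs of the ring of 10 sites and its closed checks.
-/
import Claimed.Agent.R297.ThRunSched10
import Claimed.Agent.R297.ThermalTableCert

set_option Elab.async false

namespace Claimed.Agent.R297

/-- the parameters of the thermal computation for `n = 10`. -/
def thr_P10 : thM_Params where
  α := 1
  β := 1
  D := 8
  cn := 16
  cd := 1
  tn := 84
  td := 1
  J := 256
  q := thr_q
  Q := 2 ^ 48
  εn := 1
  εd := 2 ^ 33
  sched := thr_sched10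
  En := 5007151
  d := 243
  t3 := 84
  y := 1034439 / 1600000
  xl := 310821817532791 / 10000000000
  xh := 310821817532864 / 10000000000
  N := 14
  k := 16

theorem thr_P10_ok : thM_ParamsOK 10 thr_P10 where
  hD := by norm_num [thr_P10]
  hcn := by norm_num [thr_P10]
  hcd := by norm_num [thr_P10]
  hβ := by norm_num [thr_P10]
  hα := by norm_num [thr_P10]
  hwin := by norm_num [thr_P10]
  htd := by norm_num [thr_P10]
  ht := by norm_num [thr_P10]
  hq := thr_q_ne
  hQ := by norm_num [thr_P10]
  hεd := by norm_num [thr_P10]
  hcheck := by
    dsimp only [thr_P10]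
    exact thr_hcheck
  hcert := thr_sched10_cert
  hsec := thr_sched10_sec
  hEn := by
    dsimp only [thr_P10]
    rw [thr_sched10_length, thr_q_length]
    norm_num
  hd := by norm_num [thr_P10]
  ht3 := by norm_num [thr_P10]
  hexp := by
    dsimp only [thr_P10]
    decide +kernel
  hx := by norm_num [thr_P10]

/-- The lemmas that are written on demand are cited here once, so that no two downstream files hold
their own copies (RULES.md, rule 6). -/
theorem thRunPar10_eqns_cited : True := by
  have := @thr_P10.eq_1; have := @thr_P10.eq_def
  trivial

end Claimed.Agent.R297
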