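/-
Row 297 (spin-one Haldane gap), package D5, omega production (helper227).  GENERATED FILE.
Thermal runs, ring of 10 sites, cyclic twist: the total and the certificate.
-/
import Claimed.Agent.R297.ThRunPar10
import Claimed.Agent.R297.ThRunC10x00
import Claimed.Agent.R297.ThRunC10x01
import Claimed.Agent.R297.ThRunC10x02
import Claimed.Agent.R297.ThRunC10x03
import Claimed.Agent.R297.ThRunC10x04
import Claimed.Agent.R297.ThRunC10x05
import Claimed.Agent.R297.ThRunC10x06
import Claimed.Agent.R297.ThRunC10x07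
import Claimed.Agent.R297.ThRunC10x08
import Claimed.Agent.R297.ThRunC10x09
import Claimed.Agent.R297.ThRunC10x10
import Claimed.Agent.R297.ThRunC10x11
import Claimed.Agent.R297.ThRunC10x12
import Claimed.Agent.R297.ThRunC10x13
import Claimed.Agent.R297.ThRunC10x14
import Claimed.Agent.R297.ThRunC10x15
import Claimed.Agent.R297.ThRunC10x16
import Claimed.Agent.R297.ThRunC10x17
import Claimed.Agent.R297.ThRunC10x18
import Claimed.Agent.R297.ThRunC10x19
import Claimed.Agent.R297.ThRunC10x20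
import Claimed.Agent.R297.ThRunC10x21

set_option Elab.async false

namespace Claimed.Agent.R297

/-- the total of all runs. -/
def thr_c10_T : ℕ :=
  thr_c10_T0 + (thr_c10_T1 + (thr_c10_T2 + (thr_c10_T3 + (thr_c10_T4 + (thr_c10_T5 + (thr_c10_T6
  + (thr_c10_T7 + (thr_c10_T8 + (thr_c10_T9 + (thr_c10_T10 + (thr_c10_T11 + (thr_c10_T12 +
  (thr_c10_T13 + (thr_c10_T14 + (thr_c10_T15 + (thr_c10_T16 + (thr_c10_T17 + (thr_c10_T18 +
  (thr_c10_T19 + (thr_c10_T20 + (thr_c10_T21)))))))))))))))))))))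

theorem thr_c10_total :
    thM_totalW 10 (thM_B0 10 1 1) (thM_B1 10 1) 8 thr_q thr_sched10 = (thr_c10_T : ℤ) :=
  thr_totalW_append thr_c10_c0 <|
  thr_totalW_append thr_c10_c1 <|
  thr_totalW_append thr_c10_c2 <|
  thr_totalW_append thr_c10_c3 <|
  thr_totalW_append thr_c10_c4 <|
  thr_totalW_append thr_c10_c5 <|
  thr_totalW_append thr_c10_c6 <|
  thr_totalW_append thr_c10_c7 <|
  thr_totalW_append thr_c10_c8 <|
  thr_totalW_append thr_c10_c9 <|
  thr_totalW_append thr_c10_c10 <|
  thr_totalW_append thr_c10_c11 <|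
  thr_totalW_append thr_c10_c12 <|
  thr_totalW_append thr_c10_c13 <|
  thr_totalW_append thr_c10_c14 <|
  thr_totalW_append thr_c10_c15 <|
  thr_totalW_append thr_c10_c16 <|
  thr_totalW_append thr_c10_c17 <|
  thr_totalW_append thr_c10_c18 <|
  thr_totalW_append thr_c10_c19 <|
  thr_totalW_append thr_c10_c20 <|
  thr_c10_c21

theorem thr_c10_fin :
    thN_finalChk thr_c10_T 3197279795141 (2 * thr_P10.Q)
      (thN_err thr_P10.En (2 * thr_P10.Q) thr_P10.d thr_P10.εn thr_P10.εd thr_P10.t3 thr_P10.J)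
      thr_P10.xl thr_P10.xh (1002613 / 1000000) (1 / 10000) = true := by
  decide +kernel

theorem thr_c10_cert : thM_OmegaCert 10 (1002613 / 1000000) :=
  ⟨thr_P10, thr_c10_T, 3197279795141, thr_P10_ok, thr_c10_total, thr_c10_fin⟩

end Claimed.Agent.R297
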