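/-
Row 297 (spin-one Haldane gap), package D5, omega half (helper199, in the conventions of helper159's
`ThRunDefs.lean`): one complete `ℤ[ω]` thermal run of the ring with the cyclic twist in two copies of
the class layout (packed pair run of helper81 + three packed weighted sums of squares), and its
meaning: the SPEC-level quantity `thM_runSqW` of helper134.
-/
import Claimed.Agent.R297.ThRunDefs
import Claimed.Agent.R297.LanesRingWRun

namespace Claimed.Agent.R297

open Matrix

/-- **One complete `ℤ[ω]` run** (`k + 1` sites, class `c`): lane width `64`, bias `2^56`, range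
`2^52`, guard `6`, division by `2^3`.  With `u`, `v` the two halves of the output, the result is
`(S(u) + S(v) + S(u - v)) / 2 = ∑ wt (u² - u v + v²)`. -/
def thrRunW (k c αp αn β : ℕ) (q run : List ℕ) : Option ℕ :=
  match thrRunOK k c run && decide (((thrWts (k + 1) run).map Prod.snd).sum < 512) with
  | false => none
  | true =>
    match ringWFull 64 k c 56 52 6 αp αn β 3 (laneStart 64 (run.map (· % 3 ^ k))) q with
    | none => none
    | some Y =>
      some ((lsqSum 64 (3 ^ k) 56 55 32 (secWs 64 k c (thrWts (k + 1) run)) (Y % 2 ^ (64 * 3 ^ k))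
        + lsqSum 64 (3 ^ k) 56 55 32 (secWs 64 k c (thrWts (k + 1) run)) (Y >>> (64 * 3 ^ k))
        + lsqSum 64 (3 ^ k) 56 56 32 (secWs 64 k c (thrWts (k + 1) run))
            ((Y % 2 ^ (64 * 3 ^ k) + laneConst 64 (3 ^ k) (2 ^ 56)) - Y >>> (64 * 3 ^ k))) / 2)

/-- the numerical side conditions on the programs (closed kernel check for concrete `k`). -/
def thrOpsWOK (k c αp αn β : ℕ) : Bool := decide (RingWOK 64 k c 56 52 6 αp αn β 3)

/-- **Correctness of a `ℤ[ω]` run.** -/
theorem thrRunW_spec {k c αp αn β : ℕ} (hk' : k ≤ 19)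
    (hops : thrOpsWOK k c αp αn β = true) {q : List ℕ} (hq : ∀ d ∈ q, d ≤ 2 ^ 52)
    {run : List ℕ} {T : ℕ} (h : thrRunW k c αp αn β q run = some T) :
    thM_runSqW (k + 1) (thM_B0 (k + 1) ((αp : ℤ) - αn) β) (thM_B1 (k + 1) β) 8 q run
      = (T : ℤ) := by
  have hok' : RingWOK 64 k c 56 52 6 αp αn β 3 := of_decide_eq_true hops
  unfold thrRunW at h
  cases hok : thrRunOK k c run && decide (((thrWts (k + 1) run).map Prod.snd).sum < 512) with
  | false => rw [hok] at h; simp at h
  | true =>
    rw [hok] at h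
    simp only at h
    unfold thrRunOK at hok
    rw [Bool.and_eq_true, Bool.and_eq_true, Bool.and_eq_true, decide_eq_true_eq,
      decide_eq_true_eq, decide_eq_true_eq, List.all_eq_true] at hok
    obtain ⟨⟨⟨hall, hnd⟩, -⟩, hcap⟩ := hok
    have hlt : ∀ r ∈ run, r < 3 ^ (k + 1) := fun r hr => by
      have := hall r hr
      rw [Bool.and_eq_true, decide_eq_true_eq] at this
      exact this.1
    have hcls : ∀ r ∈ run, tsym_dsumF (k + 1) r % 3 = c % 3 := fun r hr => by
      have := hall r hr
      rw [Bool.and_eq_true, decide_eq_true_eq, decide_eq_true_eq] at this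
      exact this.2
    cases hY : ringWFull 64 k c 56 52 6 αp αn β 3 (laneStart 64 (run.map (· % 3 ^ k))) q with
    | none => rw [hY] at h; simp at h
    | some Y =>
      rw [hY] at h
      simp only [Option.some.injEq] at h
      obtain ⟨hu, hv, hd⟩ := ringWFull_spec hok' (e := thrE (k + 1) run)
        (thr_start_eq hlt hcls hnd) (thrE_le _ _) (fun y hy => by
          unfold thrE
          rw [if_neg]
          intro hmem
          apply hy
          rw [← thr_dsumF_code]
          exact hcls _ hmem) hq hY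
      rw [thrE_cast] at hu hv hd
      have hN : 3 ^ k * 2 ^ 32 < 2 ^ 64 - 1 := by
        calc 3 ^ k * 2 ^ 32 ≤ 3 ^ 19 * 2 ^ 32 :=
              Nat.mul_le_mul_right _ (Nat.pow_le_pow_right (by norm_num) hk')
          _ < _ := by norm_num
      have hw : ∀ p ∈ thrWts (k + 1) run, p.1 % 3 = c % 3 := fun p hp => by
        obtain ⟨r, hr, rfl⟩ := List.mem_map.1 hp
        exact hcls r hr
      have hc54 : ((thrWts (k + 1) run).map Prod.snd).sum * 2 ^ (52 + 2) < 2 ^ (2 * 32) := by
        calc _ < 512 * 2 ^ (52 + 2) := Nat.mul_lt_mul_of_pos_right hcap (by positivity)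
          _ < _ := by norm_num
      have hc55 : ((thrWts (k + 1) run).map Prod.snd).sum * 2 ^ (52 + 3) < 2 ^ (2 * 32) := by
        calc _ < 512 * 2 ^ (52 + 3) := Nat.mul_lt_mul_of_pos_right hcap (by positivity)
          _ = _ := by norm_num
      have su := secSum_cls (h := 32) (wts := thrWts (k + 1) run) (by norm_num) (by norm_num)
        (by norm_num) hc54 hN hw hu
      have sv := secSum_cls (h := 32) (wts := thrWts (k + 1) run) (by norm_num) (by norm_num)
        (by norm_num) hc54 hN hw hv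
      have sd := secSum_cls (h := 32) (wts := thrWts (k + 1) run) (by norm_num) (by norm_num)
        (by norm_num) hc55 hN hw hd
      have e8 : ((8 : ℤ)) = 2 ^ 3 := by norm_num
      have key : ((lsqSum 64 (3 ^ k) 56 55 32 (secWs 64 k c (thrWts (k + 1) run))
            (Y % 2 ^ (64 * 3 ^ k))
          + lsqSum 64 (3 ^ k) 56 55 32 (secWs 64 k c (thrWts (k + 1) run)) (Y >>> (64 * 3 ^ k))
          + lsqSum 64 (3 ^ k) 56 56 32 (secWs 64 k c (thrWts (k + 1) run))
              ((Y % 2 ^ (64 * 3 ^ k) + laneConst 64 (3 ^ k) (2 ^ 56)) - Y >>> (64 * 3 ^ k)) : ℕ) : ℤ)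
          = 2 * thM_runSqW (k + 1) (thM_B0 (k + 1) ((αp : ℤ) - αn) β) (thM_B1 (k + 1) β) 8 q
              run := by
        rw [Nat.cast_add, Nat.cast_add, su, sv, sd, ← Finset.sum_add_distrib,
          ← Finset.sum_add_distrib]
        unfold thM_runSqW
        rw [e8, Finset.mul_sum]
        refine Finset.sum_congr rfl fun x _ => ?_
        rw [thr_secWt, thr_sec_eq]
        ring
      rw [← h]
      omega

/-- the same with the arguments in the form used by the table. -/
theorem thrRunW_spec' {n k c αp αn β : ℕ} {α β' : ℤ} (hn : n = k + 1)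
    (hk' : k ≤ 19) (hα : α = (αp : ℤ) - αn) (hβ : β' = (β : ℤ))
    (hops : thrOpsWOK k c αp αn β = true) {q : List ℕ} (hq : ∀ d ∈ q, d ≤ 2 ^ 52)
    {run : List ℕ} {T : ℕ} (h : thrRunW k c αp αn β q run = some T) :
    thM_runSqW n (thM_B0 n α β') (thM_B1 n β') 8 q run = (T : ℤ) := by
  subst hn hα hβ
  exact thrRunW_spec hk' hops hq h

/-! ### totals -/

theorem thr_totalW_nil (n : ℕ) (B0 B1 : Matrix (thM_Cfg n) (thM_Cfg n) ℤ) (D : ℤ) (q : List ℕ) :
    thM_totalW n B0 B1 D q [] = ((0 : ℕ) : ℤ) := rfl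

theorem thr_totalW_cons {n : ℕ} {B0 B1 : Matrix (thM_Cfg n) (thM_Cfg n) ℤ} {D : ℤ} {q : List ℕ}
    {run : List ℕ} {runs : List (List ℕ)} {t T : ℕ}
    (h1 : thM_runSqW n B0 B1 D q run = (t : ℤ))
    (h2 : thM_totalW n B0 B1 D q runs = (T : ℤ)) :
    thM_totalW n B0 B1 D q (run :: runs) = ((t + T : ℕ) : ℤ) := by
  unfold thM_totalW at h2 ⊢
  rw [List.map_cons, List.sum_cons, h1, h2]
  push_cast
  rfl

theorem thr_totalW_append {n : ℕ} {B0 B1 : Matrix (thM_Cfg n) (thM_Cfg n) ℤ} {D : ℤ}
    {q : List ℕ} {r1 r2 : List (List ℕ)} {T1 T2 : ℕ}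
    (h1 : thM_totalW n B0 B1 D q r1 = (T1 : ℤ)) (h2 : thM_totalW n B0 B1 D q r2 = (T2 : ℤ)) :
    thM_totalW n B0 B1 D q (r1 ++ r2) = ((T1 + T2 : ℕ) : ℤ) := by
  unfold thM_totalW at h1 h2 ⊢
  rw [List.map_append, List.sum_append, h1, h2]
  push_cast
  rfl

/-- The lemmas that are written on demand are cited here once, so that no two downstream files hold
their own copies (RULES.md, rule 6). -/
theorem thRunDefsW_eqns_cited : True := by
  have := @thrRunW.eq_1; have := @thrRunW.eq_def; have := @thrRunW.congr_simp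
  have := @thrOpsWOK.eq_1; have := @thrOpsWOK.eq_def; have := @thrOpsWOK.congr_simp
  trivial

end Claimed.Agent.R297
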