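/-
Row 297 (spin-one Haldane gap), package D5 (helper159).  GENERATED FILE (scratch/thr/gen.py).
The schedule of the thermal runs of the ring of 6 sites, its kernel checks, the parameter record.
-/
import Claimed.Agent.R297.ThRunDefs
import Claimed.Agent.R297.ThRunCoef
import Claimed.Agent.R297.ThermalTableCert

set_option Elab.async false

namespace Claimed.Agent.R297

/-- chunk 0 (class 0). -/
def thr_s6_0 : List (List ℕ) :=
  [[0, 5, 26, 215], [13, 44, 233], [31, 50, 455], [52], [62], [68], [104], [122], [124], [128],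
  [130], [140], [142], [182], [364]]

/-- chunk 1 (class 1). -/
def thr_s6_1 : List (List ℕ) :=
  [[1, 8, 53, 242], [14, 107, 404], [16, 71, 458], [20, 125, 476], [32, 133], [34, 155], [38,
  143], [40, 131], [56, 151], [92, 185], [94, 149], [112, 203], [365]]

/-- the schedule: 28 runs. -/
def thr_sched6 : List (List ℕ) :=
  thr_s6_0 ++ (thr_s6_1)

theorem thr_sched6_cert : tsym_cert 6 thr_sched6.flatten = true := by
  decide +kernel

theorem thr_sched6_sec : tsym_secOK 6 thr_sched6 = true := by
  decide +kernel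

theorem thr_sched6_length : thr_sched6.length = 28 := by
  decide +kernel

/-- the parameters of the thermal computation for `n = 6`. -/
def thr_P6 : thM_Params where
  α := 7
  β := 1
  D := 8
  cn := 16
  cd := 1
  tn := 84
  td := 1
  J := 256
  q := thr_q
  Q := 2 ^ 48
  εn := 1
  εd := 2 ^ 33
  sched := thr_sched6
  En := 84691
  d := 27
  t3 := 84
  y := 3103317 / 8000000
  xl := 4960288051808 / 10000000000
  xh := 4960288051809 / 10000000000
  N := 14
  k := 16

theorem thr_P6_ok : thM_ParamsOK 6 thr_P6 where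
  hD := by norm_num [thr_P6]
  hcn := by norm_num [thr_P6]
  hcd := by norm_num [thr_P6]
  hβ := by norm_num [thr_P6]
  hα := by norm_num [thr_P6]
  hwin := by norm_num [thr_P6]
  htd := by norm_num [thr_P6]
  ht := by norm_num [thr_P6]
  hq := thr_q_ne
  hQ := by norm_num [thr_P6]
  hεd := by norm_num [thr_P6]
  hcheck := by
    dsimp only [thr_P6]
    exact thr_hcheck
  hcert := thr_sched6_cert
  hsec := thr_sched6_sec
  hEn := by
    dsimp only [thr_P6]
    rw [thr_sched6_length, thr_q_length]
    norm_num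
  hd := by norm_num [thr_P6]
  ht3 := by norm_num [thr_P6]
  hexp := by
    dsimp only [thr_P6]
    decide +kernel
  hx := by norm_num [thr_P6]

theorem thr_ops_z6_0 : thrOpsOK 5 0 7 0 1 0 = true := by
  decide +kernel

theorem thr_ops_z6_1 : thrOpsOK 5 1 7 0 1 0 = true := by
  decide +kernel

theorem thr_spec_z6_0 {run : List ℕ} {T : ℕ}
    (h : thrRun 5 0 7 0 1 0 thr_q run = some T) :
    thM_runSq 6 (thM_B 6 1 7 1) 8 thr_q run = (T : ℤ) :=
  thrRun_spec' rfl (by norm_num) (by norm_num) (by simp [ringZ]) (by norm_num) (by norm_num)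
    thr_ops_z6_0 thr_q_le h

theorem thr_spec_z6_1 {run : List ℕ} {T : ℕ}
    (h : thrRun 5 1 7 0 1 0 thr_q run = some T) :
    thM_runSq 6 (thM_B 6 1 7 1) 8 thr_q run = (T : ℤ) :=
  thrRun_spec' rfl (by norm_num) (by norm_num) (by simp [ringZ]) (by norm_num) (by norm_num)
    thr_ops_z6_1 thr_q_le h

theorem thr_ops_p6_0 : thrOpsOK 5 0 7 0 1 1 = true := by
  decide +kernel

theorem thr_ops_p6_1 : thrOpsOK 5 1 7 0 1 1 = true := by
  decide +kernel

theorem thr_spec_p6_0 {run : List ℕ} {T : ℕ}
    (h : thrRun 5 0 7 0 1 1 thr_q run = some T) :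
    thM_runSq 6 (thM_B 6 (-1) 7 1) 8 thr_q run = (T : ℤ) :=
  thrRun_spec' rfl (by norm_num) (by norm_num) (by simp [ringZ]) (by norm_num) (by norm_num)
    thr_ops_p6_0 thr_q_le h

theorem thr_spec_p6_1 {run : List ℕ} {T : ℕ}
    (h : thrRun 5 1 7 0 1 1 thr_q run = some T) :
    thM_runSq 6 (thM_B 6 (-1) 7 1) 8 thr_q run = (T : ℤ) :=
  thrRun_spec' rfl (by norm_num) (by norm_num) (by simp [ringZ]) (by norm_num) (by norm_num)
    thr_ops_p6_1 thr_q_le h

/-- The lemmas that are written on demand are cited here once, so that no two downstream files hold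
their own copies (RULES.md, rule 6). -/
theorem thRunSched6_eqns_cited : True := by
  have := @thr_s6_0.eq_1; have := @thr_s6_0.eq_def
  have := @thr_s6_1.eq_1; have := @thr_s6_1.eq_def
  have := @thr_sched6.eq_1; have := @thr_sched6.eq_def
  have := @thr_P6.eq_1; have := @thr_P6.eq_def
  trivial

end Claimed.Agent.R297
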