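/-
Row 297 (spin-one Haldane gap), package D5, omega production (helper227).  GENERATED FILE.
Thermal runs, ring of 6 sites, cyclic twist: side conditions of the programs and the run-to-SPEC bridge.
-/
import Claimed.Agent.R297.ThRunSched6
import Claimed.Agent.R297.ThRunDefsW

set_option Elab.async false

namespace Claimed.Agent.R297

theorem thr_opsW_c6_0 : thrOpsWOK 5 0 7 0 1 = true := by
  decide +kernel

theorem thr_spec_c6_0 {run : List ℕ} {T : ℕ}
    (h : thrRunW 5 0 7 0 1 thr_q run = some T) :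
    thM_runSqW 6 (thM_B0 6 7 1) (thM_B1 6 1) 8 thr_q run = (T : ℤ) :=
  thrRunW_spec' rfl (by norm_num) (by norm_num) (by norm_num) thr_opsW_c6_0 thr_q_le h

theorem thr_opsW_c6_1 : thrOpsWOK 5 1 7 0 1 = true := by
  decide +kernel

theorem thr_spec_c6_1 {run : List ℕ} {T : ℕ}
    (h : thrRunW 5 1 7 0 1 thr_q run = some T) :
    thM_runSqW 6 (thM_B0 6 7 1) (thM_B1 6 1) 8 thr_q run = (T : ℤ) :=
  thrRunW_spec' rfl (by norm_num) (by norm_num) (by norm_num) thr_opsW_c6_1 thr_q_le h

end Claimed.Agent.R297
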