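/-
Row 297 (spin-one Haldane gap), package D5, omega production (helper227).  GENERATED FILE.
Thermal runs, ring of 6 sites, cyclic twist: chunk 1 (class 1, 13 runs).
-/
import Claimed.Agent.R297.ThRunC6Base

set_option Elab.async false

namespace Claimed.Agent.R297

theorem thr_c6_1_0 :
    thrRunW 5 1 7 0 1 thr_q [1, 8, 53, 242]
      = some 92270991480990351564 := by
  decide +kernel

theorem thr_c6_1_1 :
    thrRunW 5 1 7 0 1 thr_q [14, 107, 404]
      = some 204312462135374302188 := by
  decide +kernel

theorem thr_c6_1_2 :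
    thrRunW 5 1 7 0 1 thr_q [16, 71, 458]
      = some 741926643025960215756 := by
  decide +kernel

theorem thr_c6_1_3 :
    thrRunW 5 1 7 0 1 thr_q [20, 125, 476]
      = some 5931738003923093040480 := by
  decide +kernel

theorem thr_c6_1_4 :
    thrRunW 5 1 7 0 1 thr_q [32, 133]
      = some 2556113894933575597872 := by
  decide +kernel

theorem thr_c6_1_5 :
    thrRunW 5 1 7 0 1 thr_q [34, 155]
      = some 12274785721242418891440 := by
  decide +kernel

theorem thr_c6_1_6 :
    thrRunW 5 1 7 0 1 thr_q [38, 143]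
      = some 13624961380688548389144 := by
  decide +kernel

theorem thr_c6_1_7 :
    thrRunW 5 1 7 0 1 thr_q [40, 131]
      = some 13840402586329736088120 := by
  decide +kernel

theorem thr_c6_1_8 :
    thrRunW 5 1 7 0 1 thr_q [56, 151]
      = some 3184781123092743314484 := by
  decide +kernel

theorem thr_c6_1_9 :
    thrRunW 5 1 7 0 1 thr_q [92, 185]
      = some 31557956343011004150588 := by
  decide +kernel

theorem thr_c6_1_10 :
    thrRunW 5 1 7 0 1 thr_q [94, 149]
      = some 20418336649842024527832 := by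
  decide +kernel

theorem thr_c6_1_11 :
    thrRunW 5 1 7 0 1 thr_q [112, 203]
      = some 27941466194609567336502 := by
  decide +kernel

theorem thr_c6_1_12 :
    thrRunW 5 1 7 0 1 thr_q [365]
      = some 17063824011179882208984 := by
  decide +kernel

/-- the total of chunk 1. -/
def thr_c6_T1 : ℕ :=
  92270991480990351564 + (204312462135374302188 + (741926643025960215756 +
  (5931738003923093040480 + (2556113894933575597872 + (12274785721242418891440 +
  (13624961380688548389144 + (13840402586329736088120 + (3184781123092743314484 +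
  (31557956343011004150588 + (20418336649842024527832 + (27941466194609567336502 +
  (17063824011179882208984 + (0)))))))))))))

theorem thr_c6_c1 :
    thM_totalW 6 (thM_B0 6 7 1) (thM_B1 6 1) 8 thr_q thr_s6_1 = (thr_c6_T1 : ℤ) :=
  thr_totalW_cons (thr_spec_c6_1 thr_c6_1_0) <|
  thr_totalW_cons (thr_spec_c6_1 thr_c6_1_1) <|
  thr_totalW_cons (thr_spec_c6_1 thr_c6_1_2) <|
  thr_totalW_cons (thr_spec_c6_1 thr_c6_1_3) <|
  thr_totalW_cons (thr_spec_c6_1 thr_c6_1_4) <|
  thr_totalW_cons (thr_spec_c6_1 thr_c6_1_5) <|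
  thr_totalW_cons (thr_spec_c6_1 thr_c6_1_6) <|
  thr_totalW_cons (thr_spec_c6_1 thr_c6_1_7) <|
  thr_totalW_cons (thr_spec_c6_1 thr_c6_1_8) <|
  thr_totalW_cons (thr_spec_c6_1 thr_c6_1_9) <|
  thr_totalW_cons (thr_spec_c6_1 thr_c6_1_10) <|
  thr_totalW_cons (thr_spec_c6_1 thr_c6_1_11) <|
  thr_totalW_cons (thr_spec_c6_1 thr_c6_1_12) <|
  thr_totalW_nil _ _ _ _ _

end Claimed.Agent.R297
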