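/-
Row 297 (spin-one Haldane gap), package D5, omega production (helper227).  GENERATED FILE.
Thermal runs, ring of 6 sites, cyclic twist: the total and the certificate.
-/
import Claimed.Agent.R297.ThRunC6x00
import Claimed.Agent.R297.ThRunC6x01

set_option Elab.async false

namespace Claimed.Agent.R297

/-- the total of all runs. -/
def thr_c6_T : ℕ :=
  thr_c6_T0 + (thr_c6_T1)

theorem thr_c6_total :
    thM_totalW 6 (thM_B0 6 7 1) (thM_B1 6 1) 8 thr_q thr_sched6 = (thr_c6_T : ℤ) :=
  thr_totalW_append thr_c6_c0 <|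
  thr_c6_c1

theorem thr_c6_fin :
    thN_finalChk thr_c6_T 24506278239150 (2 * thr_P6.Q)
      (thN_err thr_P6.En (2 * thr_P6.Q) thr_P6.d thr_P6.εn thr_P6.εd thr_P6.t3 thr_P6.J)
      thr_P6.xl thr_P6.xh (939987 / 1000000) (1 / 10000) = true := by
  decide +kernel

theorem thr_c6_cert : thM_OmegaCert 6 (939987 / 1000000) :=
  ⟨thr_P6, thr_c6_T, 24506278239150, thr_P6_ok, thr_c6_total, thr_c6_fin⟩

end Claimed.Agent.R297
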