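/-
Row 297 (spin-one Haldane gap), package D5, omega production (helper227).  GENERATED FILE.
Thermal runs, ring of 8 sites, cyclic twist: the total and the certificate.
-/
import Claimed.Agent.R297.ThRunC8x00
import Claimed.Agent.R297.ThRunC8x01
import Claimed.Agent.R297.ThRunC8x02
import Claimed.Agent.R297.ThRunC8x03

set_option Elab.async false

namespace Claimed.Agent.R297

/-- the total of all runs. -/
def thr_c8_T : ℕ :=
  thr_c8_T0 + (thr_c8_T1 + (thr_c8_T2 + (thr_c8_T3)))

theorem thr_c8_total :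
    thM_totalW 8 (thM_B0 8 4 1) (thM_B1 8 1) 8 thr_q thr_sched8 = (thr_c8_T : ℤ) :=
  thr_totalW_append thr_c8_c0 <|
  thr_totalW_append thr_c8_c1 <|
  thr_totalW_append thr_c8_c2 <|
  thr_c8_c3

theorem thr_c8_fin :
    thN_finalChk thr_c8_T 8912233181059 (2 * thr_P8.Q)
      (thN_err thr_P8.En (2 * thr_P8.Q) thr_P8.d thr_P8.εn thr_P8.εd thr_P8.t3 thr_P8.J)
      thr_P8.xl thr_P8.xh (984108 / 1000000) (1 / 10000) = true := by
  decide +kernel

theorem thr_c8_cert : thM_OmegaCert 8 (984108 / 1000000) :=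
  ⟨thr_P8, thr_c8_T, 8912233181059, thr_P8_ok, thr_c8_total, thr_c8_fin⟩

end Claimed.Agent.R297
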