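/-
Row 297 (spin-one Haldane gap), package D5 (helper159).  GENERATED FILE (scratch/thr/gen.py).
The schedule of the thermal runs of the ring of 8 sites, its kernel checks, the parameter record.
-/
import Claimed.Agent.R297.ThRunDefs
import Claimed.Agent.R297.ThRunCoef
import Claimed.Agent.R297.ThermalTableCert

set_option Elab.async false

namespace Claimed.Agent.R297

/-- chunk 0 (class 0). -/
def thr_s8_0 : List (List ℕ) :=
  [[0, 5, 26, 161, 728, 4373], [11, 44, 323, 1214], [13, 50, 215, 1456], [29, 52, 377, 1700], [31,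
  62, 863, 1376], [83, 68, 403, 1454], [85, 98, 539, 1862], [91, 104, 1025, 3320], [253, 106, 889,
  2024], [116, 479, 1430], [122, 431, 1448], [124, 917, 1916], [128, 593, 3374], [130, 1079,
  1940], [140, 233, 2078], [142, 395, 3536], [146, 881, 2132], [170, 457, 1934], [176, 557, 3392],
  [182, 1043, 2096], [194, 887, 3554], [260, 563, 3560], [266, 401, 3608], [278, 449, 4100], [284,
  935], [286, 473], [290, 611], [292, 1097], [302, 1105], [304, 1127], [308, 1129], [310, 1193],
  [316, 1199], [332, 1195], [338, 665]]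

/-- chunk 1 (class 0). -/
def thr_s8_1 : List (List ℕ) :=
  [[340, 1151], [344, 1267], [346, 1397], [356, 1313], [358, 1159], [362, 455], [364, 467], [380,
  953], [410, 629], [412, 1115], [416, 1289], [434, 1277], [506, 1169], [518, 617], [524, 941],
  [824, 1103], [826, 1123], [830, 1181], [842, 1183], [844, 1265], [848, 1361], [850, 1285], [902,
  1157], [1010, 1643], [1012, 1319], [1066, 1121], [1177], [1343], [1283], [1175], [1339], [1661],
  [1337], [1823], [3281]]

/-- chunk 2 (class 2). -/
def thr_s8_2 : List (List ℕ) :=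
  [[2, 17, 80, 971, 3644], [10, 35, 134, 1133, 4292], [82, 43, 152, 1451], [59, 158, 701], [95,
  160, 1375], [101, 188, 1211], [113, 206, 1445], [119, 212, 3293], [137, 224, 1403], [173, 314,
  1205], [259, 320, 1691], [275, 368, 1427], [281, 374, 3311], [289, 376, 1925], [301, 386, 1421],
  [335, 392, 3365], [353, 394, 1913], [823, 398, 3533], [400], [422], [428], [430], [440], [446],
  [448], [452], [464], [536], [548], [554]]

/-- chunk 3 (class 2). -/
def thr_s8_3 : List (List ℕ) :=
  [[560], [590], [602], [608], [656], [860], [878], [880], [914], [932], [1040], [1094], [1096],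
  [1100], [1102], [1112], [1114], [1120], [1148], [1150], [1154], [1156], [1168], [1262], [1276],
  [1280], [1312], [1640], [3280]]

/-- the schedule: 129 runs. -/
def thr_sched8 : List (List ℕ) :=
  thr_s8_0 ++ (thr_s8_1 ++ (thr_s8_2 ++ (thr_s8_3)))

theorem thr_sched8_cert : tsym_cert 8 thr_sched8.flatten = true := by
  decide +kernel

theorem thr_sched8_sec : tsym_secOK 8 thr_sched8 = true := by
  decide +kernel

theorem thr_sched8_length : thr_sched8.length = 129 := by
  decide +kernel

/-- the parameters of the thermal computation for `n = 8`. -/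
def thr_P8 : thM_Params where
  α := 4
  β := 1
  D := 8
  cn := 16
  cd := 1
  tn := 84
  td := 1
  J := 256
  q := thr_q
  Q := 2 ^ 48
  εn := 1
  εd := 2 ^ 33
  sched := thr_sched8
  En := 629710
  d := 81
  t3 := 84
  y := 1034439 / 2000000
  xl := 39265325005016 / 10000000000
  xh := 39265325005017 / 10000000000
  N := 14
  k := 16

theorem thr_P8_ok : thM_ParamsOK 8 thr_P8 where
  hD := by norm_num [thr_P8]
  hcn := by norm_num [thr_P8]
  hcd := by norm_num [thr_P8]
  hβ := by norm_num [thr_P8]
  hα := by norm_num [thr_P8]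
  hwin := by norm_num [thr_P8]
  htd := by norm_num [thr_P8]
  ht := by norm_num [thr_P8]
  hq := thr_q_ne
  hQ := by norm_num [thr_P8]
  hεd := by norm_num [thr_P8]
  hcheck := by
    dsimp only [thr_P8]
    exact thr_hcheck
  hcert := thr_sched8_cert
  hsec := thr_sched8_sec
  hEn := by
    dsimp only [thr_P8]
    rw [thr_sched8_length, thr_q_length]
    norm_num
  hd := by norm_num [thr_P8]
  ht3 := by norm_num [thr_P8]
  hexp := by
    dsimp only [thr_P8]
    decide +kernel
  hx := by norm_num [thr_P8]

theorem thr_ops_z8_0 : thrOpsOK 7 0 4 0 1 0 = true := by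
  decide +kernel

theorem thr_ops_z8_2 : thrOpsOK 7 2 4 0 1 0 = true := by
  decide +kernel

theorem thr_spec_z8_0 {run : List ℕ} {T : ℕ}
    (h : thrRun 7 0 4 0 1 0 thr_q run = some T) :
    thM_runSq 8 (thM_B 8 1 4 1) 8 thr_q run = (T : ℤ) :=
  thrRun_spec' rfl (by norm_num) (by norm_num) (by simp [ringZ]) (by norm_num) (by norm_num)
    thr_ops_z8_0 thr_q_le h

theorem thr_spec_z8_2 {run : List ℕ} {T : ℕ}
    (h : thrRun 7 2 4 0 1 0 thr_q run = some T) :
    thM_runSq 8 (thM_B 8 1 4 1) 8 thr_q run = (T : ℤ) :=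
  thrRun_spec' rfl (by norm_num) (by norm_num) (by simp [ringZ]) (by norm_num) (by norm_num)
    thr_ops_z8_2 thr_q_le h

theorem thr_ops_p8_0 : thrOpsOK 7 0 4 0 1 1 = true := by
  decide +kernel

theorem thr_ops_p8_2 : thrOpsOK 7 2 4 0 1 1 = true := by
  decide +kernel

theorem thr_spec_p8_0 {run : List ℕ} {T : ℕ}
    (h : thrRun 7 0 4 0 1 1 thr_q run = some T) :
    thM_runSq 8 (thM_B 8 (-1) 4 1) 8 thr_q run = (T : ℤ) :=
  thrRun_spec' rfl (by norm_num) (by norm_num) (by simp [ringZ]) (by norm_num) (by norm_num)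
    thr_ops_p8_0 thr_q_le h

theorem thr_spec_p8_2 {run : List ℕ} {T : ℕ}
    (h : thrRun 7 2 4 0 1 1 thr_q run = some T) :
    thM_runSq 8 (thM_B 8 (-1) 4 1) 8 thr_q run = (T : ℤ) :=
  thrRun_spec' rfl (by norm_num) (by norm_num) (by simp [ringZ]) (by norm_num) (by norm_num)
    thr_ops_p8_2 thr_q_le h

/-- The lemmas that are written on demand are cited here once, so that no two downstream files hold
their own copies (RULES.md, rule 6). -/
theorem thRunSched8_eqns_cited : True := by
  have := @thr_s8_0.eq_1; have := @thr_s8_0.eq_def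
  have := @thr_s8_1.eq_1; have := @thr_s8_1.eq_def
  have := @thr_s8_2.eq_1; have := @thr_s8_2.eq_def
  have := @thr_s8_3.eq_1; have := @thr_s8_3.eq_def
  have := @thr_sched8.eq_1; have := @thr_sched8.eq_def
  have := @thr_P8.eq_1; have := @thr_P8.eq_def
  trivial

end Claimed.Agent.R297
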