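/-
Row 297 (spin-one Haldane gap), package D5 (helper159).  GENERATED FILE (scratch/thr/gen.py).
Thermal runs, ring of 10 sites, seam sign (-1): the total and the certificate.
-/
import Claimed.Agent.R297.ThRunP10x00
import Claimed.Agent.R297.ThRunP10x01
import Claimed.Agent.R297.ThRunP10x02
import Claimed.Agent.R297.ThRunP10x03
import Claimed.Agent.R297.ThRunP10x04
import Claimed.Agent.R297.ThRunP10x05
import Claimed.Agent.R297.ThRunP10x06
import Claimed.Agent.R297.ThRunP10x07
import Claimed.Agent.R297.ThRunP10x08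
import Claimed.Agent.R297.ThRunP10x09
import Claimed.Agent.R297.ThRunP10x10
import Claimed.Agent.R297.ThRunP10x11
import Claimed.Agent.R297.ThRunP10x12
import Claimed.Agent.R297.ThRunP10x13
import Claimed.Agent.R297.ThRunP10x14
import Claimed.Agent.R297.ThRunP10x15
import Claimed.Agent.R297.ThRunP10x16
import Claimed.Agent.R297.ThRunP10x17
import Claimed.Agent.R297.ThRunP10x18
import Claimed.Agent.R297.ThRunP10x19
import Claimed.Agent.R297.ThRunP10x20
import Claimed.Agent.R297.ThRunP10x21
import Claimed.Agent.R297.ThRunPar10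

set_option Elab.async false

namespace Claimed.Agent.R297

/-- the total of all runs. -/
def thr_p10_T : ℕ :=
  thr_p10_T0 + (thr_p10_T1 + (thr_p10_T2 + (thr_p10_T3 + (thr_p10_T4 + (thr_p10_T5 + (thr_p10_T6 + (thr_p10_T7 + (thr_p10_T8 + (thr_p10_T9 + (thr_p10_T10 + (thr_p10_T11 + (thr_p10_T12 + (thr_p10_T13 + (thr_p10_T14 + (thr_p10_T15 + (thr_p10_T16 + (thr_p10_T17 + (thr_p10_T18 + (thr_p10_T19 + (thr_p10_T20 + (thr_p10_T21)))))))))))))))))))))

theorem thr_p10_total :
    thM_total 10 (thM_B 10 (-1) 1 1) 8 thr_q thr_sched10 = (thr_p10_T : ℤ) :=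
  thr_total_append thr_p10_c0 <|
  thr_total_append thr_p10_c1 <|
  thr_total_append thr_p10_c2 <|
  thr_total_append thr_p10_c3 <|
  thr_total_append thr_p10_c4 <|
  thr_total_append thr_p10_c5 <|
  thr_total_append thr_p10_c6 <|
  thr_total_append thr_p10_c7 <|
  thr_total_append thr_p10_c8 <|
  thr_total_append thr_p10_c9 <|
  thr_total_append thr_p10_c10 <|
  thr_total_append thr_p10_c11 <|
  thr_total_append thr_p10_c12 <|
  thr_total_append thr_p10_c13 <|
  thr_total_append thr_p10_c14 <|
  thr_total_append thr_p10_c15 <|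
  thr_total_append thr_p10_c16 <|
  thr_total_append thr_p10_c17 <|
  thr_total_append thr_p10_c18 <|
  thr_total_append thr_p10_c19 <|
  thr_total_append thr_p10_c20 <|
  thr_p10_c21

theorem thr_p10_fin :
    thN_finalChk thr_p10_T 2711495489076 (2 * thr_P10.Q)
      (thN_err thr_P10.En (2 * thr_P10.Q) thr_P10.d thr_P10.εn thr_P10.εd thr_P10.t3 thr_P10.J)
      thr_P10.xl thr_P10.xh (721090 / 1000000) (1 / 10000) = true := by
  decide +kernel

theorem thr_p10_cert : thM_RealCert 10 (-1) (721090 / 1000000) :=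
  ⟨thr_P10, thr_p10_T, 2711495489076, thr_P10_ok, thr_p10_total, thr_p10_fin⟩

end Claimed.Agent.R297
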