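/-
Row 297 (spin-one Haldane gap), package D5 (helper159).  GENERATED FILE (scratch/thr/gen.py).
Thermal runs, ring of 6 sites, seam sign (-1): chunk 0 (class 0, 15 runs).
-/
import Claimed.Agent.R297.ThRunSched6

set_option Elab.async false

namespace Claimed.Agent.R297

theorem thr_p6_0_0 :
    thrRun 5 0 7 0 1 1 thr_q [0, 5, 26, 215]
      = some 8303027092767395605506 := by
  decide +kernel

theorem thr_p6_0_1 :
    thrRun 5 0 7 0 1 1 thr_q [13, 44, 233]
      = some 440431875981901078124856 := by
  decide +kernel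

theorem thr_p6_0_2 :
    thrRun 5 0 7 0 1 1 thr_q [31, 50, 455]
      = some 412442729957242820181600 := by
  decide +kernel

theorem thr_p6_0_3 :
    thrRun 5 0 7 0 1 1 thr_q [52]
      = some 151388422559339742 := by
  decide +kernel

theorem thr_p6_0_4 :
    thrRun 5 0 7 0 1 1 thr_q [62]
      = some 2138242809125188643410500 := by
  decide +kernel

theorem thr_p6_0_5 :
    thrRun 5 0 7 0 1 1 thr_q [68]
      = some 49856979495788973906972 := by
  decide +kernel

theorem thr_p6_0_6 :
    thrRun 5 0 7 0 1 1 thr_q [104]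
      = some 4306308972623592168 := by
  decide +kernel

theorem thr_p6_0_7 :
    thrRun 5 0 7 0 1 1 thr_q [122]
      = some 14140550889358552522446480 := by
  decide +kernel

theorem thr_p6_0_8 :
    thrRun 5 0 7 0 1 1 thr_q [124]
      = some 9608587706560639469451216 := by
  decide +kernel

theorem thr_p6_0_9 :
    thrRun 5 0 7 0 1 1 thr_q [128]
      = some 71537976776410009149433008 := by
  decide +kernel

theorem thr_p6_0_10 :
    thrRun 5 0 7 0 1 1 thr_q [130]
      = some 6773309665689456056147562 := by
  decide +kernel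

theorem thr_p6_0_11 :
    thrRun 5 0 7 0 1 1 thr_q [140]
      = some 9546311830896584349472920 := by
  decide +kernel

theorem thr_p6_0_12 :
    thrRun 5 0 7 0 1 1 thr_q [142]
      = some 25392713473974113478374088 := by
  decide +kernel

theorem thr_p6_0_13 :
    thrRun 5 0 7 0 1 1 thr_q [182]
      = some 81475306882045107831741218 := by
  decide +kernel

theorem thr_p6_0_14 :
    thrRun 5 0 7 0 1 1 thr_q [364]
      = some 5623912675948609396 := by
  decide +kernel

/-- the total of chunk 0. -/
def thr_p6_T0 : ℕ :=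
  8303027092767395605506 + (440431875981901078124856 + (412442729957242820181600 +
  (151388422559339742 + (2138242809125188643410500 + (49856979495788973906972 +
  (4306308972623592168 + (14140550889358552522446480 + (9608587706560639469451216 +
  (71537976776410009149433008 + (6773309665689456056147562 + (9546311830896584349472920 +
  (25392713473974113478374088 + (81475306882045107831741218 + (5623912675948609396 +
  0))))))))))))))

theorem thr_p6_c0 :
    thM_total 6 (thM_B 6 (-1) 7 1) 8 thr_q thr_s6_0 = (thr_p6_T0 : ℤ) :=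
  thr_total_cons (thr_spec_p6_0 thr_p6_0_0) <|
  thr_total_cons (thr_spec_p6_0 thr_p6_0_1) <|
  thr_total_cons (thr_spec_p6_0 thr_p6_0_2) <|
  thr_total_cons (thr_spec_p6_0 thr_p6_0_3) <|
  thr_total_cons (thr_spec_p6_0 thr_p6_0_4) <|
  thr_total_cons (thr_spec_p6_0 thr_p6_0_5) <|
  thr_total_cons (thr_spec_p6_0 thr_p6_0_6) <|
  thr_total_cons (thr_spec_p6_0 thr_p6_0_7) <|
  thr_total_cons (thr_spec_p6_0 thr_p6_0_8) <|
  thr_total_cons (thr_spec_p6_0 thr_p6_0_9) <|
  thr_total_cons (thr_spec_p6_0 thr_p6_0_10) <|
  thr_total_cons (thr_spec_p6_0 thr_p6_0_11) <|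
  thr_total_cons (thr_spec_p6_0 thr_p6_0_12) <|
  thr_total_cons (thr_spec_p6_0 thr_p6_0_13) <|
  thr_total_cons (thr_spec_p6_0 thr_p6_0_14) <|
  thr_total_nil _ _ _ _

end Claimed.Agent.R297
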