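/-
Row 297 (spin-one Haldane gap), package D5 (helper159).  GENERATED FILE (scratch/thr/gen.py).
Thermal runs, ring of 6 sites, seam sign (-1): chunk 1 (class 1, 13 runs).
-/
import Claimed.Agent.R297.ThRunSched6

set_option Elab.async false

namespace Claimed.Agent.R297

theorem thr_p6_1_0 :
    thrRun 5 1 7 0 1 1 thr_q [1, 8, 53, 242]
      = some 1968354999957188976 := by
  decide +kernel

theorem thr_p6_1_1 :
    thrRun 5 1 7 0 1 1 thr_q [14, 107, 404]
      = some 3107336648662659864 := by
  decide +kernel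

theorem thr_p6_1_2 :
    thrRun 5 1 7 0 1 1 thr_q [16, 71, 458]
      = some 12971632506701747628 := by
  decide +kernel

theorem thr_p6_1_3 :
    thrRun 5 1 7 0 1 1 thr_q [20, 125, 476]
      = some 140053853206917822174 := by
  decide +kernel

theorem thr_p6_1_4 :
    thrRun 5 1 7 0 1 1 thr_q [32, 133]
      = some 76748732233946485656 := by
  decide +kernel

theorem thr_p6_1_5 :
    thrRun 5 1 7 0 1 1 thr_q [34, 155]
      = some 394086136032659996976 := by
  decide +kernel

theorem thr_p6_1_6 :
    thrRun 5 1 7 0 1 1 thr_q [38, 143]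
      = some 388055036022458664144 := by
  decide +kernel

theorem thr_p6_1_7 :
    thrRun 5 1 7 0 1 1 thr_q [40, 131]
      = some 383941038661277445420 := by
  decide +kernel

theorem thr_p6_1_8 :
    thrRun 5 1 7 0 1 1 thr_q [56, 151]
      = some 93825852421898950986 := by
  decide +kernel

theorem thr_p6_1_9 :
    thrRun 5 1 7 0 1 1 thr_q [92, 185]
      = some 1062327479273315622432 := by
  decide +kernel

theorem thr_p6_1_10 :
    thrRun 5 1 7 0 1 1 thr_q [94, 149]
      = some 553646903868344875740 := by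
  decide +kernel

theorem thr_p6_1_11 :
    thrRun 5 1 7 0 1 1 thr_q [112, 203]
      = some 786763074039449110002 := by
  decide +kernel

theorem thr_p6_1_12 :
    thrRun 5 1 7 0 1 1 thr_q [365]
      = some 377005722723650897748 := by
  decide +kernel

/-- the total of chunk 1. -/
def thr_p6_T1 : ℕ :=
  1968354999957188976 + (3107336648662659864 + (12971632506701747628 + (140053853206917822174 +
  (76748732233946485656 + (394086136032659996976 + (388055036022458664144 + (383941038661277445420
  + (93825852421898950986 + (1062327479273315622432 + (553646903868344875740 +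
  (786763074039449110002 + (377005722723650897748 + 0))))))))))))

theorem thr_p6_c1 :
    thM_total 6 (thM_B 6 (-1) 7 1) 8 thr_q thr_s6_1 = (thr_p6_T1 : ℤ) :=
  thr_total_cons (thr_spec_p6_1 thr_p6_1_0) <|
  thr_total_cons (thr_spec_p6_1 thr_p6_1_1) <|
  thr_total_cons (thr_spec_p6_1 thr_p6_1_2) <|
  thr_total_cons (thr_spec_p6_1 thr_p6_1_3) <|
  thr_total_cons (thr_spec_p6_1 thr_p6_1_4) <|
  thr_total_cons (thr_spec_p6_1 thr_p6_1_5) <|
  thr_total_cons (thr_spec_p6_1 thr_p6_1_6) <|
  thr_total_cons (thr_spec_p6_1 thr_p6_1_7) <|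
  thr_total_cons (thr_spec_p6_1 thr_p6_1_8) <|
  thr_total_cons (thr_spec_p6_1 thr_p6_1_9) <|
  thr_total_cons (thr_spec_p6_1 thr_p6_1_10) <|
  thr_total_cons (thr_spec_p6_1 thr_p6_1_11) <|
  thr_total_cons (thr_spec_p6_1 thr_p6_1_12) <|
  thr_total_nil _ _ _ _

end Claimed.Agent.R297
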