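/-
Row 297 (spin-one Haldane gap), package D5 (helper159).  GENERATED FILE (scratch/thr/gen.py).
Thermal runs, ring of 10 sites, seam sign 1: the total and the certificate.
-/
import Claimed.Agent.R297.ThRunZ10x00
import Claimed.Agent.R297.ThRunZ10x01
import Claimed.Agent.R297.ThRunZ10x02
import Claimed.Agent.R297.ThRunZ10x03
import Claimed.Agent.R297.ThRunZ10x04
import Claimed.Agent.R297.ThRunZ10x05
import Claimed.Agent.R297.ThRunZ10x06
import Claimed.Agent.R297.ThRunZ10x07
import Claimed.Agent.R297.ThRunZ10x08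
import Claimed.Agent.R297.ThRunZ10x09
import Claimed.Agent.R297.ThRunZ10x10
import Claimed.Agent.R297.ThRunZ10x11
import Claimed.Agent.R297.ThRunZ10x12
import Claimed.Agent.R297.ThRunZ10x13
import Claimed.Agent.R297.ThRunZ10x14
import Claimed.Agent.R297.ThRunZ10x15
import Claimed.Agent.R297.ThRunZ10x16
import Claimed.Agent.R297.ThRunZ10x17
import Claimed.Agent.R297.ThRunZ10x18
import Claimed.Agent.R297.ThRunZ10x19
import Claimed.Agent.R297.ThRunZ10x20
import Claimed.Agent.R297.ThRunZ10x21
import Claimed.Agent.R297.ThRunPar10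

set_option Elab.async false

namespace Claimed.Agent.R297

/-- the total of all runs. -/
def thr_z10_T : ℕ :=
  thr_z10_T0 + (thr_z10_T1 + (thr_z10_T2 + (thr_z10_T3 + (thr_z10_T4 + (thr_z10_T5 + (thr_z10_T6 + (thr_z10_T7 + (thr_z10_T8 + (thr_z10_T9 + (thr_z10_T10 + (thr_z10_T11 + (thr_z10_T12 + (thr_z10_T13 + (thr_z10_T14 + (thr_z10_T15 + (thr_z10_T16 + (thr_z10_T17 + (thr_z10_T18 + (thr_z10_T19 + (thr_z10_T20 + (thr_z10_T21)))))))))))))))))))))

theorem thr_z10_total :
    thM_total 10 (thM_B 10 1 1 1) 8 thr_q thr_sched10 = (thr_z10_T : ℤ) :=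
  thr_total_append thr_z10_c0 <|
  thr_total_append thr_z10_c1 <|
  thr_total_append thr_z10_c2 <|
  thr_total_append thr_z10_c3 <|
  thr_total_append thr_z10_c4 <|
  thr_total_append thr_z10_c5 <|
  thr_total_append thr_z10_c6 <|
  thr_total_append thr_z10_c7 <|
  thr_total_append thr_z10_c8 <|
  thr_total_append thr_z10_c9 <|
  thr_total_append thr_z10_c10 <|
  thr_total_append thr_z10_c11 <|
  thr_total_append thr_z10_c12 <|
  thr_total_append thr_z10_c13 <|
  thr_total_append thr_z10_c14 <|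
  thr_total_append thr_z10_c15 <|
  thr_total_append thr_z10_c16 <|
  thr_total_append thr_z10_c17 <|
  thr_total_append thr_z10_c18 <|
  thr_total_append thr_z10_c19 <|
  thr_total_append thr_z10_c20 <|
  thr_z10_c21

theorem thr_z10_fin :
    thN_finalChk thr_z10_T 4871506377383 (2 * thr_P10.Q)
      (thN_err thr_P10.En (2 * thr_P10.Q) thr_P10.d thr_P10.εn thr_P10.εd thr_P10.t3 thr_P10.J)
      thr_P10.xl thr_P10.xh (2327547 / 1000000) (1 / 10000) = true := by
  decide +kernel

theorem thr_z10_cert : thM_RealCert 10 1 (2327547 / 1000000) :=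
  ⟨thr_P10, thr_z10_T, 4871506377383, thr_P10_ok, thr_z10_total, thr_z10_fin⟩

end Claimed.Agent.R297
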