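/-
Row 297 (spin-one Haldane gap), package D5 (helper159).  GENERATED FILE (scratch/thr/gen.py).
Thermal runs, ring of 6 sites, seam sign 1: chunk 0 (class 0, 15 runs).
-/
import Claimed.Agent.R297.ThRunSched6

set_option Elab.async false

namespace Claimed.Agent.R297

theorem thr_z6_0_0 :
    thrRun 5 0 7 0 1 0 thr_q [0, 5, 26, 215]
      = some 315533985224079641728416 := by
  decide +kernel

theorem thr_z6_0_1 :
    thrRun 5 0 7 0 1 0 thr_q [13, 44, 233]
      = some 17784654884900102222494332 := by
  decide +kernel

theorem thr_z6_0_2 :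
    thrRun 5 0 7 0 1 0 thr_q [31, 50, 455]
      = some 60310636437645388340821000 := by
  decide +kernel

theorem thr_z6_0_3 :
    thrRun 5 0 7 0 1 0 thr_q [52]
      = some 2140005203471281284871344 := by
  decide +kernel

theorem thr_z6_0_4 :
    thrRun 5 0 7 0 1 0 thr_q [62]
      = some 103873039236432003462432516 := by
  decide +kernel

theorem thr_z6_0_5 :
    thrRun 5 0 7 0 1 0 thr_q [68]
      = some 131440297928951002127261268 := by
  decide +kernel

theorem thr_z6_0_6 :
    thrRun 5 0 7 0 1 0 thr_q [104]
      = some 69355925903252948873335020 := by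
  decide +kernel

theorem thr_z6_0_7 :
    thrRun 5 0 7 0 1 0 thr_q [122]
      = some 783212052820121439473966832 := by
  decide +kernel

theorem thr_z6_0_8 :
    thrRun 5 0 7 0 1 0 thr_q [124]
      = some 316626317277131853589206408 := by
  decide +kernel

theorem thr_z6_0_9 :
    thrRun 5 0 7 0 1 0 thr_q [128]
      = some 1624032332506161118387513104 := by
  decide +kernel

theorem thr_z6_0_10 :
    thrRun 5 0 7 0 1 0 thr_q [130]
      = some 172798368918272714971475862 := by
  decide +kernel

theorem thr_z6_0_11 :
    thrRun 5 0 7 0 1 0 thr_q [140]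
      = some 272161920160475210112025068 := by
  decide +kernel

theorem thr_z6_0_12 :
    thrRun 5 0 7 0 1 0 thr_q [142]
      = some 605532519571089475023096324 := by
  decide +kernel

theorem thr_z6_0_13 :
    thrRun 5 0 7 0 1 0 thr_q [182]
      = some 1423114502547371163902539264 := by
  decide +kernel

theorem thr_z6_0_14 :
    thrRun 5 0 7 0 1 0 thr_q [364]
      = some 126547596852824780780532325 := by
  decide +kernel

/-- the total of chunk 0. -/
def thr_z6_T0 : ℕ :=
  315533985224079641728416 + (17784654884900102222494332 + (60310636437645388340821000 +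
  (2140005203471281284871344 + (103873039236432003462432516 + (131440297928951002127261268 +
  (69355925903252948873335020 + (783212052820121439473966832 + (316626317277131853589206408 +
  (1624032332506161118387513104 + (172798368918272714971475862 + (272161920160475210112025068 +
  (605532519571089475023096324 + (1423114502547371163902539264 + (126547596852824780780532325 +
  0))))))))))))))

theorem thr_z6_c0 :
    thM_total 6 (thM_B 6 1 7 1) 8 thr_q thr_s6_0 = (thr_z6_T0 : ℤ) :=
  thr_total_cons (thr_spec_z6_0 thr_z6_0_0) <|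
  thr_total_cons (thr_spec_z6_0 thr_z6_0_1) <|
  thr_total_cons (thr_spec_z6_0 thr_z6_0_2) <|
  thr_total_cons (thr_spec_z6_0 thr_z6_0_3) <|
  thr_total_cons (thr_spec_z6_0 thr_z6_0_4) <|
  thr_total_cons (thr_spec_z6_0 thr_z6_0_5) <|
  thr_total_cons (thr_spec_z6_0 thr_z6_0_6) <|
  thr_total_cons (thr_spec_z6_0 thr_z6_0_7) <|
  thr_total_cons (thr_spec_z6_0 thr_z6_0_8) <|
  thr_total_cons (thr_spec_z6_0 thr_z6_0_9) <|
  thr_total_cons (thr_spec_z6_0 thr_z6_0_10) <|
  thr_total_cons (thr_spec_z6_0 thr_z6_0_11) <|
  thr_total_cons (thr_spec_z6_0 thr_z6_0_12) <|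
  thr_total_cons (thr_spec_z6_0 thr_z6_0_13) <|
  thr_total_cons (thr_spec_z6_0 thr_z6_0_14) <|
  thr_total_nil _ _ _ _

end Claimed.Agent.R297
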