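/-
Row 297 (spin-one Haldane gap), package D5 (helper159).  GENERATED FILE (scratch/thr/gen.py).
Thermal runs, ring of 6 sites, seam sign 1: chunk 1 (class 1, 13 runs).
-/
import Claimed.Agent.R297.ThRunSched6

set_option Elab.async false

namespace Claimed.Agent.R297

theorem thr_z6_1_0 :
    thrRun 5 1 7 0 1 0 thr_q [1, 8, 53, 242]
      = some 4395583753443570081960 := by
  decide +kernel

theorem thr_z6_1_1 :
    thrRun 5 1 7 0 1 0 thr_q [14, 107, 404]
      = some 10758944744529541733736 := by
  decide +kernel

theorem thr_z6_1_2 :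
    thrRun 5 1 7 0 1 0 thr_q [16, 71, 458]
      = some 37105742369280952765764 := by
  decide +kernel

theorem thr_z6_1_3 :
    thrRun 5 1 7 0 1 0 thr_q [20, 125, 476]
      = some 263055692094313598093748 := by
  decide +kernel

theorem thr_z6_1_4 :
    thrRun 5 1 7 0 1 0 thr_q [32, 133]
      = some 100382332802057714991240 := by
  decide +kernel

theorem thr_z6_1_5 :
    thrRun 5 1 7 0 1 0 thr_q [34, 155]
      = some 452081413417087446504240 := by
  decide +kernel

theorem thr_z6_1_6 :
    thrRun 5 1 7 0 1 0 thr_q [38, 143]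
      = some 535000210124752059428208 := by
  decide +kernel

theorem thr_z6_1_7 :
    thrRun 5 1 7 0 1 0 thr_q [40, 131]
      = some 561496674178766174998128 := by
  decide +kernel

theorem thr_z6_1_8 :
    thrRun 5 1 7 0 1 0 thr_q [56, 151]
      = some 125532966694363784641236 := by
  decide +kernel

theorem thr_z6_1_9 :
    thrRun 5 1 7 0 1 0 thr_q [92, 185]
      = some 1112181610442716116398064 := by
  decide +kernel

theorem thr_z6_1_10 :
    thrRun 5 1 7 0 1 0 thr_q [94, 149]
      = some 832182931619964473886168 := by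
  decide +kernel

theorem thr_z6_1_11 :
    thrRun 5 1 7 0 1 0 thr_q [112, 203]
      = some 1101420821779043660230848 := by
  decide +kernel

theorem thr_z6_1_12 :
    thrRun 5 1 7 0 1 0 thr_q [365]
      = some 769912432754965349071320 := by
  decide +kernel

/-- the total of chunk 1. -/
def thr_z6_T1 : ℕ :=
  4395583753443570081960 + (10758944744529541733736 + (37105742369280952765764 +
  (263055692094313598093748 + (100382332802057714991240 + (452081413417087446504240 +
  (535000210124752059428208 + (561496674178766174998128 + (125532966694363784641236 +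
  (1112181610442716116398064 + (832182931619964473886168 + (1101420821779043660230848 +
  (769912432754965349071320 + 0))))))))))))

theorem thr_z6_c1 :
    thM_total 6 (thM_B 6 1 7 1) 8 thr_q thr_s6_1 = (thr_z6_T1 : ℤ) :=
  thr_total_cons (thr_spec_z6_1 thr_z6_1_0) <|
  thr_total_cons (thr_spec_z6_1 thr_z6_1_1) <|
  thr_total_cons (thr_spec_z6_1 thr_z6_1_2) <|
  thr_total_cons (thr_spec_z6_1 thr_z6_1_3) <|
  thr_total_cons (thr_spec_z6_1 thr_z6_1_4) <|
  thr_total_cons (thr_spec_z6_1 thr_z6_1_5) <|
  thr_total_cons (thr_spec_z6_1 thr_z6_1_6) <|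
  thr_total_cons (thr_spec_z6_1 thr_z6_1_7) <|
  thr_total_cons (thr_spec_z6_1 thr_z6_1_8) <|
  thr_total_cons (thr_spec_z6_1 thr_z6_1_9) <|
  thr_total_cons (thr_spec_z6_1 thr_z6_1_10) <|
  thr_total_cons (thr_spec_z6_1 thr_z6_1_11) <|
  thr_total_cons (thr_spec_z6_1 thr_z6_1_12) <|
  thr_total_nil _ _ _ _

end Claimed.Agent.R297
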