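/-
Row 297 (spin-one Haldane gap), package D5 (helper159).  GENERATED FILE (scratch/thr/gen.py).
Thermal runs, ring of 6 sites, seam sign 1: the total and the certificate.
-/
import Claimed.Agent.R297.ThRunZ6x00
import Claimed.Agent.R297.ThRunZ6x01

set_option Elab.async false

namespace Claimed.Agent.R297

/-- the total of all runs. -/
def thr_z6_T : ℕ :=
  thr_z6_T0 + (thr_z6_T1)

theorem thr_z6_total :
    thM_total 6 (thM_B 6 1 7 1) 8 thr_q thr_sched6 = (thr_z6_T : ℤ) :=
  thr_total_append thr_z6_c0 <|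
  thr_z6_c1

theorem thr_z6_fin :
    thN_finalChk thr_z6_T 75598619111661 (2 * thr_P6.Q)
      (thN_err thr_P6.En (2 * thr_P6.Q) thr_P6.d thr_P6.εn thr_P6.εd thr_P6.t3 thr_P6.J)
      thr_P6.xl thr_P6.xh (8945303 / 1000000) (1 / 10000) = true := by
  decide +kernel

theorem thr_z6_cert : thM_RealCert 6 1 (8945303 / 1000000) :=
  ⟨thr_P6, thr_z6_T, 75598619111661, thr_P6_ok, thr_z6_total, thr_z6_fin⟩

end Claimed.Agent.R297
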