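/-
Row 297 (spin-one Haldane gap), package D5 (helper159).  GENERATED FILE (scratch/thr/gen.py).
Thermal runs, ring of 8 sites, seam sign 1: the total and the certificate.
-/
import Claimed.Agent.R297.ThRunZ8x00
import Claimed.Agent.R297.ThRunZ8x01
import Claimed.Agent.R297.ThRunZ8x02
import Claimed.Agent.R297.ThRunZ8x03

set_option Elab.async false

namespace Claimed.Agent.R297

/-- the total of all runs. -/
def thr_z8_T : ℕ :=
  thr_z8_T0 + (thr_z8_T1 + (thr_z8_T2 + (thr_z8_T3)))

theorem thr_z8_total :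
    thM_total 8 (thM_B 8 1 4 1) 8 thr_q thr_sched8 = (thr_z8_T : ℤ) :=
  thr_total_append thr_z8_c0 <|
  thr_total_append thr_z8_c1 <|
  thr_total_append thr_z8_c2 <|
  thr_z8_c3

theorem thr_z8_fin :
    thN_finalChk thr_z8_T 17377023064227 (2 * thr_P8.Q)
      (thN_err thr_P8.En (2 * thr_P8.Q) thr_P8.d thr_P8.εn thr_P8.εd thr_P8.t3 thr_P8.J)
      thr_P8.xl thr_P8.xh (3741281 / 1000000) (1 / 10000) = true := by
  decide +kernel

theorem thr_z8_cert : thM_RealCert 8 1 (3741281 / 1000000) :=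
  ⟨thr_P8, thr_z8_T, 17377023064227, thr_P8_ok, thr_z8_total, thr_z8_fin⟩

end Claimed.Agent.R297
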