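/-
Row 297 (spin-one Haldane gap), package D (thermal ring table), skeleton by helper134.
PRODUCTION LEAVES (helper159 / helper50 / helper81): the nine certificates.  Each one is
`⟨P, T, r, hP, hT, hfin⟩` with `hP`, `hfin` closed kernel checks and `hT` the sum of the run
theorems transported to the SPEC level by the Lanes engine.
This file will import the generated files; the statements below are FROZEN.
-/
import Claimed.Agent.R297.ThermalTableCert
import Claimed.Agent.R297.ThRunZ6
import Claimed.Agent.R297.ThRunP6
import Claimed.Agent.R297.ThRunC6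
import Claimed.Agent.R297.ThRunZ8
import Claimed.Agent.R297.ThRunP8
import Claimed.Agent.R297.ThRunC8
import Claimed.Agent.R297.ThRunZ10
import Claimed.Agent.R297.ThRunP10
import Claimed.Agent.R297.ThRunC10

namespace Claimed.Agent.R297

theorem thr_cert_z6 : thM_RealCert 6 1 (8945303 / 1000000) := thr_z6_cert

theorem thr_cert_p6 : thM_RealCert 6 (-1) (346734 / 1000000) := thr_p6_cert

theorem thr_cert_c6 : thM_OmegaCert 6 (939987 / 1000000) := thr_c6_cert

theorem thr_cert_z8 : thM_RealCert 8 1 (3741281 / 1000000) := thr_z8_cert

theorem thr_cert_p8 : thM_RealCert 8 (-1) (567167 / 1000000) := thr_p8_cert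

theorem thr_cert_c8 : thM_OmegaCert 8 (984108 / 1000000) := thr_c8_cert

theorem thr_cert_z10 : thM_RealCert 10 1 (2327547 / 1000000) := thr_z10_cert

theorem thr_cert_p10 : thM_RealCert 10 (-1) (721090 / 1000000) := thr_p10_cert

theorem thr_cert_c10 : thM_OmegaCert 10 (1002613 / 1000000) := thr_c10_cert

end Claimed.Agent.R297
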