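/-
Row 297 (spin-one Haldane gap), package D (thermal ring table), owner helper134.
**The thermal table at `b = 21/2`.**
-/
import Claimed.Agent.R297.ThermalTableRuns
import Claimed.Agent.R297.ThRunC6

namespace Claimed.Agent.R297

theorem thermal_table60 :
    Table60 (fun n b => Zring seedShift n 1 b) (fun n b => Zring seedShift n rotP b)
      (fun n b => Zring seedShift n rotC b) where
  z6 := thM_Zring_one (by norm_num) thr_cert_z6 (by norm_num)
  p6 := thM_Zring_rotP (by norm_num) thr_cert_p6 (by norm_num)
  c6 := thM_Zring_rotC (by norm_num) thr_c6_cert (by norm_num)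
  z8 := thM_Zring_one (by norm_num) thr_cert_z8 (by norm_num)
  p8 := thM_Zring_rotP (by norm_num) thr_cert_p8 (by norm_num)
  c8 := thM_Zring_rotC (by norm_num) thr_cert_c8 (by norm_num)
  z10 := thM_Zring_one (by norm_num) thr_cert_z10 (by norm_num)
  p10 := thM_Zring_rotP (by norm_num) thr_cert_p10 (by norm_num)
  c10 := thM_Zring_rotC (by norm_num) thr_cert_c10 (by norm_num)

end Claimed.Agent.R297
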