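/-
Row 297 (spin-one Haldane gap), package D (thermal ring table), owner helper134.
The model facts consumed by the assembly: integer form of `2 D W`, spectral windows.
Uses `mdlPhaseRing_intCast`, `mdlPhaseRing_omega`, `mdl_twistRing_one/rotP`,
`mdlPhaseRing_omega_eq_twistRing`, `mdl_isRot_omega` (helper150) and
`mdlE_twistRing_eig_ge/le` (helper100).
-/
import Claimed.Agent.R297.ThermalTableDefs
import Claimed.Agent.R297.ModelWeightEnergy

namespace Claimed.Agent.R297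

open Matrix

theorem thM_hB_scalar (α β D : ℤ) (s c : ℝ) (hc : 0 < c)
    (hβ : (β : ℝ) * c = 2 * D) (hα : (α : ℝ) * c = 2 * D * (c - s)) (δ h : ℂ) :
    (α : ℂ) * δ - (β : ℂ) * h
      = (D : ℂ) * (2 * (δ - ((c⁻¹ : ℝ) : ℂ) * (h + ((s : ℝ) : ℂ) * δ))) := by
  have hc' : (c : ℂ) ≠ 0 := by exact_mod_cast hc.ne'
  have hβ' : (β : ℂ) * (c : ℂ) = 2 * D := by exact_mod_cast hβ
  have hα' : (α : ℂ) * (c : ℂ) = 2 * D * ((c : ℂ) - s) := by exact_mod_cast hα
  push_cast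
  field_simp
  linear_combination δ * hα' - h * hβ'

/-- integer form of `2 D W`, real seam sign. -/
theorem thM_hB_real (n : ℕ) (z α β D : ℤ) (s c : ℝ) (hc : 0 < c)
    (hβ : (β : ℝ) * c = 2 * D) (hα : (α : ℝ) * c = 2 * D * (c - s)) (x y : thM_Cfg n) :
    ((thM_B n z α β x y : ℤ) : ℂ)
      = (D : ℂ) * (2 * thA_W (mdlPhaseRing n (z : ℂ) (z : ℂ)) s c x y) := by
  have h := thM_hB_scalar α β D s c hc hβ hα ((1 : Matrix (thM_Cfg n) (thM_Cfg n) ℂ) x y)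
    (mdlPhaseRing n (z : ℂ) (z : ℂ) x y)
  unfold thM_B thA_W
  simp only [Matrix.sub_apply, Matrix.smul_apply, Matrix.add_apply, smul_eq_mul]
  rw [← h, mdlPhaseRing_intCast]
  push_cast
  congr 2
  by_cases hxy : x = y <;> simp [Matrix.one_apply, hxy]

/-- integer form of `2 D W`, seam coefficients `ω², ω`. -/
theorem thM_hB_omega {om : ℂ} (ho : thA_IsOmega om) (n : ℕ) (α β D : ℤ) (s c : ℝ) (hc : 0 < c)
    (hβ : (β : ℝ) * c = 2 * D) (hα : (α : ℝ) * c = 2 * D * (c - s)) (x y : thM_Cfg n) :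
    ((thM_B0 n α β x y : ℤ) : ℂ) + ((thM_B1 n β x y : ℤ) : ℂ) * om
      = (D : ℂ) * (2 * thA_W (mdlPhaseRing n (om ^ 2) om) s c x y) := by
  have h := thM_hB_scalar α β D s c hc hβ hα ((1 : Matrix (thM_Cfg n) (thM_Cfg n) ℂ) x y)
    (mdlPhaseRing n (om ^ 2) om x y)
  unfold thM_B0 thM_B1 thA_W
  simp only [Matrix.sub_apply, Matrix.smul_apply, Matrix.add_apply, Matrix.neg_apply, smul_eq_mul]
  rw [← h, mdlPhaseRing_omega ho.sq_eq]
  simp only [Matrix.sub_apply]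
  push_cast
  have h1 : (((1 : Matrix (thM_Cfg n) (thM_Cfg n) ℤ) x y : ℤ) : ℂ)
      = (1 : Matrix (thM_Cfg n) (thM_Cfg n) ℂ) x y := by
    by_cases hxy : x = y <;> simp [Matrix.one_apply, hxy]
  rw [h1]
  ring

/-- spectral window of a matrix that is a twisted ring. -/
theorem thM_window_of_eq {n : ℕ} (hn : 3 ≤ n) {R : Matrix (Fin 3) (Fin 3) ℝ} (hR : mdlE_IsRot R)
    {H : Matrix (thM_Cfg n) (thM_Cfg n) ℂ} (hH : H.IsHermitian) (h : H = twistRing n R)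
    (k : thM_Cfg n) : -(3 * n / 2 : ℝ) ≤ hH.eigenvalues k ∧ hH.eigenvalues k ≤ (n : ℝ) := by
  subst h
  exact ⟨mdlE_twistRing_eig_ge hn hR hH k, mdlE_twistRing_eig_le (by omega) hR hH k⟩

end Claimed.Agent.R297
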