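/-
Row 297 (spin-one Haldane gap), package E (trial state), SU(2)-reduced certificate.
Core: kernel-friendly Nat list functions (direct recursors, Nat operations only) and the
semantics of packed vectors with biased digits.  Owner: helper186.  Prefix `tsu`.
-/
import Mathlib

namespace Claimed.Agent.R297

open Finset

/-! ### list functions written with direct recursors -/

/-- `List.map` by a direct recursor. -/
noncomputable def tsuMap {α β : Type} (f : α → β) (l : List α) : List β :=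
  List.rec (motive := fun _ => List β) [] (fun a _ ih => f a :: ih) l

theorem tsuMap_eq_map {α β : Type} (f : α → β) (l : List α) : tsuMap f l = l.map f := by
  induction l with
  | nil => rfl
  | cons a l ih => exact congrArg (f a :: ·) ih

theorem tsuMap_ofFn {α β : Type} (f : α → β) {n : ℕ} (g : Fin n → α) :
    tsuMap f (List.ofFn g) = List.ofFn (fun i => f (g i)) := by
  rw [tsuMap_eq_map, List.map_ofFn]; rfl

/-- Horner packing in base `B`. -/
noncomputable def tsuPack (B : ℕ) (l : List ℕ) : ℕ :=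
  List.rec (motive := fun _ => ℕ) 0 (fun c _ ih => Nat.add c (Nat.mul B ih)) l

theorem tsuPack_cons (B c : ℕ) (l : List ℕ) : tsuPack B (c :: l) = c + B * tsuPack B l := rfl

theorem tsuPack_ofFn (B : ℕ) {q : ℕ} (d : Fin q → ℕ) :
    tsuPack B (List.ofFn d) = ∑ l, d l * B ^ (l : ℕ) := by
  induction q with
  | zero => simp [tsuPack]
  | succ q ih =>
    rw [List.ofFn_succ, tsuPack_cons, ih, Fin.sum_univ_succ, Finset.mul_sum]
    simp only [Fin.val_zero, pow_zero, mul_one, Fin.val_succ]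
    congr 1
    refine Finset.sum_congr rfl fun l _ => ?_
    ring

/-- digits in base `B`. -/
noncomputable def tsuUnpack (B : ℕ) (q : ℕ) : ℕ → List ℕ :=
  Nat.rec (motive := fun _ => ℕ → List ℕ) (fun _ => [])
    (fun _ ih y => Nat.mod y B :: ih (Nat.div y B)) q

theorem tsuUnpack_succ (B q y : ℕ) :
    tsuUnpack B (q + 1) y = (y % B) :: tsuUnpack B q (y / B) := rfl

theorem tsuUnpack_eq_ofFn (B q y : ℕ) :
    tsuUnpack B q y = List.ofFn (fun l : Fin q => y / B ^ (l : ℕ) % B) := by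
  induction q generalizing y with
  | zero => simp [tsuUnpack]
  | succ q ih =>
    rw [tsuUnpack_succ, ih, List.ofFn_succ]
    simp only [Fin.val_zero, pow_zero, Nat.div_one, Fin.val_succ]
    congr 2
    funext l
    rw [Nat.div_div_eq_div_mul, pow_succ']

theorem tsuUnpack_sum (B : ℕ) {q : ℕ} (d : Fin q → ℕ) (hd : ∀ l, d l < B) :
    tsuUnpack B q (∑ l, d l * B ^ (l : ℕ)) = List.ofFn d := by
  induction q with
  | zero => simp [tsuUnpack]
  | succ q ih =>
    have hB : 0 < B := lt_of_le_of_lt (Nat.zero_le _) (hd 0)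
    have e : ∑ l, d l * B ^ (l : ℕ) = d 0 + B * ∑ l : Fin q, d l.succ * B ^ (l : ℕ) := by
      rw [Fin.sum_univ_succ, Finset.mul_sum]
      simp only [Fin.val_zero, pow_zero, mul_one, Fin.val_succ]
      congr 1
      refine Finset.sum_congr rfl fun l _ => ?_
      ring
    rw [e, tsuUnpack_succ, List.ofFn_succ, Nat.add_mul_mod_self_left, Nat.mod_eq_of_lt (hd 0),
      Nat.add_mul_div_left _ _ hB, Nat.div_eq_of_lt (hd 0), Nat.zero_add,
      ih (fun l => d l.succ) (fun l => hd _)]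

/-- `∑_{l<q} B^l`. -/
noncomputable def tsuOnes (B : ℕ) (q : ℕ) : ℕ :=
  Nat.rec (motive := fun _ => ℕ) 0 (fun _ ih => Nat.add 1 (Nat.mul B ih)) q

theorem tsuOnes_eq (B q : ℕ) : tsuOnes B q = ∑ l : Fin q, B ^ (l : ℕ) := by
  induction q with
  | zero => simp [tsuOnes]
  | succ q ih =>
    have : tsuOnes B (q + 1) = 1 + B * tsuOnes B q := rfl
    rw [this, ih, Fin.sum_univ_succ, Finset.mul_sum]
    simp only [Fin.val_zero, pow_zero, Fin.val_succ]
    congr 1
    refine Finset.sum_congr rfl fun l _ => ?_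
    ring

/-- biased dot product with zero skipping: coefficients `c = a + h`, packed numbers `y`.
Accumulators: `a = ∑' c y`, `t = ∑' y` (over the non-skipped indices), `s = ∑ c`. -/
noncomputable def tsuBdot (h K1 K3 : ℕ) (cs : List ℕ) : List ℕ → ℕ → ℕ → ℕ → ℕ :=
  List.rec (motive := fun _ => List ℕ → ℕ → ℕ → ℕ → ℕ)
    (fun _ a t s => Nat.sub (Nat.add a K1) (Nat.add (Nat.mul h t) (Nat.mul K3 s)))
    (fun c _ ih ys a t s => List.rec (motive := fun _ => ℕ)
      (Nat.sub (Nat.add a K1) (Nat.add (Nat.mul h t) (Nat.mul K3 s)))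
      (fun y ys' _ => Bool.rec (motive := fun _ => ℕ)
        (ih ys' (Nat.add a (Nat.mul c y)) (Nat.add t y) (Nat.add s c))
        (ih ys' a t (Nat.add s c)) (Nat.beq c h)) ys) cs

theorem tsuBdot_nil (h K1 K3 : ℕ) (ys : List ℕ) (a t s : ℕ) :
    tsuBdot h K1 K3 [] ys a t s = (a + K1) - (h * t + K3 * s) := rfl

theorem tsuBdot_cons_ne (h K1 K3 c y : ℕ) (cs ys : List ℕ) (a t s : ℕ) (hc : c ≠ h) :
    tsuBdot h K1 K3 (c :: cs) (y :: ys) a t s
      = tsuBdot h K1 K3 cs ys (a + c * y) (t + y) (s + c) := by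
  have hb : Nat.beq c h = false := by
    cases hbb : Nat.beq c h with
    | false => rfl
    | true => exact absurd (Nat.eq_of_beq_eq_true hbb) hc
  show Bool.rec (motive := fun _ => ℕ) _ _ (Nat.beq c h) = _
  rw [hb]; rfl

theorem tsuBdot_cons_eq (h K1 K3 y : ℕ) (cs ys : List ℕ) (a t s : ℕ) :
    tsuBdot h K1 K3 (h :: cs) (y :: ys) a t s = tsuBdot h K1 K3 cs ys a t (s + h) := by
  have hb : Nat.beq h h = true := by simp
  show Bool.rec (motive := fun _ => ℕ) _ _ (Nat.beq h h) = _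
  rw [hb]; rfl

theorem tsuBdot_ofFn (h K1 K3 : ℕ) {p : ℕ} (c X : Fin p → ℕ) (a t s : ℕ) :
    ∃ a' t' : ℕ, tsuBdot h K1 K3 (List.ofFn c) (List.ofFn X) a t s
        = (a' + K1) - (h * t' + K3 * (s + ∑ k, c k)) ∧
      (a' : ℤ) - h * t' = (a : ℤ) - h * t + ∑ k, ((c k : ℤ) - h) * X k := by
  induction p generalizing a t s with
  | zero => exact ⟨a, t, by simp [tsuBdot_nil], by simp⟩
  | succ p ih =>
    rw [List.ofFn_succ, List.ofFn_succ]
    by_cases hc : c 0 = h
    · obtain ⟨a', t', h1, h2⟩ := ih (fun k => c k.succ) (fun k => X k.succ) a t (s + h)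
      refine ⟨a', t', ?_, ?_⟩
      · rw [hc, tsuBdot_cons_eq, h1, Fin.sum_univ_succ, hc, add_assoc]
      · rw [h2, Fin.sum_univ_succ, hc]; ring
    · obtain ⟨a', t', h1, h2⟩ :=
        ih (fun k => c k.succ) (fun k => X k.succ) (a + c 0 * X 0) (t + X 0) (s + c 0)
      refine ⟨a', t', ?_, ?_⟩
      · rw [tsuBdot_cons_ne _ _ _ _ _ _ _ _ _ _ hc, h1, Fin.sum_univ_succ, add_assoc]
      · rw [h2, Fin.sum_univ_succ]; push_cast; ring

/-- `acc + ∑ᵢ bdot (Pᵢ, Xᵢ)`. -/
noncomputable def tsuFrob (h K1 K3 : ℕ) (P : List (List ℕ)) : List (List ℕ) → ℕ → ℕ :=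
  List.rec (motive := fun _ => List (List ℕ) → ℕ → ℕ) (fun _ acc => acc)
    (fun pr _ ih Xs acc => List.rec (motive := fun _ => ℕ) acc
      (fun xr Xs' _ => ih Xs' (Nat.add acc (tsuBdot h K1 K3 pr xr 0 0 0))) Xs) P

theorem tsuFrob_ofFn (h K1 K3 : ℕ) {r : ℕ} (P X : Fin r → List ℕ) (acc : ℕ) :
    tsuFrob h K1 K3 (List.ofFn P) (List.ofFn X) acc
      = acc + ∑ i, tsuBdot h K1 K3 (P i) (X i) 0 0 0 := by
  induction r generalizing acc with
  | zero => simp [tsuFrob]
  | succ r ih =>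
    rw [List.ofFn_succ, List.ofFn_succ]
    have : tsuFrob h K1 K3 (P 0 :: List.ofFn fun i => P i.succ)
        (X 0 :: List.ofFn fun i => X i.succ) acc
        = tsuFrob h K1 K3 (List.ofFn fun i => P i.succ) (List.ofFn fun i => X i.succ)
          (acc + tsuBdot h K1 K3 (P 0) (X 0) 0 0 0) := rfl
    rw [this, ih, Fin.sum_univ_succ, add_assoc]

/-- entrywise sum of two lists. -/
noncomputable def tsuAddL (l : List ℕ) : List ℕ → List ℕ :=
  List.rec (motive := fun _ => List ℕ → List ℕ) (fun _ => [])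
    (fun a _ ih l' => List.rec (motive := fun _ => List ℕ) []
      (fun b l'' _ => Nat.add a b :: ih l'') l') l

theorem tsuAddL_ofFn {n : ℕ} (f g : Fin n → ℕ) :
    tsuAddL (List.ofFn f) (List.ofFn g) = List.ofFn (fun i => f i + g i) := by
  induction n with
  | zero => simp [tsuAddL]
  | succ n ih =>
    rw [List.ofFn_succ, List.ofFn_succ, List.ofFn_succ]
    exact congrArg (_ :: ·) (ih _ _)

/-- entrywise sum of two arrays. -/
noncomputable def tsuAddA (l : List (List ℕ)) : List (List ℕ) → List (List ℕ) :=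
  List.rec (motive := fun _ => List (List ℕ) → List (List ℕ)) (fun _ => [])
    (fun a _ ih l' => List.rec (motive := fun _ => List (List ℕ)) []
      (fun b l'' _ => tsuAddL a b :: ih l'') l') l

theorem tsuAddA_ofFn {n : ℕ} (f g : Fin n → List ℕ) :
    tsuAddA (List.ofFn f) (List.ofFn g) = List.ofFn (fun i => tsuAddL (f i) (g i)) := by
  induction n with
  | zero => simp [tsuAddA]
  | succ n ih =>
    rw [List.ofFn_succ, List.ofFn_succ, List.ofFn_succ]
    exact congrArg (_ :: ·) (ih _ _)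

theorem tsu_getD_ofFn {α : Type} {n : ℕ} (f : Fin n → α) (i : Fin n) (d : α) :
    (List.ofFn f).getD i.val d = f i := by
  rw [List.getD_eq_getElem _ _ (by simp)]
  simp

/-! ### packed vectors with biased digits -/

/-- `X` packs the integer vector `x` (lanes `l < q`) with bias `H` in base `B`. -/
def TsuPV (q B H X : ℕ) (x : Fin q → ℤ) : Prop :=
  (X : ℤ) = ∑ l, (x l + H) * (B : ℤ) ^ (l : ℕ) ∧ ∀ l, |x l| ≤ H

theorem TsuPV.split {q B H X : ℕ} {x : Fin q → ℤ} (h : TsuPV q B H X x) :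
    (X : ℤ) = ∑ l, x l * (B : ℤ) ^ (l : ℕ) + H * (tsuOnes B q : ℤ) := by
  rw [h.1, tsuOnes_eq]
  push_cast
  rw [Finset.mul_sum, ← Finset.sum_add_distrib]
  exact Finset.sum_congr rfl fun l _ => by ring

theorem TsuPV.of_split {q B H X : ℕ} {x : Fin q → ℤ}
    (h : (X : ℤ) = ∑ l, x l * (B : ℤ) ^ (l : ℕ) + H * (tsuOnes B q : ℤ))
    (hb : ∀ l, |x l| ≤ H) : TsuPV q B H X x := by
  refine ⟨?_, hb⟩
  rw [h, tsuOnes_eq]
  push_cast
  rw [Finset.mul_sum, ← Finset.sum_add_distrib]
  exact Finset.sum_congr rfl fun l _ => by ring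

/-- digits of a packed vector. -/
theorem TsuPV.digits {q B H X : ℕ} {x : Fin q → ℤ} (h : TsuPV q B H X x) :
    ∃ d : Fin q → ℕ, X = ∑ l, d l * B ^ (l : ℕ) ∧ (∀ l, (d l : ℤ) = x l + H) ∧
      ∀ l, d l ≤ 2 * H := by
  have hnn : ∀ l, 0 ≤ x l + H := fun l => by have := abs_le.1 (h.2 l); linarith [this.1]
  refine ⟨fun l => (x l + H).toNat, ?_, fun l => Int.toNat_of_nonneg (hnn l), fun l => ?_⟩
  · have : (X : ℤ) = ((∑ l, (x l + H).toNat * B ^ (l : ℕ) : ℕ) : ℤ) := by
      rw [h.1]; push_cast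
      exact Finset.sum_congr rfl fun l _ => by rw [Int.toNat_of_nonneg (hnn l)]
    exact_mod_cast this
  · have h1 : ((x l + H).toNat : ℤ) = x l + H := Int.toNat_of_nonneg (hnn l)
    have h2 := (abs_le.1 (h.2 l)).2
    have : ((x l + H).toNat : ℤ) ≤ 2 * H := by rw [h1]; linarith
    exact_mod_cast this

theorem TsuPV.of_digits {q B H : ℕ} {x : Fin q → ℤ} (d : Fin q → ℕ)
    (hd : ∀ l, (d l : ℤ) = x l + H) (hb : ∀ l, |x l| ≤ H) :
    TsuPV q B H (tsuPack B (List.ofFn d)) x := by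
  refine ⟨?_, hb⟩
  rw [tsuPack_ofFn]; push_cast
  exact Finset.sum_congr rfl fun l _ => by rw [hd l]

theorem TsuPV.unpack {q B H X : ℕ} {x : Fin q → ℤ} (h : TsuPV q B H X x) (hB : 2 * H < B) :
    ∃ d : Fin q → ℕ, tsuUnpack B q X = List.ofFn d ∧ ∀ l, (d l : ℤ) = x l + H := by
  obtain ⟨d, h1, h2, h3⟩ := h.digits
  exact ⟨d, by rw [h1, tsuUnpack_sum B d fun l => lt_of_le_of_lt (h3 l) hB], h2⟩

theorem TsuPV.inj {q B H X : ℕ} {x y : Fin q → ℤ} (hx : TsuPV q B H X x)
    (hy : TsuPV q B H X y) (hB : 2 * H < B) : x = y := by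
  obtain ⟨d, h1, h2⟩ := hx.unpack hB
  obtain ⟨e, h3, h4⟩ := hy.unpack hB
  have : d = e := List.ofFn_injective (h1.symm.trans h3)
  funext l
  have := h2 l
  rw [‹d = e›, h4 l] at this
  linarith

theorem TsuPV.rebias {q B H X : ℕ} {x : Fin q → ℤ} (h : TsuPV q B H X x) (H' : ℕ) :
    TsuPV q B (H + H') (X + H' * tsuOnes B q) x := by
  refine TsuPV.of_split ?_ fun l => (h.2 l).trans (by push_cast; linarith [Int.natCast_nonneg H'])
  push_cast; rw [h.split]; ring

theorem TsuPV.add {q B H H' X X' : ℕ} {x x' : Fin q → ℤ} (h : TsuPV q B H X x)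
    (h' : TsuPV q B H' X' x') : TsuPV q B (H + H') (X + X') (fun l => x l + x' l) := by
  refine TsuPV.of_split ?_ fun l => ?_
  · push_cast; rw [h.split, h'.split]
    simp only [add_mul, Finset.sum_add_distrib]; ring
  · push_cast; exact (abs_add_le _ _).trans (add_le_add (h.2 l) (h'.2 l))

theorem TsuPV.sum {q B H : ℕ} {r : ℕ} {X : Fin r → ℕ} {x : Fin r → Fin q → ℤ}
    (h : ∀ i, TsuPV q B H (X i) (x i)) :
    TsuPV q B (r * H) (∑ i, X i) (fun l => ∑ i, x i l) := by
  refine TsuPV.of_split ?_ fun l => ?_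
  · push_cast
    rw [Finset.sum_congr rfl fun i _ => (h i).split, Finset.sum_add_distrib, Finset.sum_comm]
    simp only [Finset.sum_mul, Finset.sum_const, Finset.card_univ, Fintype.card_fin, nsmul_eq_mul]
    ring
  · refine (Finset.abs_sum_le_sum_abs _ _).trans ?_
    refine (Finset.sum_le_sum fun i _ => (h i).2 l).trans ?_
    simp

/-- the biased dot product of biased coefficients with packed vectors. -/
theorem TsuPV.bdot {q B H h p : ℕ} {c X : Fin p → ℕ} {a : Fin p → ℤ} {x : Fin p → Fin q → ℤ}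
    (hc : ∀ k, (c k : ℤ) = a k + h) (ha : ∀ k, |a k| ≤ h) (hX : ∀ k, TsuPV q B H (X k) (x k)) :
    TsuPV q B (p * h * H)
      (tsuBdot h (2 * (p * h * H) * tsuOnes B q) (H * tsuOnes B q)
        (List.ofFn c) (List.ofFn X) 0 0 0)
      (fun l => ∑ k, a k * x k l) := by
  obtain ⟨a', t', h1, h2⟩ :=
    tsuBdot_ofFn h (2 * (p * h * H) * tsuOnes B q) (H * tsuOnes B q) c X 0 0 0
  set E : ℕ := tsuOnes B q with hE
  have hbound : ∀ l, |∑ k, a k * x k l| ≤ ((p * h * H : ℕ) : ℤ) := fun l => by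
    refine (Finset.abs_sum_le_sum_abs _ _).trans ?_
    have : ∀ k ∈ (Finset.univ : Finset (Fin p)), |a k * x k l| ≤ (h : ℤ) * H := fun k _ => by
      rw [abs_mul]
      exact mul_le_mul (ha k) ((hX k).2 l) (abs_nonneg _) (Int.natCast_nonneg _)
    refine (Finset.sum_le_sum this).trans ?_
    simp [mul_assoc]
  -- the integer identity
  have key : (a' : ℤ) + (2 * (p * h * H) * E : ℕ) - ((h * t' + H * E * (0 + ∑ k, c k) : ℕ) : ℤ)
      = ∑ l, (∑ k, a k * x k l) * (B : ℤ) ^ (l : ℕ) + ((p * h * H : ℕ) : ℤ) * E := by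
    have e1 : ∑ k, ((c k : ℤ) - h) * X k
        = ∑ l, (∑ k, a k * x k l) * (B : ℤ) ^ (l : ℕ) + H * E * ∑ k, a k := by
      have : ∀ k, ((c k : ℤ) - h) * X k
          = ∑ l, a k * x k l * (B : ℤ) ^ (l : ℕ) + H * E * a k := fun k => by
        rw [hc k, (hX k).split, add_sub_cancel_right, mul_add, Finset.mul_sum]
        congr 1
        · exact Finset.sum_congr rfl fun l _ => by ring
        · ring
      rw [Finset.sum_congr rfl fun k _ => this k, Finset.sum_add_distrib, Finset.sum_comm,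
        Finset.mul_sum]
      congr 1
      exact Finset.sum_congr rfl fun l _ => by rw [Finset.sum_mul]
    have e2 : ((∑ k, c k : ℕ) : ℤ) = ∑ k, a k + p * h := by
      push_cast
      rw [Finset.sum_congr rfl fun k _ => hc k, Finset.sum_add_distrib]
      simp
    have e3 : (a' : ℤ) = h * t' + ∑ k, ((c k : ℤ) - h) * X k := by
      have := h2; push_cast at this; linarith
    push_cast at e2 ⊢
    rw [e3, e1, e2]; ring
  have hnn : 0 ≤ ∑ l, (∑ k, a k * x k l) * (B : ℤ) ^ (l : ℕ) + ((p * h * H : ℕ) : ℤ) * E := by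
    rw [hE, tsuOnes_eq]; push_cast
    rw [Finset.mul_sum, ← Finset.sum_add_distrib]
    refine Finset.sum_nonneg fun l _ => ?_
    have := (abs_le.1 (hbound l)).1
    have hp : (0 : ℤ) ≤ (B : ℤ) ^ (l : ℕ) := by positivity
    push_cast at this
    nlinarith
  refine TsuPV.of_split ?_ hbound
  rw [h1]
  have hle : h * t' + H * E * (0 + ∑ k, c k) ≤ a' + 2 * (p * h * H) * E := by
    have : ((h * t' + H * E * (0 + ∑ k, c k) : ℕ) : ℤ) ≤ ((a' + 2 * (p * h * H) * E : ℕ) : ℤ) := by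
      have := key; push_cast at this ⊢; push_cast at hnn; linarith
    exact_mod_cast this
  rw [Nat.cast_sub hle, ← key]; push_cast; ring

/-- concatenation of lanes. -/
theorem TsuPV.concat {n B H m : ℕ} {y : Fin m → ℕ} {x : Fin m → Fin n → ℤ}
    (h : ∀ i, TsuPV n B H (y i) (x i)) :
    TsuPV (m * n) B H (tsuPack (B ^ n) (List.ofFn y))
      (fun l => x (finProdFinEquiv.symm l).1 (finProdFinEquiv.symm l).2) := by
  refine ⟨?_, fun l => (h _).2 _⟩
  rw [tsuPack_ofFn]
  push_cast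
  rw [← Equiv.sum_comp finProdFinEquiv, Fintype.sum_prod_type]
  refine Finset.sum_congr rfl fun i _ => ?_
  rw [(h i).1, Finset.sum_mul]
  refine Finset.sum_congr rfl fun j _ => ?_
  simp only [Equiv.symm_apply_apply, finProdFinEquiv_apply_val]
  rw [pow_add, pow_mul]; ring

/-- a multiple of a unit vector. -/
theorem TsuPV.single {q B H : ℕ} (c : ℕ) (hc : c ≤ H) (a : Fin q) :
    TsuPV q B H (H * tsuOnes B q + c * B ^ (a : ℕ)) (fun l => if l = a then (c : ℤ) else 0) := by
  refine TsuPV.of_split ?_ fun l => ?_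
  · push_cast
    simp only [ite_mul, zero_mul, Finset.sum_ite_eq', Finset.mem_univ, if_true]
    ring
  · split_ifs
    · simpa using hc
    · simp

end Claimed.Agent.R297
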