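/-
Row 297, package E, SU(2)-reduced certificate.  Arrays of packed vectors, biased matrices,
verified matrix product / Kronecker action.  Owner: helper186.  Prefix `tsu`.
-/
import Claimed.Agent.R297.TrialSUCore

namespace Claimed.Agent.R297

open Finset Matrix
open scoped Kronecker

/-- `L` is the biased list representation (bias `h`) of the integer matrix `M`. -/
def TsuBM (r c h : ℕ) (L : List (List ℕ)) (M : Matrix (Fin r) (Fin c) ℤ) : Prop :=
  ∃ d : Fin r → Fin c → ℕ, L = List.ofFn (fun i => List.ofFn (d i)) ∧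
    ∀ i k, (d i k : ℤ) = M i k + h ∧ |M i k| ≤ h

/-- `L` is an `r × c` array of packed vectors representing `W`. -/
def TsuAW (r c q B H : ℕ) (L : List (List ℕ)) (W : Matrix (Fin r × Fin c) (Fin q) ℤ) : Prop :=
  ∃ X : Fin r → Fin c → ℕ, L = List.ofFn (fun i => List.ofFn (X i)) ∧
    ∀ i j, TsuPV q B H (X i j) (W (i, j))

/-- `(P, X) ↦ P Xᵀ` on arrays of packed vectors. -/
noncomputable def tsuMulT (p h E : ℕ) (P : List (List ℕ)) (H : ℕ) (X : List (List ℕ)) :
    List (List ℕ) :=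
  tsuMap (fun pr => tsuMap (fun xr =>
    tsuBdot h (Nat.mul (Nat.mul 2 (Nat.mul (Nat.mul p h) H)) E) (Nat.mul H E) pr xr 0 0 0) X) P

theorem TsuAW.mulT {r c r' q B H h : ℕ} {P : List (List ℕ)} {M : Matrix (Fin r') (Fin c) ℤ}
    {L : List (List ℕ)} {W : Matrix (Fin r × Fin c) (Fin q) ℤ}
    (hP : TsuBM r' c h P M) (hL : TsuAW r c q B H L W) :
    TsuAW r' r q B (c * h * H) (tsuMulT c h (tsuOnes B q) P H L)
      (fun p l => ∑ k, M p.1 k * W (p.2, k) l) := by
  obtain ⟨d, rfl, hd⟩ := hP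
  obtain ⟨X, rfl, hX⟩ := hL
  refine ⟨fun i j => tsuBdot h (2 * (c * h * H) * tsuOnes B q) (H * tsuOnes B q)
    (List.ofFn (d i)) (List.ofFn (X j)) 0 0 0, ?_, fun i j => ?_⟩
  · unfold tsuMulT
    rw [tsuMap_ofFn]
    congr 1; funext i
    rw [tsuMap_ofFn]; rfl
  · exact TsuPV.bdot (fun k => (hd i k).1) (fun k => (hd i k).2) (fun k => hX j k)

/-- the Kronecker action `W ↦ (P ⊗ Q) W`. -/
theorem TsuAW.act {r c r' c' q B H h h' : ℕ} {P Q : List (List ℕ)}
    {MP : Matrix (Fin r') (Fin r) ℤ} {MQ : Matrix (Fin c') (Fin c) ℤ}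
    {L : List (List ℕ)} {W : Matrix (Fin r × Fin c) (Fin q) ℤ}
    (hP : TsuBM r' r h P MP) (hQ : TsuBM c' c h' Q MQ) (hL : TsuAW r c q B H L W) :
    TsuAW r' c' q B (r * h * (c * h' * H))
      (tsuMulT r h (tsuOnes B q) P (c * h' * H) (tsuMulT c h' (tsuOnes B q) Q H L))
      ((MP ⊗ₖ MQ) * W) := by
  have := (hL.mulT hQ).mulT hP
  have e : ((MP ⊗ₖ MQ) * W) = fun p l => ∑ k, MP p.1 k * ∑ k_1, MQ p.2 k_1 * W (k, k_1) l := by
    funext p l
    rw [Matrix.mul_apply, Fintype.sum_prod_type]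
    refine Finset.sum_congr rfl fun i _ => ?_
    rw [Finset.mul_sum]
    refine Finset.sum_congr rfl fun k _ => ?_
    obtain ⟨p1, p2⟩ := p
    rw [kronecker_apply]; ring
  rw [e]; exact this

theorem TsuAW.add {r c q B H H' : ℕ} {L L' : List (List ℕ)}
    {W W' : Matrix (Fin r × Fin c) (Fin q) ℤ}
    (hL : TsuAW r c q B H L W) (hL' : TsuAW r c q B H' L' W') :
    TsuAW r c q B (H + H') (tsuAddA L L') (W + W') := by
  obtain ⟨X, rfl, hX⟩ := hL
  obtain ⟨X', rfl, hX'⟩ := hL'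
  refine ⟨fun i j => X i j + X' i j, ?_, fun i j => (hX i j).add (hX' i j)⟩
  rw [tsuAddA_ofFn]
  congr 1; funext i
  rw [tsuAddL_ofFn]

/-- add a constant to every entry of an array. -/
noncomputable def tsuShiftA (K : ℕ) (L : List (List ℕ)) : List (List ℕ) :=
  tsuMap (tsuMap (fun X => Nat.add X K)) L

theorem TsuAW.rebias {r c q B H : ℕ} {L : List (List ℕ)}
    {W : Matrix (Fin r × Fin c) (Fin q) ℤ} (hL : TsuAW r c q B H L W) (H' : ℕ) :
    TsuAW r c q B (H + H') (tsuShiftA (H' * tsuOnes B q) L) W := by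
  obtain ⟨X, rfl, hX⟩ := hL
  refine ⟨fun i j => X i j + H' * tsuOnes B q, ?_, fun i j => (hX i j).rebias H'⟩
  unfold tsuShiftA
  rw [tsuMap_ofFn]
  congr 1; funext i
  rw [tsuMap_ofFn]; rfl

theorem TsuAW.inj {r c q B H : ℕ} {L : List (List ℕ)}
    {W W' : Matrix (Fin r × Fin c) (Fin q) ℤ} (hL : TsuAW r c q B H L W)
    (hL' : TsuAW r c q B H L W') (hB : 2 * H < B) : W = W' := by
  obtain ⟨X, h1, hX⟩ := hL
  obtain ⟨X', h2, hX'⟩ := hL'
  have e : X = X' := by
    have := List.ofFn_injective (h1.symm.trans h2)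
    funext i
    exact List.ofFn_injective (congrFun this i)
  funext p
  obtain ⟨i, j⟩ := p
  exact (hX i j).inj (e ▸ hX' i j) hB

/-- comparison of two arrays with different biases. -/
theorem TsuAW.eq_of_shift {r c q B H H' : ℕ} {L L' : List (List ℕ)}
    {W W' : Matrix (Fin r × Fin c) (Fin q) ℤ} (hL : TsuAW r c q B H L W)
    (hL' : TsuAW r c q B H' L' W')
    (he : tsuShiftA (H' * tsuOnes B q) L = tsuShiftA (H * tsuOnes B q) L')
    (hB : 2 * (H + H') < B) : W = W' := by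
  have h1 := hL.rebias H'
  have h2 := hL'.rebias H
  rw [← he, add_comm H' H] at h2
  exact h1.inj h2 hB

/-! ### verified matrix product -/

/-- product of biased matrices (`p` = inner dimension, `q` = number of columns). -/
noncomputable def tsuMulB (p q h : ℕ) (P : List (List ℕ)) (H : ℕ) (M : List (List ℕ)) :
    List (List ℕ) :=
  (fun B => (fun E => (fun Y => tsuMap (fun pr => tsuUnpack B q
      (tsuBdot h (Nat.mul (Nat.mul 2 (Nat.mul (Nat.mul p h) H)) E) (Nat.mul H E) pr Y 0 0 0)) P)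
    (tsuMap (tsuPack B) M)) (tsuOnes B q)) (Nat.add (Nat.mul 2 (Nat.mul (Nat.mul p h) H)) 1)

theorem TsuBM.mul {r p q h H : ℕ} {P L : List (List ℕ)} {M : Matrix (Fin r) (Fin p) ℤ}
    {N : Matrix (Fin p) (Fin q) ℤ} (hP : TsuBM r p h P M) (hL : TsuBM p q H L N) :
    TsuBM r q (p * h * H) (tsuMulB p q h P H L) (M * N) := by
  obtain ⟨d, rfl, hd⟩ := hP
  obtain ⟨e, rfl, he⟩ := hL
  set B : ℕ := 2 * (p * h * H) + 1 with hB
  have hpv : ∀ i, TsuPV q B (p * h * H)
      (tsuBdot h (2 * (p * h * H) * tsuOnes B q) (H * tsuOnes B q) (List.ofFn (d i))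
        (List.ofFn fun k => tsuPack B (List.ofFn (e k))) 0 0 0)
      (fun l => ∑ k, M i k * N k l) := fun i =>
    TsuPV.bdot (fun k => (hd i k).1) (fun k => (hd i k).2)
      (fun k => TsuPV.of_digits (e k) (fun l => (he k l).1) (fun l => (he k l).2))
  choose f hf1 hf2 using fun i => (hpv i).unpack (by omega)
  refine ⟨f, ?_, fun i l => ⟨by rw [hf2 i l, Matrix.mul_apply], by
    rw [Matrix.mul_apply]; exact (hpv i).2 l⟩⟩
  unfold tsuMulB
  show tsuMap (fun pr => tsuUnpack B q (tsuBdot h (2 * (p * h * H) * tsuOnes B q)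
    (H * tsuOnes B q) pr (tsuMap (tsuPack B) (List.ofFn fun i => List.ofFn (e i))) 0 0 0))
    (List.ofFn fun i => List.ofFn (d i)) = _
  rw [tsuMap_ofFn, tsuMap_ofFn]
  congr 1; funext i
  exact hf1 i

/-- pairs (bias, list). -/
noncomputable def tsuMulP (n : ℕ) (a b : ℕ × List (List ℕ)) : ℕ × List (List ℕ) :=
  (Nat.mul (Nat.mul n a.1) b.1, tsuMulB n n a.1 a.2 b.1 b.2)

/-- the pair `a` represents the square matrix `M`. -/
def TsuRP (n : ℕ) (a : ℕ × List (List ℕ)) (M : Matrix (Fin n) (Fin n) ℤ) : Prop :=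
  TsuBM n n a.1 a.2 M

theorem TsuRP.mul {n : ℕ} {a b : ℕ × List (List ℕ)} {M N : Matrix (Fin n) (Fin n) ℤ}
    (ha : TsuRP n a M) (hb : TsuRP n b N) : TsuRP n (tsuMulP n a b) (M * N) :=
  TsuBM.mul ha hb

/-- sum of the diagonal digits. -/
noncomputable def tsuDiagSum (L : List (List ℕ)) (n : ℕ) : ℕ :=
  Nat.rec (motive := fun _ => ℕ) 0 (fun i ih => Nat.add ih ((L.getD i []).getD i 0)) n

theorem tsuDiagSum_eq (L : List (List ℕ)) (n : ℕ) :
    tsuDiagSum L n = ∑ i ∈ Finset.range n, (L.getD i []).getD i 0 := by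
  induction n with
  | zero => rfl
  | succ n ih =>
    rw [Finset.sum_range_succ, ← ih]; rfl

theorem TsuRP.trace {n : ℕ} {a : ℕ × List (List ℕ)} {M : Matrix (Fin n) (Fin n) ℤ}
    (ha : TsuRP n a M) : M.trace = (tsuDiagSum a.2 n : ℤ) - n * a.1 := by
  obtain ⟨d, h1, hd⟩ := ha
  rw [tsuDiagSum_eq, h1, Finset.sum_range]
  simp only [tsu_getD_ofFn]
  push_cast
  rw [Finset.sum_congr rfl fun i _ => (hd i i).1, Finset.sum_add_distrib]
  simp [Matrix.trace]

/-- `(T^118 O, T^120)` by an addition chain (12 products). -/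
noncomputable def tsuChain (n : ℕ) (T O : ℕ × List (List ℕ)) :
    (ℕ × List (List ℕ)) × (ℕ × List (List ℕ)) :=
  (fun T2 => (fun T4 => (fun T8 => (fun T16 => (fun T28 => (fun T30 => (fun T60 =>
    (tsuMulP n T60 (tsuMulP n T30 (tsuMulP n T28 O)), tsuMulP n T60 T60))
    (tsuMulP n T30 T30)) (tsuMulP n T28 T2)) (tsuMulP n (tsuMulP n T16 T8) T4))
    (tsuMulP n T8 T8)) (tsuMulP n T4 T4)) (tsuMulP n T2 T2)) (tsuMulP n T T)

theorem TsuRP.chain {n : ℕ} {T O : ℕ × List (List ℕ)} {M N : Matrix (Fin n) (Fin n) ℤ}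
    (hT : TsuRP n T M) (hO : TsuRP n O N) :
    TsuRP n (tsuChain n T O).1 (M ^ 118 * N) ∧ TsuRP n (tsuChain n T O).2 (M ^ 120) := by
  have h2 := hT.mul hT
  rw [← pow_two] at h2
  have h4 := h2.mul h2
  rw [← pow_add] at h4
  have h8 := h4.mul h4
  rw [← pow_add] at h8
  have h16 := h8.mul h8
  rw [← pow_add] at h16
  have h28 := (h16.mul h8).mul h4
  rw [← pow_add, ← pow_add] at h28
  have h30 := h28.mul h2
  rw [← pow_add] at h30
  have h60 := h30.mul h30
  rw [← pow_add] at h60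
  have hU := h60.mul (h30.mul (h28.mul hO))
  have hV := h60.mul h60
  rw [← mul_assoc, ← mul_assoc, ← pow_add, ← pow_add] at hU
  rw [← pow_add] at hV
  exact ⟨hU, hV⟩

/-! ### decoding data -/

/-- the `k`-th digit of `y` in base `b`. -/
def tsuDig (b y k : ℕ) : ℕ := y / b ^ k % b

theorem tsuUnpack_eq_dig (b q y : ℕ) :
    tsuUnpack b q y = List.ofFn (fun l : Fin q => tsuDig b y l) := tsuUnpack_eq_ofFn b q y

theorem tsuDig_lt (b y k : ℕ) (hb : 0 < b) : tsuDig b y k < b := Nat.mod_lt _ hb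

/-- decode an `r × c` matrix of digits. -/
noncomputable def tsuDec2 (r c b y : ℕ) : List (List ℕ) :=
  tsuMap (tsuUnpack b c) (tsuUnpack (Nat.pow b c) r y)

/-- the integer matrix encoded by `y` with bias `h` (base `2h+1`). -/
def tsuMat (r c h y : ℕ) : Matrix (Fin r) (Fin c) ℤ :=
  fun i k => (tsuDig (2 * h + 1) (tsuDig ((2 * h + 1) ^ c) y i) k : ℤ) - h

theorem tsu_abs_dig_sub (h d : ℕ) (hd : d < 2 * h + 1) : |(d : ℤ) - h| ≤ h := by
  rw [abs_le]; constructor <;> [skip; skip] <;> omega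

theorem TsuBM.dec2 (r c h y : ℕ) :
    TsuBM r c h (tsuDec2 r c (2 * h + 1) y) (tsuMat r c h y) := by
  refine ⟨fun i k => tsuDig (2 * h + 1) (tsuDig ((2 * h + 1) ^ c) y i) k, ?_, fun i k =>
    ⟨by simp [tsuMat], tsu_abs_dig_sub _ _ (tsuDig_lt _ _ _ (by omega))⟩⟩
  unfold tsuDec2
  show tsuMap _ (tsuUnpack ((2 * h + 1) ^ c) r y) = _
  rw [tsuUnpack_eq_dig, tsuMap_ofFn]
  congr 1; funext i
  exact tsuUnpack_eq_dig _ _ _

theorem tsu_ofFn_getD {α : Type} (L : List α) (n : ℕ) (h : L.length = n) (d : α) :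
    L = List.ofFn (fun i : Fin n => L.getD i d) := by
  subst h
  apply List.ext_getElem (by simp)
  intro i h1 h2
  simp

end Claimed.Agent.R297
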