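/-
Row 297, package E, SU(2)-reduced certificate.  Symmetry classes: data layout, list-level
check functions and their semantics; trace reduction.  Owner: helper186.  Prefix `tsu`.
-/
import Claimed.Agent.R297.TrialSUArr

namespace Claimed.Agent.R297

open Finset Matrix
open scoped Kronecker

/-- bias of the base change `W`. -/
def tsuHW : ℕ := 800
/-- bias of the scaled inverse `V = c W⁻¹`. -/
def tsuHV : ℕ := 80640
/-- the scale `c`. -/
def tsuC : ℕ := 80640
/-- bias of the matrices `A_s`. -/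
def tsuHA : ℕ := 640

/-- data of one symmetry class (spin `J`): `n` = multiplicity of the irrep, `mult = 2J+1`. -/
structure TsuClass where
  n : ℕ
  mult : ℕ
  hT : ℕ
  hO : ℕ
  yW : List ℕ
  yV : List ℕ
  yT : ℕ
  yO : ℕ

namespace TsuClass

variable (C : TsuClass)

/-- digits of `W`. -/
def dW (i j m a : ℕ) : ℕ :=
  tsuDig (2 * tsuHW + 1) (tsuDig ((2 * tsuHW + 1) ^ C.n)
    (tsuDig (((2 * tsuHW + 1) ^ C.n) ^ C.mult) (C.yW.getD i 0) j) m) a

/-- digits of `V`. -/
def dV (m a i j : ℕ) : ℕ :=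
  tsuDig (2 * tsuHV + 1) (tsuDig ((2 * tsuHV + 1) ^ 26)
    (tsuDig (((2 * tsuHV + 1) ^ 26) ^ 26) (C.yV.getD m 0) a) i) j

/-- the intertwiner of the copy `m`. -/
def W (m : Fin C.mult) : Matrix (Fin 26 × Fin 26) (Fin C.n) ℤ :=
  fun p a => (C.dW p.1 p.2 m a : ℤ) - tsuHW

/-- the scaled left inverse of the copy `m`. -/
def V (m : Fin C.mult) : Matrix (Fin C.n) (Fin 26 × Fin 26) ℤ :=
  fun a p => (C.dV m a p.1 p.2 : ℤ) - tsuHV

/-- reduced transfer matrix. -/
def T : Matrix (Fin C.n) (Fin C.n) ℤ := tsuMat C.n C.n C.hT C.yT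
/-- reduced insertion. -/
def O : Matrix (Fin C.n) (Fin C.n) ℤ := tsuMat C.n C.n C.hO C.yO

/-- all copies side by side. -/
def Wfull : Matrix (Fin 26 × Fin 26) (Fin (C.mult * C.n)) ℤ :=
  fun p l => C.W (finProdFinEquiv.symm l).1 p (finProdFinEquiv.symm l).2

theorem W_abs (m : Fin C.mult) (p a) : |C.W m p a| ≤ tsuHW :=
  tsu_abs_dig_sub _ _ (tsuDig_lt _ _ _ (by omega))

theorem V_abs (m : Fin C.mult) (a p) : |C.V m a p| ≤ tsuHV :=
  tsu_abs_dig_sub _ _ (tsuDig_lt _ _ _ (by omega))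

/-- decoded digits of `W`: `[i][j][m][a]`. -/
noncomputable def Wd : List (List (List (List ℕ))) :=
  tsuMap (fun yi => tsuMap (fun yij => tsuMap (tsuUnpack (2 * tsuHW + 1) C.n)
      (tsuUnpack (Nat.pow (2 * tsuHW + 1) C.n) C.mult yij))
    (tsuUnpack (Nat.pow (Nat.pow (2 * tsuHW + 1) C.n) C.mult) 26 yi)) C.yW

theorem Wd_eq (hW : C.yW.length = 26) :
    C.Wd = List.ofFn fun i : Fin 26 => List.ofFn fun j : Fin 26 => List.ofFn fun m : Fin C.mult =>
      List.ofFn fun a : Fin C.n => C.dW i j m a := by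
  unfold Wd
  conv_lhs => rw [tsu_ofFn_getD C.yW 26 hW 0]
  rw [tsuMap_ofFn]
  refine congrArg List.ofFn (funext fun i => ?_)
  show tsuMap _ (tsuUnpack (((2 * tsuHW + 1) ^ C.n) ^ C.mult) 26 _) = _
  rw [tsuUnpack_eq_dig, tsuMap_ofFn]
  refine congrArg List.ofFn (funext fun j => ?_)
  show tsuMap _ (tsuUnpack ((2 * tsuHW + 1) ^ C.n) C.mult _) = _
  rw [tsuUnpack_eq_dig, tsuMap_ofFn]
  refine congrArg List.ofFn (funext fun m => ?_)
  exact tsuUnpack_eq_dig _ _ _

/-- decoded digits of `V`: `[m][a][i][j]`. -/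
noncomputable def Vd : List (List (List (List ℕ))) :=
  tsuMap (fun ym => tsuMap (fun ya => tsuMap (tsuUnpack (2 * tsuHV + 1) 26)
      (tsuUnpack (Nat.pow (2 * tsuHV + 1) 26) 26 ya))
    (tsuUnpack (Nat.pow (Nat.pow (2 * tsuHV + 1) 26) 26) C.n ym)) C.yV

theorem Vd_eq (hV : C.yV.length = C.mult) :
    C.Vd = List.ofFn fun m : Fin C.mult => List.ofFn fun a : Fin C.n => List.ofFn fun i : Fin 26 =>
      List.ofFn fun j : Fin 26 => C.dV m a i j := by
  unfold Vd
  conv_lhs => rw [tsu_ofFn_getD C.yV C.mult hV 0]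
  rw [tsuMap_ofFn]
  refine congrArg List.ofFn (funext fun m => ?_)
  show tsuMap _ (tsuUnpack (((2 * tsuHV + 1) ^ 26) ^ 26) C.n _) = _
  rw [tsuUnpack_eq_dig, tsuMap_ofFn]
  refine congrArg List.ofFn (funext fun a => ?_)
  show tsuMap _ (tsuUnpack ((2 * tsuHV + 1) ^ 26) 26 _) = _
  rw [tsuUnpack_eq_dig, tsuMap_ofFn]
  refine congrArg List.ofFn (funext fun i => ?_)
  exact tsuUnpack_eq_dig _ _ _

/-- the array of packed rows of `Wfull`. -/
noncomputable def Xa (B : ℕ) : List (List ℕ) :=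
  tsuMap (tsuMap (fun rows => tsuPack (Nat.pow B C.n) (tsuMap (tsuPack B) rows))) C.Wd

theorem Xa_spec (hW : C.yW.length = 26) (B : ℕ) :
    TsuAW 26 26 (C.mult * C.n) B tsuHW (C.Xa B) C.Wfull := by
  refine ⟨fun i j => tsuPack (B ^ C.n) (List.ofFn fun m : Fin C.mult =>
    tsuPack B (List.ofFn fun a : Fin C.n => C.dW i j m a)), ?_, fun i j => ?_⟩
  · unfold Xa
    rw [C.Wd_eq hW, tsuMap_ofFn]
    refine congrArg List.ofFn (funext fun i => ?_)
    rw [tsuMap_ofFn]
    refine congrArg List.ofFn (funext fun j => ?_)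
    rw [tsuMap_ofFn]; rfl
  · exact TsuPV.concat (x := fun m a => C.W m (i, j) a) fun m =>
      TsuPV.of_digits _ (fun a => by simp [W]) (fun a => C.W_abs m _ a)

/-- the array of packed rows of `(W_m N)_m`, `N` given as a biased list with bias `h`. -/
noncomputable def rhs (B h : ℕ) (Nl : List (List ℕ)) : List (List ℕ) :=
  (fun E => (fun pk => tsuMap (tsuMap (fun rows => tsuPack (Nat.pow B C.n)
      (tsuMap (fun row => tsuBdot tsuHW (Nat.mul (Nat.mul 2 (Nat.mul (Nat.mul C.n tsuHW) h)) E)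
        (Nat.mul h E) row pk 0 0 0) rows))) C.Wd)
    (tsuMap (tsuPack B) Nl)) (tsuOnes B C.n)

theorem rhs_spec (hW : C.yW.length = 26) (B h : ℕ) {Nl : List (List ℕ)}
    {N : Matrix (Fin C.n) (Fin C.n) ℤ} (hN : TsuBM C.n C.n h Nl N) :
    TsuAW 26 26 (C.mult * C.n) B (C.n * tsuHW * h) (C.rhs B h Nl)
      (fun p l => (C.W (finProdFinEquiv.symm l).1 * N) p (finProdFinEquiv.symm l).2) := by
  obtain ⟨e, rfl, he⟩ := hN
  refine ⟨fun i j => tsuPack (B ^ C.n) (List.ofFn fun m : Fin C.mult =>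
    tsuBdot tsuHW (2 * (C.n * tsuHW * h) * tsuOnes B C.n) (h * tsuOnes B C.n)
      (List.ofFn fun a : Fin C.n => C.dW i j m a)
      (List.ofFn fun k : Fin C.n => tsuPack B (List.ofFn (e k))) 0 0 0), ?_, fun i j => ?_⟩
  · unfold rhs
    show tsuMap (tsuMap (fun rows => tsuPack (B ^ C.n)
      (tsuMap (fun row => tsuBdot tsuHW (2 * (C.n * tsuHW * h) * tsuOnes B C.n)
        (h * tsuOnes B C.n) row (tsuMap (tsuPack B) (List.ofFn fun i => List.ofFn (e i))) 0 0 0)
        rows))) C.Wd = _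
    rw [C.Wd_eq hW, tsuMap_ofFn, tsuMap_ofFn]
    refine congrArg List.ofFn (funext fun i => ?_)
    rw [tsuMap_ofFn]
    refine congrArg List.ofFn (funext fun j => ?_)
    rw [tsuMap_ofFn]
  · refine TsuPV.concat (x := fun m a => (C.W m * N) (i, j) a) fun m => ?_
    have := TsuPV.bdot (q := C.n) (B := B) (H := h) (h := tsuHW) (p := C.n)
      (c := fun a : Fin C.n => C.dW i j m a)
      (X := fun k : Fin C.n => tsuPack B (List.ofFn (e k)))
      (a := fun a => C.W m (i, j) a) (x := fun k l => N k l)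
      (fun a => by simp [W]) (fun a => C.W_abs m _ a)
      (fun k => TsuPV.of_digits (e k) (fun l => (he k l).1) (fun l => (he k l).2))
    have e2 : (fun a => (C.W m * N) (i, j) a) = fun l => ∑ k, C.W m (i, j) k * N k l := by
      funext a; rw [Matrix.mul_apply]
    rw [e2]; exact this

theorem mul_Wfull (M : Matrix (Fin 26 × Fin 26) (Fin 26 × Fin 26) ℤ) (m : Fin C.mult) (p a) :
    (M * C.Wfull) p (finProdFinEquiv (m, a)) = (M * C.W m) p a := by
  simp [Matrix.mul_apply, Wfull]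

/-- from the identity for all copies side by side to the single copies. -/
theorem intertwine {M : Matrix (Fin 26 × Fin 26) (Fin 26 × Fin 26) ℤ}
    {N : Matrix (Fin C.n) (Fin C.n) ℤ}
    (h : M * C.Wfull = fun p l => (C.W (finProdFinEquiv.symm l).1 * N) p
      (finProdFinEquiv.symm l).2) (m : Fin C.mult) : M * C.W m = C.W m * N := by
  funext p a
  rw [← C.mul_Wfull M m p a, h]
  simp

/-- left-inverse check, list level, copy `m`. -/
noncomputable def h2lhs (B m : ℕ) : List ℕ :=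
  (fun E => (fun Xm => tsuMap (fun Pa => tsuFrob tsuHV
        (Nat.mul (Nat.mul 2 (Nat.mul (Nat.mul 26 tsuHV) tsuHW)) E) (Nat.mul tsuHW E) Pa Xm 0)
      (C.Vd.getD m []))
    (tsuMap (tsuMap (fun rows => tsuPack B (rows.getD m []))) C.Wd)) (tsuOnes B C.n)

/-- expected value of `h2lhs`. -/
noncomputable def h2rhs (B : ℕ) : List ℕ :=
  tsuMap (fun a => Nat.add (Nat.mul (26 * (26 * tsuHV * tsuHW)) (tsuOnes B C.n))
    (Nat.mul tsuC (Nat.pow B a))) (List.range C.n)

theorem tsu_range_eq (n : ℕ) : List.range n = List.ofFn (fun i : Fin n => (i : ℕ)) := by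
  rw [List.ofFn_eq_map, List.map_coe_finRange_eq_range]

theorem h2_spec (hW : C.yW.length = 26) (hV : C.yV.length = C.mult) (B : ℕ)
    (hB : 2 * (26 * (26 * tsuHV * tsuHW)) < B) (m : Fin C.mult)
    (h : C.h2lhs B m = C.h2rhs B) : C.V m * C.W m = (tsuC : ℤ) • 1 := by
  have e1 : C.h2lhs B m = List.ofFn fun a : Fin C.n => ∑ i : Fin 26,
      tsuBdot tsuHV (2 * (26 * tsuHV * tsuHW) * tsuOnes B C.n) (tsuHW * tsuOnes B C.n)
        (List.ofFn fun j : Fin 26 => C.dV m a i j)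
        (List.ofFn fun j : Fin 26 => tsuPack B (List.ofFn fun a' : Fin C.n => C.dW i j m a'))
        0 0 0 := by
    unfold h2lhs
    show tsuMap (fun Pa => tsuFrob tsuHV (2 * (26 * tsuHV * tsuHW) * tsuOnes B C.n)
      (tsuHW * tsuOnes B C.n) Pa
      (tsuMap (tsuMap (fun rows => tsuPack B (rows.getD m []))) C.Wd) 0) (C.Vd.getD m []) = _
    rw [C.Wd_eq hW, C.Vd_eq hV, tsu_getD_ofFn, tsuMap_ofFn, tsuMap_ofFn]
    refine congrArg List.ofFn (funext fun a => ?_)
    have : (fun i : Fin 26 => tsuMap (fun rows : List (List ℕ) => tsuPack B (rows.getD m []))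
        (List.ofFn fun j : Fin 26 => List.ofFn fun m : Fin C.mult =>
          List.ofFn fun a : Fin C.n => C.dW i j m a))
        = fun i : Fin 26 => List.ofFn fun j : Fin 26 =>
          tsuPack B (List.ofFn fun a' : Fin C.n => C.dW i j m a') := by
      funext i
      rw [tsuMap_ofFn]
      refine congrArg List.ofFn (funext fun j => ?_)
      rw [tsu_getD_ofFn]
    rw [this, tsuFrob_ofFn, Nat.zero_add]
  have e2 : C.h2rhs B = List.ofFn fun a : Fin C.n =>
      26 * (26 * tsuHV * tsuHW) * tsuOnes B C.n + tsuC * B ^ (a : ℕ) := by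
    unfold h2rhs
    rw [tsu_range_eq, tsuMap_ofFn]
    refine congrArg List.ofFn (funext fun a => ?_)
    simp only [Nat.add_eq, Nat.mul_eq, Nat.pow_eq]
  rw [e1, e2] at h
  have h' := List.ofFn_injective h
  funext a
  have p1 : TsuPV C.n B (26 * (26 * tsuHV * tsuHW)) _ (fun l => ∑ i : Fin 26, ∑ j : Fin 26,
      C.V m a (i, j) * C.W m (i, j) l) :=
    TsuPV.sum fun i : Fin 26 => TsuPV.bdot (q := C.n) (B := B) (H := tsuHW) (h := tsuHV) (p := 26)
      (c := fun j : Fin 26 => C.dV m a i j)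
      (X := fun j : Fin 26 => tsuPack B (List.ofFn fun a' : Fin C.n => C.dW i j m a'))
      (a := fun j => C.V m a (i, j)) (x := fun j l => C.W m (i, j) l)
      (fun j => by simp [V]) (fun j => C.V_abs m a _)
      (fun j => TsuPV.of_digits _ (fun l => by simp [W]) (fun l => C.W_abs m _ l))
  have p2 := TsuPV.single (q := C.n) (B := B) (H := 26 * (26 * tsuHV * tsuHW)) tsuC
    (by norm_num [tsuC, tsuHV, tsuHW]) a
  rw [← congrFun h' a] at p2
  have := p1.inj p2 hB
  funext l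
  have hl := congrFun this l
  rw [Matrix.mul_apply, Fintype.sum_prod_type, hl]
  simp [Matrix.one_apply, eq_comm]

/-- the array of packed rows of `∑_m W_m V_m`. -/
noncomputable def piA (B : ℕ) : List (List ℕ) :=
  (fun E => (fun pkV => tsuMap (tsuMap (fun rows => tsuFrob tsuHW
        (Nat.mul (Nat.mul 2 (Nat.mul (Nat.mul C.n tsuHW) tsuHV)) E) (Nat.mul tsuHV E) rows pkV 0))
      C.Wd)
    (tsuMap (tsuMap (fun rows => tsuPack (Nat.pow B 26) (tsuMap (tsuPack B) rows))) C.Vd))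
    (tsuOnes B (26 * 26))

/-- the partial resolution of the identity of the class. -/
def Pi : Matrix (Fin 26 × Fin 26) (Fin 26 × Fin 26) ℤ := ∑ m, C.W m * C.V m

theorem piA_spec (hW : C.yW.length = 26) (hV : C.yV.length = C.mult) (B : ℕ) :
    TsuAW 26 26 (26 * 26) B (C.mult * (C.n * tsuHW * tsuHV)) (C.piA B)
      (fun p l => C.Pi p (finProdFinEquiv.symm l)) := by
  refine ⟨fun i j => ∑ m : Fin C.mult, tsuBdot tsuHW
    (2 * (C.n * tsuHW * tsuHV) * tsuOnes B (26 * 26)) (tsuHV * tsuOnes B (26 * 26))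
    (List.ofFn fun a : Fin C.n => C.dW i j m a)
    (List.ofFn fun a : Fin C.n => tsuPack (B ^ 26) (List.ofFn fun i' : Fin 26 =>
      tsuPack B (List.ofFn fun j' : Fin 26 => C.dV m a i' j'))) 0 0 0, ?_, fun i j => ?_⟩
  · unfold piA
    show tsuMap (tsuMap (fun rows => tsuFrob tsuHW
      (2 * (C.n * tsuHW * tsuHV) * tsuOnes B (26 * 26)) (tsuHV * tsuOnes B (26 * 26)) rows
      (tsuMap (tsuMap (fun rows => tsuPack (B ^ 26) (tsuMap (tsuPack B) rows))) C.Vd) 0)) C.Wd = _
    have eV : tsuMap (tsuMap (fun rows => tsuPack (B ^ 26) (tsuMap (tsuPack B) rows))) C.Vd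
        = List.ofFn fun m : Fin C.mult => List.ofFn fun a : Fin C.n =>
          tsuPack (B ^ 26) (List.ofFn fun i' : Fin 26 =>
            tsuPack B (List.ofFn fun j' : Fin 26 => C.dV m a i' j')) := by
      rw [C.Vd_eq hV, tsuMap_ofFn]
      refine congrArg List.ofFn (funext fun m => ?_)
      rw [tsuMap_ofFn]
      refine congrArg List.ofFn (funext fun a => ?_)
      rw [tsuMap_ofFn]
    rw [eV, C.Wd_eq hW, tsuMap_ofFn]
    refine congrArg List.ofFn (funext fun i => ?_)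
    rw [tsuMap_ofFn]
    refine congrArg List.ofFn (funext fun j => ?_)
    rw [tsuFrob_ofFn, Nat.zero_add]
  · have := TsuPV.sum (q := 26 * 26) (B := B) (H := C.n * tsuHW * tsuHV) (r := C.mult)
      (x := fun m l => ∑ a, C.W m (i, j) a * C.V m a (finProdFinEquiv.symm l))
      fun m : Fin C.mult => TsuPV.bdot (q := 26 * 26) (B := B) (H := tsuHV) (h := tsuHW) (p := C.n)
      (c := fun a : Fin C.n => C.dW i j m a)
      (X := fun a : Fin C.n => tsuPack (B ^ 26) (List.ofFn fun i' : Fin 26 =>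
        tsuPack B (List.ofFn fun j' : Fin 26 => C.dV m a i' j')))
      (a := fun a => C.W m (i, j) a) (x := fun a l => C.V m a (finProdFinEquiv.symm l))
      (fun a => by simp [W]) (fun a => C.W_abs m _ a)
      (fun a => TsuPV.concat (x := fun i' j' => C.V m a (i', j')) fun i' =>
        TsuPV.of_digits _ (fun j' => by simp [V]) (fun j' => C.V_abs m a _))
    convert this using 1
    funext l
    simp [Pi, Matrix.sum_apply, Matrix.mul_apply]

/-- trace reduction for one class. -/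
theorem trace_mul_Pi {X : Matrix (Fin 26 × Fin 26) (Fin 26 × Fin 26) ℤ}
    {XJ : Matrix (Fin C.n) (Fin C.n) ℤ} (hX : ∀ m, X * C.W m = C.W m * XJ)
    (h2 : ∀ m, C.V m * C.W m = (tsuC : ℤ) • 1) :
    (X * C.Pi).trace = C.mult * tsuC * XJ.trace := by
  unfold Pi
  rw [Finset.mul_sum, Matrix.trace_sum]
  have : ∀ m ∈ (Finset.univ : Finset (Fin C.mult)), (X * (C.W m * C.V m)).trace
      = tsuC * XJ.trace := fun m _ => by
    rw [← Matrix.mul_assoc, hX m, Matrix.mul_assoc, Matrix.trace_mul_comm, Matrix.mul_assoc, h2 m,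
      Matrix.mul_smul, Matrix.mul_one, Matrix.trace_smul, smul_eq_mul]
  rw [Finset.sum_congr rfl this]
  simp [mul_assoc]

theorem intertwine_mul {X Y : Matrix (Fin 26 × Fin 26) (Fin 26 × Fin 26) ℤ}
    {XJ YJ : Matrix (Fin C.n) (Fin C.n) ℤ} (hX : ∀ m, X * C.W m = C.W m * XJ)
    (hY : ∀ m, Y * C.W m = C.W m * YJ) (m) : (X * Y) * C.W m = C.W m * (XJ * YJ) := by
  rw [Matrix.mul_assoc, hY m, ← Matrix.mul_assoc, hX m, Matrix.mul_assoc]

theorem intertwine_pow {X : Matrix (Fin 26 × Fin 26) (Fin 26 × Fin 26) ℤ}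
    {XJ : Matrix (Fin C.n) (Fin C.n) ℤ} (hX : ∀ m, X * C.W m = C.W m * XJ) (k : ℕ) (m) :
    X ^ k * C.W m = C.W m * XJ ^ k := by
  induction k with
  | zero => simp
  | succ k ih =>
    rw [pow_succ, pow_succ, Matrix.mul_assoc, hX m, ← Matrix.mul_assoc, ih, Matrix.mul_assoc]

end TsuClass

end Claimed.Agent.R297
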