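/-
Row 297, package E, SU(2)-reduced certificate.  The two-layer operators `trnT`, `trnO` on arrays
of packed vectors, the completeness check, and the master trace formula.
Owner: helper186.  Prefix `tsu`.
-/
import Claimed.Agent.R297.TrialSURed
import Claimed.Agent.R297.TrialDefs

namespace Claimed.Agent.R297

open Finset Matrix
open scoped Kronecker

/-- bias after one Kronecker action by matrices of bias `tsuHA`. -/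
def tsuB1 (H : ℕ) : ℕ := 26 * tsuHA * (26 * tsuHA * H)

/-- `X ↦ (P ⊗ Q) X`. -/
noncomputable def tsuAct (E : ℕ) (P Q : List (List ℕ)) (H : ℕ) (X : List (List ℕ)) :
    List (List ℕ) :=
  tsuMulT 26 tsuHA E P (26 * tsuHA * H) (tsuMulT 26 tsuHA E Q H X)

theorem TsuAW.act' {q B H : ℕ} {P Q : List (List ℕ)} {MP MQ : Matrix (Fin 26) (Fin 26) ℤ}
    {L : List (List ℕ)} {W : Matrix (Fin 26 × Fin 26) (Fin q) ℤ}
    (hP : TsuBM 26 26 tsuHA P MP) (hQ : TsuBM 26 26 tsuHA Q MQ) (hL : TsuAW 26 26 q B H L W) :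
    TsuAW 26 26 q B (tsuB1 H) (tsuAct (tsuOnes B q) P Q H L) ((MP ⊗ₖ MQ) * W) :=
  TsuAW.act hP hQ hL

/-- list-level `trnT * X`. -/
noncomputable def tsuLhsT (E : ℕ) (A0 A1 A2 : List (List ℕ)) (H : ℕ) (X : List (List ℕ)) :
    List (List ℕ) :=
  tsuAddA (tsuAct E A0 A0 H X) (tsuAddA (tsuAct E A1 A1 H X) (tsuAct E A2 A2 H X))

/-- bias of `tsuLhsT`. -/
def tsuHLT (H : ℕ) : ℕ := tsuB1 H + (tsuB1 H + tsuB1 H)

theorem TsuAW.lhsT {q B H : ℕ} {A0 A1 A2 : List (List ℕ)}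
    (h0 : TsuBM 26 26 tsuHA A0 (trnA 0)) (h1 : TsuBM 26 26 tsuHA A1 (trnA 1))
    (h2 : TsuBM 26 26 tsuHA A2 (trnA 2))
    {L : List (List ℕ)} {W : Matrix (Fin 26 × Fin 26) (Fin q) ℤ} (hL : TsuAW 26 26 q B H L W) :
    TsuAW 26 26 q B (tsuHLT H) (tsuLhsT (tsuOnes B q) A0 A1 A2 H L) (trnT * W) := by
  have := (hL.act' h0 h0).add ((hL.act' h1 h1).add (hL.act' h2 h2))
  have e : trnT * W = (trnA 0 ⊗ₖ trnA 0) * W + ((trnA 1 ⊗ₖ trnA 1) * W + (trnA 2 ⊗ₖ trnA 2) * W) := by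
    rw [trnT, Fin.sum_univ_three, Matrix.add_mul, Matrix.add_mul, add_assoc]
  rw [e]; exact this

/-- list-level `trnO * X` (`An` = biased list of `-A₂`). -/
noncomputable def tsuLhsO (E : ℕ) (A0 A1 A2 An : List (List ℕ)) (H : ℕ) (X : List (List ℕ)) :
    List (List ℕ) :=
  (fun Cc D D' => (fun H2 =>
    tsuAddA (tsuAct E A0 A0 H2 Cc) (tsuAddA (tsuAct E A0 A1 H2 D) (tsuAddA (tsuAct E A1 A2 H2 D)
      (tsuAddA (tsuAct E A1 A0 H2 D') (tsuAddA (tsuAct E A2 A1 H2 D') (tsuAct E A2 An H2 Cc))))))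
    (tsuB1 H + tsuB1 H))
  (tsuAddA (tsuAct E A0 A0 H X) (tsuAct E An A2 H X))
  (tsuAddA (tsuAct E A1 A0 H X) (tsuAct E A2 A1 H X))
  (tsuAddA (tsuAct E A0 A1 H X) (tsuAct E A1 A2 H X))

/-- bias of `tsuLhsO`. -/
def tsuHLO (H : ℕ) : ℕ :=
  tsuB1 (tsuB1 H + tsuB1 H) + (tsuB1 (tsuB1 H + tsuB1 H) + (tsuB1 (tsuB1 H + tsuB1 H) +
    (tsuB1 (tsuB1 H + tsuB1 H) + (tsuB1 (tsuB1 H + tsuB1 H) + tsuB1 (tsuB1 H + tsuB1 H)))))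

theorem tsu_trnO_eq : trnO =
    (trnA 0 ⊗ₖ trnA 0) * ((trnA 0 ⊗ₖ trnA 0) + ((-trnA 2) ⊗ₖ trnA 2)) +
    ((trnA 0 ⊗ₖ trnA 1) * ((trnA 1 ⊗ₖ trnA 0) + (trnA 2 ⊗ₖ trnA 1)) +
    ((trnA 1 ⊗ₖ trnA 2) * ((trnA 1 ⊗ₖ trnA 0) + (trnA 2 ⊗ₖ trnA 1)) +
    ((trnA 1 ⊗ₖ trnA 0) * ((trnA 0 ⊗ₖ trnA 1) + (trnA 1 ⊗ₖ trnA 2)) +
    ((trnA 2 ⊗ₖ trnA 1) * ((trnA 0 ⊗ₖ trnA 1) + (trnA 1 ⊗ₖ trnA 2)) +
    (trnA 2 ⊗ₖ (-trnA 2)) * ((trnA 0 ⊗ₖ trnA 0) + ((-trnA 2) ⊗ₖ trnA 2)))))) := by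
  have hn1 : ∀ X Y : Matrix (Fin 26) (Fin 26) ℤ, (-X) ⊗ₖ Y = -(X ⊗ₖ Y) := fun X Y => by
    ext ⟨a, b⟩ ⟨c, d⟩; simp [kronecker_apply]
  have hn2 : ∀ X Y : Matrix (Fin 26) (Fin 26) ℤ, X ⊗ₖ (-Y) = -(X ⊗ₖ Y) := fun X Y => by
    ext ⟨a, b⟩ ⟨c, d⟩; simp [kronecker_apply]
  simp only [trnO, trnIns, Matrix.mul_kronecker_mul, hn1, hn2]
  simp only [Fin.sum_univ_three]
  simp [trnBond]
  noncomm_ring

theorem TsuAW.lhsO {q B H : ℕ} {A0 A1 A2 An : List (List ℕ)}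
    (h0 : TsuBM 26 26 tsuHA A0 (trnA 0)) (h1 : TsuBM 26 26 tsuHA A1 (trnA 1))
    (h2 : TsuBM 26 26 tsuHA A2 (trnA 2)) (hn : TsuBM 26 26 tsuHA An (-trnA 2))
    {L : List (List ℕ)} {W : Matrix (Fin 26 × Fin 26) (Fin q) ℤ} (hL : TsuAW 26 26 q B H L W) :
    TsuAW 26 26 q B (tsuHLO H) (tsuLhsO (tsuOnes B q) A0 A1 A2 An H L) (trnO * W) := by
  have hC := (hL.act' h0 h0).add (hL.act' hn h2)
  have hD := (hL.act' h1 h0).add (hL.act' h2 h1)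
  have hD' := (hL.act' h0 h1).add (hL.act' h1 h2)
  have := (hC.act' h0 h0).add ((hD.act' h0 h1).add ((hD.act' h1 h2).add ((hD'.act' h1 h0).add
    ((hD'.act' h2 h1).add (hC.act' h2 hn)))))
  have e : trnO * W =
      (trnA 0 ⊗ₖ trnA 0) * ((trnA 0 ⊗ₖ trnA 0) * W + ((-trnA 2) ⊗ₖ trnA 2) * W) +
      ((trnA 0 ⊗ₖ trnA 1) * ((trnA 1 ⊗ₖ trnA 0) * W + (trnA 2 ⊗ₖ trnA 1) * W) +
      ((trnA 1 ⊗ₖ trnA 2) * ((trnA 1 ⊗ₖ trnA 0) * W + (trnA 2 ⊗ₖ trnA 1) * W) +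
      ((trnA 1 ⊗ₖ trnA 0) * ((trnA 0 ⊗ₖ trnA 1) * W + (trnA 1 ⊗ₖ trnA 2) * W) +
      ((trnA 2 ⊗ₖ trnA 1) * ((trnA 0 ⊗ₖ trnA 1) * W + (trnA 1 ⊗ₖ trnA 2) * W) +
      (trnA 2 ⊗ₖ (-trnA 2)) * ((trnA 0 ⊗ₖ trnA 0) * W + ((-trnA 2) ⊗ₖ trnA 2) * W))))) := by
    rw [tsu_trnO_eq]
    simp only [Matrix.add_mul, Matrix.mul_assoc]
  rw [e]
  exact this

/-- the array of the packed rows of `c • 1`. -/
noncomputable def tsuIdA (B H : ℕ) : List (List ℕ) :=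
  tsuMap (fun i => tsuMap (fun j => Nat.add (Nat.mul H (tsuOnes B (26 * 26)))
    (Nat.mul tsuC (Nat.pow B (j + 26 * i)))) (List.range 26)) (List.range 26)

theorem tsuIdA_spec (B H : ℕ) (hH : tsuC ≤ H) :
    TsuAW 26 26 (26 * 26) B H (tsuIdA B H)
      (fun p l => if l = finProdFinEquiv p then (tsuC : ℤ) else 0) := by
  refine ⟨fun i j => H * tsuOnes B (26 * 26) + tsuC * B ^ ((finProdFinEquiv (i, j) : Fin (26 * 26)) : ℕ),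
    ?_, fun i j => TsuPV.single tsuC hH _⟩
  unfold tsuIdA
  rw [TsuClass.tsu_range_eq, tsuMap_ofFn]
  refine congrArg List.ofFn (funext fun i => ?_)
  rw [tsuMap_ofFn]
  refine congrArg List.ofFn (funext fun j => ?_)
  simp only [Nat.add_eq, Nat.mul_eq, Nat.pow_eq, finProdFinEquiv_apply_val]

/-- master trace formula for six classes. -/
theorem tsu_master (Cl : Fin 6 → TsuClass)
    (h1 : ∑ J, (Cl J).Pi = (tsuC : ℤ) • 1)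
    (h2 : ∀ J m, (Cl J).V m * (Cl J).W m = (tsuC : ℤ) • 1)
    (X : Matrix (Fin 26 × Fin 26) (Fin 26 × Fin 26) ℤ)
    (XJ : ∀ J, Matrix (Fin (Cl J).n) (Fin (Cl J).n) ℤ)
    (hX : ∀ J m, X * (Cl J).W m = (Cl J).W m * XJ J) :
    X.trace = ∑ J, ((Cl J).mult : ℤ) * (XJ J).trace := by
  have hc : (tsuC : ℤ) ≠ 0 := by norm_num [tsuC]
  apply mul_left_cancel₀ hc
  have : (tsuC : ℤ) * X.trace = (X * ∑ J, (Cl J).Pi).trace := by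
    rw [h1, Matrix.mul_smul, Matrix.mul_one, Matrix.trace_smul, smul_eq_mul]
  rw [this, Finset.mul_sum, Matrix.trace_sum, Finset.mul_sum]
  refine Finset.sum_congr rfl fun J _ => ?_
  rw [(Cl J).trace_mul_Pi (hX J) (h2 J)]; ring

end Claimed.Agent.R297
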