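/-
Row 297, package E, SU(2)-reduced certificate.  A faster list-level implementation of
`tsuMulT` (row operations with zero skipping instead of dot products) and its equality with the
verified one.  Owner: helper186.  Prefix `tsu`.
-/
import Claimed.Agent.R297.TrialSUOps

namespace Claimed.Agent.R297

open Finset Matrix
open scoped Kronecker

/-- `replicate` by a direct recursor. -/
noncomputable def tsuRep {α : Type} (a : α) (w : ℕ) : List α :=
  Nat.rec (motive := fun _ => List α) [] (fun _ ih => a :: ih) w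

theorem tsuRep_eq {α : Type} (a : α) (w : ℕ) : tsuRep a w = List.ofFn (fun _ : Fin w => a) := by
  induction w with
  | zero => simp [tsuRep]
  | succ w ih => rw [List.ofFn_succ, ← ih]; rfl

/-- put the entries of a row in front of the columns. -/
noncomputable def tsuZipCons (row : List ℕ) : List (List ℕ) → List (List ℕ) :=
  List.rec (motive := fun _ => List (List ℕ) → List (List ℕ)) (fun _ => [])
    (fun a _ ih cols => List.rec (motive := fun _ => List (List ℕ)) []
      (fun c cols' _ => (a :: c) :: ih cols') cols) row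

theorem tsuZipCons_ofFn {n : ℕ} (f : Fin n → ℕ) (g : Fin n → List ℕ) :
    tsuZipCons (List.ofFn f) (List.ofFn g) = List.ofFn (fun i => f i :: g i) := by
  induction n with
  | zero => simp [tsuZipCons]
  | succ n ih =>
    rw [List.ofFn_succ, List.ofFn_succ, List.ofFn_succ]
    exact congrArg (_ :: ·) (ih _ _)

/-- transpose of a list of rows of width `w`. -/
noncomputable def tsuTr (w : ℕ) (X : List (List ℕ)) : List (List ℕ) :=
  List.rec (motive := fun _ => List (List ℕ)) (tsuRep [] w) (fun row _ ih => tsuZipCons row ih) X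

theorem tsuTr_ofFn {r c : ℕ} (x : Fin r → Fin c → ℕ) :
    tsuTr c (List.ofFn fun k => List.ofFn (x k)) = List.ofFn fun l => List.ofFn fun k => x k l := by
  induction r with
  | zero => simp [tsuTr, tsuRep_eq]
  | succ r ih =>
    rw [List.ofFn_succ]
    have : tsuTr c (List.ofFn (x 0) :: List.ofFn fun k : Fin r => List.ofFn (x k.succ))
        = tsuZipCons (List.ofFn (x 0)) (tsuTr c (List.ofFn fun k : Fin r => List.ofFn (x k.succ))) :=
      rfl
    rw [this, ih fun k => x k.succ, tsuZipCons_ofFn]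
    refine congrArg List.ofFn (funext fun l => ?_)
    rw [List.ofFn_succ]

/-- entrywise `acc + c * z`. -/
noncomputable def tsuAxpy (c : ℕ) (z : List ℕ) : List ℕ → List ℕ :=
  List.rec (motive := fun _ => List ℕ → List ℕ) (fun _ => [])
    (fun y _ ih acc => List.rec (motive := fun _ => List ℕ) []
      (fun a acc' _ => Nat.add a (Nat.mul c y) :: ih acc') acc) z

theorem tsuAxpy_ofFn (c : ℕ) {n : ℕ} (z a : Fin n → ℕ) :
    tsuAxpy c (List.ofFn z) (List.ofFn a) = List.ofFn (fun j => a j + c * z j) := by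
  induction n with
  | zero => simp [tsuAxpy]
  | succ n ih =>
    rw [List.ofFn_succ, List.ofFn_succ, List.ofFn_succ]
    exact congrArg (_ :: ·) (ih _ _)

/-- one row of the product: accumulators for the positive and the negative coefficients. -/
noncomputable def tsuRowL (h : ℕ) (cs : List ℕ) :
    List (List ℕ) → List ℕ → List ℕ → ℕ → List ℕ × List ℕ × ℕ :=
  List.rec (motive := fun _ => List (List ℕ) → List ℕ → List ℕ → ℕ → List ℕ × List ℕ × ℕ)
    (fun _ p m s => (p, m, s))
    (fun c _ ih Z p m s => List.rec (motive := fun _ => List ℕ × List ℕ × ℕ) (p, m, s)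
      (fun z Z' _ => Bool.rec (motive := fun _ => List ℕ × List ℕ × ℕ)
        (Bool.rec (motive := fun _ => List ℕ × List ℕ × ℕ)
          (ih Z' p (tsuAxpy (Nat.sub h c) z m) (Nat.add s c))
          (ih Z' (tsuAxpy (Nat.sub c h) z p) m (Nat.add s c)) (Nat.ble h c))
        (ih Z' p m (Nat.add s c)) (Nat.beq c h)) Z) cs

theorem tsuRowL_ofFn (h : ℕ) {p w : ℕ} (c : Fin p → ℕ) (z : Fin p → Fin w → ℕ)
    (a b : Fin w → ℕ) (s : ℕ) :
    tsuRowL h (List.ofFn c) (List.ofFn fun k => List.ofFn (z k)) (List.ofFn a) (List.ofFn b) s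
      = (List.ofFn fun j => a j + ∑ k, (c k - h) * z k j,
         List.ofFn fun j => b j + ∑ k, (h - c k) * z k j, s + ∑ k, c k) := by
  induction p generalizing a b s with
  | zero => simp [tsuRowL]
  | succ p ih =>
    rw [List.ofFn_succ, List.ofFn_succ]
    have step : tsuRowL h (c 0 :: List.ofFn fun k : Fin p => c k.succ)
        (List.ofFn (z 0) :: List.ofFn fun k : Fin p => List.ofFn (z k.succ))
        (List.ofFn a) (List.ofFn b) s
        = tsuRowL h (List.ofFn fun k : Fin p => c k.succ)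
          (List.ofFn fun k : Fin p => List.ofFn (z k.succ))
          (List.ofFn fun j => a j + (c 0 - h) * z 0 j) (List.ofFn fun j => b j + (h - c 0) * z 0 j)
          (s + c 0) := by
      show Bool.rec (motive := fun _ => List ℕ × List ℕ × ℕ) _ _ (Nat.beq (c 0) h) = _
      by_cases h0 : c 0 = h
      · have hb : Nat.beq (c 0) h = true := by rw [h0]; simp
        rw [hb]
        simp only [h0, Nat.sub_self, Nat.zero_mul, Nat.add_zero]
        rfl
      · have hb : Nat.beq (c 0) h = false := by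
          cases hbb : Nat.beq (c 0) h with
          | false => rfl
          | true => exact absurd (Nat.eq_of_beq_eq_true hbb) h0
        rw [hb]
        show Bool.rec (motive := fun _ => List ℕ × List ℕ × ℕ) _ _ (Nat.ble h (c 0)) = _
        by_cases h1 : h ≤ c 0
        · have hb' : Nat.ble h (c 0) = true := Nat.ble_eq_true_of_le h1
          rw [hb']
          have e0 : h - c 0 = 0 := Nat.sub_eq_zero_of_le h1
          simp only [e0, Nat.zero_mul, Nat.add_zero]
          show tsuRowL h _ _ (tsuAxpy (c 0 - h) (List.ofFn (z 0)) (List.ofFn a)) _ _ = _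
          rw [tsuAxpy_ofFn]; rfl
        · have hb' : Nat.ble h (c 0) = false := by
            cases hbb : Nat.ble h (c 0) with
            | false => rfl
            | true => exact absurd (Nat.le_of_ble_eq_true hbb) h1
          rw [hb']
          have e0 : c 0 - h = 0 := Nat.sub_eq_zero_of_le (by omega)
          simp only [e0, Nat.zero_mul, Nat.add_zero]
          show tsuRowL h _ _ _ (tsuAxpy (h - c 0) (List.ofFn (z 0)) (List.ofFn b)) _ = _
          rw [tsuAxpy_ofFn]; rfl
    rw [step, ih]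
    simp only [Fin.sum_univ_succ, add_assoc]

/-- entrywise `(a + K1) - (b + K)`. -/
noncomputable def tsuSubL (K1 K : ℕ) (p : List ℕ) : List ℕ → List ℕ :=
  List.rec (motive := fun _ => List ℕ → List ℕ) (fun _ => [])
    (fun a _ ih m => List.rec (motive := fun _ => List ℕ) []
      (fun b m' _ => Nat.sub (Nat.add a K1) (Nat.add b K) :: ih m') m) p

theorem tsuSubL_ofFn (K1 K : ℕ) {n : ℕ} (a b : Fin n → ℕ) :
    tsuSubL K1 K (List.ofFn a) (List.ofFn b) = List.ofFn (fun j => (a j + K1) - (b j + K)) := by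
  induction n with
  | zero => simp [tsuSubL]
  | succ n ih =>
    rw [List.ofFn_succ, List.ofFn_succ, List.ofFn_succ]
    exact congrArg (_ :: ·) (ih _ _)

/-- `(P, Z) ↦ P Z` on arrays of packed vectors (`w` = width of `Z`). -/
noncomputable def tsuMulL (w h K1 K3 : ℕ) (P Z : List (List ℕ)) : List (List ℕ) :=
  (fun zero => tsuMap (fun pr => (fun r : List ℕ × List ℕ × ℕ =>
      tsuSubL K1 (Nat.mul K3 r.2.2) r.1 r.2.1) (tsuRowL h pr Z zero zero 0)) P) (tsuRep 0 w)

theorem tsuMulL_ofFn (h K1 K3 : ℕ) {r' r c : ℕ} (d : Fin r' → Fin c → ℕ) (X : Fin r → Fin c → ℕ) :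
    tsuMulL r h K1 K3 (List.ofFn fun i => List.ofFn (d i))
        (tsuTr c (List.ofFn fun j => List.ofFn (X j)))
      = List.ofFn fun i => List.ofFn fun j =>
          tsuBdot h K1 K3 (List.ofFn (d i)) (List.ofFn (X j)) 0 0 0 := by
  unfold tsuMulL
  rw [tsuTr_ofFn, tsuRep_eq]
  show tsuMap (fun pr => (fun r : List ℕ × List ℕ × ℕ => tsuSubL K1 (K3 * r.2.2) r.1 r.2.1)
    (tsuRowL h pr (List.ofFn fun l => List.ofFn fun k => X k l) (List.ofFn fun _ : Fin r => 0)
      (List.ofFn fun _ : Fin r => 0) 0)) (List.ofFn fun i => List.ofFn (d i)) = _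
  rw [tsuMap_ofFn]
  refine congrArg List.ofFn (funext fun i => ?_)
  rw [tsuRowL_ofFn]
  show tsuSubL K1 (K3 * (0 + ∑ k, d i k)) _ _ = _
  rw [tsuSubL_ofFn]
  refine congrArg List.ofFn (funext fun j => ?_)
  obtain ⟨a', t', h1, h2⟩ := tsuBdot_ofFn h K1 K3 (d i) (X j) 0 0 0
  rw [h1]
  have key : ((0 + ∑ k, (d i k - h) * X j k : ℕ) : ℤ) - ((0 + ∑ k, (h - d i k) * X j k : ℕ) : ℤ)
      = ∑ k, ((d i k : ℤ) - h) * X j k := by
    push_cast
    rw [zero_add, zero_add, ← Finset.sum_sub_distrib]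
    refine Finset.sum_congr rfl fun k _ => ?_
    rcases le_total h (d i k) with hk | hk
    · rw [Nat.cast_sub hk, Nat.sub_eq_zero_of_le hk]; simp
    · rw [Nat.cast_sub hk, Nat.sub_eq_zero_of_le hk]; simp; ring
  have h2' : (a' : ℤ) - ((h * t' : ℕ) : ℤ) = ∑ k, ((d i k : ℤ) - h) * X j k := by
    push_cast; rw [h2]; simp
  generalize (0 + ∑ k, (d i k - h) * X j k) = u at key ⊢
  generalize (0 + ∑ k, (h - d i k) * X j k) = v at key ⊢
  generalize K3 * (0 + ∑ k, d i k) = K at *
  generalize h * t' = y at *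
  have : (u : ℤ) - v = a' - y := by rw [key, ← h2']
  omega

/-- fast version of `tsuMulT` for arrays with `r` rows. -/
noncomputable def tsuMulF (r p h E : ℕ) (P : List (List ℕ)) (H : ℕ) (X : List (List ℕ)) :
    List (List ℕ) :=
  tsuMulL r h (Nat.mul (Nat.mul 2 (Nat.mul (Nat.mul p h) H)) E) (Nat.mul H E) P (tsuTr p X)

theorem TsuAW.mulF {r c r' q B H h : ℕ} {P : List (List ℕ)} {M : Matrix (Fin r') (Fin c) ℤ}
    {L : List (List ℕ)} {W : Matrix (Fin r × Fin c) (Fin q) ℤ}
    (hP : TsuBM r' c h P M) (hL : TsuAW r c q B H L W) :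
    TsuAW r' r q B (c * h * H) (tsuMulF r c h (tsuOnes B q) P H L)
      (fun p l => ∑ k, M p.1 k * W (p.2, k) l) := by
  obtain ⟨d, rfl, hd⟩ := hP
  obtain ⟨X, rfl, hX⟩ := hL
  refine ⟨fun i j => tsuBdot h (2 * (c * h * H) * tsuOnes B q) (H * tsuOnes B q)
    (List.ofFn (d i)) (List.ofFn (X j)) 0 0 0, ?_, fun i j => ?_⟩
  · unfold tsuMulF
    exact tsuMulL_ofFn _ _ _ d X
  · exact TsuPV.bdot (fun k => (hd i k).1) (fun k => (hd i k).2) (fun k => hX j k)

/-- fast version of `tsuAct`: `X ↦ (P ⊗ Q) X`. -/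
noncomputable def tsuActF (E : ℕ) (P Q : List (List ℕ)) (H : ℕ) (X : List (List ℕ)) :
    List (List ℕ) :=
  tsuMulF 26 26 tsuHA E P (26 * tsuHA * H) (tsuMulF 26 26 tsuHA E Q H X)

theorem TsuAW.actF {q B H : ℕ} {P Q : List (List ℕ)} {MP MQ : Matrix (Fin 26) (Fin 26) ℤ}
    {L : List (List ℕ)} {W : Matrix (Fin 26 × Fin 26) (Fin q) ℤ}
    (hP : TsuBM 26 26 tsuHA P MP) (hQ : TsuBM 26 26 tsuHA Q MQ) (hL : TsuAW 26 26 q B H L W) :
    TsuAW 26 26 q B (tsuB1 H) (tsuActF (tsuOnes B q) P Q H L) ((MP ⊗ₖ MQ) * W) := by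
  have := (hL.mulF hQ).mulF hP
  have e : ((MP ⊗ₖ MQ) * W) = fun p l => ∑ k, MP p.1 k * ∑ k_1, MQ p.2 k_1 * W (k, k_1) l := by
    funext p l
    rw [Matrix.mul_apply, Fintype.sum_prod_type]
    refine Finset.sum_congr rfl fun i _ => ?_
    rw [Finset.mul_sum]
    refine Finset.sum_congr rfl fun k _ => ?_
    obtain ⟨p1, p2⟩ := p
    rw [kronecker_apply]; ring
  rw [e]; exact this

end Claimed.Agent.R297
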