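/-
Row 297, package E, SU(2)-reduced certificate.  Cheaper list-level functions: the all-zero blocks of
the sparse base change are recognised by one comparison (memoisation of one value), and the
two-layer operators use the fast Kronecker action.  All are proved equal / equivalent to the
verified ones.  Owner: helper186.  Prefix `tsu`.
-/
import Claimed.Agent.R297.TrialSUFast

namespace Claimed.Agent.R297

open Finset Matrix
open scoped Kronecker

/-- memoisation of the value at `z0`. -/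
noncomputable def tsuMemo {β : Type} (f : ℕ → β) (z0 : ℕ) : ℕ → β :=
  (fun fz y => Bool.rec (motive := fun _ => β) (f y) fz (Nat.beq y z0)) (f z0)

theorem tsuMemo_eq {β : Type} (f : ℕ → β) (z0 : ℕ) : tsuMemo f z0 = f := by
  funext y
  show Bool.rec (motive := fun _ => β) (f y) (f z0) (Nat.beq y z0) = f y
  cases h : Nat.beq y z0 with
  | false => rfl
  | true => rw [Nat.eq_of_beq_eq_true h]

theorem tsuMap_tsuMap {α β γ : Type} (f : β → γ) (g : α → β) (l : List α) :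
    tsuMap f (tsuMap g l) = tsuMap (fun x => f (g x)) l := by
  simp only [tsuMap_eq_map, List.map_map]; rfl

/-- `tsuFrob` on undecoded blocks, with the values of the all-zero block given. -/
noncomputable def tsuFrobM (h K1 K3 b n z0 : ℕ) (ybs : List ℕ) :
    List (List ℕ) → List ℕ → ℕ → ℕ :=
  List.rec (motive := fun _ => List (List ℕ) → List ℕ → ℕ → ℕ) (fun _ _ acc => acc)
    (fun yb _ ih Xs zcs acc => List.rec (motive := fun _ => ℕ) acc
      (fun xr Xs' _ => List.rec (motive := fun _ => ℕ) acc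
        (fun zc zcs' _ => ih Xs' zcs' (Nat.add acc (Bool.rec (motive := fun _ => ℕ)
          (tsuBdot h K1 K3 (tsuUnpack b n yb) xr 0 0 0) zc (Nat.beq yb z0)))) zcs) Xs) ybs

theorem tsuFrobM_eq (h K1 K3 b n z0 : ℕ) (ybs : List ℕ) (Xs : List (List ℕ)) (acc : ℕ) :
    tsuFrobM h K1 K3 b n z0 ybs Xs
        (tsuMap (fun ys => tsuBdot h K1 K3 (tsuUnpack b n z0) ys 0 0 0) Xs) acc
      = tsuFrob h K1 K3 (tsuMap (tsuUnpack b n) ybs) Xs acc := by
  induction ybs generalizing Xs acc with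
  | nil => rfl
  | cons yb ybs ih =>
    cases Xs with
    | nil => rfl
    | cons xr Xs' =>
      have e : Bool.rec (motive := fun _ => ℕ) (tsuBdot h K1 K3 (tsuUnpack b n yb) xr 0 0 0)
          (tsuBdot h K1 K3 (tsuUnpack b n z0) xr 0 0 0) (Nat.beq yb z0)
          = tsuBdot h K1 K3 (tsuUnpack b n yb) xr 0 0 0 := by
        cases hb : Nat.beq yb z0 with
        | false => rfl
        | true => rw [Nat.eq_of_beq_eq_true hb]
      show tsuFrobM h K1 K3 b n z0 ybs Xs'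
        (tsuMap (fun ys => tsuBdot h K1 K3 (tsuUnpack b n z0) ys 0 0 0) Xs')
        (acc + Bool.rec (motive := fun _ => ℕ) _ _ _) = _
      rw [e, ih]
      rfl

/-- the number of an all-zero row of `V`. -/
noncomputable def tsuZV : ℕ := Nat.mul tsuHV (tsuOnes (2 * tsuHV + 1) 26)

namespace TsuClass

variable (C : TsuClass)

/-- the number of an all-zero block of `W`. -/
noncomputable def zW : ℕ := Nat.mul tsuHW (tsuOnes (2 * tsuHW + 1) C.n)
/-- the number of an all-zero entry of `W` (all blocks). -/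
noncomputable def zzW : ℕ := Nat.mul C.zW (tsuOnes (Nat.pow (2 * tsuHW + 1) C.n) C.mult)

theorem Wd_map {β : Type} (F : List (List ℕ) → β) :
    tsuMap (tsuMap F) C.Wd = tsuMap (fun yi => tsuMap (fun yij =>
        F (tsuMap (tsuUnpack (2 * tsuHW + 1) C.n) (tsuUnpack (Nat.pow (2 * tsuHW + 1) C.n) C.mult yij)))
      (tsuUnpack (Nat.pow (Nat.pow (2 * tsuHW + 1) C.n) C.mult) 26 yi)) C.yW := by
  unfold Wd
  rw [tsuMap_tsuMap]
  simp only [tsuMap_tsuMap]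

/-- `Xa` with memoisation. -/
noncomputable def XaF (B : ℕ) : List (List ℕ) :=
  tsuMap (fun yi => tsuMap (tsuMemo (fun yij => tsuPack (Nat.pow B C.n)
        (tsuMap (tsuMemo (fun yb => tsuPack B (tsuUnpack (2 * tsuHW + 1) C.n yb)) C.zW)
          (tsuUnpack (Nat.pow (2 * tsuHW + 1) C.n) C.mult yij))) C.zzW)
      (tsuUnpack (Nat.pow (Nat.pow (2 * tsuHW + 1) C.n) C.mult) 26 yi)) C.yW

theorem XaF_eq (B : ℕ) : C.XaF B = C.Xa B := by
  unfold XaF Xa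
  rw [Wd_map]
  simp only [tsuMemo_eq, tsuMap_tsuMap]

/-- `rhs` with memoisation. -/
noncomputable def rhsF (B h : ℕ) (Nl : List (List ℕ)) : List (List ℕ) :=
  (fun E => (fun pk => tsuMap (fun yi => tsuMap (tsuMemo (fun yij => tsuPack (Nat.pow B C.n)
        (tsuMap (tsuMemo (fun yb => tsuBdot tsuHW
            (Nat.mul (Nat.mul 2 (Nat.mul (Nat.mul C.n tsuHW) h)) E) (Nat.mul h E)
            (tsuUnpack (2 * tsuHW + 1) C.n yb) pk 0 0 0) C.zW)
          (tsuUnpack (Nat.pow (2 * tsuHW + 1) C.n) C.mult yij))) C.zzW)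
      (tsuUnpack (Nat.pow (Nat.pow (2 * tsuHW + 1) C.n) C.mult) 26 yi)) C.yW)
    (tsuMap (tsuPack B) Nl)) (tsuOnes B C.n)

theorem rhsF_eq (B h : ℕ) (Nl : List (List ℕ)) : C.rhsF B h Nl = C.rhs B h Nl := by
  unfold rhsF rhs
  simp only [Wd_map, tsuMemo_eq, tsuMap_tsuMap]

/-- the packed rows of `V`, with memoisation. -/
noncomputable def pkVF (B : ℕ) : List (List ℕ) :=
  tsuMap (fun ym => tsuMap (fun ya => tsuPack (Nat.pow B 26)
        (tsuMap (tsuMemo (fun yr => tsuPack B (tsuUnpack (2 * tsuHV + 1) 26 yr)) tsuZV)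
          (tsuUnpack (Nat.pow (2 * tsuHV + 1) 26) 26 ya)))
      (tsuUnpack (Nat.pow (Nat.pow (2 * tsuHV + 1) 26) 26) C.n ym)) C.yV

theorem pkVF_eq (B : ℕ) : C.pkVF B
    = tsuMap (tsuMap (fun rows => tsuPack (Nat.pow B 26) (tsuMap (tsuPack B) rows))) C.Vd := by
  unfold pkVF Vd
  simp only [tsuMemo_eq, tsuMap_tsuMap]

/-- `piA` with memoisation. -/
noncomputable def piAF (B : ℕ) : List (List ℕ) :=
  (fun E => (fun pkV => (fun zcs => tsuMap (fun yi => tsuMap (tsuMemo (fun yij =>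
          tsuFrobM tsuHW (Nat.mul (Nat.mul 2 (Nat.mul (Nat.mul C.n tsuHW) tsuHV)) E)
            (Nat.mul tsuHV E) (2 * tsuHW + 1) C.n C.zW
            (tsuUnpack (Nat.pow (2 * tsuHW + 1) C.n) C.mult yij) pkV zcs 0) C.zzW)
        (tsuUnpack (Nat.pow (Nat.pow (2 * tsuHW + 1) C.n) C.mult) 26 yi)) C.yW)
      (tsuMap (fun ys => tsuBdot tsuHW (Nat.mul (Nat.mul 2 (Nat.mul (Nat.mul C.n tsuHW) tsuHV)) E)
        (Nat.mul tsuHV E) (tsuUnpack (2 * tsuHW + 1) C.n C.zW) ys 0 0 0) pkV))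
    (C.pkVF B)) (tsuOnes B (26 * 26))

theorem piAF_eq (B : ℕ) : C.piAF B = C.piA B := by
  unfold piAF piA
  simp only [Wd_map, tsuMemo_eq, tsuFrobM_eq, pkVF_eq]

theorem XaF_spec (hW : C.yW.length = 26) (B : ℕ) :
    TsuAW 26 26 (C.mult * C.n) B tsuHW (C.XaF B) C.Wfull := by
  rw [XaF_eq]; exact C.Xa_spec hW B

theorem rhsF_spec (hW : C.yW.length = 26) (B h : ℕ) {Nl : List (List ℕ)}
    {N : Matrix (Fin C.n) (Fin C.n) ℤ} (hN : TsuBM C.n C.n h Nl N) :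
    TsuAW 26 26 (C.mult * C.n) B (C.n * tsuHW * h) (C.rhsF B h Nl)
      (fun p l => (C.W (finProdFinEquiv.symm l).1 * N) p (finProdFinEquiv.symm l).2) := by
  rw [rhsF_eq]; exact C.rhs_spec hW B h hN

theorem piAF_spec (hW : C.yW.length = 26) (hV : C.yV.length = C.mult) (B : ℕ) :
    TsuAW 26 26 (26 * 26) B (C.mult * (C.n * tsuHW * tsuHV)) (C.piAF B)
      (fun p l => C.Pi p (finProdFinEquiv.symm l)) := by
  rw [piAF_eq]; exact C.piA_spec hW hV B

end TsuClass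

/-! ### the two-layer operators with the fast action -/

/-- list-level `trnT * X`, fast. -/
noncomputable def tsuLhsTF (E : ℕ) (A0 A1 A2 : List (List ℕ)) (H : ℕ) (X : List (List ℕ)) :
    List (List ℕ) :=
  tsuAddA (tsuActF E A0 A0 H X) (tsuAddA (tsuActF E A1 A1 H X) (tsuActF E A2 A2 H X))

theorem TsuAW.lhsTF {q B H : ℕ} {A0 A1 A2 : List (List ℕ)}
    (h0 : TsuBM 26 26 tsuHA A0 (trnA 0)) (h1 : TsuBM 26 26 tsuHA A1 (trnA 1))
    (h2 : TsuBM 26 26 tsuHA A2 (trnA 2))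
    {L : List (List ℕ)} {W : Matrix (Fin 26 × Fin 26) (Fin q) ℤ} (hL : TsuAW 26 26 q B H L W) :
    TsuAW 26 26 q B (tsuHLT H) (tsuLhsTF (tsuOnes B q) A0 A1 A2 H L) (trnT * W) := by
  have := (hL.actF h0 h0).add ((hL.actF h1 h1).add (hL.actF h2 h2))
  have e : trnT * W = (trnA 0 ⊗ₖ trnA 0) * W + ((trnA 1 ⊗ₖ trnA 1) * W + (trnA 2 ⊗ₖ trnA 2) * W) := by
    rw [trnT, Fin.sum_univ_three, Matrix.add_mul, Matrix.add_mul, add_assoc]
  rw [e]; exact this

/-- list-level `trnO * X` (`An` = biased list of `-A₂`), fast. -/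
noncomputable def tsuLhsOF (E : ℕ) (A0 A1 A2 An : List (List ℕ)) (H : ℕ) (X : List (List ℕ)) :
    List (List ℕ) :=
  (fun Cc D D' => (fun H2 =>
    tsuAddA (tsuActF E A0 A0 H2 Cc) (tsuAddA (tsuActF E A0 A1 H2 D) (tsuAddA (tsuActF E A1 A2 H2 D)
      (tsuAddA (tsuActF E A1 A0 H2 D') (tsuAddA (tsuActF E A2 A1 H2 D')
        (tsuActF E A2 An H2 Cc))))))
    (tsuB1 H + tsuB1 H))
  (tsuAddA (tsuActF E A0 A0 H X) (tsuActF E An A2 H X))
  (tsuAddA (tsuActF E A1 A0 H X) (tsuActF E A2 A1 H X))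
  (tsuAddA (tsuActF E A0 A1 H X) (tsuActF E A1 A2 H X))

theorem TsuAW.lhsOF {q B H : ℕ} {A0 A1 A2 An : List (List ℕ)}
    (h0 : TsuBM 26 26 tsuHA A0 (trnA 0)) (h1 : TsuBM 26 26 tsuHA A1 (trnA 1))
    (h2 : TsuBM 26 26 tsuHA A2 (trnA 2)) (hn : TsuBM 26 26 tsuHA An (-trnA 2))
    {L : List (List ℕ)} {W : Matrix (Fin 26 × Fin 26) (Fin q) ℤ} (hL : TsuAW 26 26 q B H L W) :
    TsuAW 26 26 q B (tsuHLO H) (tsuLhsOF (tsuOnes B q) A0 A1 A2 An H L) (trnO * W) := by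
  have hC := (hL.actF h0 h0).add (hL.actF hn h2)
  have hD := (hL.actF h1 h0).add (hL.actF h2 h1)
  have hD' := (hL.actF h0 h1).add (hL.actF h1 h2)
  have := (hC.actF h0 h0).add ((hD.actF h0 h1).add ((hD.actF h1 h2).add ((hD'.actF h1 h0).add
    ((hD'.actF h2 h1).add (hC.actF h2 hn)))))
  have e : trnO * W =
      (trnA 0 ⊗ₖ trnA 0) * ((trnA 0 ⊗ₖ trnA 0) * W + ((-trnA 2) ⊗ₖ trnA 2) * W) +
      ((trnA 0 ⊗ₖ trnA 1) * ((trnA 1 ⊗ₖ trnA 0) * W + (trnA 2 ⊗ₖ trnA 1) * W) +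
      ((trnA 1 ⊗ₖ trnA 2) * ((trnA 1 ⊗ₖ trnA 0) * W + (trnA 2 ⊗ₖ trnA 1) * W) +
      ((trnA 1 ⊗ₖ trnA 0) * ((trnA 0 ⊗ₖ trnA 1) * W + (trnA 1 ⊗ₖ trnA 2) * W) +
      ((trnA 2 ⊗ₖ trnA 1) * ((trnA 0 ⊗ₖ trnA 1) * W + (trnA 1 ⊗ₖ trnA 2) * W) +
      (trnA 2 ⊗ₖ (-trnA 2)) * ((trnA 0 ⊗ₖ trnA 0) * W + ((-trnA 2) ⊗ₖ trnA 2) * W))))) := by
    rw [tsu_trnO_eq]
    simp only [Matrix.add_mul, Matrix.mul_assoc]
  rw [e]
  exact this

end Claimed.Agent.R297
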