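/-
Row 297, package E, SU(2)-reduced certificate.  The kernel checks as propositions, and what they
imply.  Owner: helper186.  Prefix `tsu`.
-/
import Claimed.Agent.R297.TrialSUMemo

namespace Claimed.Agent.R297

open Finset Matrix
open scoped Kronecker

/-- base of the `T` checks. -/
def tsuBT : ℕ := 2 ^ 41 + 27
/-- base of the `O` checks. -/
def tsuBO : ℕ := 2 ^ 71 + 12345
/-- base of the inverse and completeness checks. -/
def tsuBI : ℕ := 2 ^ 37 + 9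

namespace TsuClass

variable (C : TsuClass)

/-- decoded reduced transfer matrix. -/
noncomputable def Tl : List (List ℕ) := tsuDec2 C.n C.n (2 * C.hT + 1) C.yT
/-- decoded reduced insertion. -/
noncomputable def Ol : List (List ℕ) := tsuDec2 C.n C.n (2 * C.hO + 1) C.yO

theorem Tl_spec : TsuBM C.n C.n C.hT C.Tl C.T := TsuBM.dec2 _ _ _ _
theorem Ol_spec : TsuBM C.n C.n C.hO C.Ol C.O := TsuBM.dec2 _ _ _ _

/-- the kernel check `trnT W = W T_J`. -/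
def ChkT (A0 A1 A2 : List (List ℕ)) : Prop :=
  tsuShiftA ((C.n * tsuHW * C.hT) * tsuOnes tsuBT (C.mult * C.n))
      (tsuLhsTF (tsuOnes tsuBT (C.mult * C.n)) A0 A1 A2 tsuHW (C.XaF tsuBT))
    = tsuShiftA (tsuHLT tsuHW * tsuOnes tsuBT (C.mult * C.n)) (C.rhsF tsuBT C.hT C.Tl)

noncomputable instance decChkT (A0 A1 A2 : List (List ℕ)) : Decidable (C.ChkT A0 A1 A2) := by
  unfold ChkT; infer_instance

/-- the kernel check `trnO W = W O_J`. -/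
def ChkO (A0 A1 A2 An : List (List ℕ)) : Prop :=
  tsuShiftA ((C.n * tsuHW * C.hO) * tsuOnes tsuBO (C.mult * C.n))
      (tsuLhsOF (tsuOnes tsuBO (C.mult * C.n)) A0 A1 A2 An tsuHW (C.XaF tsuBO))
    = tsuShiftA (tsuHLO tsuHW * tsuOnes tsuBO (C.mult * C.n)) (C.rhsF tsuBO C.hO C.Ol)

noncomputable instance decChkO (A0 A1 A2 An : List (List ℕ)) :
    Decidable (C.ChkO A0 A1 A2 An) := by
  unfold ChkO; infer_instance

theorem hT_of_chk (hW : C.yW.length = 26) {A0 A1 A2 : List (List ℕ)}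
    (h0 : TsuBM 26 26 tsuHA A0 (trnA 0)) (h1 : TsuBM 26 26 tsuHA A1 (trnA 1))
    (h2 : TsuBM 26 26 tsuHA A2 (trnA 2))
    (hB : 2 * (tsuHLT tsuHW + C.n * tsuHW * C.hT) < tsuBT) (h : C.ChkT A0 A1 A2) (m) :
    trnT * C.W m = C.W m * C.T :=
  C.intertwine (TsuAW.eq_of_shift ((C.XaF_spec hW tsuBT).lhsTF h0 h1 h2)
    (C.rhsF_spec hW tsuBT C.hT C.Tl_spec) h hB) m

theorem hO_of_chk (hW : C.yW.length = 26) {A0 A1 A2 An : List (List ℕ)}
    (h0 : TsuBM 26 26 tsuHA A0 (trnA 0)) (h1 : TsuBM 26 26 tsuHA A1 (trnA 1))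
    (h2 : TsuBM 26 26 tsuHA A2 (trnA 2)) (hn : TsuBM 26 26 tsuHA An (-trnA 2))
    (hB : 2 * (tsuHLO tsuHW + C.n * tsuHW * C.hO) < tsuBO) (h : C.ChkO A0 A1 A2 An) (m) :
    trnO * C.W m = C.W m * C.O :=
  C.intertwine (TsuAW.eq_of_shift ((C.XaF_spec hW tsuBO).lhsOF h0 h1 h2 hn)
    (C.rhsF_spec hW tsuBO C.hO C.Ol_spec) h hB) m

/-- `((∑ diag, n * bias) of T^118 O, the same of T^120)`. -/
noncomputable def uv : (ℕ × ℕ) × (ℕ × ℕ) :=
  (fun r => ((tsuDiagSum r.1.2 C.n, Nat.mul C.n r.1.1), (tsuDiagSum r.2.2 C.n, Nat.mul C.n r.2.1)))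
    (tsuChain C.n (C.hT, C.Tl) (C.hO, C.Ol))

theorem uv_spec : (C.T ^ 118 * C.O).trace = (C.uv.1.1 : ℤ) - C.uv.1.2 ∧
    (C.T ^ 120).trace = (C.uv.2.1 : ℤ) - C.uv.2.2 := by
  have h := TsuRP.chain (T := (C.hT, C.Tl)) (O := (C.hO, C.Ol)) C.Tl_spec C.Ol_spec
  refine ⟨?_, ?_⟩
  · rw [h.1.trace]; simp [uv]
  · rw [h.2.trace]; simp [uv]

end TsuClass

end Claimed.Agent.R297
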