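/-
Row 297, package E, SU(2)-reduced certificate.  The left inverses follow from completeness
(square matrices: a right inverse is a left inverse); no kernel check is needed for them.
Owner: helper186.  Prefix `tsu`.
-/
import Claimed.Agent.R297.TrialSURed

namespace Claimed.Agent.R297

open Finset Matrix

theorem tsu_leftInv_of_complete (Cl : Fin 6 → TsuClass)
    (h1 : ∑ J, (Cl J).Pi = (tsuC : ℤ) • 1)
    (hcard : ∑ J, (Cl J).mult * (Cl J).n = 676) (J : Fin 6) (m : Fin (Cl J).mult) :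
    (Cl J).V m * (Cl J).W m = (tsuC : ℤ) • 1 := by
  classical
  have hc : (tsuC : ℚ) ≠ 0 := by norm_num [tsuC]
  let ι := Σ J : Fin 6, Fin (Cl J).mult × Fin (Cl J).n
  let Wall : Matrix (Fin 26 × Fin 26) ι ℚ := fun p x => ((Cl x.1).W x.2.1 p x.2.2 : ℚ)
  let Vall : Matrix ι (Fin 26 × Fin 26) ℚ := fun x p => ((Cl x.1).V x.2.1 x.2.2 p : ℚ) / tsuC
  have hWV : Wall * Vall = 1 := by
    funext p p'
    have e := congrFun (congrFun h1 p) p'
    rw [Matrix.sum_apply] at e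
    have e' : (∑ J, ((Cl J).Pi p p' : ℚ)) = ((((tsuC : ℤ) • (1 : Matrix _ _ ℤ)) p p' : ℤ) : ℚ) := by
      rw [← e]; push_cast; rfl
    rw [Matrix.mul_apply, Fintype.sum_sigma]
    have : ∀ J : Fin 6, ∑ x : Fin (Cl J).mult × Fin (Cl J).n, Wall p ⟨J, x⟩ * Vall ⟨J, x⟩ p'
        = ((Cl J).Pi p p' : ℚ) / tsuC := fun J => by
      rw [Fintype.sum_prod_type, TsuClass.Pi, Matrix.sum_apply]
      push_cast
      rw [Finset.sum_div]
      refine Finset.sum_congr rfl fun m _ => ?_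
      rw [Matrix.mul_apply]
      push_cast
      rw [Finset.sum_div]
      refine Finset.sum_congr rfl fun a _ => ?_
      show ((Cl J).W m p a : ℚ) * (((Cl J).V m a p' : ℚ) / tsuC) = _
      ring
    rw [Finset.sum_congr rfl fun J _ => this J, ← Finset.sum_div, e']
    by_cases hp : p = p'
    · subst hp; simp [hc]
    · simp [hp]
  have hcd : Fintype.card (Fin 26 × Fin 26) = Fintype.card ι := by
    simp only [ι, Fintype.card_sigma, Fintype.card_prod, Fintype.card_fin]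
    rw [hcard]
  have hVW : Vall * Wall = 1 := (Matrix.mul_eq_one_comm_of_equiv (Fintype.equivOfCardEq hcd)).1 hWV
  funext a a'
  have e := congrFun (congrFun hVW ⟨J, (m, a)⟩) ⟨J, (m, a')⟩
  rw [Matrix.mul_apply] at e
  have e2 : (∑ p, ((Cl J).V m a p : ℚ) * ((Cl J).W m p a' : ℚ)) / tsuC
      = (1 : Matrix ι ι ℚ) ⟨J, (m, a)⟩ ⟨J, (m, a')⟩ := by
    rw [← e, Finset.sum_div]
    refine Finset.sum_congr rfl fun p _ => ?_
    show _ = ((Cl J).V m a p : ℚ) / tsuC * ((Cl J).W m p a' : ℚ)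
    ring
  have e3 : (((Cl J).V m * (Cl J).W m) a a' : ℚ) = tsuC * (1 : Matrix ι ι ℚ) ⟨J, (m, a)⟩ ⟨J, (m, a')⟩ := by
    rw [← e2, Matrix.mul_apply]; push_cast; field_simp
  have : ((((Cl J).V m * (Cl J).W m) a a' : ℤ) : ℚ)
      = ((((tsuC : ℤ) • (1 : Matrix (Fin (Cl J).n) (Fin (Cl J).n) ℤ)) a a' : ℤ) : ℚ) := by
    rw [e3]
    by_cases ha : a = a'
    · subst ha; simp
    · have : (⟨J, (m, a)⟩ : ι) ≠ ⟨J, (m, a')⟩ := by
        intro hh
        simp only [Sigma.mk.injEq, heq_eq_eq, Prod.mk.injEq, true_and] at hh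
        exact ha hh
      simp [ha, this]
  exact_mod_cast this

end Claimed.Agent.R297
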