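/-
Row 297, package E, SU(2)-reduced certificate.  Assembly, generic in the six classes.
Owner: helper186.  Prefix `tsu`.
-/
import Claimed.Agent.R297.TrialSUChk
import Claimed.Agent.R297.TrialSUSq

namespace Claimed.Agent.R297

open Finset Matrix
open scoped Kronecker

/-- bias of the partial resolution of the identity of a class. -/
def TsuClass.hP (C : TsuClass) : ℕ := C.mult * (C.n * tsuHW * tsuHV)

/-- explicit sum of six terms. -/
def tsuSum6 (f : Fin 6 → ℕ) : ℕ := f 0 + (f 1 + (f 2 + (f 3 + (f 4 + f 5))))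

theorem tsuSum6_cast (f : Fin 6 → ℕ) : ((tsuSum6 f : ℕ) : ℤ) = ∑ J, (f J : ℤ) := by
  rw [Fin.sum_univ_six, tsuSum6]; push_cast; ring

/-- rowwise comparison of two arrays. -/
theorem TsuAW.inj_rows {r c q B H : ℕ} {L L' : List (List ℕ)}
    {W W' : Matrix (Fin r × Fin c) (Fin q) ℤ} (hL : TsuAW r c q B H L W)
    (hL' : TsuAW r c q B H L' W') (he : ∀ i : Fin r, L.getD i.val [] = L'.getD i.val [])
    (hB : 2 * H < B) : W = W' := by
  obtain ⟨X, rfl, hX⟩ := hL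
  obtain ⟨X', rfl, hX'⟩ := hL'
  have e : X = X' := by
    funext i
    have := he i
    rw [tsu_getD_ofFn, tsu_getD_ofFn] at this
    exact List.ofFn_injective this
  funext p
  obtain ⟨i, j⟩ := p
  exact (hX i j).inj (e ▸ hX' i j) hB

/-- the sum of the six partial resolutions of the identity, as an array. -/
noncomputable def tsuPiSum (Cl : Fin 6 → TsuClass) : List (List ℕ) :=
  tsuAddA ((Cl 0).piAF tsuBI) (tsuAddA ((Cl 1).piAF tsuBI) (tsuAddA ((Cl 2).piAF tsuBI)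
    (tsuAddA ((Cl 3).piAF tsuBI) (tsuAddA ((Cl 4).piAF tsuBI) ((Cl 5).piAF tsuBI)))))

/-- the kernel check of completeness, rows `lo ≤ i < hi`. -/
def tsuChkP (Cl : Fin 6 → TsuClass) (lo hi : ℕ) : Prop :=
  ∀ i : Fin 26, lo ≤ i.val → i.val < hi →
    (tsuPiSum Cl).getD i.val [] = (tsuIdA tsuBI (tsuSum6 fun J => (Cl J).hP)).getD i.val []

noncomputable instance tsuDecChkP (Cl : Fin 6 → TsuClass) (lo hi : ℕ) :
    Decidable (tsuChkP Cl lo hi) := by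
  unfold tsuChkP; infer_instance

theorem tsu_complete (Cl : Fin 6 → TsuClass) (hW : ∀ J, (Cl J).yW.length = 26)
    (hV : ∀ J, (Cl J).yV.length = (Cl J).mult) (h : tsuChkP Cl 0 26)
    (hB : 2 * (tsuSum6 fun J => (Cl J).hP) < tsuBI) (hc : tsuC ≤ tsuSum6 fun J => (Cl J).hP) :
    ∑ J, (Cl J).Pi = (tsuC : ℤ) • 1 := by
  have s := fun J => (Cl J).piAF_spec (hW J) (hV J) tsuBI
  have h1 := (s 0).add ((s 1).add ((s 2).add ((s 3).add ((s 4).add (s 5)))))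
  have h2 := tsuIdA_spec tsuBI _ hc
  have e := h1.inj_rows h2 (fun i => h i (Nat.zero_le _) i.isLt) hB
  funext p p'
  have e3 : (∑ J, (Cl J).Pi) p p' = (Cl 0).Pi p p' + ((Cl 1).Pi p p' + ((Cl 2).Pi p p' +
      ((Cl 3).Pi p p' + ((Cl 4).Pi p p' + (Cl 5).Pi p p')))) := by
    rw [Fin.sum_univ_six]
    simp only [Matrix.add_apply]
    ring
  have e4 : (Cl 0).Pi p (finProdFinEquiv.symm (finProdFinEquiv p')) +
      ((Cl 1).Pi p (finProdFinEquiv.symm (finProdFinEquiv p')) +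
      ((Cl 2).Pi p (finProdFinEquiv.symm (finProdFinEquiv p')) +
      ((Cl 3).Pi p (finProdFinEquiv.symm (finProdFinEquiv p')) +
      ((Cl 4).Pi p (finProdFinEquiv.symm (finProdFinEquiv p')) +
      (Cl 5).Pi p (finProdFinEquiv.symm (finProdFinEquiv p'))))))
      = if finProdFinEquiv p' = finProdFinEquiv p then (tsuC : ℤ) else 0 :=
    congrFun (congrFun e p) (finProdFinEquiv p')
  rw [Equiv.symm_apply_apply] at e4
  rw [e3, e4]
  by_cases hp : p = p'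
  · simp [hp]
  · have : finProdFinEquiv p' ≠ finProdFinEquiv p := fun hh => hp (finProdFinEquiv.injective hh).symm
    simp [hp, this]

theorem tsuChkP_glue {Cl : Fin 6 → TsuClass} {a b c : ℕ} (h1 : tsuChkP Cl a b)
    (h2 : tsuChkP Cl b c) : tsuChkP Cl a c := fun i hlo hhi =>
  if h : i.val < b then h1 i hlo h else h2 i (by omega) hhi

/-- all the kernel checks together. -/
structure TsuCert (Cl : Fin 6 → TsuClass) (A0 A1 A2 An : List (List ℕ)) : Prop where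
  lenW : ∀ J, (Cl J).yW.length = 26
  lenV : ∀ J, (Cl J).yV.length = (Cl J).mult
  chkT : ∀ J, (Cl J).ChkT A0 A1 A2
  chkO : ∀ J, (Cl J).ChkO A0 A1 A2 An
  chkP : tsuChkP Cl 0 26
  card : ∑ J, (Cl J).mult * (Cl J).n = 676
  bT : ∀ J, 2 * (tsuHLT tsuHW + (Cl J).n * tsuHW * (Cl J).hT) < tsuBT
  bO : ∀ J, 2 * (tsuHLO tsuHW + (Cl J).n * tsuHW * (Cl J).hO) < tsuBO
  bP : 2 * (tsuSum6 fun J => (Cl J).hP) < tsuBI
  cP : tsuC ≤ tsuSum6 fun J => (Cl J).hP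

section
variable {Cl : Fin 6 → TsuClass} {A0 A1 A2 An : List (List ℕ)}

theorem TsuCert.hT (c : TsuCert Cl A0 A1 A2 An)
    (h0 : TsuBM 26 26 tsuHA A0 (trnA 0)) (h1 : TsuBM 26 26 tsuHA A1 (trnA 1))
    (h2 : TsuBM 26 26 tsuHA A2 (trnA 2)) (J m) :
    trnT * (Cl J).W m = (Cl J).W m * (Cl J).T :=
  (Cl J).hT_of_chk (c.lenW J) h0 h1 h2 (c.bT J) (c.chkT J) m

theorem TsuCert.hO (c : TsuCert Cl A0 A1 A2 An)
    (h0 : TsuBM 26 26 tsuHA A0 (trnA 0)) (h1 : TsuBM 26 26 tsuHA A1 (trnA 1))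
    (h2 : TsuBM 26 26 tsuHA A2 (trnA 2)) (hn : TsuBM 26 26 tsuHA An (-trnA 2)) (J m) :
    trnO * (Cl J).W m = (Cl J).W m * (Cl J).O :=
  (Cl J).hO_of_chk (c.lenW J) h0 h1 h2 hn (c.bO J) (c.chkO J) m

theorem TsuCert.h1 (c : TsuCert Cl A0 A1 A2 An) : ∑ J, (Cl J).Pi = (tsuC : ℤ) • 1 :=
  tsu_complete Cl c.lenW c.lenV c.chkP c.bP c.cP

theorem TsuCert.h2 (c : TsuCert Cl A0 A1 A2 An) (J m) :
    (Cl J).V m * (Cl J).W m = (tsuC : ℤ) • 1 :=
  tsu_leftInv_of_complete Cl c.h1 c.card J m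

/-- the trace of any operator that is reduced by the six classes. -/
theorem TsuCert.trace (c : TsuCert Cl A0 A1 A2 An)
    (X : Matrix (Fin 26 × Fin 26) (Fin 26 × Fin 26) ℤ)
    (XJ : ∀ J, Matrix (Fin (Cl J).n) (Fin (Cl J).n) ℤ)
    (hX : ∀ J m, X * (Cl J).W m = (Cl J).W m * XJ J) :
    X.trace = ∑ J, ((Cl J).mult : ℤ) * (XJ J).trace :=
  tsu_master Cl c.h1 c.h2 X XJ hX

/-- the four natural numbers of the `N = 120` certificate. -/
noncomputable def tsuPU (Cl : Fin 6 → TsuClass) : ℕ := tsuSum6 fun J => (Cl J).mult * (Cl J).uv.1.1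
@[inherit_doc tsuPU]
noncomputable def tsuNU (Cl : Fin 6 → TsuClass) : ℕ := tsuSum6 fun J => (Cl J).mult * (Cl J).uv.1.2
@[inherit_doc tsuPU]
noncomputable def tsuPV (Cl : Fin 6 → TsuClass) : ℕ := tsuSum6 fun J => (Cl J).mult * (Cl J).uv.2.1
@[inherit_doc tsuPU]
noncomputable def tsuNV (Cl : Fin 6 → TsuClass) : ℕ := tsuSum6 fun J => (Cl J).mult * (Cl J).uv.2.2

theorem TsuCert.traceU (c : TsuCert Cl A0 A1 A2 An)
    (h0 : TsuBM 26 26 tsuHA A0 (trnA 0)) (h1 : TsuBM 26 26 tsuHA A1 (trnA 1))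
    (h2 : TsuBM 26 26 tsuHA A2 (trnA 2)) (hn : TsuBM 26 26 tsuHA An (-trnA 2)) :
    (trnT ^ 118 * trnO).trace = (tsuPU Cl : ℤ) - tsuNU Cl := by
  rw [c.trace _ (fun J => (Cl J).T ^ 118 * (Cl J).O) fun J m =>
    (Cl J).intertwine_mul ((Cl J).intertwine_pow (c.hT h0 h1 h2 J) 118) (c.hO h0 h1 h2 hn J) m,
    tsuPU, tsuNU, tsuSum6_cast, tsuSum6_cast, ← Finset.sum_sub_distrib]
  refine Finset.sum_congr rfl fun J _ => ?_
  rw [(Cl J).uv_spec.1]; push_cast; ring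

theorem TsuCert.traceV (c : TsuCert Cl A0 A1 A2 An)
    (h0 : TsuBM 26 26 tsuHA A0 (trnA 0)) (h1 : TsuBM 26 26 tsuHA A1 (trnA 1))
    (h2 : TsuBM 26 26 tsuHA A2 (trnA 2)) :
    (trnT ^ 120).trace = (tsuPV Cl : ℤ) - tsuNV Cl := by
  rw [c.trace _ (fun J => (Cl J).T ^ 120) fun J m =>
    (Cl J).intertwine_pow (c.hT h0 h1 h2 J) 120 m,
    tsuPV, tsuNV, tsuSum6_cast, tsuSum6_cast, ← Finset.sum_sub_distrib]
  refine Finset.sum_congr rfl fun J _ => ?_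
  rw [(Cl J).uv_spec.2]; push_cast; ring

theorem TsuCert.final (c : TsuCert Cl A0 A1 A2 An)
    (h0 : TsuBM 26 26 tsuHA A0 (trnA 0)) (h1 : TsuBM 26 26 tsuHA A1 (trnA 1))
    (h2 : TsuBM 26 26 tsuHA A2 (trnA 2)) (hn : TsuBM 26 26 tsuHA An (-trnA 2))
    (h : 500000 * tsuPU Cl + 700741 * tsuPV Cl < 500000 * tsuNU Cl + 700741 * tsuNV Cl) :
    500000 * (trnT ^ 118 * trnO).trace < -700741 * (trnT ^ 120).trace := by
  rw [c.traceU h0 h1 h2 hn, c.traceV h0 h1 h2]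
  have : (500000 * tsuPU Cl + 700741 * tsuPV Cl : ℤ) < 500000 * tsuNU Cl + 700741 * tsuNV Cl := by
    exact_mod_cast h
  linarith

end

end Claimed.Agent.R297
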