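/-
Row 297, package E, SU(2)-reduced certificate.  The packed matrices are the matrices of
`TrialDefs`.  Owner: helper186.  Prefix `tsu`.
-/
import Claimed.Agent.R297.TrialSUData
import Claimed.Agent.R297.TrialSUChk

set_option Elab.async false

namespace Claimed.Agent.R297

open Matrix

/-- decoded `A₊₁`. -/
noncomputable def tsuA0 : List (List ℕ) := tsuDec2 26 26 (2 * tsuHA + 1) tsuYA0
/-- decoded `A₀`. -/
noncomputable def tsuA1 : List (List ℕ) := tsuDec2 26 26 (2 * tsuHA + 1) tsuYA1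
/-- decoded `A₋₁`. -/
noncomputable def tsuA2 : List (List ℕ) := tsuDec2 26 26 (2 * tsuHA + 1) tsuYA2
/-- decoded `-A₋₁`. -/
noncomputable def tsuAn : List (List ℕ) := tsuDec2 26 26 (2 * tsuHA + 1) tsuYAn

/-- entries of the decoded matrix, as a plain function. -/
def tsuMatF (y : ℕ) : Fin 26 → Fin 26 → ℤ := tsuMat 26 26 tsuHA y
/-- entries of `trnA`, as a plain function. -/
def tsuTrnF (s : Fin 3) : Fin 26 → Fin 26 → ℤ := trnA s

theorem tsu_mat0 : ∀ i k : Fin 26, tsuMatF tsuYA0 i k = tsuTrnF 0 i k := by decide +kernel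
theorem tsu_mat1 : ∀ i k : Fin 26, tsuMatF tsuYA1 i k = tsuTrnF 1 i k := by decide +kernel
theorem tsu_mat2 : ∀ i k : Fin 26, tsuMatF tsuYA2 i k = tsuTrnF 2 i k := by decide +kernel
theorem tsu_matn : ∀ i k : Fin 26, tsuMatF tsuYAn i k = -(tsuTrnF 2 i k) := by decide +kernel

theorem tsuA0_spec : TsuBM 26 26 tsuHA tsuA0 (trnA 0) := by
  have : tsuMat 26 26 tsuHA tsuYA0 = trnA 0 := by funext i k; exact tsu_mat0 i k
  rw [← this]; exact TsuBM.dec2 _ _ _ _
theorem tsuA1_spec : TsuBM 26 26 tsuHA tsuA1 (trnA 1) := by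
  have : tsuMat 26 26 tsuHA tsuYA1 = trnA 1 := by funext i k; exact tsu_mat1 i k
  rw [← this]; exact TsuBM.dec2 _ _ _ _
theorem tsuA2_spec : TsuBM 26 26 tsuHA tsuA2 (trnA 2) := by
  have : tsuMat 26 26 tsuHA tsuYA2 = trnA 2 := by funext i k; exact tsu_mat2 i k
  rw [← this]; exact TsuBM.dec2 _ _ _ _
theorem tsuAn_spec : TsuBM 26 26 tsuHA tsuAn (-trnA 2) := by
  have : tsuMat 26 26 tsuHA tsuYAn = -trnA 2 := by funext i k; exact tsu_matn i k
  rw [← this]; exact TsuBM.dec2 _ _ _ _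

end Claimed.Agent.R297
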