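/-
Row 297, package E, SU(2)-reduced certificate.  Kernel checks of the class J = 4.
Owner: helper186.  Prefix `tsu`.
-/
import Claimed.Agent.R297.TrialSUMats

set_option Elab.async false
set_option maxRecDepth 100000

namespace Claimed.Agent.R297

theorem tsu_k4_lenW : tsuC4.yW.length = 26 := by decide +kernel
theorem tsu_k4_lenV : tsuC4.yV.length = tsuC4.mult := by decide +kernel
theorem tsu_k4_T : tsuC4.ChkT tsuA0 tsuA1 tsuA2 := by decide +kernel
theorem tsu_k4_O : tsuC4.ChkO tsuA0 tsuA1 tsuA2 tsuAn := by decide +kernel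

end Claimed.Agent.R297
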