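/-
Row 297, package E, SU(2)-reduced certificate.  FINAL: the integer inequality of the `N = 120`
trial state.  Owner: helper186.  Prefix `tsu`.
-/
import Claimed.Agent.R297.TrialSUK0
import Claimed.Agent.R297.TrialSUK1
import Claimed.Agent.R297.TrialSUK2
import Claimed.Agent.R297.TrialSUK3
import Claimed.Agent.R297.TrialSUK4
import Claimed.Agent.R297.TrialSUK5
import Claimed.Agent.R297.TrialSUKF

set_option maxRecDepth 100000

namespace Claimed.Agent.R297

open Matrix

/-- all kernel checks of the six classes. -/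
theorem tsu_allChecks : TsuCert tsuCl tsuA0 tsuA1 tsuA2 tsuAn where
  lenW := by
    intro J; fin_cases J
    exacts [tsu_k0_lenW, tsu_k1_lenW, tsu_k2_lenW, tsu_k3_lenW, tsu_k4_lenW, tsu_k5_lenW]
  lenV := by
    intro J; fin_cases J
    exacts [tsu_k0_lenV, tsu_k1_lenV, tsu_k2_lenV, tsu_k3_lenV, tsu_k4_lenV, tsu_k5_lenV]
  chkT := by
    intro J; fin_cases J
    exacts [tsu_k0_T, tsu_k1_T, tsu_k2_T, tsu_k3_T, tsu_k4_T, tsu_k5_T]
  chkO := by
    intro J; fin_cases J
    exacts [tsu_k0_O, tsu_k1_O, tsu_k2_O, tsu_k3_O, tsu_k4_O, tsu_k5_O]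
  chkP := tsu_kP
  card := by decide +kernel
  bT := by decide +kernel
  bO := by decide +kernel
  bP := by decide +kernel
  cP := by decide +kernel

/-- `trnT W = W T_J` for all classes and copies. -/
theorem tsu_hT (J m) : trnT * (tsuCl J).W m = (tsuCl J).W m * (tsuCl J).T :=
  tsu_allChecks.hT tsuA0_spec tsuA1_spec tsuA2_spec J m

/-- `trnO W = W O_J` for all classes and copies. -/
theorem tsu_hO (J m) : trnO * (tsuCl J).W m = (tsuCl J).W m * (tsuCl J).O :=
  tsu_allChecks.hO tsuA0_spec tsuA1_spec tsuA2_spec tsuAn_spec J m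

/-- trace reduction for every operator reduced by the six classes. -/
theorem tsu_trace (X : Matrix (Fin 26 × Fin 26) (Fin 26 × Fin 26) ℤ)
    (XJ : ∀ J, Matrix (Fin (tsuCl J).n) (Fin (tsuCl J).n) ℤ)
    (hX : ∀ J m, X * (tsuCl J).W m = (tsuCl J).W m * XJ J) :
    X.trace = ∑ J, ((tsuCl J).mult : ℤ) * (XJ J).trace :=
  tsu_allChecks.trace X XJ hX

/-- **The `N = 120` certificate.** -/
theorem tsu_cert : 500000 * trace (trnT ^ 118 * trnO) < -700741 * trace (trnT ^ 120) :=
  tsu_allChecks.final tsuA0_spec tsuA1_spec tsuA2_spec tsuAn_spec tsu_kF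

end Claimed.Agent.R297
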