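/-
Row 297, package E, SU(2)-reduced certificate for `N = 30` (on helper186's `tsu` engine).
Generic action of non-commutative polynomials in the one-site transfer maps `±Aₛ ⊗ ±Aₜ` on arrays of
packed vectors; the insertions `pmpsOsq trnA`, `pmpsO3 trnA` as such polynomials.
Owner: helper127.  Prefix `tsv`.
-/
import Claimed.Agent.R297.TrialSUOps
import Claimed.Agent.R297.PMpsSq

namespace Claimed.Agent.R297

open Finset Matrix
open scoped Kronecker

/-- index of a signed tensor. -/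
def tsvIdx : Fin 6 → Fin 3 := ![0, 1, 2, 0, 1, 2]

/-- sign of a signed tensor. -/
def tsvSgn : Fin 6 → ℤ := ![1, 1, 1, -1, -1, -1]

/-- the six signed tensors `A₀, A₁, A₂, -A₀, -A₁, -A₂`. -/
def tsvU (u : Fin 6) : Matrix (Fin 26) (Fin 26) ℤ := tsvSgn u • trnA (tsvIdx u)

/-- a term list: a sum of Kronecker products of signed tensors. -/
abbrev TsvTerms := List (Fin 6 × Fin 6)

/-- the matrix of a term list. -/
def tsvMat (l : TsvTerms) : Matrix (Fin 26 × Fin 26) (Fin 26 × Fin 26) ℤ :=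
  (l.map fun p => tsvU p.1 ⊗ₖ tsvU p.2).sum

/-- the one-site matrix of a term list. -/
def tsvW (l : TsvTerms) : Matrix (Fin 3) (Fin 3) ℤ := fun s t =>
  (l.map fun p => if tsvIdx p.1 = s ∧ tsvIdx p.2 = t then tsvSgn p.1 * tsvSgn p.2 else 0).sum

theorem tsv_pmpsE_add (W W' : Matrix (Fin 3) (Fin 3) ℤ) :
    pmpsE trnA (W + W') = pmpsE trnA W + pmpsE trnA W' := by
  unfold pmpsE
  simp only [Matrix.add_apply, add_smul, Finset.sum_add_distrib]

theorem tsv_pmpsE_zero : pmpsE trnA (0 : Matrix (Fin 3) (Fin 3) ℤ) = 0 := by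
  unfold pmpsE
  simp

/-- a multiple of a matrix unit. -/
def tsvUnit (i j : Fin 3) (c : ℤ) : Matrix (Fin 3) (Fin 3) ℤ :=
  fun s t => if i = s ∧ j = t then c else 0

theorem tsv_pmpsE_single (i j : Fin 3) (c : ℤ) :
    pmpsE trnA (tsvUnit i j c) = c • (trnA i ⊗ₖ trnA j) := by
  unfold pmpsE tsvUnit
  rw [Finset.sum_eq_single i, Finset.sum_eq_single j]
  · simp
  · intro t _ ht
    simp [Ne.symm ht]
  · simp
  · intro s _ hs
    simp [Ne.symm hs]
  · simp

theorem tsvMat_eq (l : TsvTerms) : tsvMat l = pmpsE trnA (tsvW l) := by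
  induction l with
  | nil =>
    have : tsvW [] = 0 := by funext s t; simp [tsvW]
    rw [this, tsv_pmpsE_zero]; simp [tsvMat]
  | cons p l ih =>
    have h1 : tsvW (p :: l)
        = tsvUnit (tsvIdx p.1) (tsvIdx p.2) (tsvSgn p.1 * tsvSgn p.2) + tsvW l := by
      funext s t; simp [tsvW, tsvUnit]
    have h2 : tsvMat (p :: l) = tsvU p.1 ⊗ₖ tsvU p.2 + tsvMat l := by simp [tsvMat]
    rw [h1, h2, tsv_pmpsE_add, tsv_pmpsE_single, ih]
    congr 1
    unfold tsvU
    rw [Matrix.smul_kronecker, Matrix.kronecker_smul, smul_smul]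

theorem tsvMat_of {l : TsvTerms} {W : Matrix (Fin 3) (Fin 3) ℤ} (h : tsvW l = W) :
    tsvMat l = pmpsE trnA W := by rw [tsvMat_eq, h]

/-! ### list level -/

/-- the zero array. -/
noncomputable def tsvZero : List (List ℕ) := List.replicate 26 (List.replicate 26 0)

theorem tsvZero_spec (q B : ℕ) : TsuAW 26 26 q B 0 tsvZero 0 := by
  refine ⟨fun _ _ => 0, ?_, fun i j => ⟨by simp, by simp⟩⟩
  unfold tsvZero
  rw [List.ofFn_const, List.ofFn_const]

/-- a table of the biased lists of the six signed tensors. -/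
def TsvTab (tab : List (List (List ℕ))) : Prop :=
  ∀ u : Fin 6, TsuBM 26 26 tsuHA (tab.getD u.val []) (tsvU u)

/-- `X ↦ (tsvMat l) X`. -/
noncomputable def tsvApply (E : ℕ) (tab : List (List (List ℕ))) (l : TsvTerms) (H : ℕ)
    (X : List (List ℕ)) : List (List ℕ) :=
  l.foldr (fun p acc => tsuAddA (tsuAct E (tab.getD p.1.val []) (tab.getD p.2.val []) H X) acc)
    tsvZero

theorem TsuAW.tsvApply {q B H : ℕ} {tab : List (List (List ℕ))} (htab : TsvTab tab)
    (l : TsvTerms) {L : List (List ℕ)} {W : Matrix (Fin 26 × Fin 26) (Fin q) ℤ}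
    (hL : TsuAW 26 26 q B H L W) :
    TsuAW 26 26 q B (l.length * tsuB1 H) (Claimed.Agent.R297.tsvApply (tsuOnes B q) tab l H L)
      (tsvMat l * W) := by
  induction l with
  | nil =>
    have := tsvZero_spec q B
    simpa [Claimed.Agent.R297.tsvApply, tsvMat] using this
  | cons p l ih =>
    have h := (hL.act' (htab p.1) (htab p.2)).add ih
    have e1 : tsuB1 H + l.length * tsuB1 H = (p :: l).length * tsuB1 H := by
      rw [List.length_cons]; ring
    have e2 : tsvU p.1 ⊗ₖ tsvU p.2 * W + tsvMat l * W = tsvMat (p :: l) * W := by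
      rw [← Matrix.add_mul]; simp [tsvMat]
    rw [e1, e2] at h
    exact h

/-- a chain: a product of term lists; acts on pairs (bias, array). -/
noncomputable def tsvCh (E : ℕ) (tab : List (List (List ℕ))) (ch : List TsvTerms)
    (hx : ℕ × List (List ℕ)) : ℕ × List (List ℕ) :=
  ch.foldr (fun l r => (l.length * tsuB1 r.1, tsvApply E tab l r.1 r.2)) hx

/-- the matrix of a chain. -/
def tsvChMat (ch : List TsvTerms) : Matrix (Fin 26 × Fin 26) (Fin 26 × Fin 26) ℤ :=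
  (ch.map tsvMat).prod

theorem TsuAW.tsvCh {q B : ℕ} {tab : List (List (List ℕ))} (htab : TsvTab tab)
    (ch : List TsvTerms) {hx : ℕ × List (List ℕ)} {W : Matrix (Fin 26 × Fin 26) (Fin q) ℤ}
    (hL : TsuAW 26 26 q B hx.1 hx.2 W) :
    TsuAW 26 26 q B (Claimed.Agent.R297.tsvCh (tsuOnes B q) tab ch hx).1
      (Claimed.Agent.R297.tsvCh (tsuOnes B q) tab ch hx).2 (tsvChMat ch * W) := by
  induction ch with
  | nil => simpa [Claimed.Agent.R297.tsvCh, tsvChMat] using hL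
  | cons l ch ih =>
    have h := ih.tsvApply htab l
    have e : tsvMat l * (tsvChMat ch * W) = tsvChMat (l :: ch) * W := by
      rw [← Matrix.mul_assoc]; simp [tsvChMat]
    rw [e] at h
    exact h

/-- a polynomial: a sum of chains. -/
noncomputable def tsvPoly (E : ℕ) (tab : List (List (List ℕ))) (chs : List (List TsvTerms))
    (hx : ℕ × List (List ℕ)) : ℕ × List (List ℕ) :=
  chs.foldr (fun ch acc => ((tsvCh E tab ch hx).1 + acc.1, tsuAddA (tsvCh E tab ch hx).2 acc.2))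
    (0, tsvZero)

/-- the matrix of a polynomial. -/
def tsvPolyMat (chs : List (List TsvTerms)) : Matrix (Fin 26 × Fin 26) (Fin 26 × Fin 26) ℤ :=
  (chs.map tsvChMat).sum

theorem TsuAW.tsvPoly {q B : ℕ} {tab : List (List (List ℕ))} (htab : TsvTab tab)
    (chs : List (List TsvTerms)) {hx : ℕ × List (List ℕ)}
    {W : Matrix (Fin 26 × Fin 26) (Fin q) ℤ} (hL : TsuAW 26 26 q B hx.1 hx.2 W) :
    TsuAW 26 26 q B (Claimed.Agent.R297.tsvPoly (tsuOnes B q) tab chs hx).1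
      (Claimed.Agent.R297.tsvPoly (tsuOnes B q) tab chs hx).2 (tsvPolyMat chs * W) := by
  induction chs with
  | nil =>
    have := tsvZero_spec q B
    simpa [Claimed.Agent.R297.tsvPoly, tsvPolyMat] using this
  | cons ch chs ih =>
    have h := (hL.tsvCh htab ch).add ih
    have e : tsvChMat ch * W + tsvPolyMat chs * W = tsvPolyMat (ch :: chs) * W := by
      rw [← Matrix.add_mul]; simp [tsvPolyMat]
    rw [e] at h
    exact h

/-! ### the insertions as polynomials -/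

/-- term lists of `Xₐ`. -/
def tsvLX : Fin 3 → TsvTerms := ![[(0, 0), (5, 2)], [(0, 1), (1, 2)], [(1, 0), (2, 1)]]

/-- term lists of `Yₐ`. -/
def tsvLY : Fin 3 → TsvTerms := ![[(0, 0), (5, 2)], [(1, 0), (2, 1)], [(0, 1), (1, 2)]]

/-- term lists of `Y_c X_b + X_b Y_c`. -/
def tsvLK : Fin 3 → Fin 3 → TsvTerms :=
  ![![[(0, 0), (0, 0), (2, 2), (2, 2)], [(0, 1), (4, 2)], [(1, 0), (5, 1)]],
    ![[(1, 0), (5, 1)], [(0, 0), (1, 1), (1, 1), (2, 2)], [(2, 0), (2, 0)]],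
    ![[(0, 1), (4, 2)], [(0, 2), (0, 2)], [(0, 0), (1, 1), (1, 1), (2, 2)]]]

/-- term lists of `Xₐ X_b`. -/
def tsvLXX : Fin 3 → Fin 3 → TsvTerms :=
  ![![[(0, 0), (2, 2)], [(0, 1)], [(5, 1)]],
    ![[(4, 2)], [(0, 2)], [(0, 0), (1, 1)]],
    ![[(1, 0)], [(1, 1), (2, 2)], [(2, 0)]]]

/-- term lists of `Yₐ Y_b`. -/
def tsvLYY : Fin 3 → Fin 3 → TsvTerms :=
  ![![[(0, 0), (2, 2)], [(5, 1)], [(0, 1)]],
    ![[(1, 0)], [(2, 0)], [(1, 1), (2, 2)]],
    ![[(4, 2)], [(0, 0), (1, 1)], [(0, 2)]]]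

theorem tsvW_LX : ∀ a, tsvW (tsvLX a) = pmpsX a := by decide
theorem tsvW_LY : ∀ a, tsvW (tsvLY a) = pmpsY a := by decide
theorem tsvW_LK : ∀ c b, tsvW (tsvLK c b) = pmpsY c * pmpsX b + pmpsX b * pmpsY c := by decide
theorem tsvW_LXX : ∀ a b, tsvW (tsvLXX a b) = pmpsX a * pmpsX b := by decide
theorem tsvW_LYY : ∀ a b, tsvW (tsvLYY a b) = pmpsY a * pmpsY b := by decide

/-- the chains of `pmpsO3`. -/
def tsvO3Chs : List (List TsvTerms) :=
  [[tsvLX 0, tsvLK 0 0, tsvLY 0], [tsvLX 0, tsvLK 0 1, tsvLY 1], [tsvLX 0, tsvLK 0 2, tsvLY 2],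
   [tsvLX 1, tsvLK 1 0, tsvLY 0], [tsvLX 1, tsvLK 1 1, tsvLY 1], [tsvLX 1, tsvLK 1 2, tsvLY 2],
   [tsvLX 2, tsvLK 2 0, tsvLY 0], [tsvLX 2, tsvLK 2 1, tsvLY 1], [tsvLX 2, tsvLK 2 2, tsvLY 2]]

/-- the chains of `pmpsOsq`. -/
def tsvOsqChs : List (List TsvTerms) :=
  [[tsvLXX 0 0, tsvLYY 0 0], [tsvLXX 0 1, tsvLYY 0 1], [tsvLXX 0 2, tsvLYY 0 2],
   [tsvLXX 1 0, tsvLYY 1 0], [tsvLXX 1 1, tsvLYY 1 1], [tsvLXX 1 2, tsvLYY 1 2],
   [tsvLXX 2 0, tsvLYY 2 0], [tsvLXX 2 1, tsvLYY 2 1], [tsvLXX 2 2, tsvLYY 2 2]]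

theorem tsv_Osq_eq : pmpsOsq trnA = tsvPolyMat tsvOsqChs := by
  unfold pmpsOsq tsvPolyMat tsvOsqChs tsvChMat
  simp only [List.map_cons, List.map_nil, List.prod_cons, List.prod_nil, List.sum_cons,
    List.sum_nil, mul_one, add_zero, tsvMat_of (tsvW_LXX _ _), tsvMat_of (tsvW_LYY _ _),
    Fin.sum_univ_three, add_assoc]

theorem tsv_O3_eq : pmpsO3 trnA = tsvPolyMat tsvO3Chs := by
  have h1 : pmpsO3 trnA = ∑ a, ∑ b, pmpsE trnA (pmpsX a) *
      (pmpsE trnA (pmpsY a * pmpsX b + pmpsX b * pmpsY a) * pmpsE trnA (pmpsY b)) := by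
    unfold pmpsO3
    simp only [Finset.sum_add_distrib]
    rw [Finset.sum_comm (f := fun a b => pmpsE trnA (pmpsX b) * pmpsE trnA (pmpsX a * pmpsY b) *
      pmpsE trnA (pmpsY a)), ← Finset.sum_add_distrib]
    refine Finset.sum_congr rfl fun a _ => ?_
    rw [← Finset.sum_add_distrib]
    refine Finset.sum_congr rfl fun b _ => ?_
    rw [tsv_pmpsE_add, add_mul, mul_add, mul_assoc, mul_assoc]
  rw [h1]
  unfold tsvPolyMat tsvO3Chs tsvChMat
  simp only [List.map_cons, List.map_nil, List.prod_cons, List.prod_nil, List.sum_cons,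
    List.sum_nil, mul_one, add_zero, tsvMat_of (tsvW_LX _), tsvMat_of (tsvW_LY _),
    tsvMat_of (tsvW_LK _ _), Fin.sum_univ_three, add_assoc]

end Claimed.Agent.R297
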