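/-
Row 297, package E, SU(2)-reduced certificate.  Fast evaluation of helper127's polynomials in the
one-site transfer maps (`TrialSVOps`), the intertwiner check for them, the table of signed tensors.
Owner: helper186.  Prefix `tsu`.
-/
import Claimed.Agent.R297.TrialSUFast
import Claimed.Agent.R297.TrialSUChk
import Claimed.Agent.R297.TrialSVOps

namespace Claimed.Agent.R297

open Finset Matrix
open scoped Kronecker

/-- `X ↦ (tsvMat l) X`, fast version. -/
noncomputable def tsuApplyF (E : ℕ) (tab : List (List (List ℕ))) (l : TsvTerms) (H : ℕ)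
    (X : List (List ℕ)) : List (List ℕ) :=
  l.foldr (fun p acc => tsuAddA (tsuActF E (tab.getD p.1.val []) (tab.getD p.2.val []) H X) acc)
    tsvZero

theorem TsuAW.applyF {q B H : ℕ} {tab : List (List (List ℕ))} (htab : TsvTab tab)
    (l : TsvTerms) {L : List (List ℕ)} {W : Matrix (Fin 26 × Fin 26) (Fin q) ℤ}
    (hL : TsuAW 26 26 q B H L W) :
    TsuAW 26 26 q B (l.length * tsuB1 H) (tsuApplyF (tsuOnes B q) tab l H L) (tsvMat l * W) := by
  induction l with
  | nil =>
    have := tsvZero_spec q B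
    simpa [tsuApplyF, tsvMat] using this
  | cons p l ih =>
    have h := (hL.actF (htab p.1) (htab p.2)).add ih
    have e1 : tsuB1 H + l.length * tsuB1 H = (p :: l).length * tsuB1 H := by
      rw [List.length_cons]; ring
    have e2 : tsvU p.1 ⊗ₖ tsvU p.2 * W + tsvMat l * W = tsvMat (p :: l) * W := by
      rw [← Matrix.add_mul]; simp [tsvMat]
    rw [e1, e2] at h
    exact h

/-- a chain (product of term lists) acting on pairs (bias, array), fast version. -/
noncomputable def tsuChF (E : ℕ) (tab : List (List (List ℕ))) (ch : List TsvTerms)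
    (hx : ℕ × List (List ℕ)) : ℕ × List (List ℕ) :=
  ch.foldr (fun l r => (l.length * tsuB1 r.1, tsuApplyF E tab l r.1 r.2)) hx

theorem TsuAW.chF {q B : ℕ} {tab : List (List (List ℕ))} (htab : TsvTab tab)
    (ch : List TsvTerms) {hx : ℕ × List (List ℕ)} {W : Matrix (Fin 26 × Fin 26) (Fin q) ℤ}
    (hL : TsuAW 26 26 q B hx.1 hx.2 W) :
    TsuAW 26 26 q B (tsuChF (tsuOnes B q) tab ch hx).1 (tsuChF (tsuOnes B q) tab ch hx).2
      (tsvChMat ch * W) := by
  induction ch with
  | nil => simpa [tsuChF, tsvChMat] using hL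
  | cons l ch ih =>
    have h := ih.applyF htab l
    have e : tsvMat l * (tsvChMat ch * W) = tsvChMat (l :: ch) * W := by
      rw [← Matrix.mul_assoc]; simp [tsvChMat]
    rw [e] at h
    exact h

/-- a polynomial (sum of chains), fast version. -/
noncomputable def tsuPolyF (E : ℕ) (tab : List (List (List ℕ))) (chs : List (List TsvTerms))
    (hx : ℕ × List (List ℕ)) : ℕ × List (List ℕ) :=
  chs.foldr (fun ch acc => ((tsuChF E tab ch hx).1 + acc.1, tsuAddA (tsuChF E tab ch hx).2 acc.2))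
    (0, tsvZero)

theorem TsuAW.polyF {q B : ℕ} {tab : List (List (List ℕ))} (htab : TsvTab tab)
    (chs : List (List TsvTerms)) {hx : ℕ × List (List ℕ)}
    {W : Matrix (Fin 26 × Fin 26) (Fin q) ℤ} (hL : TsuAW 26 26 q B hx.1 hx.2 W) :
    TsuAW 26 26 q B (tsuPolyF (tsuOnes B q) tab chs hx).1 (tsuPolyF (tsuOnes B q) tab chs hx).2
      (tsvPolyMat chs * W) := by
  induction chs with
  | nil =>
    have := tsvZero_spec q B
    simpa [tsuPolyF, tsvPolyMat] using this
  | cons ch chs ih =>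
    have h := (hL.chF htab ch).add ih
    have e : tsvChMat ch * W + tsvPolyMat chs * W = tsvPolyMat (ch :: chs) * W := by
      rw [← Matrix.add_mul]; simp [tsvPolyMat]
    rw [e] at h
    exact h

namespace TsuClass

variable (C : TsuClass)

/-- left-hand side (bias, array) of the intertwiner check of a polynomial. -/
noncomputable def lhsP (tab : List (List (List ℕ))) (chs : List (List TsvTerms)) (B : ℕ) :
    ℕ × List (List ℕ) :=
  tsuPolyF (tsuOnes B (C.mult * C.n)) tab chs (tsuHW, C.XaF B)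

/-- the kernel check: the polynomial `chs` is intertwined with `tsuMat n n h y`. -/
def ChkP (tab : List (List (List ℕ))) (chs : List (List TsvTerms)) (B h y : ℕ) : Prop :=
  tsuShiftA ((C.n * tsuHW * h) * tsuOnes B (C.mult * C.n)) (C.lhsP tab chs B).2
      = tsuShiftA ((C.lhsP tab chs B).1 * tsuOnes B (C.mult * C.n))
          (C.rhsF B h (tsuDec2 C.n C.n (2 * h + 1) y)) ∧
    2 * ((C.lhsP tab chs B).1 + C.n * tsuHW * h) < B

noncomputable instance decChkP (tab : List (List (List ℕ))) (chs : List (List TsvTerms))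
    (B h y : ℕ) : Decidable (C.ChkP tab chs B h y) := by
  unfold ChkP; infer_instance

theorem intertwineP (hW : C.yW.length = 26) {tab : List (List (List ℕ))} (htab : TsvTab tab)
    (chs : List (List TsvTerms)) {B h y : ℕ} (hc : C.ChkP tab chs B h y) (m : Fin C.mult) :
    tsvPolyMat chs * C.W m = C.W m * tsuMat C.n C.n h y := by
  have hx : TsuAW 26 26 (C.mult * C.n) B (tsuHW, C.XaF B).1 (tsuHW, C.XaF B).2 C.Wfull :=
    C.XaF_spec hW B
  have hL := hx.polyF htab chs
  have hL' := C.rhsF_spec hW B h (TsuBM.dec2 C.n C.n h y)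
  exact C.intertwine (hL.eq_of_shift hL' hc.1 hc.2) m

end TsuClass

/-! ### negation of a biased matrix, the table of signed tensors -/

/-- biased list of `-M`. -/
noncomputable def tsuNegB (h : ℕ) (L : List (List ℕ)) : List (List ℕ) :=
  tsuMap (tsuMap (fun d => Nat.sub (Nat.mul 2 h) d)) L

theorem TsuBM.neg {r c h : ℕ} {L : List (List ℕ)} {M : Matrix (Fin r) (Fin c) ℤ}
    (hL : TsuBM r c h L M) : TsuBM r c h (tsuNegB h L) (-M) := by
  obtain ⟨d, rfl, hd⟩ := hL
  refine ⟨fun i k => 2 * h - d i k, ?_, fun i k => ?_⟩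
  · unfold tsuNegB
    rw [tsuMap_ofFn]
    refine congrArg List.ofFn (funext fun i => ?_)
    rw [tsuMap_ofFn]; rfl
  · obtain ⟨h1, h2⟩ := hd i k
    rw [abs_le] at h2
    have hle : d i k ≤ 2 * h := by omega
    refine ⟨?_, ?_⟩
    · rw [Nat.cast_sub hle, Matrix.neg_apply]; push_cast; omega
    · rw [Matrix.neg_apply, abs_neg, abs_le]; exact h2

/-- the table of the six signed tensors. -/
noncomputable def tsuTabOf (A0 A1 A2 : List (List ℕ)) : List (List (List ℕ)) :=
  [A0, A1, A2, tsuNegB tsuHA A0, tsuNegB tsuHA A1, tsuNegB tsuHA A2]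

theorem tsuTabOf_spec {A0 A1 A2 : List (List ℕ)}
    (h0 : TsuBM 26 26 tsuHA A0 (trnA 0)) (h1 : TsuBM 26 26 tsuHA A1 (trnA 1))
    (h2 : TsuBM 26 26 tsuHA A2 (trnA 2)) : TsvTab (tsuTabOf A0 A1 A2) := by
  intro u
  fin_cases u
  · have : tsvU 0 = trnA 0 := by simp [tsvU, tsvSgn, tsvIdx]
    show TsuBM 26 26 tsuHA A0 (tsvU 0)
    rw [this]; exact h0
  · have : tsvU 1 = trnA 1 := by simp [tsvU, tsvSgn, tsvIdx]
    show TsuBM 26 26 tsuHA A1 (tsvU 1)
    rw [this]; exact h1
  · have : tsvU 2 = trnA 2 := by simp [tsvU, tsvSgn, tsvIdx]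
    show TsuBM 26 26 tsuHA A2 (tsvU 2)
    rw [this]; exact h2
  · have : tsvU 3 = -trnA 0 := by simp [tsvU, tsvSgn, tsvIdx]
    show TsuBM 26 26 tsuHA (tsuNegB tsuHA A0) (tsvU 3)
    rw [this]; exact h0.neg
  · have : tsvU 4 = -trnA 1 := by simp [tsvU, tsvSgn, tsvIdx]
    show TsuBM 26 26 tsuHA (tsuNegB tsuHA A1) (tsvU 4)
    rw [this]; exact h1.neg
  · have : tsvU 5 = -trnA 2 := by simp [tsvU, tsvSgn, tsvIdx]
    show TsuBM 26 26 tsuHA (tsuNegB tsuHA A2) (tsvU 5)
    rw [this]; exact h2.neg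

end Claimed.Agent.R297
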