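/-
Row 297, package E, SU(2)-reduced certificate.  Kernel check: intertwiner of `tsvO3Chs`, class 2.
Owner: helper186.  Prefix `tsu`.
-/
import Claimed.Agent.R297.TrialSUInsData

set_option Elab.async false
set_option maxRecDepth 100000

namespace Claimed.Agent.R297

theorem tsu_k2_R : (tsuCl 2).ChkP tsuTab tsvO3Chs tsuBR (tsuRh 2) (tsuRy 2) := by decide +kernel

end Claimed.Agent.R297
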