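/-
Row 297, package E, SU(2)-reduced certificate.  The intertwiners of `pmpsOsq trnA` and
`pmpsO3 trnA` with their reduced matrices.  Owner: helper186.  Prefix `tsu`.
-/
import Claimed.Agent.R297.TrialSUCert
import Claimed.Agent.R297.TrialSUQ0
import Claimed.Agent.R297.TrialSUQ1
import Claimed.Agent.R297.TrialSUQ2
import Claimed.Agent.R297.TrialSUQ3
import Claimed.Agent.R297.TrialSUQ4
import Claimed.Agent.R297.TrialSUQ5
import Claimed.Agent.R297.TrialSUR0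
import Claimed.Agent.R297.TrialSUR1
import Claimed.Agent.R297.TrialSUR2
import Claimed.Agent.R297.TrialSUR3
import Claimed.Agent.R297.TrialSUR4
import Claimed.Agent.R297.TrialSUR5

namespace Claimed.Agent.R297

open Matrix

theorem tsu_chkQ (J : Fin 6) : (tsuCl J).ChkP tsuTab tsvOsqChs tsuBQ (tsuQh J) (tsuQy J) := by
  fin_cases J
  exacts [tsu_k0_Q, tsu_k1_Q, tsu_k2_Q, tsu_k3_Q, tsu_k4_Q, tsu_k5_Q]

theorem tsu_chkR (J : Fin 6) : (tsuCl J).ChkP tsuTab tsvO3Chs tsuBR (tsuRh J) (tsuRy J) := by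
  fin_cases J
  exacts [tsu_k0_R, tsu_k1_R, tsu_k2_R, tsu_k3_R, tsu_k4_R, tsu_k5_R]

/-- `pmpsOsq trnA * W = W * Osq_J`. -/
theorem tsu_hOsq (J m) : pmpsOsq trnA * (tsuCl J).W m = (tsuCl J).W m * tsuQm J := by
  rw [tsv_Osq_eq]
  exact (tsuCl J).intertwineP (tsu_allChecks.lenW J) tsuTab_spec tsvOsqChs (tsu_chkQ J) m

/-- `pmpsO3 trnA * W = W * O3_J`. -/
theorem tsu_hO3 (J m) : pmpsO3 trnA * (tsuCl J).W m = (tsuCl J).W m * tsuRm J := by
  rw [tsv_O3_eq]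
  exact (tsuCl J).intertwineP (tsu_allChecks.lenW J) tsuTab_spec tsvO3Chs (tsu_chkR J) m

/-- resolution of the identity. -/
theorem tsu_h1 : ∑ J, (tsuCl J).Pi = (tsuC : ℤ) • 1 := tsu_allChecks.h1

/-- left inverses. -/
theorem tsu_h2 (J m) : (tsuCl J).V m * (tsuCl J).W m = (tsuC : ℤ) • 1 := tsu_allChecks.h2 J m

end Claimed.Agent.R297
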