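/-
Row 297, package E, SU(2)-reduced certificate.  The six classes; kernel check of completeness.
Owner: helper186.  Prefix `tsu`.
-/
import Claimed.Agent.R297.TrialSUMats
import Claimed.Agent.R297.TrialSUAsm

set_option Elab.async false
set_option maxRecDepth 100000

namespace Claimed.Agent.R297

/-- the six symmetry classes. -/
noncomputable def tsuCl : Fin 6 → TsuClass
  | 0 => tsuC0
  | 1 => tsuC1
  | 2 => tsuC2
  | 3 => tsuC3
  | 4 => tsuC4
  | 5 => tsuC5

theorem tsu_kP0 : tsuChkP tsuCl 0 4 := by decide +kernel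
theorem tsu_kP1 : tsuChkP tsuCl 4 8 := by decide +kernel
theorem tsu_kP2 : tsuChkP tsuCl 8 12 := by decide +kernel
theorem tsu_kP3 : tsuChkP tsuCl 12 16 := by decide +kernel
theorem tsu_kP4 : tsuChkP tsuCl 16 20 := by decide +kernel
theorem tsu_kP5 : tsuChkP tsuCl 20 26 := by decide +kernel

theorem tsu_kP : tsuChkP tsuCl 0 26 :=
  tsuChkP_glue tsu_kP0 (tsuChkP_glue tsu_kP1 (tsuChkP_glue tsu_kP2 (tsuChkP_glue tsu_kP3
    (tsuChkP_glue tsu_kP4 tsu_kP5))))

end Claimed.Agent.R297
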