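/-
Row 297, package E, SU(2)-reduced certificate for `N = 30` (on helper186's `tsu` engine).
Intertwiner check for polynomials, the reduced chain of one symmetry class and the master formulas
for `pmpsV30`, `pmpsU30`, `pmpsW30`.  Owner: helper127.  Prefix `tsv`.
-/
import Claimed.Agent.R297.TrialSVOps
import Claimed.Agent.R297.PMpsTrial30

namespace Claimed.Agent.R297

open Finset Matrix
open scoped Kronecker

/-! ### intertwiner check -/

/-- left-hand side (bias, array) of the intertwiner check of the polynomial `chs`. -/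
noncomputable def tsvLhs (C : TsuClass) (tab : List (List (List ℕ))) (chs : List (List TsvTerms))
    (B : ℕ) : ℕ × List (List ℕ) :=
  tsvPoly (tsuOnes B (C.mult * C.n)) tab chs (tsuHW, C.Xa B)

/-- the closed check: `chs` is intertwined with the reduced matrix `tsuMat n n h y`. -/
def TsvChk (C : TsuClass) (tab : List (List (List ℕ))) (chs : List (List TsvTerms))
    (B h y : ℕ) : Prop :=
  tsuShiftA ((C.n * tsuHW * h) * tsuOnes B (C.mult * C.n)) (tsvLhs C tab chs B).2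
      = tsuShiftA ((tsvLhs C tab chs B).1 * tsuOnes B (C.mult * C.n))
          (C.rhs B h (tsuDec2 C.n C.n (2 * h + 1) y)) ∧
    2 * ((tsvLhs C tab chs B).1 + C.n * tsuHW * h) < B

noncomputable instance tsvChk_decidable (C : TsuClass) (tab : List (List (List ℕ)))
    (chs : List (List TsvTerms)) (B h y : ℕ) : Decidable (TsvChk C tab chs B h y) := by
  unfold TsvChk; infer_instance

theorem tsv_intertwine (C : TsuClass) (hW : C.yW.length = 26) {tab : List (List (List ℕ))}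
    (htab : TsvTab tab) (chs : List (List TsvTerms)) {B h y : ℕ} (hc : TsvChk C tab chs B h y)
    (m : Fin C.mult) :
    tsvPolyMat chs * C.W m = C.W m * tsuMat C.n C.n h y := by
  have hx : TsuAW 26 26 (C.mult * C.n) B (tsuHW, C.Xa B).1 (tsuHW, C.Xa B).2 C.Wfull :=
    C.Xa_spec hW B
  have hL := hx.tsvPoly htab chs
  have hL' := C.rhs_spec hW B h (TsuBM.dec2 C.n C.n h y)
  exact C.intertwine (hL.eq_of_shift hL' hc.1 hc.2) m

/-! ### the reduced chain -/

/-- trace of a represented matrix. -/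
noncomputable def tsvTr (n : ℕ) (a : ℕ × List (List ℕ)) : ℤ := (tsuDiagSum a.2 n : ℤ) - n * a.1

theorem TsuRP.tsvTr {n : ℕ} {a : ℕ × List (List ℕ)} {M : Matrix (Fin n) (Fin n) ℤ}
    (ha : TsuRP n a M) : Claimed.Agent.R297.tsvTr n a = M.trace := ha.trace.symm

/-- `O T^k`. -/
noncomputable def tsvP (n : ℕ) (T O : ℕ × List (List ℕ)) (k : ℕ) : ℕ × List (List ℕ) :=
  Nat.rec (motive := fun _ => ℕ × List (List ℕ)) O (fun _ ih => tsuMulP n ih T) k

theorem TsuRP.tsvP {n : ℕ} {T O : ℕ × List (List ℕ)} {M N : Matrix (Fin n) (Fin n) ℤ}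
    (hT : TsuRP n T M) (hO : TsuRP n O N) (k : ℕ) :
    TsuRP n (Claimed.Agent.R297.tsvP n T O k) (N * M ^ k) := by
  induction k with
  | zero => simpa [Claimed.Agent.R297.tsvP] using hO
  | succ k ih =>
    have h := ih.mul hT
    rw [Matrix.mul_assoc, ← pow_succ] at h
    exact h

/-- `∑_{k < K} tr (O T^k O T^(d-k))`. -/
noncomputable def tsvSumW (n : ℕ) (T O : ℕ × List (List ℕ)) (d K : ℕ) : ℤ :=
  Nat.rec (motive := fun _ => ℤ) 0
    (fun k ih => ih + tsvTr n (tsuMulP n (tsvP n T O k) (tsvP n T O (d - k)))) K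

theorem TsuRP.tsvSumW {n : ℕ} {T O : ℕ × List (List ℕ)} {M N : Matrix (Fin n) (Fin n) ℤ}
    (hT : TsuRP n T M) (hO : TsuRP n O N) (d K : ℕ) :
    Claimed.Agent.R297.tsvSumW n T O d K
      = ∑ k ∈ Finset.range K, (N * M ^ k * (N * M ^ (d - k))).trace := by
  induction K with
  | zero => simp [Claimed.Agent.R297.tsvSumW]
  | succ K ih =>
    rw [Finset.sum_range_succ, ← ih, ← ((hT.tsvP hO K).mul (hT.tsvP hO (d - K))).tsvTr]
    rfl

/-- the three numbers of one class. -/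
noncomputable def tsvVals (n : ℕ) (T O Q R : ℕ × List (List ℕ)) : ℤ × ℤ × ℤ :=
  (fun T2 => (fun T4 => (fun T8 => (fun T16 => (fun T27 => (fun T28 =>
    (tsvTr n (tsuMulP n T28 T2), tsvTr n (tsuMulP n T28 O),
      tsvTr n (tsuMulP n Q T28) + tsvTr n (tsuMulP n R T27) + tsvSumW n T O 26 27))
    (tsuMulP n T27 T)) (tsuMulP n (tsuMulP n T16 T8) (tsuMulP n T2 T)))
    (tsuMulP n T8 T8)) (tsuMulP n T4 T4)) (tsuMulP n T2 T2)) (tsuMulP n T T)

theorem TsuRP.tsvVals {n : ℕ} {T O Q R : ℕ × List (List ℕ)}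
    {M N MQ MR : Matrix (Fin n) (Fin n) ℤ}
    (hT : TsuRP n T M) (hO : TsuRP n O N) (hQ : TsuRP n Q MQ) (hR : TsuRP n R MR) :
    Claimed.Agent.R297.tsvVals n T O Q R
      = ((M ^ 30).trace, (M ^ 28 * N).trace,
          (MQ * M ^ 28).trace + (MR * M ^ 27).trace
            + ∑ k ∈ Finset.range 27, (N * M ^ k * (N * M ^ (26 - k))).trace) := by
  have h2 := hT.mul hT
  rw [← pow_two] at h2
  have h4 := h2.mul h2
  rw [← pow_add] at h4
  have h8 := h4.mul h4
  rw [← pow_add] at h8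
  have h16 := h8.mul h8
  rw [← pow_add] at h16
  have h3 := h2.mul hT
  rw [← pow_succ] at h3
  have h27 := (h16.mul h8).mul h3
  rw [← pow_add, ← pow_add] at h27
  have h28 := h27.mul hT
  rw [← pow_succ] at h28
  have h30 := h28.mul h2
  rw [← pow_add] at h30
  rw [← h30.tsvTr, ← (h28.mul hO).tsvTr, ← (hQ.mul h28).tsvTr, ← (hR.mul h27).tsvTr,
    ← hT.tsvSumW hO 26 27]
  rfl

/-! ### master formulas -/

theorem tsv_master30 (Cl : Fin 6 → TsuClass)
    (h1 : ∑ J, (Cl J).Pi = (tsuC : ℤ) • 1)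
    (h2 : ∀ J m, (Cl J).V m * (Cl J).W m = (tsuC : ℤ) • 1)
    (TJ OJ QJ RJ : ∀ J, Matrix (Fin (Cl J).n) (Fin (Cl J).n) ℤ)
    (hT : ∀ J m, trnT * (Cl J).W m = (Cl J).W m * TJ J)
    (hO : ∀ J m, trnO * (Cl J).W m = (Cl J).W m * OJ J)
    (hQ : ∀ J m, pmpsOsq trnA * (Cl J).W m = (Cl J).W m * QJ J)
    (hR : ∀ J m, pmpsO3 trnA * (Cl J).W m = (Cl J).W m * RJ J) :
    pmpsV30 = ∑ J, ((Cl J).mult : ℤ) * (TJ J ^ 30).trace ∧
    pmpsU30 = ∑ J, ((Cl J).mult : ℤ) * (TJ J ^ 28 * OJ J).trace ∧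
    pmpsW30 = ∑ J, ((Cl J).mult : ℤ) * ((QJ J * TJ J ^ 28).trace + (RJ J * TJ J ^ 27).trace
      + ∑ k ∈ Finset.range 27, (OJ J * TJ J ^ k * (OJ J * TJ J ^ (26 - k))).trace) := by
  have hP : ∀ (k : ℕ) J m, trnT ^ k * (Cl J).W m = (Cl J).W m * TJ J ^ k := fun k J m =>
    (Cl J).intertwine_pow (hT J) k m
  refine ⟨?_, ?_, ?_⟩
  · exact tsu_master Cl h1 h2 _ (fun J => TJ J ^ 30) (hP 30)
  · exact tsu_master Cl h1 h2 _ (fun J => TJ J ^ 28 * OJ J)
      (fun J m => (Cl J).intertwine_mul (hP 28 J) (hO J) m)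
  · unfold pmpsW30
    rw [tsu_master Cl h1 h2 _ (fun J => QJ J * TJ J ^ 28)
        (fun J m => (Cl J).intertwine_mul (hQ J) (hP 28 J) m),
      tsu_master Cl h1 h2 _ (fun J => RJ J * TJ J ^ 27)
        (fun J m => (Cl J).intertwine_mul (hR J) (hP 27 J) m)]
    have hk : ∀ k, (trnO * trnT ^ k * (trnO * trnT ^ (26 - k))).trace
        = ∑ J, ((Cl J).mult : ℤ) * (OJ J * TJ J ^ k * (OJ J * TJ J ^ (26 - k))).trace := fun k =>
      tsu_master Cl h1 h2 _ (fun J => OJ J * TJ J ^ k * (OJ J * TJ J ^ (26 - k)))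
        (fun J m => (Cl J).intertwine_mul
          (fun m => (Cl J).intertwine_mul (hO J) (hP k J) m)
          (fun m => (Cl J).intertwine_mul (hO J) (hP (26 - k) J) m) m)
    simp only [hk]
    rw [Finset.sum_comm, ← Finset.sum_add_distrib, ← Finset.sum_add_distrib]
    refine Finset.sum_congr rfl fun J _ => ?_
    rw [← Finset.mul_sum]
    ring

end Claimed.Agent.R297
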