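/-
Row 297, package E, SU(2)-reduced certificate for `N = 30`: kernel evaluation of the three traces of
the class `J = 0` (chain `tsvVals` of helper127 on the data of helper186).
Owner: helper143.  Prefix `tsw`.
-/
import Claimed.Agent.R297.TrialSVRed
import Claimed.Agent.R297.TrialSUInsData

set_option Elab.async false
set_option maxRecDepth 100000

namespace Claimed.Agent.R297

theorem tsw_vals0 : tsvVals (tsuCl 0).n (tsuTp 0) (tsuOp 0) (tsuQp 0) (tsuRp 0)
    = (1932410093904208634325925301455393549747350697160996559753471164917146395110239380909229355472163216921895005620240985056654266686071655266527526399131463262486286,
       (-2708238168884815696138749155072628377101732665573584811732071304718947310123882829460053165064299883831572996059220816216921022981997736413888899863074275788438936),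
       113866434982502588237461833548123661500754521248927334309472889275160875700925363918452178737571617212828067771030284130594624058471489131977676280444995401369233548) := by
  decide +kernel

end Claimed.Agent.R297
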