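/-
Row 297, package E, SU(2)-reduced certificate for `N = 30`: kernel evaluation of the three traces of
the class `J = 1` (chain `tsvVals` of helper127 on the data of helper186).
Owner: helper143.  Prefix `tsw`.
-/
import Claimed.Agent.R297.TrialSVRed
import Claimed.Agent.R297.TrialSUInsData

set_option Elab.async false
set_option maxRecDepth 100000

namespace Claimed.Agent.R297

theorem tsw_vals1 : tsvVals (tsuCl 1).n (tsuTp 1) (tsuOp 1) (tsuQp 1) (tsuRp 1)
    = (3592714891025999454859609995035460307363008530430372126777417126974736043377696501947675914236692588600118294435710935804676813944776202952020598651295605596622,
       (-5070093928421478678125410545284997830723831862467197035123447784844116020398523976147687152459402101562370912205901040536598337793561256801658582402197677437576),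
       214639941068553345486429019780304231406547902647778784997564974876890187796647953211550791733749675801305519134118309290228875341021041492315174723920570272960508) := by
  decide +kernel

end Claimed.Agent.R297
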