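/-
Row 297, package E, SU(2)-reduced certificate for `N = 30`: kernel evaluation of the three traces of
the class `J = 2` (chain `tsvVals` of helper127 on the data of helper186).
Owner: helper143.  Prefix `tsw`.
-/
import Claimed.Agent.R297.TrialSVRed
import Claimed.Agent.R297.TrialSUInsData

set_option Elab.async false
set_option maxRecDepth 100000

namespace Claimed.Agent.R297

theorem tsw_vals2 : tsvVals (tsuCl 2).n (tsuTp 2) (tsuOp 2) (tsuQp 2) (tsuRp 2)
    = (161733775738377433543200081402624381574802530271422272753411146555445912582015461333956296453585831460377464301013297509547284692157274382170675462225178123,
       (-236336006898193867806851152947954159338648406858505212584936718936377822605865361070895960106989058536436729654917597569413734984379174702916589670645864764),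
       10354347335060578791155837907983729821820236285846287523515368106622591570656885760202844283557016338311568851586622506739114082588103000910665916096954838398) := by
  decide +kernel

end Claimed.Agent.R297
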