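/-
Row 297, package E, SU(2)-reduced certificate for `N = 30`: kernel evaluation of the three traces of
the class `J = 4` (chain `tsvVals` of helper127 on the data of helper186).
Owner: helper143.  Prefix `tsw`.
-/
import Claimed.Agent.R297.TrialSVRed
import Claimed.Agent.R297.TrialSUInsData

set_option Elab.async false
set_option maxRecDepth 100000

namespace Claimed.Agent.R297

theorem tsw_vals4 : tsvVals (tsuCl 4).n (tsuTp 4) (tsuOp 4) (tsuQp 4) (tsuRp 4)
    = (289789956860755595255486567632128389797497719251030442428076362416004913149996381313071501290552565733121954147703945636749267578125,
       (-806423485024995112851129119048229052219077528871384979943740423251701011837216028756736939094037628745280961614102125167846679687500),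
       66292509964560708236170323811892020790379429465619881039472378700840109409395218162925825288715952407684731940819397568702697753906250) := by
  decide +kernel

end Claimed.Agent.R297
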