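/-
Row 297, package E, SU(2)-reduced certificate for `N = 30`: kernel evaluation of the three traces of
the class `J = 5` (chain `tsvVals` of helper127 on the data of helper186).
Owner: helper143.  Prefix `tsw`.
-/
import Claimed.Agent.R297.TrialSVRed
import Claimed.Agent.R297.TrialSUInsData

set_option Elab.async false
set_option maxRecDepth 100000

namespace Claimed.Agent.R297

theorem tsw_vals5 : tsvVals (tsuCl 5).n (tsuTp 5) (tsuOp 5) (tsuQp 5) (tsuRp 5)
    = (264095724058203018871958125402230380326105987099769436250325597460852922182539259665645658969879150390625,
       (-2034191858035084409823677461775857144330006446090786070952921130855495235323360248003154993057250976562500),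
       453935765399520510366574964171486708604081523229426014335145378670657856368109150935197249054908752441406250) := by
  decide +kernel

end Claimed.Agent.R297
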