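/-
Row 297, package E, SU(2)-reduced certificate for `N = 30`: final assembly.
`tsw_trial30 : Trial30Cert` from the six class evaluations `tsw_vals0..5`, the master formula
`tsv_master30` (helper127) and the intertwiners `tsu_hT, tsu_hO, tsu_hOsq, tsu_hO3, tsu_h1, tsu_h2`
(helper186).  Owner: helper143.  Prefix `tsw`.
-/
import Claimed.Agent.R297.TrialSUInsCert
import Claimed.Agent.R297.TrialSWV0
import Claimed.Agent.R297.TrialSWV1
import Claimed.Agent.R297.TrialSWV2
import Claimed.Agent.R297.TrialSWV3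
import Claimed.Agent.R297.TrialSWV4
import Claimed.Agent.R297.TrialSWV5

namespace Claimed.Agent.R297

open Matrix

/-- the three traces of one class, as computed by the chain. -/
theorem tsw_spec (J : Fin 6) :
    tsvVals (tsuCl J).n (tsuTp J) (tsuOp J) (tsuQp J) (tsuRp J)
      = (((tsuCl J).T ^ 30).trace, ((tsuCl J).T ^ 28 * (tsuCl J).O).trace,
          (tsuQm J * (tsuCl J).T ^ 28).trace + (tsuRm J * (tsuCl J).T ^ 27).trace
            + ∑ k ∈ Finset.range 27,
                ((tsuCl J).O * (tsuCl J).T ^ k * ((tsuCl J).O * (tsuCl J).T ^ (26 - k))).trace) :=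
  TsuRP.tsvVals (tsuTp_spec J) (tsuOp_spec J) (tsuQp_spec J) (tsuRp_spec J)

theorem tsw_mult : ((tsuCl 0).mult = 1 ∧ (tsuCl 1).mult = 3 ∧ (tsuCl 2).mult = 5) ∧
    (tsuCl 3).mult = 7 ∧ (tsuCl 4).mult = 9 ∧ (tsuCl 5).mult = 11 :=
  ⟨⟨rfl, rfl, rfl⟩, rfl, rfl, rfl⟩

theorem tsw_values :
    pmpsV30 = 1943189047246170798050606561576211496666333782840117415589770349331841044313306649740586391503595421116282566312390771644984225440186894529256219057758693328401392 ∧
    pmpsU30 = (-2723449632350124254948750011556468812822387067316066861758478110803739702682420802952574759390768770309627781633376749913627650380773635365831099281930520731765344) ∧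
    pmpsW30 = 114510406577445429231473995439376460735440821085387476285771879053690177396482570091094536475119061448138396807290246679681368134388422280678681876292965915788705152 := by
  obtain ⟨hV, hU, hW⟩ := tsv_master30 tsuCl tsu_h1 tsu_h2 (fun J => (tsuCl J).T)
    (fun J => (tsuCl J).O) tsuQm tsuRm tsu_hT tsu_hO tsu_hOsq tsu_hO3
  have e0 := (tsw_spec 0).symm.trans tsw_vals0
  have e1 := (tsw_spec 1).symm.trans tsw_vals1
  have e2 := (tsw_spec 2).symm.trans tsw_vals2
  have e3 := (tsw_spec 3).symm.trans tsw_vals3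
  have e4 := (tsw_spec 4).symm.trans tsw_vals4
  have e5 := (tsw_spec 5).symm.trans tsw_vals5
  simp only [Prod.mk.injEq] at e0 e1 e2 e3 e4 e5
  obtain ⟨⟨m0, m1, m2⟩, m3, m4, m5⟩ := tsw_mult
  refine ⟨?_, ?_, ?_⟩
  · rw [hV, Fin.sum_univ_six, e0.1, e1.1, e2.1, e3.1, e4.1, e5.1, m0, m1, m2, m3, m4, m5]
    norm_num
  · rw [hU, Fin.sum_univ_six, e0.2.1, e1.2.1, e2.2.1, e3.2.1, e4.2.1, e5.2.1, m0, m1, m2, m3, m4,
      m5]
    norm_num
  · rw [hW, Fin.sum_univ_six, e0.2.2, e1.2.2, e2.2.2, e3.2.2, e4.2.2, e5.2.2, m0, m1, m2, m3, m4,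
      m5]
    norm_num

/-- **The `N = 30` trial certificate.** -/
theorem tsw_trial30 : Trial30Cert := by
  obtain ⟨hV, hU, hW⟩ := tsw_values
  refine pmps_trial30 ?_ ?_ ?_
  · rw [hV, hU]; norm_num
  · rw [hV, hU]; norm_num
  · rw [hV, hU, hW]; norm_num

end Claimed.Agent.R297
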