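/-
Row 297, package E, SU(2)-reduced certificate for `N = 30`: kernel evaluation of the three traces of
the class `J = 3` (chain `tsvVals` of helper127 on the data of helper186).
Owner: helper143.  Prefix `tsw`.
-/
import Claimed.Agent.R297.TrialSVRed
import Claimed.Agent.R297.TrialSUInsData

set_option Elab.async false
set_option maxRecDepth 100000

namespace Claimed.Agent.R297

theorem tsw_vals3 : tsvVals (tsuCl 3).n (tsuTp 3) (tsuOp 3) (tsuQp 3) (tsuRp 3)
    = (781924704959161813777609034197959697000461858422500745707308931493698132873865986949774711781812992846232963432191464488631978468892842374008676375,
       (-1375972326512940708984441780179556769429185880480876901105191475207905463583713199252173505914230656741585121742724207971700443155005508702546044980),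
       72236379845578875102004590928664744263352938336524364279648569500784762471306453188526088068257122916870732549108943584833707787314374901108883681870) := by
  decide +kernel

end Claimed.Agent.R297
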